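import Crest.Agent.R246.SM2_436
import Mathlib.Analysis.Calculus.InverseFunctionTheorem.ContDiff
import Mathlib.Analysis.SpecialFunctions.Trigonometric.InverseDeriv
import Mathlib.Analysis.SpecialFunctions.Trigonometric.ArctanDeriv

-- ▼ part R246/BoostExp0_797
section

/-! # Row 246: second order expansion of the boosted function near `M'` (helper797, leaf N2 of 200) -/

set_option autoImplicit false
set_option linter.unusedSectionVars false
set_option maxHeartbeats 400000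
noncomputable section
open MeasureTheory Set Filter Topology Metric
open scoped RealInnerProductSpace ContDiff

namespace Crest.Agent.R246.BoostExp797

open H990 SM436

/-- quadratic vanishing along `{0} × F` -/
theorem quad_vanish {E F G : Type*} [NormedAddCommGroup E] [NormedSpace ℝ E] [NormedAddCommGroup F]
    [NormedSpace ℝ F] [NormedAddCommGroup G] [NormedSpace ℝ G] {f : E × F → G} {y0 : F}
    (hf : ContDiffAt ℝ 2 f (0, y0)) (h0 : ∀ᶠ y in 𝓝 y0, f (0, y) = 0)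
    (h1 : ∀ᶠ y in 𝓝 y0, fderiv ℝ f (0, y) = 0) :
    ∃ ρ C : ℝ, 0 < ρ ∧ 0 ≤ C ∧ ∀ z y, ‖z‖ < ρ → ‖y - y0‖ < ρ → ‖f (z, y)‖ ≤ C * ‖z‖ ^ 2 := by
  have hf1 : ContDiffAt ℝ 1 (fderiv ℝ f) (0, y0) := hf.fderiv_right (m := 1) (by norm_num)
  obtain ⟨K, t, ht, hK⟩ := hf1.exists_lipschitzOnWith
  have hd : ∀ᶠ p in 𝓝 ((0 : E), y0), DifferentiableAt ℝ f p :=
    (hf.eventually (by simp)).mono fun p hp => hp.differentiableAt (by norm_num)
  obtain ⟨ρ1, hρ1, H1⟩ := Metric.mem_nhds_iff.1 (Filter.inter_mem ht hd)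
  obtain ⟨ρ2, hρ2, H2⟩ := Metric.mem_nhds_iff.1 (h0.and h1)
  refine ⟨min ρ1 ρ2, K, lt_min hρ1 hρ2, K.2, fun z y hz hy => ?_⟩
  have hz1 : ‖z‖ < ρ1 := lt_of_lt_of_le hz (min_le_left _ _)
  have hy1 : ‖y - y0‖ < ρ1 := lt_of_lt_of_le hy (min_le_left _ _)
  have hy2 : y ∈ ball y0 ρ2 := by
    rw [mem_ball, dist_eq_norm]; exact lt_of_lt_of_le hy (min_le_right _ _)
  obtain ⟨e0, e1⟩ := H2 hy2
  have hmem : ∀ z' : E, ‖z'‖ ≤ ‖z‖ → (z', y) ∈ ball ((0 : E), y0) ρ1 := by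
    intro z' hz'
    rw [mem_ball, Prod.dist_eq, max_lt_iff, dist_zero_right, dist_eq_norm]
    exact ⟨hz'.trans_lt hz1, hy1⟩
  have hder : ∀ z' ∈ closedBall (0 : E) ‖z‖, HasFDerivWithinAt (fun w : E => f (w, y))
      ((fderiv ℝ f (z', y)).comp (ContinuousLinearMap.inl ℝ E F)) (closedBall (0 : E) ‖z‖) z' := by
    intro z' hz'
    rw [mem_closedBall, dist_zero_right] at hz'
    have h3 : DifferentiableAt ℝ f (z', y) := (H1 (hmem z' hz')).2
    have h4 : HasFDerivAt (fun w : E => (w, y)) (ContinuousLinearMap.inl ℝ E F) z' :=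
      hasFDerivAt_prodMk_left z' y
    exact (h3.hasFDerivAt.comp z' h4).hasFDerivWithinAt
  have hbd : ∀ z' ∈ closedBall (0 : E) ‖z‖,
      ‖(fderiv ℝ f (z', y)).comp (ContinuousLinearMap.inl ℝ E F)‖ ≤ K * ‖z‖ := by
    intro z' hz'
    rw [mem_closedBall, dist_zero_right] at hz'
    have h3 : ‖fderiv ℝ f (z', y)‖ ≤ K * ‖z‖ := by
      have h5 := hK.norm_sub_le (H1 (hmem z' hz')).1 (H1 (hmem 0 (by simp))).1
      rw [e1, sub_zero] at h5
      refine h5.trans (mul_le_mul_of_nonneg_left ?_ K.2)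
      rw [Prod.norm_def]
      simp only [Prod.fst_sub, Prod.snd_sub, sub_zero, sub_self, norm_zero]
      rw [max_eq_left (norm_nonneg _)]
      exact hz'
    refine (ContinuousLinearMap.opNorm_comp_le _ _).trans ?_
    calc ‖fderiv ℝ f (z', y)‖ * ‖ContinuousLinearMap.inl ℝ E F‖ ≤ (K * ‖z‖) * 1 :=
          mul_le_mul h3 (ContinuousLinearMap.norm_inl_le_one ℝ E F) (norm_nonneg _) (by positivity)
      _ = K * ‖z‖ := mul_one _
  have h6 := (convex_closedBall (0 : E) ‖z‖).norm_image_sub_le_of_norm_hasFDerivWithin_le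
    (𝕜 := ℝ) hder hbd (x := 0) (y := z) (by simp) (by simp)
  rw [e0, sub_zero, sub_zero] at h6
  calc ‖f (z, y)‖ ≤ K * ‖z‖ * ‖z‖ := h6
    _ = K * ‖z‖ ^ 2 := by ring

variable {E : Type*} [NormedAddCommGroup E] [InnerProductSpace ℝ E]

theorem contDiffAt_gam {z : E} (hz : ‖z‖ < 1) : ContDiffAt ℝ ∞ (gam : E → ℝ) z := by
  have h1 : ContDiffAt ℝ ∞ (fun z : E => 1 - ‖z‖ ^ 2) z :=
    contDiffAt_const.sub (contDiff_norm_sq ℝ).contDiffAt
  have h2 := one_sub_pos hz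
  have h3 : ContDiffAt ℝ ∞ (fun z : E => Real.sqrt (1 - ‖z‖ ^ 2)) z := h1.sqrt h2.ne'
  exact contDiffAt_const.div h3 (Real.sqrt_pos.2 h2).ne'

theorem contDiffAt_kap {z : E} (hz : ‖z‖ < 1) : ContDiffAt ℝ ∞ (kap : E → ℝ) z := by
  have h1 := contDiffAt_gam hz
  have h2 := gam_pos hz
  exact (h1.pow 2).div (contDiffAt_const.add h1) (by positivity)

theorem gam_zero : gam (0 : E) = 1 := by simp [gam]

/-- the scalar coefficient of the boost -/
def cc (φ : E → ℝ) (p : E × E) : ℝ := kap p.1 * ⟪p.1, p.2⟫ + gam p.1 * φ p.2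

theorem contDiffAt_cc {φ : E → ℝ} {p : E × E} (hz : ‖p.1‖ < 1) (hφ : ContDiffAt ℝ ∞ φ p.2) :
    ContDiffAt ℝ ∞ (cc φ) p := by
  have h1 : ContDiffAt ℝ ∞ (fun p : E × E => kap p.1) p := (contDiffAt_kap hz).comp p contDiffAt_fst
  have h2 : ContDiffAt ℝ ∞ (fun p : E × E => gam p.1) p := (contDiffAt_gam hz).comp p contDiffAt_fst
  have h3 : ContDiffAt ℝ ∞ (fun p : E × E => φ p.2) p := hφ.comp p contDiffAt_snd
  have h4 : ContDiffAt ℝ ∞ (fun p : E × E => ⟪p.1, p.2⟫) p := contDiffAt_fst.inner ℝ contDiffAt_snd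
  exact (h1.mul h4).add (h2.mul h3)

/-- the graph map in both variables -/
def Th (φ : E → ℝ) (p : E × E) : E × E := (p.1, bT φ p.1 p.2)

theorem Th_eq (φ : E → ℝ) : Th φ = fun p : E × E => (p.1, p.2 + cc φ p • p.1) := rfl

theorem contDiffAt_Th {φ : E → ℝ} {p : E × E} (hz : ‖p.1‖ < 1) (hφ : ContDiffAt ℝ ∞ φ p.2) :
    ContDiffAt ℝ ∞ (Th φ) p := by
  rw [Th_eq]
  exact contDiffAt_fst.prodMk (contDiffAt_snd.add ((contDiffAt_cc hz hφ).smul contDiffAt_fst))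

/-- the derivative of `Th` at `(0, y)` as an equivalence -/
def Le (c : ℝ) : (E × E) ≃L[ℝ] (E × E) :=
  ContinuousLinearEquiv.equivOfInverse
    ((ContinuousLinearMap.fst ℝ E E).prod
      (ContinuousLinearMap.snd ℝ E E + c • ContinuousLinearMap.fst ℝ E E))
    ((ContinuousLinearMap.fst ℝ E E).prod
      (ContinuousLinearMap.snd ℝ E E - c • ContinuousLinearMap.fst ℝ E E))
    (fun p => by ext <;> simp) (fun p => by ext <;> simp)

theorem hasFDerivAt_Th {φ : E → ℝ} {y : E} (hφ : ContDiffAt ℝ ∞ φ y) :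
    HasFDerivAt (Th φ) (Le (E := E) (φ y) : E × E →L[ℝ] E × E) (0, y) := by
  have h1 : HasFDerivAt (cc φ) (fderiv ℝ (cc φ) (0, y)) ((0 : E), y) :=
    ((contDiffAt_cc (p := ((0 : E), y)) (by simp) hφ).differentiableAt (by simp)).hasFDerivAt
  have hc : cc φ ((0 : E), y) = φ y := by simp [cc, gam_zero]
  have h2 := h1.smul (hasFDerivAt_fst (𝕜 := ℝ) (p := ((0 : E), y)))
  have h3 := (hasFDerivAt_fst (𝕜 := ℝ) (p := ((0 : E), y))).prodMk
    ((hasFDerivAt_snd (𝕜 := ℝ) (p := ((0 : E), y))).add h2)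
  rw [Th_eq]
  refine h3.congr_fderiv ?_
  ext p <;> simp [Le, hc]

variable [FiniteDimensional ℝ E]

/-- the inverse graph map is smooth -/
theorem contDiffAt_bS {φ : E → ℝ} (hl : LipschitzWith 1 φ) {y : E} (hφ : ContDiffAt ℝ ∞ φ y) :
    ContDiffAt ℝ ∞ (fun p : E × E => bS φ p.1 p.2) (0, y) := by
  have h1 := contDiffAt_Th (p := ((0 : E), y)) (by simp) hφ
  have h2 := hasFDerivAt_Th hφ
  have h3 := h1.to_localInverse h2 (by simp)
  have h4 : Th φ ((0 : E), y) = (0, y) := by simp [Th, bT, LX]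
  rw [h4] at h3
  have h5 : ∀ᶠ p in 𝓝 ((0 : E), y), (fun q : E × E => (q.1, bS φ q.1 q.2)) (Th φ p) = p := by
    have hop : ∀ᶠ p : E × E in 𝓝 ((0 : E), y), ‖p.1‖ < 1 := by
      have : Continuous fun p : E × E => ‖p.1‖ := by fun_prop
      exact this.continuousAt.eventually_lt continuousAt_const (by simp)
    filter_upwards [hop] with p hp
    simp only [Th]
    rw [bS_bT hl hp]
  have h6 := (h1.hasStrictFDerivAt' h2 (by simp)).localInverse_unique
    (g := fun q : E × E => (q.1, bS φ q.1 q.2)) h5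
  rw [h4] at h6
  have h7 : ContDiffAt ℝ ∞ (fun q : E × E => (q.1, bS φ q.1 q.2)) (0, y) :=
    h3.congr_of_eventuallyEq h6
  exact contDiffAt_snd.comp ((0 : E), y) h7

theorem bS_zero {φ : E → ℝ} (hl : LipschitzWith 1 φ) (y : E) : bS φ 0 y = y := by
  have h : bT φ (0 : E) y = y := by simp [bT, LX]
  have := bS_bT hl (z := (0 : E)) (by simp) y
  rwa [h] at this

theorem boost_zero {φ : E → ℝ} (hl : LipschitzWith 1 φ) (y : E) : boost φ 0 y = φ y := by
  rw [boost_of_lt (by simp), bS_zero hl]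
  simp [LB, gam_zero]

/-- the boosted function is jointly smooth -/
theorem contDiffAt_boost {φ : E → ℝ} (hl : LipschitzWith 1 φ) {y : E} (hφ : ContDiffAt ℝ ∞ φ y) :
    ContDiffAt ℝ ∞ (fun p : E × E => boost φ p.1 p.2) (0, y) := by
  have hS := contDiffAt_bS hl hφ
  have h1 : ContDiffAt ℝ ∞ (fun p : E × E => φ (bS φ p.1 p.2)) (0, y) := by
    have h2 : ContDiffAt ℝ ∞ φ (bS φ ((0 : E), y).1 ((0 : E), y).2) := by
      simp only [bS_zero hl]; exact hφ
    exact h2.comp ((0 : E), y) hS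
  have h3 : ContDiffAt ℝ ∞ (fun p : E × E => gam p.1) ((0 : E), y) :=
    (contDiffAt_gam (by simp)).comp ((0 : E), y) contDiffAt_fst
  have h4 : ContDiffAt ℝ ∞ (fun p : E × E => gam p.1 * (φ (bS φ p.1 p.2) + ⟪p.1, bS φ p.1 p.2⟫))
      ((0 : E), y) := h3.mul (h1.add (contDiffAt_fst.inner ℝ hS))
  refine h4.congr_of_eventuallyEq ?_
  have hop : ∀ᶠ p : E × E in 𝓝 ((0 : E), y), ‖p.1‖ < 1 := by
    have : Continuous fun p : E × E => ‖p.1‖ := by fun_prop
    exact this.continuousAt.eventually_lt continuousAt_const (by simp)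
  filter_upwards [hop] with p hp
  rw [boost_of_lt hp]; rfl

/-- derivative of the boost in the direction of the parameter: `⟪ζ, ft φ y⟫` -/
theorem fderiv_boost {φ : E → ℝ} (hl : LipschitzWith 1 φ) {y : E} (hφ : ContDiffAt ℝ ∞ φ y)
    (ζ v : E) : fderiv ℝ (fun p : E × E => boost φ p.1 p.2) (0, y) (ζ, v)
      = ⟪ζ, ft φ y⟫ + ⟪gradient φ y, v⟫ := by
  set B : E × E → ℝ := fun p => boost φ p.1 p.2 with hB
  have hBd : HasFDerivAt B (fderiv ℝ B (0, y)) ((0 : E), y) :=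
    ((contDiffAt_boost hl hφ).differentiableAt (by simp)).hasFDerivAt
  have hφd : HasFDerivAt φ (fderiv ℝ φ y) y := (hφ.differentiableAt (by simp)).hasFDerivAt
  -- the function `p ↦ LB p.1 p.2 (φ p.2) = B (Th φ p)`
  have h4 : Th φ ((0 : E), y) = (0, y) := by simp [Th, bT, LX]
  have h1 : HasFDerivAt (fun p => B (Th φ p)) ((fderiv ℝ B (0, y)).comp
      (Le (E := E) (φ y) : E × E →L[ℝ] E × E)) ((0 : E), y) := by
    have h5 : HasFDerivAt B (fderiv ℝ B (0, y)) (Th φ ((0 : E), y)) := by rw [h4]; exact hBd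
    exact h5.comp ((0 : E), y) (hasFDerivAt_Th hφ)
  have h2 : (fun p => B (Th φ p)) =ᶠ[𝓝 ((0 : E), y)] fun p : E × E => gam p.1 * (φ p.2 + ⟪p.1, p.2⟫) := by
    have hop : ∀ᶠ p : E × E in 𝓝 ((0 : E), y), ‖p.1‖ < 1 := by
      have : Continuous fun p : E × E => ‖p.1‖ := by fun_prop
      exact this.continuousAt.eventually_lt continuousAt_const (by simp)
    filter_upwards [hop] with p hp
    exact boost_bT hl hp p.2
  have hg : HasFDerivAt (gam : E → ℝ) (0 : E →L[ℝ] ℝ) (0 : E) := by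
    -- `gam = 1/√(1-‖z‖²)` has zero derivative at `0`
    have hn : HasFDerivAt (fun z : E => 1 - ‖z‖ ^ 2) (0 : E →L[ℝ] ℝ) (0 : E) := by
      have h6 := (hasStrictFDerivAt_norm_sq (0 : E)).hasFDerivAt
      have h7 := h6.const_sub 1
      refine h7.congr_fderiv ?_
      ext v; simp
    have h8 := (hasDerivAt_inv (x := Real.sqrt (1 - ‖(0 : E)‖ ^ 2)) (by simp)).comp_hasFDerivAt
      (0 : E) (hn.sqrt (by simp))
    have h9 : (gam : E → ℝ) = (fun y => y⁻¹) ∘ fun z => Real.sqrt (1 - ‖z‖ ^ 2) := by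
      funext z; simp [gam]
    rw [h9]
    refine h8.congr_fderiv ?_
    simp
  have hg2 : HasFDerivAt (fun p : E × E => gam p.1) (0 : E × E →L[ℝ] ℝ) ((0 : E), y) := by
    have := HasFDerivAt.comp ((0 : E), y) (f := fun p : E × E => p.1) (g := (gam : E → ℝ)) hg
      (hasFDerivAt_fst (𝕜 := ℝ) (p := ((0 : E), y)))
    refine this.congr_fderiv ?_
    simp
  have h3 : HasFDerivAt (fun p : E × E => φ p.2 + ⟪p.1, p.2⟫)
      ((fderiv ℝ φ y).comp (ContinuousLinearMap.snd ℝ E E) +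
        (fderivInnerCLM ℝ ((0 : E), y)).comp ((ContinuousLinearMap.fst ℝ E E).prod
          (ContinuousLinearMap.snd ℝ E E))) ((0 : E), y) := by
    have ha : HasFDerivAt (fun p : E × E => φ p.2) ((fderiv ℝ φ y).comp
        (ContinuousLinearMap.snd ℝ E E)) ((0 : E), y) :=
      HasFDerivAt.comp ((0 : E), y) (f := fun p : E × E => p.2) (g := φ) hφd
        (hasFDerivAt_snd (𝕜 := ℝ) (p := ((0 : E), y)))
    exact ha.add ((hasFDerivAt_fst (𝕜 := ℝ) (p := ((0 : E), y))).inner ℝ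
      (hasFDerivAt_snd (𝕜 := ℝ) (p := ((0 : E), y))))
  have h5 := (hg2.mul h3).congr_of_eventuallyEq h2
  have h6 := h1.unique h5
  have h7 := congrArg (fun L : E × E →L[ℝ] ℝ => L (ζ, v - φ y • ζ)) h6
  simp only [ContinuousLinearMap.comp_apply] at h7
  have h8 : (Le (E := E) (φ y) : E × E →L[ℝ] E × E) (ζ, v - φ y • ζ) = (ζ, v) := by
    simp [Le]
  rw [h8] at h7
  rw [h7]
  simp only [add_apply, ContinuousLinearMap.comp_apply, ContinuousLinearMap.prod_apply,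
    ContinuousLinearMap.coe_fst', ContinuousLinearMap.coe_snd', fderivInnerCLM_apply, gam_zero,
    smul_zero, add_zero, one_smul, inner_zero_left, map_sub, map_smul, smul_eq_mul]
  rw [ft, inner_sub_right, inner_smul_right, ← SM436.inner_gradient, ← SM436.inner_gradient,
    real_inner_comm ζ (gradient φ y)]
  ring

end Crest.Agent.R246.BoostExp797
end
end

-- ▼ part R246/BoostExp_797

/-! # Row 246: second order expansion of the boosted function near `M'` (helper797, leaf N2 of 200) -/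

set_option autoImplicit false
set_option linter.unusedSectionVars false
set_option maxHeartbeats 400000
noncomputable section
open MeasureTheory Set Filter Topology Metric
open scoped RealInnerProductSpace ContDiff

namespace Crest.Agent.R246.BoostExp797

open H990 SM436

variable {E : Type*} [NormedAddCommGroup E] [InnerProductSpace ℝ E] [FiniteDimensional ℝ E]

/-- the error of the first order expansion -/
def H (φ : E → ℝ) (z x : E) : ℝ :=
  Real.arcsin (boost φ z x * ‖x‖⁻¹) - Real.arctan (ta φ x) - ⟪z, pp φ x⟫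

/-- the same, jointly in both variables -/
def HH (φ : E → ℝ) (p : E × E) : ℝ := H φ p.1 p.2

variable {φ : E → ℝ} {b : ℝ}

theorem cd_rr (hT : Tube φ b) {y : E} (hy : y ∈ TT φ b) : ContDiffAt ℝ ∞ (rr φ) y := by
  have hne : ‖y‖ ^ 2 - φ y ^ 2 ≠ 0 := by
    rw [← hT.rr_sq]; exact pow_ne_zero _ hy.1.ne'
  exact (((contDiff_norm_sq ℝ).contDiffAt).sub ((hT.good hy).contDiffAt.pow 2)).sqrt hne

theorem cd_ft (hT : Tube φ b) {y : E} (hy : y ∈ TT φ b) : ContDiffAt ℝ ∞ (ft φ) y :=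
  contDiffAt_id.sub ((hT.good hy).contDiffAt.smul (hT.good hy).contDiffAt_gradient)

theorem cd_pp (hT : Tube φ b) {y : E} (hy : y ∈ TT φ b) : ContDiffAt ℝ ∞ (pp φ) y :=
  ((cd_rr hT hy).inv hy.1.ne').smul (cd_ft hT hy)

theorem cd_ta (hT : Tube φ b) {y : E} (hy : y ∈ TT φ b) : ContDiffAt ℝ ∞ (ta φ) y :=
  (hT.good hy).contDiffAt.div (cd_rr hT hy) hy.1.ne'

theorem abs_div_lt (hT : Tube φ b) {y : E} (hy : y ≠ 0) : |φ y * ‖y‖⁻¹| < 1 := by
  have h1 := norm_pos_iff.2 hy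
  rw [abs_mul, abs_inv, abs_norm, ← div_eq_mul_inv, div_lt_one h1]
  exact hT.lt y hy

theorem contDiffAt_HH (hT : Tube φ b) {y : E} (hy : y ∈ TT φ b) :
    ContDiffAt ℝ ∞ (HH φ) (0, y) := by
  have hy0 := hT.ne_zero hy
  have h1 := contDiffAt_boost hT.lip (hT.good hy).contDiffAt
  have h2 : ContDiffAt ℝ ∞ (fun p : E × E => ‖p.2‖⁻¹) (0, y) := by
    have h3 : ContDiffAt ℝ ∞ (fun x : E => ‖x‖⁻¹) y :=
      (contDiffAt_norm ℝ hy0).inv (norm_ne_zero_iff.2 hy0)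
    exact ContDiffAt.comp ((0 : E), y) (f := fun p : E × E => p.2) (g := fun x : E => ‖x‖⁻¹) h3
      contDiffAt_snd
  have h3 := abs_lt.1 (abs_div_lt hT hy0)
  have h4 : ContDiffAt ℝ ∞ (fun p : E × E => Real.arcsin (boost φ p.1 p.2 * ‖p.2‖⁻¹)) (0, y) := by
    have h5 : ContDiffAt ℝ ∞ Real.arcsin
        ((fun p : E × E => boost φ p.1 p.2 * ‖p.2‖⁻¹) ((0 : E), y)) := by
      simp only [boost_zero hT.lip]
      exact Real.contDiffAt_arcsin h3.1.ne' h3.2.ne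
    exact ContDiffAt.comp ((0 : E), y) (f := fun p : E × E => boost φ p.1 p.2 * ‖p.2‖⁻¹)
      (g := Real.arcsin) h5 (h1.mul h2)
  have h5 : ContDiffAt ℝ ∞ (fun p : E × E => Real.arctan (ta φ p.2)) (0, y) := by
    have h6 : ContDiffAt ℝ ∞ (fun x => Real.arctan (ta φ x)) y := (cd_ta hT hy).arctan
    exact ContDiffAt.comp ((0 : E), y) (f := fun p : E × E => p.2)
      (g := fun x : E => Real.arctan (ta φ x)) h6 contDiffAt_snd
  have h6 : ContDiffAt ℝ ∞ (fun p : E × E => ⟪p.1, pp φ p.2⟫) (0, y) := by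
    have h7 : ContDiffAt ℝ ∞ (fun p : E × E => pp φ p.2) ((0 : E), y) :=
      ContDiffAt.comp ((0 : E), y) (f := fun p : E × E => p.2) (g := pp φ) (cd_pp hT hy)
        contDiffAt_snd
    exact contDiffAt_fst.inner ℝ h7
  exact (h4.sub h5).sub h6

theorem HH_zero (hT : Tube φ b) {y : E} (hy : y ≠ 0) : HH φ (0, y) = 0 := by
  have h1 := norm_pos_iff.2 hy
  have h2 := hT.rr_pos hy
  have h3 := hT.rr_sq y
  simp only [HH, H, boost_zero hT.lip, inner_zero_left, sub_zero]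
  rw [Real.arctan_eq_arcsin]
  have h4 : 1 + ta φ y ^ 2 = (‖y‖ / rr φ y) ^ 2 := by
    rw [ta]
    field_simp
    linarith
  rw [h4, Real.sqrt_sq (by positivity), ta, div_div_div_cancel_right₀ h2.ne', div_eq_mul_inv,
    sub_self]

theorem HH_zero_ev (hT : Tube φ b) {y : E} (hy : y ∈ TT φ b) :
    ∀ᶠ y' in 𝓝 y, HH φ (0, y') = 0 := by
  filter_upwards [isOpen_ne.mem_nhds (hT.ne_zero hy)] with y' hy'
  exact HH_zero hT hy'

theorem fderiv_HH (hT : Tube φ b) {y : E} (hy : y ∈ TT φ b) : fderiv ℝ (HH φ) (0, y) = 0 := by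
  have hy0 := hT.ne_zero hy
  have hH : HasFDerivAt (HH φ) (fderiv ℝ (HH φ) (0, y)) ((0 : E), y) :=
    ((contDiffAt_HH hT hy).differentiableAt (by simp)).hasFDerivAt
  -- direction `(0, v)`
  have hv : ∀ v : E, fderiv ℝ (HH φ) (0, y) (0, v) = 0 := by
    intro v
    have h1 : HasFDerivAt (fun w : E => HH φ (0, w)) ((fderiv ℝ (HH φ) (0, y)).comp
        (ContinuousLinearMap.inr ℝ E E)) y := hH.comp y (hasFDerivAt_prodMk_right (0 : E) y)
    have h2 : HasFDerivAt (fun w : E => HH φ (0, w)) (0 : E →L[ℝ] ℝ) y :=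
      (hasFDerivAt_const (0 : ℝ) y).congr_of_eventuallyEq (HH_zero_ev hT hy)
    have h3 := congrArg (fun L : E →L[ℝ] ℝ => L v) (h1.unique h2)
    simpa using h3
  -- direction `(ζ, 0)`
  have hz : ∀ ζ : E, fderiv ℝ (HH φ) (0, y) (ζ, 0) = 0 := by
    intro ζ
    have h1 : HasFDerivAt (fun w : E => HH φ (w, y)) ((fderiv ℝ (HH φ) (0, y)).comp
        (ContinuousLinearMap.inl ℝ E E)) 0 := 
      HasFDerivAt.comp (0 : E) (f := fun w : E => (w, y)) (g := HH φ) hH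
        (hasFDerivAt_prodMk_left (0 : E) y)
    have hB : HasFDerivAt (fun w : E => boost φ w y)
        ((fderiv ℝ (fun p : E × E => boost φ p.1 p.2) (0, y)).comp
          (ContinuousLinearMap.inl ℝ E E)) 0 :=
by
      have h0 : HasFDerivAt (fun p : E × E => boost φ p.1 p.2)
          (fderiv ℝ (fun p : E × E => boost φ p.1 p.2) (0, y)) ((0 : E), y) :=
        ((contDiffAt_boost hT.lip (hT.good hy).contDiffAt).differentiableAt (by simp)).hasFDerivAt
      have h1 : HasFDerivAt (fun w : E => (w, y)) (ContinuousLinearMap.inl ℝ E E) (0 : E) :=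
        hasFDerivAt_prodMk_left (0 : E) y
      exact HasFDerivAt.comp (0 : E) (f := fun w : E => (w, y))
        (g := fun p : E × E => boost φ p.1 p.2) h0 h1
    have h3 := abs_lt.1 (abs_div_lt hT hy0)
    have ha : HasDerivAt Real.arcsin (1 / Real.sqrt (1 - (φ y * ‖y‖⁻¹) ^ 2))
        (boost φ 0 y * ‖y‖⁻¹) := by
      rw [boost_zero hT.lip]
      exact Real.hasDerivAt_arcsin h3.1.ne' h3.2.ne
    have h4 := ha.comp_hasFDerivAt (0 : E) (hB.mul_const (‖y‖⁻¹))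
    have h5 : HasFDerivAt (fun w : E => ⟪w, pp φ y⟫) (innerSL ℝ (pp φ y)) (0 : E) := by
      have := (innerSL ℝ (pp φ y)).hasFDerivAt (x := (0 : E))
      refine this.congr_of_eventuallyEq (Eventually.of_forall fun w => ?_)
      simp [real_inner_comm]
    have h6 := (h4.sub_const (Real.arctan (ta φ y))).sub h5
    have h7 := congrArg (fun L : E →L[ℝ] ℝ => L ζ) (h1.unique h6)
    simp only [ContinuousLinearMap.comp_apply, ContinuousLinearMap.inl_apply,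
      sub_apply, smul_apply, smul_eq_mul,
      innerSL_apply_apply] at h7
    rw [h7, fderiv_boost hT.lip (hT.good hy).contDiffAt, inner_zero_right, add_zero]
    have h8 := norm_pos_iff.2 hy0
    have h9 := hT.rr_pos hy0
    have h10 : 1 - (φ y * ‖y‖⁻¹) ^ 2 = (rr φ y / ‖y‖) ^ 2 := by
      rw [div_pow, hT.rr_sq]
      field_simp
    rw [h10, Real.sqrt_sq (by positivity), pp, real_inner_smul_left, real_inner_comm]
    field_simp
    ring
  refine ContinuousLinearMap.ext fun p => ?_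
  have h1 : p = (p.1, 0) + (0, p.2) := by simp
  rw [h1, map_add, hz, hv]
  simp

theorem fderiv_HH_ev (hT : Tube φ b) {y : E} (hy : y ∈ TT φ b) :
    ∀ᶠ y' in 𝓝 y, fderiv ℝ (HH φ) (0, y') = 0 := by
  filter_upwards [hT.isOpen_TT.mem_nhds hy] with y' hy'
  exact fderiv_HH hT hy'

/-- the derivative of `HH` in the second variable -/
def PP (φ : E → ℝ) (p : E × E) : E →L[ℝ] ℝ :=
  (fderiv ℝ (HH φ) p).comp (ContinuousLinearMap.inr ℝ E E)

theorem contDiffAt_fderiv_HH (hT : Tube φ b) {y : E} (hy : y ∈ TT φ b) :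
    ContDiffAt ℝ ∞ (fderiv ℝ (HH φ)) (0, y) :=
  (contDiffAt_HH hT hy).fderiv_right (m := ∞) (by simp)

theorem contDiffAt_PP (hT : Tube φ b) {y : E} (hy : y ∈ TT φ b) :
    ContDiffAt ℝ ∞ (PP φ) (0, y) :=
  (contDiffAt_fderiv_HH hT hy).clm_comp contDiffAt_const

theorem fderiv_PP (hT : Tube φ b) {y : E} (hy : y ∈ TT φ b) : fderiv ℝ (PP φ) (0, y) = 0 := by
  have hs : IsSymmSndFDerivAt ℝ (HH φ) ((0 : E), y) :=
    (contDiffAt_HH hT hy).isSymmSndFDerivAt (by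
      rw [minSmoothness_of_isRCLikeNormedField]
      exact (WithTop.coe_le_coe.2 le_top : ((2 : ℕ∞) : WithTop ℕ∞) ≤ ((⊤ : ℕ∞) : WithTop ℕ∞)))
  have h2 : HasFDerivAt (fderiv ℝ (HH φ)) (fderiv ℝ (fderiv ℝ (HH φ)) (0, y)) ((0 : E), y) :=
    ((contDiffAt_fderiv_HH hT hy).differentiableAt (by simp)).hasFDerivAt
  -- direction `(0, v)`
  have hv : ∀ v : E, fderiv ℝ (fderiv ℝ (HH φ)) (0, y) (0, v) = 0 := by
    intro v
    have h3 : HasFDerivAt (fun w : E => fderiv ℝ (HH φ) (0, w))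
        ((fderiv ℝ (fderiv ℝ (HH φ)) (0, y)).comp (ContinuousLinearMap.inr ℝ E E)) y :=
by
      have h0 : HasFDerivAt (fun w : E => ((0 : E), w)) (ContinuousLinearMap.inr ℝ E E) y :=
        hasFDerivAt_prodMk_right (0 : E) y
      exact HasFDerivAt.comp y (f := fun w : E => ((0 : E), w)) (g := fderiv ℝ (HH φ)) h2 h0
    have h4 : HasFDerivAt (fun w : E => fderiv ℝ (HH φ) (0, w)) (0 : E →L[ℝ] (E × E →L[ℝ] ℝ)) y :=
      (hasFDerivAt_const (0 : E × E →L[ℝ] ℝ) y).congr_of_eventuallyEq (fderiv_HH_ev hT hy)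
    have h5 := congrArg (fun L : E →L[ℝ] (E × E →L[ℝ] ℝ) => L v) (h3.unique h4)
    simpa using h5
  have h3 : HasFDerivAt (PP φ) (((ContinuousLinearMap.compL ℝ E (E × E) ℝ).flip
      (ContinuousLinearMap.inr ℝ E E)).comp (fderiv ℝ (fderiv ℝ (HH φ)) (0, y))) ((0 : E), y) :=
    ((ContinuousLinearMap.compL ℝ E (E × E) ℝ).flip
      (ContinuousLinearMap.inr ℝ E E)).hasFDerivAt.comp ((0 : E), y) h2
  rw [h3.fderiv]
  refine ContinuousLinearMap.ext fun q => ContinuousLinearMap.ext fun v => ?_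
  simp only [ContinuousLinearMap.comp_apply, ContinuousLinearMap.flip_apply,
    ContinuousLinearMap.compL_apply, ContinuousLinearMap.inr_apply, zero_apply]
  rw [hs q (0, v), hv]
  rfl

theorem fderiv_H {z y : E} (h : DifferentiableAt ℝ (HH φ) (z, y)) :
    fderiv ℝ (H φ z) y = PP φ (z, y) := by
  have h0 : HasFDerivAt (fun w : E => (z, w)) (ContinuousLinearMap.inr ℝ E E) y :=
    hasFDerivAt_prodMk_right z y
  have h1 := HasFDerivAt.comp y (f := fun w : E => (z, w)) (g := HH φ) h.hasFDerivAt h0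
  exact h1.fderiv

/-- local version of the expansion -/
theorem local_expand (hT : Tube φ b) {y0 : E} (hy0 : y0 ∈ TT φ b) :
    ∃ ρ C : ℝ, 0 < ρ ∧ 0 ≤ C ∧ ∀ z : E, ‖z‖ < ρ → ∀ y : E, ‖y - y0‖ < ρ →
      ContDiffAt ℝ 3 (boost φ z) y ∧ |boost φ z y| < ‖y‖ ∧ |H φ z y| ≤ C * ‖z‖ ^ 2 ∧
        ‖fderiv ℝ (H φ z) y‖ ≤ C * ‖z‖ ^ 2 := by
  have hle : (2 : WithTop ℕ∞) ≤ ∞ :=
    (WithTop.coe_le_coe.2 le_top : ((2 : ℕ∞) : WithTop ℕ∞) ≤ ((⊤ : ℕ∞) : WithTop ℕ∞))
  have hH2 : ContDiffAt ℝ 2 (HH φ) (0, y0) := (contDiffAt_HH hT hy0).of_le hle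
  have hP2 : ContDiffAt ℝ 2 (PP φ) (0, y0) := (contDiffAt_PP hT hy0).of_le hle
  obtain ⟨ρ1, C1, hρ1, hC1, H1⟩ := quad_vanish hH2 (HH_zero_ev hT hy0) (fderiv_HH_ev hT hy0)
  have hP0 : ∀ᶠ y in 𝓝 y0, PP φ (0, y) = 0 := by
    filter_upwards [fderiv_HH_ev hT hy0] with y hy
    simp [PP, hy]
  have hP1 : ∀ᶠ y in 𝓝 y0, fderiv ℝ (PP φ) (0, y) = 0 := by
    filter_upwards [hT.isOpen_TT.mem_nhds hy0] with y hy
    exact fderiv_PP hT hy
  obtain ⟨ρ2, C2, hρ2, hC2, H2⟩ := quad_vanish hP2 hP0 hP1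
  have hd : ∀ᶠ p in 𝓝 ((0 : E), y0), DifferentiableAt ℝ (HH φ) p :=
    (hH2.eventually (by simp)).mono
      fun p hp => hp.differentiableAt (by norm_num)
  have hcb : ContDiffAt ℝ 3 (fun p : E × E => boost φ p.1 p.2) ((0 : E), y0) :=
    (contDiffAt_boost hT.lip (hT.good hy0).contDiffAt).of_le
      (WithTop.coe_le_coe.2 le_top : ((3 : ℕ∞) : WithTop ℕ∞) ≤ ((⊤ : ℕ∞) : WithTop ℕ∞))
  have hb3 : ∀ᶠ p in 𝓝 ((0 : E), y0), ContDiffAt ℝ 3 (fun p : E × E => boost φ p.1 p.2) p :=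
    hcb.eventually (by norm_num)
  have hb4 : ∀ᶠ p : E × E in 𝓝 ((0 : E), y0), |boost φ p.1 p.2| < ‖p.2‖ := by
    refine hcb.continuousAt.abs.eventually_lt (continuous_snd.norm.continuousAt) ?_
    simp only [boost_zero hT.lip]
    exact hT.lt y0 (hT.ne_zero hy0)
  obtain ⟨ρ3, hρ3, H3⟩ := Metric.mem_nhds_iff.1 (hd.and (hb3.and hb4))
  refine ⟨min ρ1 (min ρ2 ρ3), max C1 C2, lt_min hρ1 (lt_min hρ2 hρ3), le_max_of_le_left hC1,
    fun z hz y hy => ?_⟩
  simp only [lt_min_iff] at hz hy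
  have hmem : (z, y) ∈ ball ((0 : E), y0) ρ3 := by
    rw [mem_ball, Prod.dist_eq, max_lt_iff, dist_zero_right, dist_eq_norm]
    exact ⟨hz.2.2, hy.2.2⟩
  obtain ⟨e1, e2, e3⟩ := H3 hmem
  have hz2 : 0 ≤ ‖z‖ ^ 2 := by positivity
  refine ⟨?_, e3, ?_, ?_⟩
  · exact ContDiffAt.comp y (f := fun w : E => (z, w)) (g := fun p : E × E => boost φ p.1 p.2) e2
      (contDiffAt_const.prodMk contDiffAt_id)
  · have h1 := H1 z y hz.1 hy.1
    rw [Real.norm_eq_abs] at h1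
    exact h1.trans (mul_le_mul_of_nonneg_right (le_max_left _ _) hz2)
  · rw [fderiv_H e1]
    exact (H2 z y hz.2.1 hy.2.1).trans (mul_le_mul_of_nonneg_right (le_max_right _ _) hz2)

/-- **second order expansion of the boosted function near `M'`** -/
theorem boost_expand (hT : Tube φ b) {c : ℝ} (hc : c < b) :
    ∃ d0 C : ℝ, 0 < d0 ∧ d0 < 1 ∧ 0 ≤ C ∧ ∀ z : E, ‖z‖ ≤ d0 → ∀ y : E, ‖y‖ = 1 → |ta φ y| ≤ c →
      ContDiffAt ℝ 3 (boost φ z) y ∧ |boost φ z y| < 1 ∧ |H φ z y| ≤ C * ‖z‖ ^ 2 ∧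
        ‖fderiv ℝ (H φ z) y‖ ≤ C * ‖z‖ ^ 2 := by
  set K : Set E := {y | ‖y‖ = 1 ∧ |ta φ y| ≤ c} with hKd
  have hne : ∀ {y : E}, ‖y‖ = 1 → y ≠ 0 := by
    rintro y h rfl; simp at h
  have hKT : K ⊆ TT φ b := by
    rintro y ⟨h1, h2⟩
    have h3 := hT.rr_pos (hne h1)
    refine ⟨h3, ?_⟩
    rw [ta, abs_div, abs_of_pos h3, div_le_iff₀ h3] at h2
    exact h2.trans_lt (mul_lt_mul_of_pos_right hc h3)
  have hKc : IsCompact K := by
    have h1 : K = sphere (0 : E) 1 ∩ {y | |φ y| ≤ c * rr φ y} := by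
      ext y
      simp only [hKd, mem_ofPred_eq, mem_inter_iff, mem_sphere_zero_iff_norm]
      refine and_congr_right fun h => ?_
      have h3 := hT.rr_pos (hne h)
      rw [ta, abs_div, abs_of_pos h3, div_le_iff₀ h3]
    rw [h1]
    exact (isCompact_sphere _ _).inter_right
      (isClosed_le hT.lip.continuous.abs (continuous_const.mul hT.continuous_rr))
  have key : ∃ d0 C : ℝ, 0 < d0 ∧ d0 < 1 ∧ 0 ≤ C ∧ ∀ z : E, ‖z‖ ≤ d0 → ∀ y ∈ K,
      ContDiffAt ℝ 3 (boost φ z) y ∧ |boost φ z y| < ‖y‖ ∧ |H φ z y| ≤ C * ‖z‖ ^ 2 ∧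
        ‖fderiv ℝ (H φ z) y‖ ≤ C * ‖z‖ ^ 2 := by
    refine hKc.induction_on (p := fun S => ∃ d0 C : ℝ, 0 < d0 ∧ d0 < 1 ∧ 0 ≤ C ∧
      ∀ z : E, ‖z‖ ≤ d0 → ∀ y ∈ S, ContDiffAt ℝ 3 (boost φ z) y ∧ |boost φ z y| < ‖y‖ ∧
        |H φ z y| ≤ C * ‖z‖ ^ 2 ∧ ‖fderiv ℝ (H φ z) y‖ ≤ C * ‖z‖ ^ 2) ?_ ?_ ?_ ?_
    · exact ⟨1 / 2, 0, by norm_num, by norm_num, le_rfl, fun z _ y hy => absurd hy (by simp)⟩
    · rintro S T hST ⟨d0, C, h1, h2, h3, h4⟩
      exact ⟨d0, C, h1, h2, h3, fun z hz y hy => h4 z hz y (hST hy)⟩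
    · rintro S T ⟨d0, C, h1, h2, h3, h4⟩ ⟨d0', C', h1', h2', h3', h4'⟩
      refine ⟨min d0 d0', max C C', lt_min h1 h1', (min_le_left _ _).trans_lt h2,
        le_max_of_le_left h3, fun z hz y hy => ?_⟩
      have hz2 : 0 ≤ ‖z‖ ^ 2 := by positivity
      rcases hy with hy | hy
      · obtain ⟨a1, a2, a3, a4⟩ := h4 z (hz.trans (min_le_left _ _)) y hy
        exact ⟨a1, a2, a3.trans (mul_le_mul_of_nonneg_right (le_max_left _ _) hz2),
          a4.trans (mul_le_mul_of_nonneg_right (le_max_left _ _) hz2)⟩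
      · obtain ⟨a1, a2, a3, a4⟩ := h4' z (hz.trans (min_le_right _ _)) y hy
        exact ⟨a1, a2, a3.trans (mul_le_mul_of_nonneg_right (le_max_right _ _) hz2),
          a4.trans (mul_le_mul_of_nonneg_right (le_max_right _ _) hz2)⟩
    · intro y0 hy0
      obtain ⟨ρ, C, hρ, hC, h⟩ := local_expand hT (hKT hy0)
      refine ⟨ball y0 ρ, mem_nhdsWithin_of_mem_nhds (ball_mem_nhds y0 hρ), min (ρ / 2) (1 / 2), C,
        lt_min (by positivity) (by norm_num), (min_le_right _ _).trans_lt (by norm_num), hC,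
        fun z hz y hy => ?_⟩
      rw [mem_ball, dist_eq_norm] at hy
      exact h z (hz.trans_lt ((min_le_left _ _).trans_lt (by linarith))) y hy
  obtain ⟨d0, C, h1, h2, h3, h4⟩ := key
  refine ⟨d0, C, h1, h2, h3, fun z hz y hy hyc => ?_⟩
  obtain ⟨a1, a2, a3, a4⟩ := h4 z hz y ⟨hy, hyc⟩
  exact ⟨a1, by rwa [hy] at a2, a3, a4⟩

end Crest.Agent.R246.BoostExp797
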