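import Crest.Agent.R246.Br2_549
import Crest.Agent.R246.Iter_105

/-!
# R246, bridge G → H, part 3 (helper549): the input of H1 (flatness + density ratio, local)
-/

set_option autoImplicit false
set_option linter.unusedSectionVars false
set_option linter.unusedVariables false
noncomputable section
open MeasureTheory Set Filter Topology Metric
open scoped RealInnerProductSpace ENNReal ContDiff
open Crest.Agent.R246.G873 Crest.Agent.R246.MS852 Crest.Agent.R246.Lim538
open Crest.Agent.R246.Iter105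

namespace Crest.Agent.R246.Br549

section general

variable {E : Type} [NormedAddCommGroup E] [InnerProductSpace ℝ E] [FiniteDimensional ℝ E]
  [MeasurableSpace E] [BorelSpace E]

theorem Dp_scale {μ : Measure E} {d : ℕ} (h : HomM μ d) {t s : ℝ} (ht : 0 < t) (hs : 0 < s)
    (p : E) : Dp μ (t • p) (t * s) = t ^ d * Dp μ p s := by
  unfold Dp
  rw [← h t ht _ (continuous_pf p s) (cpt_pf p hs)]
  refine integral_congr_ae (Eventually.of_forall fun x => ?_)
  simp only [pf]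
  congr 1
  have e : t⁻¹ • x - p = t⁻¹ • (x - t • p) := by
    rw [smul_sub, smul_smul, inv_mul_cancel₀ ht.ne', one_smul]
  rw [e, norm_smul, norm_inv, Real.norm_eq_abs, abs_of_pos ht]
  field_simp

theorem continuous_Dp {μ : Measure E} [IsFiniteMeasureOnCompacts μ] {s : ℝ} (hs : 0 < s) :
    Continuous (fun p => Dp μ p s) := by
  rw [continuous_iff_continuousAt]
  intro p₀
  unfold Dp
  apply continuousAt_of_dominated (bound := (closedBall p₀ (s + 1)).indicator fun _ => (1 : ℝ))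
  · exact Eventually.of_forall fun p => (continuous_pf p s).aestronglyMeasurable
  · filter_upwards [ball_mem_nhds p₀ one_pos] with p hp
    refine Eventually.of_forall fun x => ?_
    rw [Real.norm_eq_abs, abs_of_nonneg (pf_nonneg p s x)]
    by_cases hx : x ∈ closedBall p₀ (s + 1)
    · rw [indicator_of_mem hx]; exact pf_le_one p s x
    · rw [indicator_of_notMem hx]
      apply le_of_eq
      apply pf_zero hs
      rw [mem_closedBall, not_le] at hx
      rw [mem_ball] at hp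
      have := dist_triangle x p p₀
      rw [← dist_eq_norm]
      linarith
  · rw [integrable_indicator_iff isClosed_closedBall.measurableSet]
    exact (integrableOn_const (hs := (isCompact_closedBall p₀ (s + 1)).measure_lt_top.ne))
  · refine Eventually.of_forall fun x => ?_
    have : Continuous fun p => pf p s x := by
      unfold pf
      exact continuous_psi.comp (by fun_prop)
    exact this.continuousAt

end general

section main

variable {n : ℕ} {ι : Type} {F : Filter ι} [F.NeBot] {φ : EuclideanSpace ℝ (Fin n) → ℝ}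
  {μ : Measure (EuclideanSpace ℝ (Fin n))} {ε : ι → ℝ} {R : ι → EuclideanSpace ℝ (Fin n) → ℝ}

local notation "EE" => EuclideanSpace ℝ (Fin n)

/-- what H1 consumes at `p₀` -/
def H1In (φ : EuclideanSpace ℝ (Fin n) → ℝ) (μ : Measure (EuclideanSpace ℝ (Fin n))) (d : ℕ)
    (κ η r : ℝ) (p₀ : EuclideanSpace ℝ (Fin n)) : Prop :=
  (∃ e : EuclideanSpace ℝ (Fin n), ‖e‖ = 1 ∧ Flat φ p₀ r e η) ∧
  ∀ p : EuclideanSpace ℝ (Fin n), φ p = 0 → ‖p - p₀‖ ≤ r → ∀ s : ℝ, 0 < s → s ≤ 2 * r →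
    Dp μ p s ≤ (1 + κ) * cpsi d * s ^ d

theorem bridge_unit [IsFiniteMeasureOnCompacts μ] {d : ℕ} (hn : n = d + 1) (hd : 1 ≤ d)
    (hMS : StMS EE d) (D : ACData F φ μ ε R) (hlip : LipschitzWith 1 φ)
    (hhom : ∀ t : ℝ, 0 ≤ t → ∀ x, φ (t • x) = t * φ x) {p₀ : EE} (hp : ‖p₀‖ = 1) (hp0 : φ p₀ = 0)
    (hplane : ∀ δ : ℝ, 0 < δ → ∃ r₀ > 0, ∀ r : ℝ, 0 < r → r < r₀ → ∃ e : EE, ‖e‖ = 1 ∧
        ∀ x, ‖x - p₀‖ ≤ 2 * r → |φ x - ⟪e, x - p₀⟫| ≤ δ * r)
    {Θ : ℝ} (hΘ0 : 0 ≤ Θ) (hΘ : Θ < 2)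
    (hup : ∀ s : ℝ, 0 < s → Dp μ p₀ s ≤ Θ * cpsi d * s ^ d)
    (hmono : ∀ p : EE, p ≠ 0 → φ p = 0 → ∀ s s' : ℝ, 0 < s → s ≤ s' →
      Dp μ p s / s ^ d ≤ Dp μ p s' / s' ^ d)
    {κ η r₁ : ℝ} (hκ : 0 < κ) (hη : 0 < η) (hr₁ : 0 < r₁) :
    ∃ r : ℝ, 0 < r ∧ r ≤ r₁ ∧ H1In φ μ d κ η r p₀ := by
  have hc := cpsi_pos d
  obtain ⟨s₀, hs₀, -, hs₁⟩ := dens_one hn hd hMS D hlip hhom hp hp0 hplane hΘ0 hΘ hup
    (half_pos hκ)
  obtain ⟨r₀, hr₀, hpl⟩ := hplane η hη
  have hlt : Dp μ p₀ s₀ < (1 + κ) * cpsi d * s₀ ^ d := by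
    refine hs₁.trans_lt ?_
    have : 0 < cpsi d * s₀ ^ d := by positivity
    nlinarith
  have hev : ∀ᶠ p in 𝓝 p₀, Dp μ p s₀ < (1 + κ) * cpsi d * s₀ ^ d :=
    ((continuous_Dp hs₀).continuousAt (x := p₀)).eventually (gt_mem_nhds hlt)
  obtain ⟨ρ, hρ, hball⟩ := Metric.eventually_nhds_iff_ball.1 hev
  set r : ℝ := min (min (r₀ / 2) (s₀ / 2)) (min (min (ρ / 2) (1 / 2)) r₁) with hr
  have hr0 : 0 < r := by positivity
  have h1 : r ≤ r₀ / 2 := (min_le_left _ _).trans (min_le_left _ _)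
  have h2 : r ≤ s₀ / 2 := (min_le_left _ _).trans (min_le_right _ _)
  have h3 : r ≤ ρ / 2 := (min_le_right _ _).trans ((min_le_left _ _).trans (min_le_left _ _))
  have h4 : r ≤ 1 / 2 := (min_le_right _ _).trans ((min_le_left _ _).trans (min_le_right _ _))
  have h5 : r ≤ r₁ := (min_le_right _ _).trans (min_le_right _ _)
  refine ⟨r, hr0, h5, ?_, ?_⟩
  · obtain ⟨e, he, hfl⟩ := hpl r hr0 (by linarith)
    exact ⟨e, he, fun x hx => hfl x (by linarith)⟩
  · intro p hp' hpd s hs hsr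
    have hpne : p ≠ 0 := by
      intro h0
      rw [h0, zero_sub, norm_neg, hp] at hpd
      linarith
    have h6 := hmono p hpne hp' s s₀ hs (by linarith)
    have h7 := hball p (by rw [mem_ball, dist_eq_norm]; linarith)
    rw [div_le_iff₀ (by positivity)] at h6
    refine h6.trans ?_
    have h8 : Dp μ p s₀ / s₀ ^ d ≤ (1 + κ) * cpsi d := by
      rw [div_le_iff₀ (by positivity)]
      exact h7.le
    gcongr


end main

end Crest.Agent.R246.Br549
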