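import Crest.Agent.R246.C1_378

-- ▼ part R246/C2_378
section

/-!
# Row 246, part C (helper378): polar coordinates around an arbitrary pole, as a measure
preserving map
-/

set_option autoImplicit false

open MeasureTheory MeasureTheory.Measure Set Filter Topology Metric
open scoped ENNReal NNReal RealInnerProductSpace Pointwise

noncomputable section

namespace Crest.Agent.R246.C378

/-- the measure `sin^m t dt` on `(0,π)` -/
def nuT (m : ℕ) : Measure ℝ :=
  (volume.restrict (Ioo (0 : ℝ) Real.pi)).withDensity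
    fun t => ((Real.toNNReal (Real.sin t ^ m) : ℝ≥0) : ℝ≥0∞)

theorem measurable_dens (m : ℕ) : Measurable fun t : ℝ => Real.toNNReal (Real.sin t ^ m) := by
  fun_prop

theorem lintegral_nuT (m : ℕ) {h : ℝ → ℝ≥0∞} (hh : Measurable h) :
    ∫⁻ t, h t ∂(nuT m)
      = ∫⁻ t in Ioo (0 : ℝ) Real.pi, ENNReal.ofReal (Real.sin t ^ m) * h t := by
  unfold nuT
  rw [lintegral_withDensity_eq_lintegral_mul _ (by fun_prop) hh]
  rfl

theorem integral_nuT (m : ℕ) (h : ℝ → ℝ) :
    ∫ t, h t ∂(nuT m) = ∫ t in Ioo (0 : ℝ) Real.pi, Real.sin t ^ m * h t := by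
  unfold nuT
  rw [integral_withDensity_eq_integral_smul (measurable_dens m)]
  refine setIntegral_congr_fun measurableSet_Ioo fun t ht => ?_
  have hs : 0 < Real.sin t := Real.sin_pos_of_pos_of_lt_pi ht.1 ht.2
  show Real.toNNReal (Real.sin t ^ m) • h t = _
  rw [NNReal.smul_def, Real.coe_toNNReal _ (by positivity), smul_eq_mul]

theorem integrable_nuT (m : ℕ) {h : ℝ → ℝ} :
    Integrable h (nuT m) ↔
      IntegrableOn (fun t => Real.sin t ^ m * h t) (Ioo (0 : ℝ) Real.pi) := by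
  unfold nuT
  rw [integrable_withDensity_iff_integrable_smul (measurable_dens m)]
  refine integrableOn_congr_fun (fun t ht => ?_) measurableSet_Ioo
  have hs : 0 < Real.sin t := Real.sin_pos_of_pos_of_lt_pi ht.1 ht.2
  show Real.toNNReal (Real.sin t ^ m) • h t = _
  rw [NNReal.smul_def, Real.coe_toNNReal _ (by positivity), smul_eq_mul]

theorem ae_nuT_iff (m : ℕ) {p : ℝ → Prop} :
    (∀ᵐ t ∂(nuT m), p t) ↔ ∀ᵐ t ∂(volume : Measure ℝ), t ∈ Ioo (0 : ℝ) Real.pi → p t := by
  unfold nuT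
  rw [ae_withDensity_iff (by fun_prop), ae_restrict_iff' measurableSet_Ioo]
  refine eventually_congr (Eventually.of_forall fun t => ?_)
  constructor
  · intro h ht
    refine h ht ?_
    have hs : 0 < Real.sin t := Real.sin_pos_of_pos_of_lt_pi ht.1 ht.2
    have : 0 < Real.sin t ^ m := by positivity
    simp [this]
  · intro h ht _
    exact h ht

instance isFiniteMeasure_nuT (m : ℕ) : IsFiniteMeasure (nuT m) := by
  refine ⟨?_⟩
  rw [← lintegral_one, lintegral_nuT m measurable_const]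
  have h1 : ∀ t ∈ Ioo (0 : ℝ) Real.pi, ENNReal.ofReal (Real.sin t ^ m) * 1 ≤ 1 := by
    intro t ht
    rw [mul_one, ENNReal.ofReal_le_one]
    exact pow_le_one₀ (Real.sin_pos_of_pos_of_lt_pi ht.1 ht.2).le (Real.sin_le_one t)
  refine (setLIntegral_mono measurable_const h1).trans_lt ?_
  simp

/-- the polar map around the standard pole -/
def ptS {m : ℕ} (p : S1 (m + 1) × ℝ) : S1 (m + 2) :=
  ⟨pt p.2 (p.1 : En (m + 1)), by
    rw [mem_sphere_zero_iff_norm]
    exact norm_pt p.2 (by simp)⟩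

theorem continuous_ptS {m : ℕ} : Continuous (ptS (m := m)) :=
  Continuous.subtype_mk (continuous_pt.comp (by fun_prop :
    Continuous fun p : S1 (m + 1) × ℝ => ((p.2, (p.1 : En (m + 1))) : ℝ × En (m + 1)))) _

theorem mp_ptS (m : ℕ) :
    MeasurePreserving (ptS (m := m)) ((muS (m + 1)).prod (nuT m)) (muS (m + 2)) := by
  refine ⟨continuous_ptS.measurable, ?_⟩
  ext A hA
  rw [Measure.map_apply continuous_ptS.measurable hA]
  have hemb : MeasurableEmbedding ((↑) : S1 (m + 2) → En (m + 2)) :=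
    MeasurableEmbedding.subtype_coe isClosed_sphere.measurableSet
  have hf : Measurable (((↑) '' A : Set (En (m + 2))).indicator (1 : En (m + 2) → ℝ≥0∞)) :=
    measurable_one.indicator (hemb.measurableSet_image.2 hA)
  have h := lintegral_pol hf
  have h0 : ∀ z : S1 (m + 2), ((↑) '' A : Set (En (m + 2))).indicator
      (1 : En (m + 2) → ℝ≥0∞) (z : En (m + 2)) = A.indicator 1 z := by
    intro z
    by_cases hz : z ∈ A
    · rw [indicator_of_mem hz, indicator_of_mem (mem_image_of_mem _ hz)]; rfl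
    · rw [indicator_of_notMem hz, indicator_of_notMem]
      rintro ⟨z', hz', h'⟩
      exact hz (Subtype.ext h' ▸ hz')
  rw [lintegral_congr h0, lintegral_indicator_one hA] at h
  rw [h, Measure.prod_apply_symm (continuous_ptS.measurable hA)]
  have hm : Measurable fun t : ℝ => (muS (m + 1)) ((fun ω => (ω, t)) ⁻¹' (ptS ⁻¹' A)) :=
    measurable_measure_prodMk_right (continuous_ptS.measurable hA)
  rw [lintegral_nuT m hm]
  refine setLIntegral_congr_fun measurableSet_Ioo fun t _ => ?_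
  congr 1
  have h1 : ∀ ω : S1 (m + 1), ((↑) '' A : Set (En (m + 2))).indicator
      (1 : En (m + 2) → ℝ≥0∞) (pt t (ω : En (m + 1)))
      = ((fun ω => (ω, t)) ⁻¹' (ptS ⁻¹' A)).indicator 1 ω := by
    intro ω
    exact h0 (ptS (ω, t))
  rw [lintegral_congr h1, lintegral_indicator_one]
  exact measurable_prodMk_right (continuous_ptS.measurable hA)

/-- action of a linear isometry on the sphere -/
def isoS {n : ℕ} (g : En n ≃ₗᵢ[ℝ] En n) (s : S1 n) : S1 n :=
  ⟨g (s : En n), by simp⟩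

theorem continuous_isoS {n : ℕ} (g : En n ≃ₗᵢ[ℝ] En n) : Continuous (isoS g) := by
  unfold isoS
  exact Continuous.subtype_mk (g.continuous.comp continuous_subtype_val) _

/-- rotations preserve the surface measure -/
theorem mp_isoS {n : ℕ} (g : En n ≃ₗᵢ[ℝ] En n) :
    MeasurePreserving (isoS g) (muS n) (muS n) := by
  refine ⟨(continuous_isoS g).measurable, ?_⟩
  ext s hs
  rw [Measure.map_apply (continuous_isoS g).measurable hs,
    Measure.toSphere_apply' _ ((continuous_isoS g).measurable hs), Measure.toSphere_apply' _ hs]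
  congr 1
  have h1 : (Set.Ioo (0 : ℝ) 1 • ((↑) '' (isoS g ⁻¹' s) : Set (En n)))
      = g ⁻¹' (Set.Ioo (0 : ℝ) 1 • ((↑) '' s : Set (En n))) := by
    ext x
    simp only [Set.mem_smul, Set.mem_preimage, Set.mem_image]
    constructor
    · rintro ⟨r, hr, z, ⟨y, hy, rfl⟩, rfl⟩
      exact ⟨r, hr, _, ⟨isoS g y, hy, rfl⟩, by simp [isoS]⟩
    · rintro ⟨r, hr, z, ⟨y, hy, rfl⟩, hx⟩
      refine ⟨r, hr, _, ⟨isoS g.symm y, ?_, rfl⟩, ?_⟩
      · have : isoS g (isoS g.symm y) = y := by
          ext1; simp [isoS]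
        rw [this]; exact hy
      · apply g.injective
        simp only [isoS, map_smul, LinearIsometryEquiv.apply_symm_apply]
        exact hx
  rw [h1]
  exact g.measurePreserving.measure_preimage_equiv (f := g.toHomeomorph.toMeasurableEquiv) _

/-- the standard pole -/
def pole (m : ℕ) : En (m + 2) := mk1 1 0

theorem norm_pole (m : ℕ) : ‖pole m‖ = 1 := by
  have h : ‖pole m‖ ^ 2 = 1 := by
    unfold pole
    rw [norm_mk1_sq]; simp
  nlinarith [norm_nonneg (pole m), sq_nonneg (‖pole m‖ - 1)]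

theorem exists_rot {m : ℕ} {x : En (m + 2)} (hx : ‖x‖ = 1) :
    ∃ g : En (m + 2) ≃ₗᵢ[ℝ] En (m + 2), g (pole m) = x :=
  ⟨Submodule.reflection (ℝ ∙ (pole m - x))ᗮ,
    Submodule.reflection_sub (by rw [norm_pole, hx])⟩

/-- the polar map around the pole `g e` -/
def polS {m : ℕ} (g : En (m + 2) ≃ₗᵢ[ℝ] En (m + 2)) (p : S1 (m + 1) × ℝ) : S1 (m + 2) :=
  isoS g (ptS p)

theorem continuous_polS {m : ℕ} (g : En (m + 2) ≃ₗᵢ[ℝ] En (m + 2)) : Continuous (polS g) :=
  (continuous_isoS g).comp continuous_ptS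

theorem mp_polS {m : ℕ} (g : En (m + 2) ≃ₗᵢ[ℝ] En (m + 2)) :
    MeasurePreserving (polS g) ((muS (m + 1)).prod (nuT m)) (muS (m + 2)) :=
  (mp_isoS g).comp (mp_ptS m)

theorem pt_eq {m : ℕ} (t : ℝ) (ω : En (m + 1)) :
    pt t ω = Real.cos t • pole m + Real.sin t • mk1 0 ω := by
  unfold pt pole
  rw [smul_mk1, smul_mk1, mk1_add]
  simp

/-- the direction at the pole `g e` -/
def dir {m : ℕ} (g : En (m + 2) ≃ₗᵢ[ℝ] En (m + 2)) (ω : En (m + 1)) : En (m + 2) := g (mk1 0 ω)

theorem coe_polS {m : ℕ} (g : En (m + 2) ≃ₗᵢ[ℝ] En (m + 2)) (p : S1 (m + 1) × ℝ) :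
    (polS g p : En (m + 2))
      = Real.cos p.2 • g (pole m) + Real.sin p.2 • dir g (p.1 : En (m + 1)) := by
  show g (pt p.2 (p.1 : En (m + 1))) = _
  rw [pt_eq, map_add, map_smul, map_smul]
  rfl

theorem norm_dir {m : ℕ} (g : En (m + 2) ≃ₗᵢ[ℝ] En (m + 2)) (ω : En (m + 1)) :
    ‖dir g ω‖ = ‖ω‖ := by
  unfold dir
  rw [g.norm_map]
  have h : ‖mk1 0 ω‖ ^ 2 = ‖ω‖ ^ 2 := by rw [norm_mk1_sq]; ring
  exact (sq_eq_sq₀ (norm_nonneg _) (norm_nonneg _)).1 h

theorem inner_pole_dir {m : ℕ} (g : En (m + 2) ≃ₗᵢ[ℝ] En (m + 2)) (ω : En (m + 1)) :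
    ⟪g (pole m), dir g ω⟫ = 0 := by
  unfold dir pole
  rw [g.inner_map_map, inner_mk1]
  simp

/-- integrals over the sphere in polar coordinates -/
theorem integral_polS {m : ℕ} (g : En (m + 2) ≃ₗᵢ[ℝ] En (m + 2)) {F : S1 (m + 2) → ℝ}
    (hF : AEStronglyMeasurable F (muS (m + 2))) :
    ∫ y, F y ∂(muS (m + 2)) = ∫ p, F (polS g p) ∂((muS (m + 1)).prod (nuT m)) := by
  rw [← (mp_polS g).map_eq] at hF ⊢
  exact integral_map (continuous_polS g).measurable.aemeasurable hF

end Crest.Agent.R246.C378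
end
end

-- ▼ part R246/C3_378
section

/-!
# Row 246, part C (helper378): zonal representation formula on the sphere `S^{m+1}`

For a flux profile `f` on `[0,π]` and a Lipschitz function `w` on the sphere,
`∫ k⟪x,y⟫ ⟪∇w(y), x - ⟪x,y⟫y⟫ dy = |S^m| (f 0 w(x) - f π w(-x)) + ∫ q⟪x,y⟫ w(y) dy`.
-/

set_option autoImplicit false

open MeasureTheory MeasureTheory.Measure Set Filter Topology Metric
open scoped ENNReal NNReal RealInnerProductSpace

noncomputable section

namespace Crest.Agent.R246.C378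

/-- `w` is Lipschitz on the unit sphere, and `G` is a bounded measurable representative of its
gradient (only the tangential part of `G` matters). -/
structure SLip {n : ℕ} (w : En n → ℝ) (G : En n → En n) : Prop where
  lip : ∃ K : ℝ≥0, LipschitzOnWith K w (sphere 0 1)
  meas : Measurable G
  bdd : ∃ L : ℝ, ∀ᵐ y : S1 n ∂(muS n), ‖G (y : En n)‖ ≤ L
  der : ∀ᵐ y : S1 n ∂(muS n),
    HasFDerivWithinAt w (innerSL ℝ (G (y : En n))) (sphere 0 1) (y : En n)

/-- tangential part -/
def gT {n : ℕ} (G : En n → En n) (y : En n) : En n := G y - ⟪G y, y⟫ • y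

/-- a flux profile `f` on `[0,π]` with kernels `k` (for the gradient) and `q` (for the
function). -/
structure Prof (m : ℕ) (f f' k q : ℝ → ℝ) : Prop where
  ac : AbsolutelyContinuousOnInterval f 0 Real.pi
  der : ∀ t ∈ Ioo (0 : ℝ) Real.pi, HasDerivAt f (f' t) t
  km : Measurable k
  qm : Measurable q
  hk : ∀ t ∈ Ioo (0 : ℝ) Real.pi, k (Real.cos t) * Real.sin t ^ (m + 1) = f t
  hq : ∀ t ∈ Ioo (0 : ℝ) Real.pi, q (Real.cos t) * Real.sin t ^ m = f' t

/-- great circle -/
def cur {n : ℕ} (x v : En n) (t : ℝ) : En n := Real.cos t • x + Real.sin t • v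

/-- its velocity -/
def vel {n : ℕ} (x v : En n) (t : ℝ) : En n := -Real.sin t • x + Real.cos t • v

section cur
variable {n : ℕ} {x v : En n}

theorem norm_cur (hx : ‖x‖ = 1) (hv : ‖v‖ = 1) (hxv : ⟪x, v⟫ = 0) (t : ℝ) :
    ‖cur x v t‖ = 1 := by
  have h : ‖cur x v t‖ ^ 2 = 1 := by
    unfold cur
    rw [norm_add_sq_real, norm_smul, norm_smul, hx, hv, inner_smul_left, inner_smul_right, hxv]
    simp
  nlinarith [norm_nonneg (cur x v t), sq_nonneg (‖cur x v t‖ - 1)]

theorem norm_vel (hx : ‖x‖ = 1) (hv : ‖v‖ = 1) (hxv : ⟪x, v⟫ = 0) (t : ℝ) :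
    ‖vel x v t‖ = 1 := by
  have h : ‖vel x v t‖ ^ 2 = 1 := by
    unfold vel
    rw [norm_add_sq_real, norm_smul, norm_smul, hx, hv, inner_smul_left, inner_smul_right, hxv]
    simp
  nlinarith [norm_nonneg (vel x v t), sq_nonneg (‖vel x v t‖ - 1)]

theorem hasDerivAt_cur (x v : En n) (t : ℝ) : HasDerivAt (cur x v) (vel x v t) t :=
  ((Real.hasDerivAt_cos t).smul_const x).add ((Real.hasDerivAt_sin t).smul_const v)

theorem lipschitz_cur (hx : ‖x‖ = 1) (hv : ‖v‖ = 1) (hxv : ⟪x, v⟫ = 0) :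
    LipschitzWith 1 (cur x v) := by
  refine lipschitzWith_of_nnnorm_deriv_le (fun t => (hasDerivAt_cur x v t).differentiableAt) ?_
  intro t
  rw [(hasDerivAt_cur x v t).deriv, ← NNReal.coe_le_coe]
  simpa using (norm_vel hx hv hxv t).le

theorem inner_cur (hx : ‖x‖ = 1) (hxv : ⟪x, v⟫ = 0) (t : ℝ) :
    ⟪x, cur x v t⟫ = Real.cos t := by
  unfold cur
  rw [inner_add_right, inner_smul_right, inner_smul_right, hxv, real_inner_self_eq_norm_sq, hx]
  ring

theorem sub_cur (x v : En n) (t : ℝ) :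
    x - Real.cos t • cur x v t = -Real.sin t • vel x v t := by
  unfold cur vel
  have h := Real.sin_sq_add_cos_sq t
  have h1 : x = (Real.sin t ^ 2 + Real.cos t ^ 2) • x := by rw [h, one_smul]
  nth_rewrite 1 [h1]
  module


end cur

/-- one-dimensional integration by parts against a Lipschitz function -/
theorem ibp1 {f f' φ D : ℝ → ℝ} (hf : AbsolutelyContinuousOnInterval f 0 Real.pi)
    (hf' : ∀ t ∈ Ioo (0 : ℝ) Real.pi, HasDerivAt f (f' t) t) {K : ℝ≥0}
    (hφ : LipschitzWith K φ)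
    (hD : ∀ᵐ t ∂(volume : Measure ℝ), t ∈ Ioo (0 : ℝ) Real.pi → HasDerivAt φ (D t) t) :
    ∫ t in Ioo (0 : ℝ) Real.pi, f t * D t
      = f Real.pi * φ Real.pi - f 0 * φ 0 - ∫ t in Ioo (0 : ℝ) Real.pi, f' t * φ t := by
  have hφ' : AbsolutelyContinuousOnInterval φ 0 Real.pi :=
    (hφ.lipschitzOnWith).absolutelyContinuousOnInterval
  have h := hf.integral_mul_deriv_eq_deriv_mul hφ'
  rw [intervalIntegral.integral_of_le Real.pi_pos.le,
    intervalIntegral.integral_of_le Real.pi_pos.le, integral_Ioc_eq_integral_Ioo,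
    integral_Ioc_eq_integral_Ioo] at h
  have e1 : ∫ t in Ioo (0 : ℝ) Real.pi, f t * D t
      = ∫ t in Ioo (0 : ℝ) Real.pi, f t * deriv φ t := by
    refine setIntegral_congr_ae measurableSet_Ioo ?_
    filter_upwards [hD] with t ht h'
    rw [(ht h').deriv]
  have e2 : ∫ t in Ioo (0 : ℝ) Real.pi, f' t * φ t
      = ∫ t in Ioo (0 : ℝ) Real.pi, deriv f t * φ t := by
    refine setIntegral_congr_fun measurableSet_Ioo fun t ht => ?_
    show f' t * φ t = deriv f t * φ t
    rw [(hf' t ht).deriv]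
  rw [e1, e2, h]

theorem integrableOn_prof {f f' : ℝ → ℝ} (hf : AbsolutelyContinuousOnInterval f 0 Real.pi)
    (hf' : ∀ t ∈ Ioo (0 : ℝ) Real.pi, HasDerivAt f (f' t) t) :
    IntegrableOn f' (Ioo (0 : ℝ) Real.pi) := by
  have h := hf.intervalIntegrable_deriv
  rw [intervalIntegrable_iff_integrableOn_Ioo_of_le Real.pi_pos.le] at h
  refine h.congr_fun (fun t ht => ?_) measurableSet_Ioo
  exact (hf' t ht).deriv

theorem integrableOn_prof0 {f : ℝ → ℝ} (hf : AbsolutelyContinuousOnInterval f 0 Real.pi) :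
    IntegrableOn f (Ioo (0 : ℝ) Real.pi) := by
  have h : IntervalIntegrable f volume 0 Real.pi := hf.continuousOn.intervalIntegrable
  rwa [intervalIntegrable_iff_integrableOn_Ioo_of_le Real.pi_pos.le] at h

/-- the integrand of the flux side -/
def fluxI {n : ℕ} (k : ℝ → ℝ) (G : En n → En n) (x : En n) (y : En n) : ℝ :=
  k ⟪x, y⟫ * ⟪G y, x - ⟪x, y⟫ • y⟫

theorem measurable_fluxI {n : ℕ} {k : ℝ → ℝ} (hk : Measurable k) {G : En n → En n}
    (hG : Measurable G) : Measurable fun p : En n × En n => fluxI k G p.1 p.2 := by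
  unfold fluxI
  have h1 : Measurable fun p : En n × En n => (⟪p.1, p.2⟫ : ℝ) := by fun_prop
  exact (hk.comp h1).mul ((hG.comp measurable_snd).inner
    (measurable_fst.sub (h1.smul measurable_snd)))

theorem fluxI_cur {n : ℕ} {x v : En n} (hx : ‖x‖ = 1) (hxv : ⟪x, v⟫ = 0) (k : ℝ → ℝ)
    (G : En n → En n) (t : ℝ) :
    fluxI k G x (cur x v t)
      = -(k (Real.cos t) * Real.sin t * ⟪G (cur x v t), vel x v t⟫) := by
  unfold fluxI
  rw [inner_cur hx hxv, sub_cur, inner_smul_right]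
  ring

section rep

variable {m : ℕ} {w : En (m + 2) → ℝ} {G : En (m + 2) → En (m + 2)} {f f' k q : ℝ → ℝ}

theorem coe_polS' (g : En (m + 2) ≃ₗᵢ[ℝ] En (m + 2)) (p : S1 (m + 1) × ℝ) :
    (polS g p : En (m + 2)) = cur (g (pole m)) (dir g (p.1 : En (m + 1))) p.2 := coe_polS g p

theorem norm_gpole (g : En (m + 2) ≃ₗᵢ[ℝ] En (m + 2)) : ‖g (pole m)‖ = 1 := by
  rw [g.norm_map, norm_pole]

theorem norm_dir' (g : En (m + 2) ≃ₗᵢ[ℝ] En (m + 2)) (ω : S1 (m + 1)) :
    ‖dir g (ω : En (m + 1))‖ = 1 := by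
  rw [norm_dir]; simp

theorem aesm_w (hw : SLip w G) :
    Measurable fun y : S1 (m + 2) => w (y : En (m + 2)) := by
  obtain ⟨K, hK⟩ := hw.lip
  have : Continuous fun y : S1 (m + 2) => w (y : En (m + 2)) :=
    hK.continuousOn.comp_continuous continuous_subtype_val fun y => y.2
  exact this.measurable

theorem bdd_w (hw : SLip w G) : ∃ M : ℝ, 0 ≤ M ∧ ∀ y : S1 (m + 2), |w (y : En (m + 2))| ≤ M := by
  obtain ⟨K, hK⟩ := hw.lip
  have : ContinuousOn w (sphere (0 : En (m + 2)) 1) := hK.continuousOn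
  obtain ⟨M, hM⟩ := (isCompact_sphere (0 : En (m + 2)) 1).exists_bound_of_continuousOn this
  refine ⟨M, (norm_nonneg _).trans (hM (pole m) (by simp [norm_pole])), fun y => ?_⟩
  exact hM y y.2

theorem integrable_fluxI (hp : Prof m f f' k q) (hw : SLip w G) {x : En (m + 2)}
    (hx : ‖x‖ = 1) :
    Integrable (fun y : S1 (m + 2) => fluxI k G x (y : En (m + 2))) (muS (m + 2)) := by
  obtain ⟨g, rfl⟩ := exists_rot hx
  obtain ⟨L, hL⟩ := hw.bdd
  have hm : Measurable fun y : S1 (m + 2) => fluxI k G (g (pole m)) (y : En (m + 2)) :=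
    (measurable_fluxI hp.km hw.meas).comp (by fun_prop :
      Measurable fun y : S1 (m + 2) => ((g (pole m), (y : En (m + 2))) : En (m + 2) × En (m + 2)))
  rw [← (mp_polS g).integrable_comp hm.aestronglyMeasurable]
  have hb : Integrable (fun t => |k (Real.cos t) * Real.sin t| * |L|) (nuT m) := by
    refine Integrable.mul_const ?_ _
    rw [integrable_nuT]
    have h0 : IntegrableOn (fun t => |f t|) (Ioo (0 : ℝ) Real.pi) := (integrableOn_prof0 hp.ac).abs
    refine h0.congr_fun (fun t ht => ?_) measurableSet_Ioo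
    have hs : 0 < Real.sin t := Real.sin_pos_of_pos_of_lt_pi ht.1 ht.2
    show |f t| = _
    rw [← hp.hk t ht, abs_mul, abs_mul, abs_of_pos hs, abs_of_pos (pow_pos hs _), pow_succ]
    ring
  refine Integrable.mono' (hb.comp_snd (muS (m + 1)))
    ((hm.comp (continuous_polS g).measurable).aestronglyMeasurable) ?_
  have hL' : ∀ᵐ p ∂((muS (m + 1)).prod (nuT m)), ‖G (polS g p : En (m + 2))‖ ≤ L :=
    (mp_polS g).quasiMeasurePreserving.ae hL
  filter_upwards [hL'] with p hp'
  show |fluxI k G (g (pole m)) (polS g p : En (m + 2))| ≤ _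
  rw [coe_polS'] at hp' ⊢
  rw [fluxI_cur (norm_gpole g) (inner_pole_dir g _), abs_neg, abs_mul]
  refine mul_le_mul_of_nonneg_left ?_ (abs_nonneg _)
  refine (abs_real_inner_le_norm _ _).trans ?_
  rw [norm_vel (norm_gpole g) (norm_dir' g _) (inner_pole_dir g _), mul_one]
  exact hp'.trans (le_abs_self L)

theorem integrable_q (hp : Prof m f f' k q) (hw : SLip w G) {x : En (m + 2)}
    (hx : ‖x‖ = 1) :
    Integrable (fun y : S1 (m + 2) => q ⟪x, (y : En (m + 2))⟫ * w (y : En (m + 2)))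
      (muS (m + 2)) := by
  obtain ⟨g, rfl⟩ := exists_rot hx
  obtain ⟨M, hM0, hM⟩ := bdd_w hw
  have hm : Measurable fun y : S1 (m + 2) => q ⟪g (pole m), (y : En (m + 2))⟫ *
      w (y : En (m + 2)) :=
    (hp.qm.comp (by fun_prop : Measurable fun y : S1 (m + 2) =>
      (⟪g (pole m), (y : En (m + 2))⟫ : ℝ))).mul (aesm_w hw)
  rw [← (mp_polS g).integrable_comp hm.aestronglyMeasurable]
  have hb : Integrable (fun t => |q (Real.cos t)| * M) (nuT m) := by
    refine Integrable.mul_const ?_ _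
    rw [integrable_nuT]
    have h0 : IntegrableOn (fun t => |f' t|) (Ioo (0 : ℝ) Real.pi) :=
      (integrableOn_prof hp.ac hp.der).abs
    refine h0.congr_fun (fun t ht => ?_) measurableSet_Ioo
    have hs : 0 < Real.sin t := Real.sin_pos_of_pos_of_lt_pi ht.1 ht.2
    show |f' t| = _
    rw [← hp.hq t ht, abs_mul, abs_of_pos (pow_pos hs _)]
    ring
  refine Integrable.mono' (hb.comp_snd (muS (m + 1)))
    ((hm.comp (continuous_polS g).measurable).aestronglyMeasurable)
    (Eventually.of_forall fun p => ?_)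
  show |q ⟪g (pole m), (polS g p : En (m + 2))⟫ * w (polS g p : En (m + 2))| ≤ _
  have h1 := hM (polS g p)
  rw [abs_mul]
  have h2 : (⟪g (pole m), (polS g p : En (m + 2))⟫ : ℝ) = Real.cos p.2 := by
    rw [coe_polS', inner_cur (norm_gpole g) (inner_pole_dir g _)]
  rw [h2]
  exact mul_le_mul_of_nonneg_left h1 (abs_nonneg _)

/-- the zonal representation formula at the pole `g e` -/
theorem rep_aux (hp : Prof m f f' k q) (hw : SLip w G) (g : En (m + 2) ≃ₗᵢ[ℝ] En (m + 2)) :
    ∫ y : S1 (m + 2), fluxI k G (g (pole m)) (y : En (m + 2)) ∂(muS (m + 2))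
      = (muS (m + 1)).real univ * (f 0 * w (g (pole m)) - f Real.pi * w (-(g (pole m))))
        + ∫ y : S1 (m + 2), q ⟪g (pole m), (y : En (m + 2))⟫ * w (y : En (m + 2))
          ∂(muS (m + 2)) := by
  have hx := norm_gpole g
  have i1 := integrable_fluxI hp hw hx
  have i2 := integrable_q hp hw hx
  have j1 := (mp_polS g).integrable_comp_of_integrable i1
  have j2 := (mp_polS g).integrable_comp_of_integrable i2
  rw [integral_polS g i1.aestronglyMeasurable, integral_polS g i2.aestronglyMeasurable]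
  have hc1 : ((fun y : S1 (m + 2) => fluxI k G (g (pole m)) (y : En (m + 2))) ∘ polS g)
    = fun p : S1 (m + 1) × ℝ => fluxI k G (g (pole m)) (polS g p : En (m + 2)) := rfl
  have hc2 : ((fun y : S1 (m + 2) => q ⟪g (pole m), (y : En (m + 2))⟫ *
      w (y : En (m + 2))) ∘ polS g)
    = fun p : S1 (m + 1) × ℝ => q ⟪g (pole m), (polS g p : En (m + 2))⟫ *
      w (polS g p : En (m + 2)) := rfl
  rw [hc1] at j1
  rw [hc2] at j2
  rw [integral_prod _ j1, integral_prod _ j2]
  obtain ⟨K, hK⟩ := hw.lip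
  -- derivative along almost every great circle
  have hder : ∀ᵐ ω ∂(muS (m + 1)), ∀ᵐ t ∂(nuT m),
      HasFDerivWithinAt w (innerSL ℝ (G (polS g (ω, t) : En (m + 2)))) (sphere 0 1)
        (polS g (ω, t) : En (m + 2)) :=
    Measure.ae_ae_of_ae_prod ((mp_polS g).quasiMeasurePreserving.ae hw.der)
  have key : ∀ᵐ ω ∂(muS (m + 1)),
      ∫ t, fluxI k G (g (pole m)) (polS g (ω, t) : En (m + 2)) ∂(nuT m)
      = (f 0 * w (g (pole m)) - f Real.pi * w (-(g (pole m))))
        + ∫ t, q ⟪g (pole m), (polS g (ω, t) : En (m + 2))⟫ *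
          w (polS g (ω, t) : En (m + 2)) ∂(nuT m) := by
    filter_upwards [hder] with ω hω
    rw [ae_nuT_iff] at hω
    have hv := norm_dir' g ω
    have hxv := inner_pole_dir g (ω : En (m + 1))
    set x := g (pole m) with hxdef
    set v := dir g (ω : En (m + 1)) with hvdef
    have hpc : ∀ t : ℝ, (polS g (ω, t) : En (m + 2)) = cur x v t := fun t => coe_polS' g (ω, t)
    simp only [hpc] at hω ⊢
    have hsp : ∀ t : ℝ, cur x v t ∈ sphere (0 : En (m + 2)) 1 := fun t => by
      rw [mem_sphere_zero_iff_norm]; exact norm_cur hx hv hxv t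
    have hφ : LipschitzWith K fun t => w (cur x v t) := by
      have h1 := hK.comp (lipschitz_cur hx hv hxv).lipschitzOnWith
        (fun t (_ : t ∈ (univ : Set ℝ)) => hsp t)
      rw [mul_one] at h1
      exact lipschitzOnWith_univ.1 h1
    have hD : ∀ᵐ t ∂(volume : Measure ℝ), t ∈ Ioo (0 : ℝ) Real.pi →
        HasDerivAt (fun t => w (cur x v t)) (⟪G (cur x v t), vel x v t⟫) t := by
      filter_upwards [hω] with t ht h'
      exact (ht h').comp_hasDerivAt t (hasDerivAt_cur x v t) (Eventually.of_forall hsp)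
    have h2 := ibp1 hp.ac hp.der hφ hD
    rw [integral_nuT, integral_nuT]
    have e1 : ∫ t in Ioo (0 : ℝ) Real.pi, Real.sin t ^ m * fluxI k G x (cur x v t)
        = -∫ t in Ioo (0 : ℝ) Real.pi, f t * ⟪G (cur x v t), vel x v t⟫ := by
      rw [← integral_neg]
      refine setIntegral_congr_fun measurableSet_Ioo fun t ht => ?_
      show Real.sin t ^ m * fluxI k G x (cur x v t) = -(f t * ⟪G (cur x v t), vel x v t⟫)
      rw [fluxI_cur hx hxv, ← hp.hk t ht]
      ring
    have e2 : ∫ t in Ioo (0 : ℝ) Real.pi, Real.sin t ^ m *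
          (q ⟪x, cur x v t⟫ * w (cur x v t))
        = ∫ t in Ioo (0 : ℝ) Real.pi, f' t * w (cur x v t) := by
      refine setIntegral_congr_fun measurableSet_Ioo fun t ht => ?_
      show Real.sin t ^ m * (q ⟪x, cur x v t⟫ * w (cur x v t)) = f' t * w (cur x v t)
      rw [inner_cur hx hxv, ← hp.hq t ht]
      ring
    have c0 : cur x v 0 = x := by unfold cur; simp
    have c1 : cur x v Real.pi = -x := by unfold cur; simp
    rw [e1, e2, h2, c0, c1]
    ring
  rw [integral_congr_ae key, integral_add (integrable_const _) j2.integral_prod_left,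
    integral_const, smul_eq_mul]

/-- **zonal representation formula** -/
theorem rep (hp : Prof m f f' k q) (hw : SLip w G) {x : En (m + 2)} (hx : ‖x‖ = 1) :
    ∫ y : S1 (m + 2), fluxI k G x (y : En (m + 2)) ∂(muS (m + 2))
      = (muS (m + 1)).real univ * (f 0 * w x - f Real.pi * w (-x))
        + ∫ y : S1 (m + 2), q ⟪x, (y : En (m + 2))⟫ * w (y : En (m + 2)) ∂(muS (m + 2)) := by
  obtain ⟨g, rfl⟩ := exists_rot hx
  exact rep_aux hp hw g

end rep

end Crest.Agent.R246.C378
end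
end

-- ▼ part R246/C4_378
section

/-!
# Row 246, part C (helper378): the bilinear bound for the flux kernel
-/

set_option autoImplicit false

open MeasureTheory MeasureTheory.Measure Set Filter Topology Metric
open scoped ENNReal NNReal RealInnerProductSpace

noncomputable section

namespace Crest.Agent.R246.C378

/-- drop the first coordinate -/
def tl {m : ℕ} (z : En (m + 2)) : En (m + 1) := WithLp.toLp 2 (fun i => z i.succ)

theorem mk1_tl {m : ℕ} (z : En (m + 2)) : mk1 (z 0) (tl z) = z := by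
  ext i
  refine Fin.cases ?_ (fun j => ?_) i <;> simp [tl]

theorem inner_dir {m : ℕ} (g : En (m + 2) ≃ₗᵢ[ℝ] En (m + 2)) (e : En (m + 2))
    (ω : En (m + 1)) : ⟪e, dir g ω⟫ = ⟪tl (g.symm e), ω⟫ := by
  unfold dir
  have h1 : ⟪e, g (mk1 0 ω)⟫ = ⟪g.symm e, mk1 0 ω⟫ := by
    rw [← g.inner_map_map (g.symm e), g.apply_symm_apply]
  rw [h1]
  nth_rewrite 1 [← mk1_tl (g.symm e)]
  rw [inner_mk1]
  ring

theorem norm_tl {m : ℕ} (g : En (m + 2) ≃ₗᵢ[ℝ] En (m + 2)) (e : En (m + 2)) :
    ‖tl (g.symm e)‖ = ‖e - ⟪e, g (pole m)⟫ • g (pole m)‖ := by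
  have h0 : (g.symm e) 0 = ⟪e, g (pole m)⟫ := by
    have h1 : ⟪e, g (pole m)⟫ = ⟪g.symm e, pole m⟫ := by
      rw [← g.inner_map_map (g.symm e), g.apply_symm_apply]
    rw [h1]
    nth_rewrite 2 [← mk1_tl (g.symm e)]
    unfold pole
    rw [inner_mk1]
    simp
  have h2 : ‖e‖ ^ 2 = (⟪e, g (pole m)⟫) ^ 2 + ‖tl (g.symm e)‖ ^ 2 := by
    rw [← h0, ← norm_mk1_sq, mk1_tl, g.symm.norm_map]
  have h3 : ‖e - ⟪e, g (pole m)⟫ • g (pole m)‖ ^ 2 = ‖e‖ ^ 2 - (⟪e, g (pole m)⟫) ^ 2 := by
    rw [norm_sub_sq_real, inner_smul_right, norm_smul, norm_gpole, mul_one, Real.norm_eq_abs,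
      sq_abs]
    ring
  have h4 : ‖tl (g.symm e)‖ ^ 2 = ‖e - ⟪e, g (pole m)⟫ • g (pole m)‖ ^ 2 := by
    rw [h3, h2]; ring
  exact (sq_eq_sq₀ (norm_nonneg _) (norm_nonneg _)).1 h4

theorem integral_sin_pow_cos_left (m : ℕ) :
    ∫ t in (0 : ℝ)..(Real.pi / 2), Real.sin t ^ m * |Real.cos t| = 1 / (m + 1) := by
  have hpi := Real.pi_pos
  have h1 : ∫ t in (0 : ℝ)..(Real.pi / 2), Real.sin t ^ m * |Real.cos t|
      = ∫ t in (0 : ℝ)..(Real.pi / 2), Real.sin t ^ m * Real.cos t := by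
    refine intervalIntegral.integral_congr fun t ht => ?_
    rw [uIcc_of_le (by positivity)] at ht
    show Real.sin t ^ m * |Real.cos t| = Real.sin t ^ m * Real.cos t
    rw [abs_of_nonneg (Real.cos_nonneg_of_neg_pi_div_two_le_of_le (by linarith [ht.1]) ht.2)]
  rw [h1]
  have h2 : ∀ t ∈ uIcc (0 : ℝ) (Real.pi / 2), HasDerivAt (fun t => Real.sin t ^ (m + 1) / (m + 1))
      (Real.sin t ^ m * Real.cos t) t := by
    intro t _
    have h3 := ((Real.hasDerivAt_sin t).pow (m + 1)).div_const ((m : ℝ) + 1)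
    refine h3.congr_deriv ?_
    have : (m : ℝ) + 1 ≠ 0 := by positivity
    push_cast
    field_simp
  rw [intervalIntegral.integral_eq_sub_of_hasDerivAt h2
    ((by fun_prop : Continuous fun t : ℝ => Real.sin t ^ m * Real.cos t).intervalIntegrable _ _)]
  simp

theorem integral_sin_pow_cos_right (m : ℕ) :
    ∫ t in (Real.pi / 2)..Real.pi, Real.sin t ^ m * |Real.cos t| = 1 / (m + 1) := by
  have hpi := Real.pi_pos
  have h1 : ∫ t in (Real.pi / 2)..Real.pi, Real.sin t ^ m * |Real.cos t|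
      = ∫ t in (Real.pi / 2)..Real.pi, -(Real.sin t ^ m * Real.cos t) := by
    refine intervalIntegral.integral_congr fun t ht => ?_
    rw [uIcc_of_le (by linarith)] at ht
    show Real.sin t ^ m * |Real.cos t| = -(Real.sin t ^ m * Real.cos t)
    rw [abs_of_nonpos (Real.cos_nonpos_of_pi_div_two_le_of_le ht.1 (by linarith [ht.2]))]
    ring
  rw [h1]
  have h2 : ∀ t ∈ uIcc (Real.pi / 2) Real.pi,
      HasDerivAt (fun t => -(Real.sin t ^ (m + 1) / (m + 1)))
      (-(Real.sin t ^ m * Real.cos t)) t := by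
    intro t _
    have h3 := ((Real.hasDerivAt_sin t).pow (m + 1)).div_const ((m : ℝ) + 1)
    refine h3.neg.congr_deriv ?_
    have : (m : ℝ) + 1 ≠ 0 := by positivity
    push_cast
    field_simp
  rw [intervalIntegral.integral_eq_sub_of_hasDerivAt h2
    ((by fun_prop : Continuous fun t : ℝ => -(Real.sin t ^ m * Real.cos t)).intervalIntegrable
      _ _)]
  simp

theorem integral_sin_pow_abs_cos (m : ℕ) :
    ∫ t in Ioo (0 : ℝ) Real.pi, Real.sin t ^ m * |Real.cos t| = 2 / (m + 1) := by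
  have hpi := Real.pi_pos
  rw [← integral_Ioc_eq_integral_Ioo, ← intervalIntegral.integral_of_le hpi.le,
    ← intervalIntegral.integral_add_adjacent_intervals (b := Real.pi / 2)
      ((by fun_prop : Continuous fun t : ℝ => Real.sin t ^ m * |Real.cos t|).intervalIntegrable
        _ _)
      ((by fun_prop : Continuous fun t : ℝ => Real.sin t ^ m * |Real.cos t|).intervalIntegrable
        _ _), integral_sin_pow_cos_left, integral_sin_pow_cos_right]
  ring

/-- the mass of the sphere -/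
theorem real_muS_univ (m : ℕ) :
    (muS (m + 2)).real univ
      = (muS (m + 1)).real univ * ∫ t in Ioo (0 : ℝ) Real.pi, Real.sin t ^ m := by
  have h := integral_polS (LinearIsometryEquiv.refl ℝ (En (m + 2)))
    (F := fun _ => (1 : ℝ)) aestronglyMeasurable_const
  rw [integral_const, smul_eq_mul, mul_one] at h
  rw [h, integral_prod _ (integrable_const _)]
  have h2 : ∫ _t : ℝ, (1 : ℝ) ∂(nuT m) = ∫ t in Ioo (0 : ℝ) Real.pi, Real.sin t ^ m := by
    rw [integral_nuT]
    simp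
  rw [h2, integral_const, smul_eq_mul]

/-- the first absolute moment -/
theorem absmom {m : ℕ} (e : En (m + 2)) :
    ∫ ω : S1 (m + 2), |⟪e, (ω : En (m + 2))⟫| ∂(muS (m + 2))
      = ‖e‖ * (2 / (m + 1) * (muS (m + 1)).real univ) := by
  rcases eq_or_ne e 0 with rfl | he
  · simp
  have hn : ‖e‖ ≠ 0 := norm_ne_zero_iff.2 he
  obtain ⟨g, hg⟩ := exists_rot (x := ‖e‖⁻¹ • e) (by rw [norm_smul, norm_inv, norm_norm,
    inv_mul_cancel₀ hn])
  have he' : e = ‖e‖ • g (pole m) := by rw [hg, smul_smul, mul_inv_cancel₀ hn, one_smul]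
  have hc : Continuous fun ω : S1 (m + 2) => |⟪e, (ω : En (m + 2))⟫| := by fun_prop
  rw [integral_polS g hc.aestronglyMeasurable]
  have h1 : ∀ p : S1 (m + 1) × ℝ, |⟪e, (polS g p : En (m + 2))⟫| = ‖e‖ * |Real.cos p.2| := by
    intro p
    rw [coe_polS']
    nth_rewrite 1 [he']
    rw [inner_smul_left, inner_cur (norm_gpole g) (inner_pole_dir g _)]
    simp
  simp only [h1]
  rw [integral_fun_snd (f := fun t : ℝ => ‖e‖ * |Real.cos t|), integral_const_mul, integral_nuT,
    integral_sin_pow_abs_cos, smul_eq_mul]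
  ring

theorem lintegral_absmom {m : ℕ} (e : En (m + 2)) :
    ∫⁻ ω : S1 (m + 2), ‖(⟪e, (ω : En (m + 2))⟫ : ℝ)‖ₑ ∂(muS (m + 2))
      = ENNReal.ofReal (‖e‖ * (2 / (m + 1) * (muS (m + 1)).real univ)) := by
  have hc : Continuous fun ω : S1 (m + 2) => |⟪e, (ω : En (m + 2))⟫| := by fun_prop
  have hi : Integrable (fun ω : S1 (m + 2) => |⟪e, (ω : En (m + 2))⟫|) (muS (m + 2)) := by
    refine Integrable.of_bound hc.aestronglyMeasurable ‖e‖ (Eventually.of_forall fun ω => ?_)
    rw [Real.norm_eq_abs, abs_abs]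
    refine (abs_real_inner_le_norm _ _).trans ?_
    simp
  rw [← absmom, ofReal_integral_eq_lintegral_ofReal hi (Eventually.of_forall fun ω =>
    abs_nonneg _)]
  refine lintegral_congr fun ω => ?_
  exact (Real.enorm_eq_ofReal_abs _)

section bil

variable {m : ℕ} {w : En (m + 3) → ℝ} {G : En (m + 3) → En (m + 3)} {f f' k q : ℝ → ℝ}

/-- the inner integral over the pole variable -/
theorem lintegral_pole (hp : Prof (m + 1) f f' k q) {y : En (m + 3)} (hy : ‖y‖ = 1)
    (G : En (m + 3) → En (m + 3)) :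
    ∫⁻ x : S1 (m + 3), ‖fluxI k G (x : En (m + 3)) y‖ₑ ∂(muS (m + 3))
      = ENNReal.ofReal ((∫ t in Ioo (0 : ℝ) Real.pi, |f t|) *
        (2 / (m + 1) * (muS (m + 1)).real univ) * ‖gT G y‖) := by
  obtain ⟨g, rfl⟩ := exists_rot hy
  have hm : Measurable fun x : S1 (m + 3) => ‖fluxI k G (x : En (m + 3)) (g (pole (m + 1)))‖ₑ := by
    have h1 : Measurable fun x : S1 (m + 3) =>
        fluxI k G (x : En (m + 3)) (g (pole (m + 1))) := by
      unfold fluxI
      have h2 : Measurable fun x : S1 (m + 3) =>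
          (⟪(x : En (m + 3)), g (pole (m + 1))⟫ : ℝ) := by fun_prop
      refine (hp.km.comp h2).mul ?_
      fun_prop
    exact h1.enorm
  rw [← (mp_polS g).lintegral_comp hm]
  have h3 : ∀ p : S1 (m + 2) × ℝ,
      ‖fluxI k G (polS g p : En (m + 3)) (g (pole (m + 1)))‖ₑ
        = ‖(⟪tl (g.symm (G (g (pole (m + 1))))), (p.1 : En (m + 2))⟫ : ℝ)‖ₑ *
          ‖k (Real.cos p.2) * Real.sin p.2‖ₑ := by
    intro p
    rw [coe_polS']
    unfold fluxI
    rw [real_inner_comm, inner_cur (norm_gpole g) (inner_pole_dir g _)]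
    have h4 : cur (g (pole (m + 1))) (dir g (p.1 : En (m + 2))) p.2
        - Real.cos p.2 • g (pole (m + 1)) = Real.sin p.2 • dir g (p.1 : En (m + 2)) := by
      unfold cur; module
    rw [h4, inner_smul_right, inner_dir, ← enorm_mul]
    congr 1
    ring
  simp only [h3]
  have hm1 : Measurable fun ω : S1 (m + 2) =>
      ‖(⟪tl (g.symm (G (g (pole (m + 1))))), (ω : En (m + 2))⟫ : ℝ)‖ₑ := by
    have : Measurable fun ω : S1 (m + 2) =>
      (⟪tl (g.symm (G (g (pole (m + 1))))), (ω : En (m + 2))⟫ : ℝ) := by fun_prop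
    exact this.enorm
  have hm2 : Measurable fun t : ℝ => ‖k (Real.cos t) * Real.sin t‖ₑ := by
    have : Measurable fun t : ℝ => k (Real.cos t) * Real.sin t :=
      (hp.km.comp Real.measurable_cos).mul Real.measurable_sin
    exact this.enorm
  rw [lintegral_prod_mul hm1.aemeasurable hm2.aemeasurable, lintegral_absmom, norm_tl,
    lintegral_nuT _ hm2]
  have h5 : ∫⁻ t in Ioo (0 : ℝ) Real.pi, ENNReal.ofReal (Real.sin t ^ (m + 1)) *
      ‖k (Real.cos t) * Real.sin t‖ₑ = ENNReal.ofReal (∫ t in Ioo (0 : ℝ) Real.pi, |f t|) := by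
    rw [ofReal_integral_eq_lintegral_ofReal (integrableOn_prof0 hp.ac).abs
      (Eventually.of_forall fun t => abs_nonneg _)]
    refine setLIntegral_congr_fun measurableSet_Ioo fun t ht => ?_
    have hs : 0 < Real.sin t := Real.sin_pos_of_pos_of_lt_pi ht.1 ht.2
    show ENNReal.ofReal (Real.sin t ^ (m + 1)) * ‖k (Real.cos t) * Real.sin t‖ₑ
      = ENNReal.ofReal |f t|
    rw [Real.enorm_eq_ofReal_abs, ← ENNReal.ofReal_mul (by positivity), ← hp.hk t ht]
    congr 1
    rw [abs_mul, abs_mul, abs_of_pos hs, abs_of_pos (pow_pos hs _), pow_succ]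
    ring
  have h6 : 0 ≤ ∫ t in Ioo (0 : ℝ) Real.pi, |f t| := integral_nonneg fun t => abs_nonneg _
  rw [h5, ← ENNReal.ofReal_mul (by positivity)]
  congr 1
  unfold gT
  ring

theorem norm_gT_le (G : En (m + 3) → En (m + 3)) {y : En (m + 3)} (hy : ‖y‖ = 1) :
    ‖gT G y‖ ≤ ‖G y‖ := by
  have h3 : ‖gT G y‖ ^ 2 = ‖G y‖ ^ 2 - (⟪G y, y⟫) ^ 2 := by
    unfold gT
    rw [norm_sub_sq_real, inner_smul_right, norm_smul, hy, mul_one, Real.norm_eq_abs, sq_abs]
    ring
  nlinarith [norm_nonneg (gT G y), norm_nonneg (G y), sq_nonneg (⟪G y, y⟫)]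

theorem integrable_gT (hw : SLip w G) :
    Integrable (fun y : S1 (m + 3) => ‖gT G (y : En (m + 3))‖) (muS (m + 3)) := by
  obtain ⟨L, hL⟩ := hw.bdd
  have hm : Measurable fun y : S1 (m + 3) => gT G (y : En (m + 3)) := by
    have h1 : Measurable fun y : S1 (m + 3) => G (y : En (m + 3)) :=
      hw.meas.comp measurable_subtype_coe
    have h2 : Measurable fun y : S1 (m + 3) => (⟪G (y : En (m + 3)), (y : En (m + 3))⟫ : ℝ) :=
      h1.inner measurable_subtype_coe
    have h3 : Measurable fun y : S1 (m + 3) =>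
        (⟪G (y : En (m + 3)), (y : En (m + 3))⟫ : ℝ) • (y : En (m + 3)) :=
      Measurable.smul h2 measurable_subtype_coe
    exact h1.sub h3
  refine Integrable.of_bound hm.norm.aestronglyMeasurable L ?_
  filter_upwards [hL] with y hy
  rw [norm_norm]
  exact (norm_gT_le G (by simp)).trans hy

/-- **bilinear bound** -/
theorem bilin (hp : Prof (m + 1) f f' k q) (hw : SLip w G) {u : S1 (m + 3) → ℝ}
    (hu : ∀ x, |u x| ≤ 1) :
    |∫ x : S1 (m + 3), u x * ∫ y : S1 (m + 3), fluxI k G (x : En (m + 3)) (y : En (m + 3))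
        ∂(muS (m + 3)) ∂(muS (m + 3))|
      ≤ (∫ t in Ioo (0 : ℝ) Real.pi, |f t|) * (2 / (m + 1) * (muS (m + 1)).real univ) *
        ∫ y : S1 (m + 3), ‖gT G (y : En (m + 3))‖ ∂(muS (m + 3)) := by
  set C : ℝ := (∫ t in Ioo (0 : ℝ) Real.pi, |f t|) * (2 / (m + 1) * (muS (m + 1)).real univ)
    with hC
  have h6 : 0 ≤ ∫ t in Ioo (0 : ℝ) Real.pi, |f t| := integral_nonneg fun t => abs_nonneg _
  have hC0 : 0 ≤ C := by rw [hC]; positivity
  have hI0 : 0 ≤ ∫ y : S1 (m + 3), ‖gT G (y : En (m + 3))‖ ∂(muS (m + 3)) :=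
    integral_nonneg fun y => norm_nonneg _
  have hmeas : Measurable fun p : S1 (m + 3) × S1 (m + 3) =>
      fluxI k G (p.1 : En (m + 3)) (p.2 : En (m + 3)) :=
    (measurable_fluxI hp.km hw.meas).comp (by fun_prop :
      Measurable fun p : S1 (m + 3) × S1 (m + 3) =>
        (((p.1 : En (m + 3)), (p.2 : En (m + 3))) : En (m + 3) × En (m + 3)))
  rw [← ENNReal.ofReal_le_ofReal_iff (mul_nonneg hC0 hI0)]
  rw [← Real.enorm_eq_ofReal_abs]
  refine (enorm_integral_le_lintegral_enorm _).trans ?_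
  have step1 : ∀ x : S1 (m + 3), ‖u x * ∫ y : S1 (m + 3),
      fluxI k G (x : En (m + 3)) (y : En (m + 3)) ∂(muS (m + 3))‖ₑ
      ≤ ∫⁻ y : S1 (m + 3), ‖fluxI k G (x : En (m + 3)) (y : En (m + 3))‖ₑ ∂(muS (m + 3)) := by
    intro x
    rw [enorm_mul]
    have h1 : ‖u x‖ₑ ≤ 1 := by
      rw [Real.enorm_eq_ofReal_abs, ENNReal.ofReal_le_one]
      exact hu x
    calc ‖u x‖ₑ * ‖∫ y : S1 (m + 3), fluxI k G (x : En (m + 3)) (y : En (m + 3))
          ∂(muS (m + 3))‖ₑ
        ≤ 1 * ∫⁻ y : S1 (m + 3), ‖fluxI k G (x : En (m + 3)) (y : En (m + 3))‖ₑ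
          ∂(muS (m + 3)) := mul_le_mul' h1 (enorm_integral_le_lintegral_enorm _)
      _ = _ := one_mul _
  refine (lintegral_mono step1).trans ?_
  rw [lintegral_lintegral_swap hmeas.enorm.aemeasurable]
  have step2 : ∀ y : S1 (m + 3),
      ∫⁻ x : S1 (m + 3), ‖fluxI k G (x : En (m + 3)) (y : En (m + 3))‖ₑ ∂(muS (m + 3))
        = ENNReal.ofReal (C * ‖gT G (y : En (m + 3))‖) := fun y => by
    rw [lintegral_pole hp (by simp) G]
  rw [lintegral_congr step2, ← ofReal_integral_eq_lintegral_ofReal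
    ((integrable_gT hw).const_mul C) (Eventually.of_forall fun y =>
      mul_nonneg hC0 (norm_nonneg _)), integral_const_mul]

/-- **the kernel inequality, general profile**: the function `w` annihilates the kernel `q`. -/
theorem kernel_ineq (hp : Prof (m + 1) f f' k q) (h0 : f 0 = 1) (hpi : f Real.pi = 0)
    (hw : SLip w G)
    (hq : ∀ x : En (m + 3), ‖x‖ = 1 →
      ∫ y : S1 (m + 3), q ⟪x, (y : En (m + 3))⟫ * w (y : En (m + 3)) ∂(muS (m + 3)) = 0)
    {u : S1 (m + 3) → ℝ} (hu : ∀ x, |u x| ≤ 1) :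
    (muS (m + 2)).real univ * |∫ x : S1 (m + 3), u x * w (x : En (m + 3)) ∂(muS (m + 3))|
      ≤ (∫ t in Ioo (0 : ℝ) Real.pi, |f t|) * (2 / (m + 1) * (muS (m + 1)).real univ) *
        ∫ y : S1 (m + 3), ‖gT G (y : En (m + 3))‖ ∂(muS (m + 3)) := by
  have h1 : ∀ x : S1 (m + 3), ∫ y : S1 (m + 3), fluxI k G (x : En (m + 3)) (y : En (m + 3))
      ∂(muS (m + 3)) = (muS (m + 2)).real univ * w (x : En (m + 3)) := by
    intro x
    rw [rep hp hw (by simp), hq _ (by simp), h0, hpi]
    ring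
  have h2 := bilin hp hw hu
  simp only [h1] at h2
  have h3 : ∫ x : S1 (m + 3), u x * ((muS (m + 2)).real univ * w (x : En (m + 3)))
      ∂(muS (m + 3))
      = (muS (m + 2)).real univ * ∫ x : S1 (m + 3), u x * w (x : En (m + 3)) ∂(muS (m + 3)) := by
    rw [← integral_const_mul]
    refine integral_congr_ae (Eventually.of_forall fun x => ?_)
    show u x * _ = _ * (u x * _)
    ring
  rw [h3, abs_mul, abs_of_nonneg measureReal_nonneg] at h2
  exact h2

end bil

end Crest.Agent.R246.C378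
end
end

-- ▼ part R246/C5_378

/-!
# Row 246, part C (helper378): the optimal profile and its constants

`κ m = π / (2 J m)`, `1 < κ m` and `κ 1 = π/2`.  Main theorem `balanced_ineq`: if `w` is
Lipschitz on `S^{m+1}` (`m ≥ 1`) and `∫ w = 0`, `∫ w(y) y = 0`, then
`2 κ_m |S^m| ∫ |w| ≤ |S^{m+1}| ∫ |∇_T w|`.
-/

set_option autoImplicit false

open MeasureTheory MeasureTheory.Measure Set Filter Topology Metric
open scoped ENNReal NNReal RealInnerProductSpace

noncomputable section

namespace Crest.Agent.R246.C378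

/-- `A m = ∫_0^π sin^m` -/
def Am (m : ℕ) : ℝ := ∫ t in (0 : ℝ)..Real.pi, Real.sin t ^ m

theorem Am_zero : Am 0 = Real.pi := by simp [Am]

theorem Am_one : Am 1 = 2 := by
  unfold Am; simp only [pow_one]; rw [integral_sin]; norm_num

theorem Am_succ (m : ℕ) : (m + 2 : ℝ) * Am (m + 2) = (m + 1) * Am m := by
  unfold Am
  rw [integral_sin_pow]
  simp
  field_simp

theorem Am_mul (m : ℕ) : (m + 1 : ℝ) * (Am m * Am (m + 1)) = 2 * Real.pi := by
  induction m with
  | zero => rw [Am_zero, Am_one]; push_cast; ring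
  | succ m ih =>
    have h := Am_succ m
    push_cast
    calc ((m : ℝ) + 1 + 1) * (Am (m + 1) * Am (m + 1 + 1))
        = Am (m + 1) * ((m + 2 : ℝ) * Am (m + 2)) := by ring_nf
      _ = (m + 1 : ℝ) * (Am m * Am (m + 1)) := by rw [h]; ring
      _ = _ := ih

theorem Am_pos (m : ℕ) : 0 < Am m := integral_sin_pow_pos m

theorem Am_eq (m : ℕ) : Am m = ∫ t in Ioo (0 : ℝ) Real.pi, Real.sin t ^ m := by
  unfold Am
  rw [intervalIntegral.integral_of_le Real.pi_pos.le, integral_Ioc_eq_integral_Ioo]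

/-- the normalised distribution function -/
def Fm (m : ℕ) (t : ℝ) : ℝ := (∫ s in (0 : ℝ)..t, Real.sin s ^ m) / Am m

theorem hasDerivAt_Fm (m : ℕ) (t : ℝ) : HasDerivAt (Fm m) (Real.sin t ^ m / Am m) t := by
  have h : HasDerivAt (fun t => ∫ s in (0 : ℝ)..t, Real.sin s ^ m) (Real.sin t ^ m) t :=
    intervalIntegral.integral_hasDerivAt_right
      ((by fun_prop : Continuous fun s : ℝ => Real.sin s ^ m).intervalIntegrable _ _)
      ((by fun_prop : Continuous fun s : ℝ => Real.sin s ^ m).stronglyMeasurableAtFilter _ _)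
      (by fun_prop : Continuous fun s : ℝ => Real.sin s ^ m).continuousAt
  exact h.div_const _

theorem Fm_zero (m : ℕ) : Fm m 0 = 0 := by simp [Fm]

theorem Fm_pi (m : ℕ) : Fm m Real.pi = 1 := by
  unfold Fm
  exact div_self (Am_pos m).ne'

theorem Fm_symm (m : ℕ) (t : ℝ) : Fm m (Real.pi - t) = 1 - Fm m t := by
  have h1 : ∫ s in (0 : ℝ)..(Real.pi - t), Real.sin s ^ m
      = ∫ s in t..Real.pi, Real.sin s ^ m := by
    have := intervalIntegral.integral_comp_sub_left (a := t) (b := Real.pi)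
      (fun s => Real.sin s ^ m) Real.pi
    simp only [Real.sin_pi_sub, sub_self] at this
    exact this.symm
  have h2 : (∫ s in (0 : ℝ)..t, Real.sin s ^ m) + ∫ s in t..Real.pi, Real.sin s ^ m = Am m :=
    intervalIntegral.integral_add_adjacent_intervals
      ((by fun_prop : Continuous fun s : ℝ => Real.sin s ^ m).intervalIntegrable _ _)
      ((by fun_prop : Continuous fun s : ℝ => Real.sin s ^ m).intervalIntegrable _ _)
  have h3 := (Am_pos m).ne'
  unfold Fm
  rw [h1, eq_sub_iff_add_eq, ← add_div, add_comm, h2, div_self h3]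

theorem Fm_half (m : ℕ) : Fm m (Real.pi / 2) = 1 / 2 := by
  have h := Fm_symm m (Real.pi / 2)
  have h2 : Real.pi - Real.pi / 2 = Real.pi / 2 := by ring
  rw [h2] at h
  linarith

/-- the flux profile -/
def fm (m : ℕ) (t : ℝ) : ℝ := 1 - Fm m t - 1 / 2 * Real.sin t ^ (m + 1)

/-- its derivative -/
def fm' (m : ℕ) (t : ℝ) : ℝ :=
  Real.sin t ^ m * (-(1 / Am m) - (m + 1) / 2 * Real.cos t)

theorem hasDerivAt_fm (m : ℕ) (t : ℝ) : HasDerivAt (fm m) (fm' m t) t := by
  have h1 := ((hasDerivAt_Fm m t).const_sub 1).sub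
    (((Real.hasDerivAt_sin t).pow (m + 1)).const_mul (1 / 2 : ℝ))
  refine h1.congr_deriv ?_
  unfold fm'
  push_cast
  ring


theorem continuous_fm (m : ℕ) : Continuous (fm m) :=
  continuous_iff_continuousAt.2 fun t => (hasDerivAt_fm m t).continuousAt

theorem lipschitz_fm (m : ℕ) : LipschitzWith (Real.toNNReal (1 / Am m + (m + 1) / 2)) (fm m) := by
  refine lipschitzWith_of_nnnorm_deriv_le (fun t => (hasDerivAt_fm m t).differentiableAt) ?_
  intro t
  have hA := Am_pos m
  rw [(hasDerivAt_fm m t).deriv, ← NNReal.coe_le_coe, Real.coe_toNNReal _ (by positivity),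
    coe_nnnorm, Real.norm_eq_abs]
  unfold fm'
  rw [abs_mul, abs_pow]
  have h1 : |Real.sin t| ^ m ≤ 1 := pow_le_one₀ (abs_nonneg _) (Real.abs_sin_le_one t)
  have h2 : |(-(1 / Am m) - (m + 1) / 2 * Real.cos t)| ≤ 1 / Am m + (m + 1) / 2 := by
    have h3 := Real.abs_cos_le_one t
    rw [abs_le] at h3 ⊢
    have h4 : (0 : ℝ) ≤ (m + 1) / 2 := by positivity
    have h5 : 0 ≤ 1 / Am m := by positivity
    constructor <;> nlinarith
  calc |Real.sin t| ^ m * |(-(1 / Am m) - (m + 1) / 2 * Real.cos t)|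
      ≤ 1 * (1 / Am m + (m + 1) / 2) := mul_le_mul h1 h2 (abs_nonneg _) zero_le_one
    _ = _ := one_mul _

theorem fm_zero (m : ℕ) : fm m 0 = 1 := by simp [fm, Fm_zero]

theorem fm_pi (m : ℕ) : fm m Real.pi = 0 := by simp [fm, Fm_pi]

theorem fm_half (m : ℕ) : fm m (Real.pi / 2) = 0 := by
  unfold fm
  rw [Fm_half, Real.sin_pi_div_two, one_pow]
  norm_num

theorem fm_symm (m : ℕ) (t : ℝ) : fm m t - fm m (Real.pi - t) = 1 - 2 * Fm m t := by
  unfold fm
  rw [Fm_symm, Real.sin_pi_sub]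
  ring

theorem fm_nonneg (m : ℕ) {t : ℝ} (h0 : 0 ≤ t) (h1 : t ≤ Real.pi / 2) : 0 ≤ fm m t := by
  have hpi := Real.pi_pos
  have hanti : AntitoneOn (fm m) (Icc 0 (Real.pi / 2)) := by
    refine antitoneOn_of_deriv_nonpos (convex_Icc _ _) (continuous_fm m).continuousOn
      (fun t _ => (hasDerivAt_fm m t).differentiableAt.differentiableWithinAt) ?_
    intro t ht
    rw [interior_Icc] at ht
    rw [(hasDerivAt_fm m t).deriv]
    unfold fm'
    have hA := Am_pos m
    have hs : 0 < Real.sin t := Real.sin_pos_of_pos_of_lt_pi ht.1 (by linarith [ht.2])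
    have hc : 0 ≤ Real.cos t :=
      Real.cos_nonneg_of_neg_pi_div_two_le_of_le (by linarith [ht.1]) ht.2.le
    have h5 : 0 ≤ 1 / Am m := by positivity
    have h6 : 0 ≤ (m + 1 : ℝ) / 2 * Real.cos t := by positivity
    have h7 : 0 < Real.sin t ^ m := by positivity
    nlinarith
  have h2 := hanti (show t ∈ Icc 0 (Real.pi / 2) from ⟨h0, h1⟩)
    (show Real.pi / 2 ∈ Icc 0 (Real.pi / 2) from ⟨by positivity, le_rfl⟩) h1
  rwa [fm_half] at h2

theorem fm_nonpos (m : ℕ) {t : ℝ} (h0 : Real.pi / 2 ≤ t) (h1 : t ≤ Real.pi) : fm m t ≤ 0 := by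
  have hpi := Real.pi_pos
  have hA := Am_pos m
  by_cases hc : -(1 / Am m) - (m + 1) / 2 * Real.cos t ≤ 0
  · -- decreasing on `[π/2, t]`
    have hanti : AntitoneOn (fm m) (Icc (Real.pi / 2) t) := by
      refine antitoneOn_of_deriv_nonpos (convex_Icc _ _) (continuous_fm m).continuousOn
        (fun t _ => (hasDerivAt_fm m t).differentiableAt.differentiableWithinAt) ?_
      intro s hs
      rw [interior_Icc] at hs
      rw [(hasDerivAt_fm m s).deriv]
      unfold fm'
      have hs1 : 0 ≤ Real.sin s :=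
        Real.sin_nonneg_of_nonneg_of_le_pi (by linarith [hs.1]) (by linarith [hs.2])
      have hcos : Real.cos t ≤ Real.cos s :=
        Real.cos_le_cos_of_nonneg_of_le_pi (by linarith [hs.1]) h1 hs.2.le
      have h7 : 0 ≤ Real.sin s ^ m := by positivity
      have h8 : -(1 / Am m) - (m + 1) / 2 * Real.cos s ≤ 0 := by
        have : (m + 1 : ℝ) / 2 * Real.cos t ≤ (m + 1) / 2 * Real.cos s :=
          mul_le_mul_of_nonneg_left hcos (by positivity)
        linarith
      exact mul_nonpos_of_nonneg_of_nonpos h7 h8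
    have h2 := hanti (show Real.pi / 2 ∈ Icc (Real.pi / 2) t from ⟨le_rfl, h0⟩)
      (show t ∈ Icc (Real.pi / 2) t from ⟨h0, le_rfl⟩) h0
    rwa [fm_half] at h2
  · -- increasing on `[t, π]`
    have hmono : MonotoneOn (fm m) (Icc t Real.pi) := by
      refine monotoneOn_of_deriv_nonneg (convex_Icc _ _) (continuous_fm m).continuousOn
        (fun t _ => (hasDerivAt_fm m t).differentiableAt.differentiableWithinAt) ?_
      intro s hs
      rw [interior_Icc] at hs
      rw [(hasDerivAt_fm m s).deriv]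
      unfold fm'
      have hs1 : 0 ≤ Real.sin s :=
        Real.sin_nonneg_of_nonneg_of_le_pi (by linarith [hs.1]) (by linarith [hs.2])
      have hcos : Real.cos s ≤ Real.cos t :=
        Real.cos_le_cos_of_nonneg_of_le_pi (by linarith) hs.2.le hs.1.le
      have h7 : 0 ≤ Real.sin s ^ m := by positivity
      have h8 : 0 ≤ -(1 / Am m) - (m + 1) / 2 * Real.cos s := by
        have : (m + 1 : ℝ) / 2 * Real.cos s ≤ (m + 1) / 2 * Real.cos t :=
          mul_le_mul_of_nonneg_left hcos (by positivity)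
        linarith [not_le.1 hc]
      exact mul_nonneg h7 h8
    have h2 := hmono (show t ∈ Icc t Real.pi from ⟨le_rfl, h1⟩)
      (show Real.pi ∈ Icc t Real.pi from ⟨h1, le_rfl⟩) h1
    rwa [fm_pi] at h2

/-- the constant `J m = ∫_0^π |f|` -/
def Jm (m : ℕ) : ℝ := ∫ t in Ioo (0 : ℝ) Real.pi, |fm m t|

theorem Jm_eq (m : ℕ) : Jm m = ∫ t in (0 : ℝ)..(Real.pi / 2), (1 - 2 * Fm m t) := by
  have hpi := Real.pi_pos
  have hc : Continuous fun t => |fm m t| := (continuous_fm m).abs
  have h1 : Jm m = (∫ t in (0 : ℝ)..(Real.pi / 2), |fm m t|)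
      + ∫ t in (Real.pi / 2)..Real.pi, |fm m t| := by
    unfold Jm
    rw [← integral_Ioc_eq_integral_Ioo, ← intervalIntegral.integral_of_le hpi.le,
      intervalIntegral.integral_add_adjacent_intervals (hc.intervalIntegrable _ _)
        (hc.intervalIntegrable _ _)]
  have h2 : ∫ t in (0 : ℝ)..(Real.pi / 2), |fm m t| = ∫ t in (0 : ℝ)..(Real.pi / 2), fm m t := by
    refine intervalIntegral.integral_congr fun t ht => ?_
    rw [uIcc_of_le (by positivity)] at ht
    exact abs_of_nonneg (fm_nonneg m ht.1 ht.2)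
  have h3 : ∫ t in (Real.pi / 2)..Real.pi, |fm m t|
      = ∫ t in (Real.pi / 2)..Real.pi, -fm m t := by
    refine intervalIntegral.integral_congr fun t ht => ?_
    rw [uIcc_of_le (by linarith)] at ht
    exact abs_of_nonpos (fm_nonpos m ht.1 ht.2)
  have h4 : ∫ t in (Real.pi / 2)..Real.pi, -fm m t
      = ∫ t in (0 : ℝ)..(Real.pi / 2), -fm m (Real.pi - t) := by
    have := intervalIntegral.integral_comp_sub_left (a := 0) (b := Real.pi / 2)
      (fun s => -fm m s) Real.pi
    rw [this]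
    congr 1 <;> ring
  have hcf := continuous_fm m
  have hcg : Continuous fun t : ℝ => -fm m (Real.pi - t) :=
    (hcf.comp (by fun_prop : Continuous fun t : ℝ => Real.pi - t)).neg
  rw [h1, h2, h3, h4, ← intervalIntegral.integral_add (hcf.intervalIntegrable _ _)
    (hcg.intervalIntegrable _ _)]
  refine intervalIntegral.integral_congr fun t _ => ?_
  have := fm_symm m t
  show fm m t + -fm m (Real.pi - t) = _
  linarith

theorem Fm_nonneg (m : ℕ) {t : ℝ} (h0 : 0 ≤ t) (h1 : t ≤ Real.pi) : 0 ≤ Fm m t := by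
  unfold Fm
  refine div_nonneg (intervalIntegral.integral_nonneg h0 fun s hs => ?_) (Am_pos m).le
  exact pow_nonneg (Real.sin_nonneg_of_nonneg_of_le_pi hs.1 (hs.2.trans h1)) _

theorem Jm_lt (m : ℕ) : Jm m < Real.pi / 2 := by
  have hpi := Real.pi_pos
  have hcF : Continuous (Fm m) :=
    continuous_iff_continuousAt.2 fun t => (hasDerivAt_Fm m t).continuousAt
  have h1 : Jm m = Real.pi / 2 - 2 * ∫ t in (0 : ℝ)..(Real.pi / 2), Fm m t := by
    rw [Jm_eq, intervalIntegral.integral_sub (intervalIntegrable_const)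
      ((hcF.const_smul (2 : ℝ)).intervalIntegrable _ _ |>.congr (fun t _ => by simp)),
      intervalIntegral.integral_const_mul]
    simp
  have h2 : 0 < ∫ t in (0 : ℝ)..(Real.pi / 2), Fm m t := by
    refine intervalIntegral.integral_pos (by positivity) hcF.continuousOn
      (fun t ht => Fm_nonneg m ht.1.le (by linarith [ht.2])) ⟨Real.pi / 2, ⟨by positivity, le_rfl⟩, ?_⟩
    rw [Fm_half]; norm_num
  linarith

theorem Jm_pos (m : ℕ) : 0 < Jm m := by
  have hpi := Real.pi_pos
  have hcF : Continuous (Fm m) :=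
    continuous_iff_continuousAt.2 fun t => (hasDerivAt_Fm m t).continuousAt
  rw [Jm_eq]
  have hmono : MonotoneOn (Fm m) (Icc 0 Real.pi) := by
    refine monotoneOn_of_deriv_nonneg (convex_Icc _ _) hcF.continuousOn
      (fun t _ => (hasDerivAt_Fm m t).differentiableAt.differentiableWithinAt) ?_
    intro s hs
    rw [interior_Icc] at hs
    rw [(hasDerivAt_Fm m s).deriv]
    exact div_nonneg (pow_nonneg (Real.sin_nonneg_of_nonneg_of_le_pi hs.1.le hs.2.le) _)
      (Am_pos m).le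
  refine intervalIntegral.integral_pos (by positivity)
    ((continuous_const.sub (continuous_const.mul hcF)).continuousOn) (fun t ht => ?_)
    ⟨0, ⟨le_rfl, by positivity⟩, ?_⟩
  · have h := hmono (show t ∈ Icc 0 Real.pi from ⟨ht.1.le, by linarith [ht.2]⟩)
      (show Real.pi / 2 ∈ Icc 0 Real.pi from ⟨by positivity, by linarith⟩) ht.2
    rw [Fm_half] at h
    linarith
  · rw [Fm_zero]; norm_num

theorem Jm_one : Jm 1 = 1 := by
  rw [Jm_eq]
  have h : ∀ t : ℝ, 1 - 2 * Fm 1 t = Real.cos t := by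
    intro t
    unfold Fm
    simp only [pow_one]
    rw [Am_one, integral_sin, Real.cos_zero]
    ring
  simp only [h]
  rw [integral_cos]
  simp

/-- the gain `κ_m` -/
def kapm (m : ℕ) : ℝ := Real.pi / (2 * Jm m)

theorem one_lt_kapm (m : ℕ) : 1 < kapm m := by
  unfold kapm
  rw [one_lt_div (by linarith [Jm_pos m])]
  linarith [Jm_lt m]

theorem kapm_one : kapm 1 = Real.pi / 2 := by
  unfold kapm; rw [Jm_one]; ring

/-- the kernel of the flux -/
def km (m : ℕ) (s : ℝ) : ℝ := fm m (Real.arccos s) / (Real.sqrt (1 - s ^ 2)) ^ (m + 1)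

/-- the kernel of the function -/
def qm (m : ℕ) (s : ℝ) : ℝ := -(1 / Am m) - (m + 1) / 2 * s

theorem prof_fm (m : ℕ) : Prof m (fm m) (fm' m) (km m) (qm m) where
  ac := (lipschitz_fm m).lipschitzOnWith.absolutelyContinuousOnInterval
  der := fun t _ => hasDerivAt_fm m t
  km := by
    unfold km
    exact ((continuous_fm m).measurable.comp Real.measurable_arccos).div (by fun_prop)
  qm := by unfold qm; fun_prop
  hk := by
    intro t ht
    have hs : 0 < Real.sin t := Real.sin_pos_of_pos_of_lt_pi ht.1 ht.2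
    unfold km
    rw [Real.arccos_cos ht.1.le ht.2.le, ← Real.abs_sin_eq_sqrt_one_sub_cos_sq, abs_of_pos hs]
    field_simp
  hq := by
    intro t _
    unfold qm fm'
    ring

theorem inner_integral_smul {n : ℕ} {w : En n → ℝ} (x : En n)
    (hw : Integrable (fun y : S1 n => w (y : En n)) (muS n)) :
    ∫ y : S1 n, ⟪x, (y : En n)⟫ * w (y : En n) ∂(muS n)
      = ⟪x, ∫ y : S1 n, w (y : En n) • (y : En n) ∂(muS n)⟫ := by
  have hi : Integrable (fun y : S1 n => w (y : En n) • (y : En n)) (muS n) := by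
    refine hw.smul_bdd 1 (f := fun y : S1 n => (y : En n))
      continuous_subtype_val.aestronglyMeasurable (Eventually.of_forall fun y => ?_)
    simp
  rw [← integral_inner hi]
  refine integral_congr_ae (Eventually.of_forall fun y => ?_)
  show ⟪x, (y : En n)⟫ * w (y : En n) = ⟪x, w (y : En n) • (y : En n)⟫
  rw [inner_smul_right]
  ring

section main

variable {m : ℕ} {w : En (m + 3) → ℝ} {G : En (m + 3) → En (m + 3)}

theorem integrable_w (hw : SLip w G) :
    Integrable (fun y : S1 (m + 3) => w (y : En (m + 3))) (muS (m + 3)) := by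
  obtain ⟨M, -, hM⟩ := bdd_w hw
  exact Integrable.of_bound (aesm_w hw).aestronglyMeasurable M (Eventually.of_forall hM)

/-- the constant identity -/
theorem const_id (m : ℕ) :
    Jm (m + 1) * (2 / (m + 1) * (muS (m + 1)).real univ)
      = (muS (m + 3)).real univ * (Jm (m + 1) / Real.pi) := by
  have h1 := real_muS_univ m
  have h2 := real_muS_univ (m + 1)
  rw [← Am_eq] at h1 h2
  have h3 := Am_mul m
  have hpi := Real.pi_pos
  rw [h2, h1]
  have h4 : (m + 1 : ℝ) ≠ 0 := by positivity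
  have h5 : (2 : ℝ) / (m + 1) = Am m * Am (m + 1) / Real.pi := by
    rw [div_eq_div_iff h4 hpi.ne']; linarith
  rw [h5]
  ring

theorem muS_pos (n : ℕ) : 0 < (muS (n + 1)).real univ := by
  have h : (muS (n + 1)) univ ≠ 0 := by
    rw [Ne, Measure.measure_univ_eq_zero]
    exact toSphere_ne_zero _
  rw [measureReal_def]
  exact ENNReal.toReal_pos h (measure_ne_top _ _)

/-- **the kernel inequality** for balanced `w`, tested with a bounded function `u` -/
theorem balanced_ineq_u (hw : SLip w G)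
    (h0 : ∫ y : S1 (m + 3), w (y : En (m + 3)) ∂(muS (m + 3)) = 0)
    (h1 : ∫ y : S1 (m + 3), w (y : En (m + 3)) • (y : En (m + 3)) ∂(muS (m + 3)) = 0)
    {u : S1 (m + 3) → ℝ} (hu : ∀ x, |u x| ≤ 1) :
    2 * kapm (m + 1) * (muS (m + 2)).real univ *
        |∫ x : S1 (m + 3), u x * w (x : En (m + 3)) ∂(muS (m + 3))|
      ≤ (muS (m + 3)).real univ *
        ∫ y : S1 (m + 3), ‖gT G (y : En (m + 3))‖ ∂(muS (m + 3)) := by
  have hiw := integrable_w hw
  have hq : ∀ x : En (m + 3), ‖x‖ = 1 →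
      ∫ y : S1 (m + 3), qm (m + 1) ⟪x, (y : En (m + 3))⟫ * w (y : En (m + 3)) ∂(muS (m + 3))
        = 0 := by
    intro x _
    have hix : Integrable (fun y : S1 (m + 3) => ⟪x, (y : En (m + 3))⟫ * w (y : En (m + 3)))
        (muS (m + 3)) := by
      refine hiw.bdd_mul (c := ‖x‖) (by fun_prop) (Eventually.of_forall fun y => ?_)
      refine (abs_real_inner_le_norm _ _).trans ?_
      simp
    have h2 : ∀ y : S1 (m + 3), qm (m + 1) ⟪x, (y : En (m + 3))⟫ * w (y : En (m + 3))
        = -(1 / Am (m + 1)) * w (y : En (m + 3))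
          + (-(((m + 1 : ℕ) : ℝ) + 1) / 2) * (⟪x, (y : En (m + 3))⟫ * w (y : En (m + 3))) := by
      intro y; unfold qm; ring
    simp only [h2]
    rw [integral_add (hiw.const_mul _) (hix.const_mul _), integral_const_mul,
      integral_const_mul, h0, inner_integral_smul x hiw, h1]
    simp
  have h3 := kernel_ineq (prof_fm (m + 1)) (fm_zero _) (fm_pi _) hw hq hu
  have h4 : (∫ t in Ioo (0 : ℝ) Real.pi, |fm (m + 1) t|) = Jm (m + 1) := rfl
  rw [h4, const_id] at h3
  have hJ := Jm_pos (m + 1)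
  have hpi := Real.pi_pos
  have h5 : kapm (m + 1) = Real.pi / (2 * Jm (m + 1)) := rfl
  set I := ∫ y : S1 (m + 3), ‖gT G (y : En (m + 3))‖ ∂(muS (m + 3))
  set X := |∫ x : S1 (m + 3), u x * w (x : En (m + 3)) ∂(muS (m + 3))|
  have h6 : 2 * kapm (m + 1) * (muS (m + 2)).real univ * X
      = (Real.pi / Jm (m + 1)) * ((muS (m + 2)).real univ * X) := by
    rw [h5]; field_simp
  rw [h6]
  calc (Real.pi / Jm (m + 1)) * ((muS (m + 2)).real univ * X)
      ≤ (Real.pi / Jm (m + 1)) * ((muS (m + 3)).real univ * (Jm (m + 1) / Real.pi) * I) :=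
        mul_le_mul_of_nonneg_left h3 (by positivity)
    _ = (muS (m + 3)).real univ * I := by field_simp

/-- **the kernel inequality** for balanced `w` on `S^{m+2}` -/
theorem balanced_ineq (hw : SLip w G)
    (h0 : ∫ y : S1 (m + 3), w (y : En (m + 3)) ∂(muS (m + 3)) = 0)
    (h1 : ∫ y : S1 (m + 3), w (y : En (m + 3)) • (y : En (m + 3)) ∂(muS (m + 3)) = 0) :
    2 * kapm (m + 1) * (muS (m + 2)).real univ *
        ∫ x : S1 (m + 3), |w (x : En (m + 3))| ∂(muS (m + 3))
      ≤ (muS (m + 3)).real univ *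
        ∫ y : S1 (m + 3), ‖gT G (y : En (m + 3))‖ ∂(muS (m + 3)) := by
  have h := balanced_ineq_u hw h0 h1 (u := fun x => (SignType.sign (w (x : En (m + 3))) : ℝ))
    (fun x => by
      rcases lt_trichotomy (w (x : En (m + 3))) 0 with h | h | h <;> simp [h])
  have h2 : ∀ x : S1 (m + 3), (SignType.sign (w (x : En (m + 3))) : ℝ) * w (x : En (m + 3))
      = |w (x : En (m + 3))| := fun x => sign_mul_self _
  simp only [h2] at h
  rwa [abs_of_nonneg (integral_nonneg fun x => abs_nonneg _)] at h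

end main

end Crest.Agent.R246.C378
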