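import Crest.Agent.R246.C8_378
import Crest.Agent.R246.StFam_348
import Crest.Agent.R246.Dich1_67
import Crest.Agent.R246.Skel2_656
import Crest.Agent.R246.Mass_872
import Crest.Agent.R246.D3LimC_67
import Crest.Agent.R246.Flatx4_992
import Crest.Agent.R246.D3Ricc_118
import Crest.Agent.R246.D2Energy_782

-- ▼ part R246/C9_378
section

/-!
# Row 246, part C (helper378): block C unconditionally, and `T_1`
-/

set_option autoImplicit false

namespace Crest.Agent.R246.C378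

open Crest.Agent.R246.Skel656

/-- **block C** -/
theorem stC_final : StC kapm := stC fun _ hm => Crest.Agent.R246.StFam348.stFam hm


end Crest.Agent.R246.C378
end

-- ▼ part R246/Dich2_67
section

/-!
R246, helper67.  Block DICH, part 2: passage to the limit in the conformal identity.
-/

set_option autoImplicit false
noncomputable section
open MeasureTheory Set Filter Topology Metric
open scoped RealInnerProductSpace NNReal ContDiff Gradient
open Crest.GeometryTopology.CoordMetric Crest.GeometryTopology.AffineMaximal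
open Crest.Agent.R236.Jet

namespace Crest.Agent.R246.Dich67
open Crest.Agent.R246.D2x782 Crest.Agent.R246.Stress638 Crest.Agent.R246.Lim538
open Crest.Agent.R202.SphDiv Crest.Agent.R246.MSP782 Crest.Agent.R246.D3Lim67
open Crest.Agent.R246.Skel656 (ACsol En)

section pointwise

variable {n : ℕ}

local notation "EE" => EuclideanSpace ℝ (Fin n)

theorem eden_eq_sg (ε : ℝ) (R : EE → ℝ) (x : EE) :
    eden ε R x = 1 / 2 * sg R ε x * (1 + sgsq R x) := by
  unfold eden sg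
  rw [show (1 : ℝ) / (2 * ε) = 1 / 2 * (1 / ε) by rw [one_div, one_div, one_div, mul_inv]]
  ring

theorem eden_le_sg (hn : 3 ≤ n) {ε : ℝ} (hε : 0 < ε) {R : EE → ℝ} (h : SmHom0 R)
    (hR : ACeq ε R) {x : EE} (hx : x ≠ 0) : eden ε R x ≤ sg R ε x := by
  have h1 := modica hn hε h hR hx
  have h2 := sg_nonneg hε R x
  rw [eden_eq_sg]
  nlinarith

theorem sgsq_nonneg (R : EE → ℝ) {x : EE} (hx : x ≠ 0) : 0 ≤ sgsq R x :=
  mul_nonneg (nsq_pos hx).le (gsq_nonneg R x)

theorem sg_le_eden {ε : ℝ} (hε : 0 < ε) (R : EE → ℝ) {x : EE} (hx : x ≠ 0) :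
    sg R ε x ≤ 2 * eden ε R x := by
  have h1 := sgsq_nonneg R hx
  have h2 := sg_nonneg hε R x
  rw [eden_eq_sg]
  nlinarith

theorem eden_nonneg' {ε : ℝ} (hε : 0 < ε) (R : EE → ℝ) {x : EE} (hx : x ≠ 0) :
    0 ≤ eden ε R x := by
  have h1 := sgsq_nonneg R hx
  have h2 := sg_nonneg hε R x
  rw [eden_eq_sg]
  positivity

theorem sech_sq_le {s : ℝ} (hs : s ≠ 0) : 1 - Real.tanh s ^ 2 ≤ 1 / s ^ 2 := by
  have hc : 0 < Real.cosh s := Real.cosh_pos s
  have h1 : 1 - Real.tanh s ^ 2 = 1 / Real.cosh s ^ 2 := by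
    rw [Real.tanh_eq_sinh_div_cosh, div_pow, eq_div_iff (by positivity), sub_mul,
      div_mul_cancel₀ _ (by positivity)]
    have := Real.cosh_sq s
    linarith
  rw [h1]
  have h2 : s ^ 2 ≤ Real.cosh s ^ 2 := by
    have h3 : |s| ≤ Real.cosh s := by
      rw [← Real.cosh_abs]
      exact (Real.self_le_sinh_iff.2 (abs_nonneg s)).trans (Real.sinh_lt_cosh |s|).le
    calc s ^ 2 = |s| ^ 2 := (sq_abs s).symm
      _ ≤ Real.cosh s ^ 2 := by gcongr
  exact one_div_le_one_div_of_le (by positivity) h2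

theorem sg_le_far {ε δ : ℝ} (hε : 0 < ε) (hδ : 0 < δ) (R : EE → ℝ) {x : EE}
    (hx : δ / 2 ≤ |R x|) : sg R ε x ≤ 16 * ε ^ 3 / δ ^ 4 := by
  have hR0 : R x ≠ 0 := by
    intro h0
    rw [h0, abs_zero] at hx
    linarith
  have hs : R x / ε ≠ 0 := div_ne_zero hR0 hε.ne'
  have h1 := sech_sq_le hs
  have h2 : 0 ≤ 1 - Real.tanh (R x / ε) ^ 2 := by linarith [tanh_sq_lt_one (R x / ε)]
  have h3 : 1 / (R x / ε) ^ 2 ≤ 4 * ε ^ 2 / δ ^ 2 := by
    have h4 : δ ^ 2 / 4 ≤ R x ^ 2 := by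
      rw [← sq_abs (R x)]
      nlinarith
    rw [div_pow, one_div_div, div_le_div_iff₀ (by positivity) (by positivity)]
    nlinarith [sq_nonneg ε]
  have h5 : (1 - Real.tanh (R x / ε) ^ 2) ^ 2 ≤ (4 * ε ^ 2 / δ ^ 2) ^ 2 :=
    pow_le_pow_left₀ h2 (h1.trans h3) 2
  unfold sg
  calc 1 / ε * (1 - Real.tanh (R x / ε) ^ 2) ^ 2 ≤ 1 / ε * (4 * ε ^ 2 / δ ^ 2) ^ 2 := by
        exact mul_le_mul_of_nonneg_left h5 (by positivity)
    _ = 16 * ε ^ 3 / δ ^ 4 := by field_simp; ring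

theorem sg_le_inv {ε : ℝ} (hε : 0 < ε) (R : EE → ℝ) (x : EE) : sg R ε x ≤ 1 / ε := by
  unfold sg
  have h2 : 0 ≤ 1 - Real.tanh (R x / ε) ^ 2 := by linarith [tanh_sq_lt_one (R x / ε)]
  have h3 : 1 - Real.tanh (R x / ε) ^ 2 ≤ 1 := by linarith [sq_nonneg (Real.tanh (R x / ε))]
  have h4 : (1 - Real.tanh (R x / ε) ^ 2) ^ 2 ≤ 1 := pow_le_one₀ h2 h3
  have : 0 < 1 / ε := by positivity
  nlinarith

theorem int_sph {f : EE → ℝ} (hf : ContinuousOn f {0}ᶜ) :
    Integrable (fun z : Sph n => f z) (sig n) :=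
  integrable_sph fun _ hx => hf.continuousAt (isOpen_compl_singleton.mem_nhds hx)

/-- the moment is controlled by the positive part -/
theorem moment_le (hn : 3 ≤ n) {ε : ℝ} (hε : 0 < ε) {R : EE → ℝ} (h : SmHom0 R)
    (hR : ACeq ε R) (a : EE) :
    |∫ z : Sph n, ⟪a, z⟫ * eden ε R z ∂(sig n)| ≤
      ((n : ℝ) - 1) * ∫ z : Sph n, max ⟪a, (z : EE)⟫ 0 * sg R ε z ∂(sig n) := by
  have hn3 : (3 : ℝ) ≤ n := by exact_mod_cast hn
  have hci : Continuous fun x : EE => ⟪a, x⟫ := by fun_prop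
  have hcp : Continuous fun x : EE => max ⟪a, x⟫ 0 := hci.max continuous_const
  have hcq : Continuous fun x : EE => max (-⟪a, x⟫) 0 := hci.neg.max continuous_const
  have ipe : Integrable (fun z : Sph n => max ⟪a, (z : EE)⟫ 0 * eden ε R z) (sig n) :=
    int_sph (n := n) (hcp.continuousOn.mul (continuousOn_eden h ε))
  have iqe : Integrable (fun z : Sph n => max (-⟪a, (z : EE)⟫) 0 * eden ε R z) (sig n) :=
    int_sph (n := n) (hcq.continuousOn.mul (continuousOn_eden h ε))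
  have ips : Integrable (fun z : Sph n => max ⟪a, (z : EE)⟫ 0 * sg R ε z) (sig n) :=
    int_sph (n := n) (hcp.continuousOn.mul (continuousOn_sg h ε))
  have iqs : Integrable (fun z : Sph n => max (-⟪a, (z : EE)⟫) 0 * sg R ε z) (sig n) :=
    int_sph (n := n) (hcq.continuousOn.mul (continuousOn_sg h ε))
  have key := conformal_identity hn hε h hR a
  have hsplit : ∀ t : ℝ, t = max t 0 - max (-t) 0 := by
    intro t
    rcases le_total 0 t with h | h
    · rw [max_eq_left h, max_eq_right (by linarith)]; ring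
    · rw [max_eq_right h, max_eq_left (by linarith)]; ring
  have e1 : ∫ z : Sph n, ⟪a, z⟫ * eden ε R z ∂(sig n) =
      (∫ z : Sph n, max ⟪a, (z : EE)⟫ 0 * eden ε R z ∂(sig n)) -
        ∫ z : Sph n, max (-⟪a, (z : EE)⟫) 0 * eden ε R z ∂(sig n) := by
    rw [← integral_sub ipe iqe]
    refine integral_congr_ae (Eventually.of_forall fun z => ?_)
    show ⟪a, (z : EE)⟫ * eden ε R z = max ⟪a, (z : EE)⟫ 0 * eden ε R z -
      max (-⟪a, (z : EE)⟫) 0 * eden ε R z
    conv_lhs => rw [hsplit ⟪a, (z : EE)⟫]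
    ring
  have e2 : ∫ z : Sph n, ⟪a, z⟫ * sg R ε z ∂(sig n) =
      (∫ z : Sph n, max ⟪a, (z : EE)⟫ 0 * sg R ε z ∂(sig n)) -
        ∫ z : Sph n, max (-⟪a, (z : EE)⟫) 0 * sg R ε z ∂(sig n) := by
    rw [← integral_sub ips iqs]
    refine integral_congr_ae (Eventually.of_forall fun z => ?_)
    show ⟪a, (z : EE)⟫ * sg R ε z = max ⟪a, (z : EE)⟫ 0 * sg R ε z -
      max (-⟪a, (z : EE)⟫) 0 * sg R ε z
    conv_lhs => rw [hsplit ⟪a, (z : EE)⟫]
    ring
  have h1 : ∫ z : Sph n, max ⟪a, (z : EE)⟫ 0 * eden ε R z ∂(sig n) ≤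
      ∫ z : Sph n, max ⟪a, (z : EE)⟫ 0 * sg R ε z ∂(sig n) :=
    integral_mono ipe ips fun z => mul_le_mul_of_nonneg_left
      (eden_le_sg hn hε h hR (sph_ne z)) (le_max_right _ _)
  have h2 : ∫ z : Sph n, max (-⟪a, (z : EE)⟫) 0 * eden ε R z ∂(sig n) ≤
      ∫ z : Sph n, max (-⟪a, (z : EE)⟫) 0 * sg R ε z ∂(sig n) :=
    integral_mono iqe iqs fun z => mul_le_mul_of_nonneg_left
      (eden_le_sg hn hε h hR (sph_ne z)) (le_max_right _ _)
  have h3 : 0 ≤ ∫ z : Sph n, max ⟪a, (z : EE)⟫ 0 * eden ε R z ∂(sig n) :=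
    integral_nonneg fun z => mul_nonneg (le_max_right _ _) (eden_nonneg' hε R (sph_ne z))
  have h4 : 0 ≤ ∫ z : Sph n, max (-⟪a, (z : EE)⟫) 0 * eden ε R z ∂(sig n) :=
    integral_nonneg fun z => mul_nonneg (le_max_right _ _) (eden_nonneg' hε R (sph_ne z))
  rw [e1, e2] at key
  rw [e1]
  generalize (∫ z : Sph n, max ⟪a, (z : EE)⟫ 0 * eden ε R z ∂(sig n)) = pe at *
  generalize (∫ z : Sph n, max (-⟪a, (z : EE)⟫) 0 * eden ε R z ∂(sig n)) = qe at *
  generalize (∫ z : Sph n, max ⟪a, (z : EE)⟫ 0 * sg R ε z ∂(sig n)) = ps at *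
  generalize (∫ z : Sph n, max (-⟪a, (z : EE)⟫) 0 * sg R ε z ∂(sig n)) = qs at *
  have h5 : 0 ≤ (n : ℝ) - 3 := by linarith
  have h6 : ((n : ℝ) - 3) * qe + qs = ((n : ℝ) - 3) * pe + ps := by linarith
  have h7 : 0 ≤ ((n : ℝ) - 3) * qe := mul_nonneg h5 h4
  have h8 : ((n : ℝ) - 3) * pe ≤ ((n : ℝ) - 3) * ps := mul_le_mul_of_nonneg_left h1 h5
  have h9 : qe ≤ ((n : ℝ) - 2) * ps := by nlinarith
  have h10 : 0 ≤ ((n : ℝ) - 2) * ps := by nlinarith
  rw [abs_le]
  constructor <;> nlinarith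

/-- bound of the positive part -/
theorem pos_part_le {ε δ : ℝ} (hε : 0 < ε) (hδ : 0 < δ) {R : EE → ℝ}
    (h : SmHom0 R) {a : EE} (ha : ‖a‖ = 1)
    (hfar : ∀ z : Sph n, δ < ⟪a, (z : EE)⟫ → δ / 2 ≤ |R z|) :
    ∫ z : Sph n, max ⟪a, (z : EE)⟫ 0 * sg R ε z ∂(sig n) ≤
      2 * δ * (∫ z : Sph n, eden ε R z ∂(sig n)) + 16 * ε ^ 3 / δ ^ 4 * (sig n).real univ := by
  have hci : Continuous fun x : EE => ⟪a, x⟫ := by fun_prop
  have hcp : Continuous fun x : EE => max ⟪a, x⟫ 0 := hci.max continuous_const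
  have ips := int_sph (n := n) (hcp.continuousOn.mul (continuousOn_sg h ε))
  have ie := int_sph (n := n) (continuousOn_eden h ε)
  calc ∫ z : Sph n, max ⟪a, (z : EE)⟫ 0 * sg R ε z ∂(sig n)
      ≤ ∫ z : Sph n, (2 * δ * eden ε R z + 16 * ε ^ 3 / δ ^ 4) ∂(sig n) := by
        refine integral_mono ips ((ie.const_mul _).add (integrable_const _)) fun z => ?_
        show max ⟪a, (z : EE)⟫ 0 * sg R ε z ≤ 2 * δ * eden ε R z + 16 * ε ^ 3 / δ ^ 4
        have hs := sg_nonneg hε R (z : EE)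
        have he := sg_le_eden hε R (sph_ne z)
        have h0 : 0 ≤ 16 * ε ^ 3 / δ ^ 4 := by positivity
        by_cases hz : δ < ⟪a, (z : EE)⟫
        · have h1 := sg_le_far hε hδ R (hfar z hz)
          have h2 : ⟪a, (z : EE)⟫ ≤ 1 := by
            have := real_inner_le_norm a (z : EE)
            rw [ha] at this
            simpa using this
          have h3 : max ⟪a, (z : EE)⟫ 0 ≤ 1 := max_le h2 zero_le_one
          have h4 : 0 ≤ 2 * δ * eden ε R z := by
            have := eden_nonneg' hε R (sph_ne z)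
            positivity
          nlinarith
        · push Not at hz
          have h3 : max ⟪a, (z : EE)⟫ 0 ≤ δ := max_le hz hδ.le
          nlinarith
    _ = 2 * δ * (∫ z : Sph n, eden ε R z ∂(sig n)) + 16 * ε ^ 3 / δ ^ 4 * (sig n).real univ := by
        rw [integral_add (ie.const_mul _) (integrable_const _), integral_const_mul,
          integral_const, smul_eq_mul]
        ring

end pointwise

section limit

open Crest.Agent.R246.Skel2 (ACLim LimM eDen)

local notation "𝔼" m => EuclideanSpace ℝ (Fin (m + 2))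

variable {m : ℕ} {U : Filter ℕ} {ε : ℕ → ℝ} {R : ℕ → (𝔼 m) → ℝ} {r φ : (𝔼 m) → ℝ}
  {μ : Measure (𝔼 m)} {a0 : ℝ}

theorem moment_tendsto (hm : 1 ≤ m) (hL : ACLim m U ε R r φ μ a0) {a : 𝔼 m} (ha : ‖a‖ = 1)
    (hφ : ∀ x : 𝔼 m, 0 < ⟪a, x⟫ → |φ x| = ⟪a, x⟫) :
    Tendsto (fun k => ∫ z : Sph (m + 2), ⟪a, z⟫ * eden (ε k) (R k) z ∂(sig (m + 2))) U (𝓝 0) := by
  have hn : 3 ≤ m + 2 := by omega
  rw [Metric.tendsto_nhds]
  intro η hη
  have hen : ∀ᶠ k in U, ∫ z : Sph (m + 2), eden (ε k) (R k) z ∂(sig (m + 2)) < 4 / 3 * a0 + 1 := by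
    have h1 : ∀ᶠ k in U, 3 / 4 * En (ε k) (R k) < a0 + 3 / 4 :=
      hL.en.eventually (gt_mem_nhds (by linarith))
    filter_upwards [h1] with k hk
    have e : En (ε k) (R k) = ∫ z : Sph (m + 2), eden (ε k) (R k) z ∂(sig (m + 2)) :=
      Crest.Agent.R246.Vb872.En_eq (hL.sol k)
    rw [e] at hk
    linarith
  set C : ℝ := |4 / 3 * a0 + 1| + 1 with hC
  have hC0 : 0 < C := by positivity
  set N : ℝ := ((m + 2 : ℕ) : ℝ) - 1 with hN
  have hN0 : 0 < N := by
    rw [hN]; push_cast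
    have : (1 : ℝ) ≤ m := by exact_mod_cast hm
    linarith
  set δ : ℝ := η / (4 * N * C) with hδ
  have hδ0 : 0 < δ := by positivity
  set S : ℝ := (sig (m + 2)).real univ with hS
  have hS0 : 0 ≤ S := measureReal_nonneg
  have h2 : ∀ᶠ k in U, N * (16 * ε k ^ 3 / δ ^ 4 * S) < η / 2 := by
    have h3 : Tendsto (fun k => N * (16 * ε k ^ 3 / δ ^ 4 * S)) U
        (𝓝 (N * (16 * 0 ^ 3 / δ ^ 4 * S))) :=
      ((((hL.eps.pow 3).const_mul 16).div_const _).mul_const _).const_mul _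
    have e : N * (16 * 0 ^ 3 / δ ^ 4 * S) = 0 := by simp
    rw [e] at h3
    exact h3.eventually (gt_mem_nhds (by positivity))
  have h4 := (Metric.tendstoUniformlyOn_iff.1 hL.conv) (δ / 2) (by positivity)
  filter_upwards [hen, h2, h4] with k k1 k2 k3
  have hk := hL.sol k
  rw [Real.dist_eq, sub_zero]
  refine lt_of_le_of_lt (moment_le hn hk.pos hk.sm hk.eq a) ?_
  have hfar : ∀ z : Sph (m + 2), δ < ⟪a, (z : 𝔼 m)⟫ → δ / 2 ≤ |R k z| := by
    intro z hz
    have h5 := k3 z (sph_ne z)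
    have h6 := hφ z (hδ0.trans hz)
    rw [hL.phi] at h6
    have h7 : ‖(z : 𝔼 m)‖ = 1 := by simp
    rw [h7, one_mul] at h6
    have h8 : |Real.sin (r z)| ≤ |r z| := Real.abs_sin_le_abs
    rw [Real.dist_eq] at h5
    have h9 : |r z| ≤ |r z - R k z| + |R k z| := by
      have := abs_add_le (r z - R k z) (R k z)
      rwa [sub_add_cancel] at this
    linarith
  have h5 := pos_part_le hk.pos hδ0 hk.sm ha hfar
  have h6 : 0 ≤ ∫ z : Sph (m + 2), eden (ε k) (R k) z ∂(sig (m + 2)) :=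
    integral_nonneg fun z => eden_nonneg' hk.pos (R k) (sph_ne z)
  have h7 : ∫ z : Sph (m + 2), eden (ε k) (R k) z ∂(sig (m + 2)) ≤ C := by
    rw [hC]; linarith [le_abs_self (4 / 3 * a0 + 1)]
  calc N * ∫ z : Sph (m + 2), max ⟪a, (z : 𝔼 m)⟫ 0 * sg (R k) (ε k) z ∂(sig (m + 2))
      ≤ N * (2 * δ * (∫ z : Sph (m + 2), eden (ε k) (R k) z ∂(sig (m + 2))) +
          16 * ε k ^ 3 / δ ^ 4 * S) := mul_le_mul_of_nonneg_left h5 hN0.le
    _ ≤ N * (2 * δ * C) + N * (16 * ε k ^ 3 / δ ^ 4 * S) := by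
        rw [mul_add]
        have : N * (2 * δ * ∫ z : Sph (m + 2), eden (ε k) (R k) z ∂(sig (m + 2))) ≤
            N * (2 * δ * C) := by gcongr
        linarith
    _ < η / 2 + η / 2 := by
        have e : N * (2 * δ * C) = η / 2 := by
          rw [hδ]; field_simp; ring
        rw [e]
        linarith
    _ = η := by ring

end limit

end Crest.Agent.R246.Dich67
end
end

-- ▼ part R246/Dich3_67
section

/-!
R246, helper67.  Block DICH, part 3: `VAR` across the origin, vanishing first moments of the limit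
measure, and the dichotomy `StDich`.
-/

set_option autoImplicit false
set_option linter.unusedSectionVars false
noncomputable section
open MeasureTheory Set Filter Topology Metric
open scoped RealInnerProductSpace NNReal ContDiff Gradient
open Crest.GeometryTopology.CoordMetric Crest.GeometryTopology.AffineMaximal
open Crest.Agent.R236.Jet

namespace Crest.Agent.R246.Dich67
open Crest.Agent.R246.D2x782 Crest.Agent.R246.Stress638 Crest.Agent.R246.Lim538
open Crest.Agent.R202.SphDiv Crest.Agent.R246.MSP782 Crest.Agent.R246.D3Lim67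
open Crest.Agent.R246.Skel656 (ACsol En)
open Crest.Agent.R246.G873

/-! ### `VAR` across the origin -/

section var

variable {E : Type*} [NormedAddCommGroup E] [InnerProductSpace ℝ E] [FiniteDimensional ℝ E]
  [MeasurableSpace E] [BorelSpace E]

/-- cut-off: `0` for `‖x‖ ≤ δ`, `1` for `‖x‖ ≥ 2δ` -/
def co (δ : ℝ) (x : E) : ℝ := min 1 (max 0 (‖x‖ / δ - 1))

theorem co_nonneg (δ : ℝ) (x : E) : 0 ≤ co δ x := le_min zero_le_one (le_max_left _ _)

theorem co_le_one (δ : ℝ) (x : E) : co δ x ≤ 1 := min_le_left _ _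

theorem co_eq_one {δ : ℝ} (hδ : 0 < δ) {x : E} (hx : 2 * δ ≤ ‖x‖) : co δ x = 1 := by
  unfold co
  have : 1 ≤ ‖x‖ / δ - 1 := by
    rw [le_sub_iff_add_le, le_div_iff₀ hδ]; linarith
  rw [max_eq_right (by linarith), min_eq_left this]

theorem co_eq_zero {δ : ℝ} (hδ : 0 < δ) {x : E} (hx : ‖x‖ ≤ δ) : co δ x = 0 := by
  unfold co
  have : ‖x‖ / δ - 1 ≤ 0 := by
    rw [sub_nonpos, div_le_one hδ]; exact hx
  rw [max_eq_left this]; simp

theorem lip_co {δ : ℝ} (hδ : 0 < δ) : LipschitzWith (Real.toNNReal (1 / δ)) (co δ : E → ℝ) := by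
  refine LipschitzWith.of_dist_le_mul fun x y => ?_
  rw [Real.coe_toNNReal _ (by positivity), Real.dist_eq, dist_eq_norm]
  unfold co
  have h1 : |min 1 (max 0 (‖x‖ / δ - 1)) - min 1 (max 0 (‖y‖ / δ - 1))| ≤
      |max 0 (‖x‖ / δ - 1) - max 0 (‖y‖ / δ - 1)| := by
    have := abs_min_sub_min_le_max 1 (max 0 (‖x‖ / δ - 1)) 1 (max 0 (‖y‖ / δ - 1))
    simpa using this
  have h2 : |max 0 (‖x‖ / δ - 1) - max 0 (‖y‖ / δ - 1)| ≤ |(‖x‖ / δ - 1) - (‖y‖ / δ - 1)| := by
    have := abs_max_sub_max_le_max 0 (‖x‖ / δ - 1) 0 (‖y‖ / δ - 1)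
    simpa using this
  have h3 : |(‖x‖ / δ - 1) - (‖y‖ / δ - 1)| = 1 / δ * |‖x‖ - ‖y‖| := by
    have e : (‖x‖ / δ - 1) - (‖y‖ / δ - 1) = 1 / δ * (‖x‖ - ‖y‖) := by ring
    rw [e, abs_mul, abs_of_pos (by positivity : 0 < 1 / δ)]
  calc _ ≤ _ := h1
    _ ≤ _ := h2
    _ = 1 / δ * |‖x‖ - ‖y‖| := h3
    _ ≤ 1 / δ * ‖x - y‖ := mul_le_mul_of_nonneg_left (abs_norm_sub_norm_le x y) (by positivity)

theorem lip_mul' {f g : E → ℝ} (hf : Lip f) (hg : Lip g) (hfc : HasCompactSupport f)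
    {B : ℝ≥0} (hB : ∀ x, |g x| ≤ B) : Lip (fun x => f x * g x) := by
  obtain ⟨C, hC⟩ := hf
  obtain ⟨D, hD⟩ := hg
  obtain ⟨A, hA⟩ := hC.continuous.bounded_above_of_compact_support hfc
  have hA0 : 0 ≤ A := (norm_nonneg _).trans (hA 0)
  exact ⟨_, Crest.Agent.R246.Flat105.lip_mul hC hD (A := A.toNNReal) (B := B)
    (fun x => by rw [Real.coe_toNNReal _ hA0]; exact hA x) hB⟩

theorem gi_mul {φ f g : E → ℝ} {x : E} (hf : DifferentiableAt ℝ f x)
    (hg : DifferentiableAt ℝ g x) :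
    gi φ (fun y => f y * g y) x = g x * gi φ f x + f x * gi φ g x := by
  unfold gi
  rw [Crest.Agent.R246.Flat105.grad_mul hf hg, inner_add_right, inner_smul_right,
    inner_smul_right]
  ring

theorem abs_gi_le {φ f : E → ℝ} {C : ℝ≥0} (hφ : LipschitzWith 1 φ) (hf : LipschitzWith C f)
    (x : E) : |gi φ f x| ≤ C := by
  have h1 := Crest.Agent.R246.Flat105.norm_grad_le hφ x
  have h2 := Crest.Agent.R246.Flat105.norm_grad_le hf x
  simp only [NNReal.coe_one] at h1
  calc |gi φ f x| ≤ ‖∇ φ x‖ * ‖∇ f x‖ := abs_real_inner_le_norm _ _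
    _ ≤ 1 * C := by gcongr
    _ = C := one_mul _

theorem meas_gi (φ f : E → ℝ) : Measurable (gi φ f) :=
  (Crest.Agent.R246.Flat105.meas_grad φ).inner (Crest.Agent.R246.Flat105.meas_grad f)

/-- the error of cutting off at the origin -/
theorem cut_tendsto (hdim : 2 ≤ Module.finrank ℝ E) {φ f : E → ℝ} (hφ : LipschitzWith 1 φ)
    (hf : Lip f) (hfc : HasCompactSupport f) :
    Tendsto (fun j : ℕ => ∫ x, gi φ (fun y => f y * co (1 / ((j : ℝ) + 1)) y) x) atTop
      (𝓝 (∫ x, gi φ f x)) := by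
  obtain ⟨C, hC⟩ := hf
  obtain ⟨A, hA⟩ := hC.continuous.bounded_above_of_compact_support hfc
  have hA0 : 0 ≤ A := (norm_nonneg _).trans (hA 0)
  have : Nontrivial E := Module.nontrivial_of_finrank_pos (R := ℝ) (by omega)
  set d : ℕ → ℝ := fun j => 1 / ((j : ℝ) + 1) with hd
  have hd0 : ∀ j, 0 < d j := fun j => by rw [hd]; positivity
  have hdlim : Tendsto d atTop (𝓝 0) := tendsto_one_div_add_atTop_nhds_zero_nat
  -- split
  have hsplit : ∀ j, ∀ᵐ x ∂(volume : Measure E), gi φ (fun y => f y * co (d j) y) x =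
      co (d j) x * gi φ f x + f x * gi φ (co (d j)) x := by
    intro j
    filter_upwards [hC.ae_differentiableAt, (lip_co (hd0 j)).ae_differentiableAt] with x h1 h2
    exact gi_mul h1 h2
  have hsupp : ∀ x ∉ tsupport f, gi φ f x = 0 := by
    intro x hx
    unfold gi
    have := Crest.Agent.R246.Flat105.grad_zero_of_notMem hx
    rw [this, inner_zero_right]
  have hint1 : ∀ j, Integrable fun x => co (d j) x * gi φ f x := by
    intro j
    refine Crest.Agent.R246.Flat105.integrable_of_bdd_supp (C := (C : ℝ)) ?_ ?_ hfc.isCompact ?_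
    · exact ((lip_co (hd0 j)).continuous.measurable.mul (meas_gi φ f)).aestronglyMeasurable
    · intro x
      rw [abs_mul, abs_of_nonneg (co_nonneg _ _)]
      calc co (d j) x * |gi φ f x| ≤ 1 * C :=
            mul_le_mul (co_le_one _ _) (abs_gi_le hφ hC x) (abs_nonneg _) zero_le_one
        _ = C := one_mul _
    · intro x hx
      rw [hsupp x hx, mul_zero]
  have hco0 : ∀ j, ∀ x ∉ closedBall (0 : E) (2 * d j), gi φ (co (d j)) x = 0 := by
    intro j x hx
    rw [mem_closedBall_zero_iff, not_le] at hx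
    have h1 : (co (d j) : E → ℝ) =ᶠ[𝓝 x] fun _ => 1 := by
      filter_upwards [continuous_norm.continuousAt.eventually (lt_mem_nhds hx)] with y hy
      exact co_eq_one (hd0 j) hy.le
    unfold gi
    have : ∇ (co (d j) : E → ℝ) x = 0 := by
      rw [h1.gradient_eq, gradient_fun_const]
    rw [this, inner_zero_right]
  have hbd2 : ∀ j x, |f x * gi φ (co (d j)) x| ≤ A * (1 / d j) := by
    intro j x
    rw [abs_mul]
    refine mul_le_mul (hA x) ?_ (abs_nonneg _) hA0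
    have h1 := abs_gi_le hφ (lip_co (hd0 j)) x
    rwa [Real.coe_toNNReal _ (by have := hd0 j; positivity)] at h1
  have hint2 : ∀ j, Integrable fun x => f x * gi φ (co (d j)) x := by
    intro j
    refine Crest.Agent.R246.Flat105.integrable_of_bdd_supp (C := A * (1 / d j)) ?_ (hbd2 j)
      (isCompact_closedBall (0 : E) (2 * d j)) ?_
    · exact (hC.continuous.measurable.mul (meas_gi φ _)).aestronglyMeasurable
    · intro x hx
      rw [hco0 j x hx, mul_zero]
  have e : ∀ j, ∫ x, gi φ (fun y => f y * co (d j) y) x =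
      (∫ x, co (d j) x * gi φ f x) + ∫ x, f x * gi φ (co (d j)) x := by
    intro j
    rw [← integral_add (hint1 j) (hint2 j)]
    exact integral_congr_ae (hsplit j)
  have hlim1 : Tendsto (fun j => ∫ x, co (d j) x * gi φ f x) atTop (𝓝 (∫ x, gi φ f x)) := by
    refine tendsto_integral_of_dominated_convergence (fun x => |gi φ f x|) ?_ ?_ ?_ ?_
    · exact fun j => (hint1 j).aestronglyMeasurable
    · refine (Crest.Agent.R246.Flat105.integrable_of_bdd_supp (C := (C : ℝ))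
        (meas_gi φ f).aestronglyMeasurable (abs_gi_le hφ hC) hfc.isCompact hsupp).abs
    · intro j
      refine Eventually.of_forall fun x => ?_
      rw [norm_mul, Real.norm_eq_abs, Real.norm_eq_abs, abs_of_nonneg (co_nonneg _ _)]
      calc co (d j) x * |gi φ f x| ≤ 1 * |gi φ f x| :=
            mul_le_mul_of_nonneg_right (co_le_one _ _) (abs_nonneg _)
        _ = |gi φ f x| := one_mul _
    · have hae : ∀ᵐ x ∂(volume : Measure E), x ≠ 0 := by
        have := (measure_singleton (μ := (volume : Measure E)) (0 : E))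
        exact compl_mem_ae_iff.2 this
      filter_upwards [hae] with x hx
      have hx0 : 0 < ‖x‖ := norm_pos_iff.2 hx
      refine tendsto_const_nhds.congr' ?_
      filter_upwards [hdlim.eventually (gt_mem_nhds (by positivity : 0 < ‖x‖ / 2))] with j hj
      rw [co_eq_one (hd0 j) (by linarith), one_mul]
  have hlim2 : Tendsto (fun j => ∫ x, f x * gi φ (co (d j)) x) atTop (𝓝 0) := by
    have hbound : ∀ j, |∫ x, f x * gi φ (co (d j)) x| ≤
        A * (1 / d j) * (volume : Measure E).real (closedBall (0 : E) (2 * d j)) := by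
      intro j
      have h1 : ∫ x, f x * gi φ (co (d j)) x =
          ∫ x in closedBall (0 : E) (2 * d j), f x * gi φ (co (d j)) x := by
        rw [setIntegral_eq_integral_of_forall_compl_eq_zero]
        intro x hx
        rw [hco0 j x hx, mul_zero]
      rw [h1]
      have h2 := norm_setIntegral_le_of_norm_le_const (μ := (volume : Measure E))
        (s := closedBall (0 : E) (2 * d j)) (C := A * (1 / d j))
        (isCompact_closedBall (0 : E) (2 * d j)).measure_lt_top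
        (f := fun x => f x * gi φ (co (d j)) x) (fun x _ => hbd2 j x)
      exact h2
    have hvol : ∀ j, A * (1 / d j) * (volume : Measure E).real (closedBall (0 : E) (2 * d j)) =
        (A * 2 ^ (Module.finrank ℝ E) * (volume : Measure E).real (ball (0 : E) 1)) *
          d j ^ (Module.finrank ℝ E - 1) := by
      intro j
      have hj := hd0 j
      have h1 : (volume : Measure E).real (closedBall (0 : E) (2 * d j)) =
          (2 * d j) ^ (Module.finrank ℝ E) * (volume : Measure E).real (ball (0 : E) 1) := by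
        exact Measure.addHaar_real_closedBall (volume : Measure E) (0 : E)
          (r := 2 * d j) (by positivity)
      rw [h1, mul_pow]
      have h2 : d j ^ (Module.finrank ℝ E) = d j * d j ^ (Module.finrank ℝ E - 1) := by
        rw [← pow_succ']
        congr 1; omega
      rw [h2]
      field_simp
    have hz : Tendsto (fun j => (A * 2 ^ (Module.finrank ℝ E) *
        (volume : Measure E).real (ball (0 : E) 1)) *
          d j ^ (Module.finrank ℝ E - 1)) atTop (𝓝 0) := by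
      have h1 : Tendsto (fun j => d j ^ (Module.finrank ℝ E - 1)) atTop (𝓝 0) := by
        have := hdlim.pow (Module.finrank ℝ E - 1)
        rwa [zero_pow (by omega)] at this
      simpa using h1.const_mul (A * 2 ^ (Module.finrank ℝ E) *
        (volume : Measure E).real (ball (0 : E) 1))
    refine squeeze_zero_norm (fun j => ?_) hz
    rw [Real.norm_eq_abs, ← hvol j]
    exact hbound j
  have hfinal := hlim1.add hlim2
  rw [add_zero] at hfinal
  refine hfinal.congr fun j => ?_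
  exact (e j).symm

theorem var_univ (hdim : 2 ≤ Module.finrank ℝ E) {φ : E → ℝ} (hφ : LipschitzWith 1 φ)
    {μ : Measure E} [IsFiniteMeasureOnCompacts μ] (h : VAR φ μ {0}ᶜ) : VAR φ μ univ := by
  intro ζ η hζ hη hζc hηc hle _
  have hφa : LipschitzWith 1 (fun y => |φ y|) := by
    refine LipschitzWith.of_dist_le_mul fun x y => ?_
    refine le_trans ?_ (hφ.dist_le_mul x y)
    rw [Real.dist_eq, Real.dist_eq]
    exact abs_abs_sub_abs_le_abs_sub _ _
  have h1 := cut_tendsto hdim hφ hζ hζc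
  have h2 := cut_tendsto hdim hφa hη hηc
  have h3 := h1.sub h2
  refine le_of_tendsto h3 (Eventually.of_forall fun j => ?_)
  set δ : ℝ := 1 / ((j : ℝ) + 1) with hδ
  have hδ0 : 0 < δ := by positivity
  have hcoB : ∀ x : E, |co δ x| ≤ (1 : ℝ≥0) := fun x => by
    rw [abs_of_nonneg (co_nonneg _ _)]; exact co_le_one _ _
  have hsub : tsupport (fun x => η x * co δ x) ⊆ {0}ᶜ := by
    have h4 : tsupport (fun x : E => η x * co δ x) ⊆ {x : E | δ ≤ ‖x‖} := by
      apply closure_minimal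
      · intro x hx
        by_contra hcon
        simp only [mem_ofPred_eq, not_le] at hcon
        apply hx
        show η x * co δ x = 0
        rw [co_eq_zero hδ0 hcon.le, mul_zero]
      · exact isClosed_le continuous_const continuous_norm
    intro x hx h0
    have h5 := h4 hx
    rw [mem_singleton_iff.1 h0] at h5
    simp only [mem_ofPred_eq, norm_zero] at h5
    linarith
  have hη0 : ∀ x, 0 ≤ η x := fun x => (abs_nonneg _).trans (hle x)
  have h6 := h (fun x => ζ x * co δ x) (fun x => η x * co δ x)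
    (lip_mul' hζ ⟨_, lip_co hδ0⟩ hζc hcoB) (lip_mul' hη ⟨_, lip_co hδ0⟩ hηc hcoB)
    hζc.mul_right hηc.mul_right (fun x => by
      rw [abs_mul, abs_of_nonneg (co_nonneg δ x)]
      exact mul_le_mul_of_nonneg_right (hle x) (co_nonneg _ _)) hsub
  refine h6.trans ?_
  have hηcont : Continuous η := by
    obtain ⟨D, hD⟩ := hη; exact hD.continuous
  have hi1 : Integrable η μ := hηcont.integrable_of_hasCompactSupport hηc
  have hi2 : Integrable (fun x => η x * co δ x) μ :=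
    (hηcont.mul (lip_co hδ0).continuous).integrable_of_hasCompactSupport hηc.mul_right
  have h7 : ∫ x, η x * co δ x ∂μ ≤ ∫ x, η x ∂μ :=
    integral_mono hi2 hi1 fun x => by
      have := mul_le_mul_of_nonneg_left (co_le_one δ x) (hη0 x)
      simpa using this
  linarith

end var

end Crest.Agent.R246.Dich67
end
end

-- ▼ part R246/Dich4_67
section

/-!
R246, helper67.  Block DICH, part 4: the dichotomy `Skel2.StDich m` (`1 ≤ m`).
-/

set_option autoImplicit false
set_option linter.unusedSectionVars false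
noncomputable section
open MeasureTheory Set Filter Topology Metric
open scoped RealInnerProductSpace NNReal ContDiff Gradient
open Crest.GeometryTopology.CoordMetric Crest.GeometryTopology.AffineMaximal
open Crest.GeometryTopology.SphereImmersion
open Crest.Agent.R236.Jet

namespace Crest.Agent.R246.Dich67
open Crest.Agent.R246.D2x782 Crest.Agent.R246.Stress638 Crest.Agent.R246.Lim538
open Crest.Agent.R202.SphDiv Crest.Agent.R246.MSP782 Crest.Agent.R246.D3Lim67
open Crest.Agent.R246.Skel656 (ACsol En)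
open Crest.Agent.R246.G873
open Crest.Agent.R246.H990 (NullCone VB cV)
open Crest.Agent.R246.Skel2 (ACLim LimM eDen StDich)

local notation "𝔼" m => EuclideanSpace ℝ (Fin (m + 2))

variable {m : ℕ} {U : Filter ℕ} {ε : ℕ → ℝ} {R : ℕ → (𝔼 m) → ℝ} {r φ : (𝔼 m) → ℝ}
  {μ : Measure (𝔼 m)} {a0 : ℝ}

theorem eDen_smul {e : ℝ} {Q : (𝔼 m) → ℝ} (h : SmHom0 Q) {t : ℝ} (ht : 0 < t)
    (z : Sph (m + 2)) : eDen e Q (t • (z : 𝔼 m)) = 3 / 4 * (t⁻¹ * eden e Q z) := by
  unfold eDen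
  rw [qq_hw_smul h e ht, norm_smul, Real.norm_eq_abs, abs_of_pos ht]
  have : ‖(z : 𝔼 m)‖ = 1 := by simp
  rw [this]
  field_simp

/-- profile -/
def pr (ρ : ℝ) (x : 𝔼 m) : ℝ := max (1 - ‖x‖ ^ 2 / ρ ^ 2) 0

theorem pr_cont (ρ : ℝ) : Continuous (pr (m := m) ρ) := by unfold pr; fun_prop

theorem pr_zero {ρ : ℝ} (hρ : 0 < ρ) {x : 𝔼 m} (hx : x ∉ closedBall (0 : 𝔼 m) ρ) :
    pr ρ x = 0 := by
  rw [mem_closedBall_zero_iff, not_le] at hx
  unfold pr
  rw [max_eq_right]
  rw [sub_nonpos, one_le_div (by positivity)]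
  exact pow_le_pow_left₀ hρ.le hx.le 2

theorem pr_le_one (ρ : ℝ) (x : 𝔼 m) : pr ρ x ≤ 1 := by
  unfold pr
  refine max_le ?_ zero_le_one
  have : 0 ≤ ‖x‖ ^ 2 / ρ ^ 2 := by positivity
  linarith

theorem pr_nonneg (ρ : ℝ) (x : 𝔼 m) : 0 ≤ pr ρ x := le_max_right _ _

theorem integrable_test (hm : 1 ≤ m) {e : ℝ} (he : 0 < e) {Q : (𝔼 m) → ℝ} (h : SmHom0 Q)
    (hQ : ACeq e Q) {a : 𝔼 m} (ha : ‖a‖ = 1) {ρ : ℝ} (hρ : 0 < ρ) :
    Integrable fun x : 𝔼 m => pr ρ x * ⟪a, x⟫ * eDen e Q x := by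
  have hn : 3 ≤ m + 2 := by omega
  refine Crest.Agent.R246.Flat105.integrable_of_bdd_supp (C := 3 / 4 * (1 / e)) ?_ ?_
    (isCompact_closedBall (0 : 𝔼 m) ρ) ?_
  · have h1 : ContinuousOn (eDen e Q) {0}ᶜ := by
      unfold eDen
      exact continuousOn_const.mul (continuous_norm.continuousOn.mul (continuousOn_qq h e))
    have h2 : AEStronglyMeasurable (eDen e Q) volume := aesm_of_continuousOn (by omega) h1
    refine AEStronglyMeasurable.mul ?_ h2
    have : Continuous fun x : 𝔼 m => pr ρ x * ⟪a, x⟫ := (pr_cont ρ).mul (by fun_prop)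
    exact this.aestronglyMeasurable
  · intro x
    by_cases hx : x = 0
    · subst hx
      simp only [inner_zero_right, mul_zero, zero_mul, abs_zero]
      positivity
    · have hx0 : 0 < ‖x‖ := norm_pos_iff.2 hx
      have e1 : eDen e Q x = 3 / 4 * (‖x‖⁻¹ * eden e Q x) := by
        unfold eDen
        have hh : qq hw Q e x = (‖x‖ ^ 2)⁻¹ * eden e Q x := by
          unfold qq eden hw sgsq
          rw [nsq_eq]
          field_simp
        rw [hh]
        field_simp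
      have h1 : eden e Q x ≤ 1 / e := (eden_le_sg hn he h hQ hx).trans (sg_le_inv he Q x)
      have h2 := eden_nonneg' he Q hx
      have h3 : |⟪a, x⟫| ≤ ‖x‖ := by
        have := abs_real_inner_le_norm a x
        rwa [ha, one_mul] at this
      rw [e1, abs_mul, abs_mul, abs_of_nonneg (pr_nonneg ρ x),
        abs_of_nonneg (by positivity : 0 ≤ 3 / 4 * (‖x‖⁻¹ * eden e Q x))]
      calc pr ρ x * |⟪a, x⟫| * (3 / 4 * (‖x‖⁻¹ * eden e Q x))
          ≤ 1 * ‖x‖ * (3 / 4 * (‖x‖⁻¹ * (1 / e))) := by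
            have := pr_le_one ρ x
            have := pr_nonneg ρ x
            gcongr
        _ = 3 / 4 * (1 / e) := by field_simp
  · intro x hx
    rw [pr_zero hρ hx]; ring

theorem integral_test (hm : 1 ≤ m) {e : ℝ} (he : 0 < e) {Q : (𝔼 m) → ℝ} (h : SmHom0 Q)
    (hQ : ACeq e Q) {a : 𝔼 m} (ha : ‖a‖ = 1) {ρ : ℝ} (hρ : 0 < ρ) :
    ∫ x : 𝔼 m, pr ρ x * ⟪a, x⟫ * eDen e Q x =
      (∫ t in Ioi (0 : ℝ), t ^ (m + 2 - 1) * (3 / 4 * max (1 - t ^ 2 / ρ ^ 2) 0)) *
        ∫ z : Sph (m + 2), ⟪a, z⟫ * eden e Q z ∂(sig (m + 2)) := by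
  rw [polar (by omega) _ (integrable_test hm he h hQ ha hρ), ← integral_mul_const]
  refine setIntegral_congr_fun measurableSet_Ioi fun t ht => ?_
  have ht' : (0 : ℝ) < t := ht
  have h1 : ∀ z : Sph (m + 2), pr ρ (t • (z : 𝔼 m)) * ⟪a, t • (z : 𝔼 m)⟫ *
      eDen e Q (t • (z : 𝔼 m)) =
      (3 / 4 * max (1 - t ^ 2 / ρ ^ 2) 0) * (⟪a, z⟫ * eden e Q z) := by
    intro z
    rw [eDen_smul h ht' z, inner_smul_right]
    unfold pr
    have : ‖t • (z : 𝔼 m)‖ = t := by
      rw [norm_smul, Real.norm_eq_abs, abs_of_pos ht']; simp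
    rw [this]
    field_simp
  simp only [h1]
  rw [integral_const_mul]
  ring

/-- vanishing first moments of the limit measure -/
theorem moment_zero (hm : 1 ≤ m) (hL : ACLim m U ε R r φ μ a0) {a : 𝔼 m} (ha : ‖a‖ = 1)
    (hφ : ∀ x : 𝔼 m, 0 < ⟪a, x⟫ → |φ x| = ⟪a, x⟫) {ρ : ℝ} (hρ : 0 < ρ) :
    ∫ x, max (1 - ‖x‖ ^ 2 / ρ ^ 2) 0 * ⟪a, x⟫ ∂μ = 0 := by
  have hNB : U.NeBot := hL.neBot
  have h1 := hL.loc (fun x => pr ρ x * ⟪a, x⟫) ((pr_cont ρ).mul (by fun_prop)) (by
    refine HasCompactSupport.mul_right ?_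
    refine HasCompactSupport.of_support_subset_isCompact (isCompact_closedBall (0 : 𝔼 m) ρ) ?_
    intro x hx
    by_contra hcon
    exact hx (pr_zero hρ hcon))
  have h2 := (moment_tendsto hm hL ha hφ).const_mul
    (∫ t in Ioi (0 : ℝ), t ^ (m + 2 - 1) * (3 / 4 * max (1 - t ^ 2 / ρ ^ 2) 0))
  rw [mul_zero] at h2
  have h3 : ∀ k, ∫ x : 𝔼 m, pr ρ x * ⟪a, x⟫ * eDen (ε k) (R k) x =
      (∫ t in Ioi (0 : ℝ), t ^ (m + 2 - 1) * (3 / 4 * max (1 - t ^ 2 / ρ ^ 2) 0)) *
        ∫ z : Sph (m + 2), ⟪a, z⟫ * eden (ε k) (R k) z ∂(sig (m + 2)) := fun k =>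
    integral_test hm (hL.sol k).pos (hL.sol k).sm (hL.sol k).eq ha hρ
  simp only [h3] at h1
  exact tendsto_nhds_unique h1 h2

/-- touching: `|φ| = ⟪a,·⟫` on the half space -/
theorem touch_eq (hM : LimM φ μ (a0 * cV (𝔼 m))) {a : 𝔼 m} (ha : ‖a‖ = 1) (h : |φ a| = 1)
    (x : 𝔼 m) (hx : 0 < ⟪a, x⟫) : |φ x| = ⟪a, x⟫ := by
  rcases (abs_eq (zero_le_one' ℝ)).1 h with h1 | h1
  · rw [Crest.Agent.R246.G4x386.eq_inner_of_touch hM.hom hM.cD.lip
      (Crest.Agent.R246.G4b386.supW_of_classD hM.cD) ha h1 hx, abs_of_pos hx]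
  · have hD := Crest.Agent.R246.G4b386.classD_neg hM.cD
    have h2 := Crest.Agent.R246.G4x386.eq_inner_of_touch (ρ := fun x => -φ x)
      (fun t ht x => by rw [hM.hom t ht x]; ring) hD.lip
      (Crest.Agent.R246.G4b386.supW_of_classD hD) ha (by rw [h1]; ring) hx
    have h3 : φ x = -⟪a, x⟫ := by
      have : -φ x = ⟪a, x⟫ := h2
      linarith
    rw [h3, abs_neg, abs_of_pos hx]

/-- no touching: null cone -/
theorem nullCone_of (hM : LimM φ μ (a0 * cV (𝔼 m))) (h : ∀ a : 𝔼 m, ‖a‖ = 1 → |φ a| ≠ 1) :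
    NullCone φ where
  hom := hM.hom
  lip := hM.cD.lip
  grad := hM.cD.grad
  bd := by
    have h0 : φ 0 = 0 := by
      have := hM.hom 0 le_rfl 0
      simpa using this
    have hle : ∀ x, |φ x| ≤ ‖x‖ := fun x => by
      have := hM.cD.lip.dist_le_mul x 0
      rw [Real.dist_eq, h0, sub_zero, dist_zero_right, NNReal.coe_one, one_mul] at this
      exact this
    have hne : (sphere (0 : 𝔼 m) 1).Nonempty := by
      have : Nontrivial (𝔼 m) := inferInstance
      exact NormedSpace.sphere_nonempty.2 zero_le_one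
    obtain ⟨p, hp, hmax⟩ := (isCompact_sphere (0 : 𝔼 m) 1).exists_isMaxOn hne
      (hM.cD.lip.continuous.abs.continuousOn)
    have hp1 : ‖p‖ = 1 := mem_sphere_zero_iff_norm.1 hp
    refine ⟨|φ p|, abs_nonneg _, lt_of_le_of_ne ((hle p).trans hp1.le) (h p hp1), fun x => ?_⟩
    by_cases hx : x = 0
    · subst hx; simp [h0]
    · have hx0 : 0 < ‖x‖ := norm_pos_iff.2 hx
      have h1 : x = ‖x‖ • (‖x‖⁻¹ • x) := by
        rw [smul_smul, mul_inv_cancel₀ hx0.ne', one_smul]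
      have h2 : φ x = ‖x‖ * φ (‖x‖⁻¹ • x) := by
        conv_lhs => rw [h1]
        exact hM.hom _ hx0.le _
      have h3 : ‖x‖⁻¹ • x ∈ sphere (0 : 𝔼 m) 1 := by
        rw [mem_sphere_zero_iff_norm, norm_smul, norm_inv, norm_norm, inv_mul_cancel₀ hx0.ne']
      have h4 : |φ (‖x‖⁻¹ • x)| ≤ |φ p| := hmax h3
      rw [h2, abs_mul, abs_of_pos hx0, mul_comm]
      exact mul_le_mul_of_nonneg_right h4 hx0.le

/-- **The dichotomy.** -/
theorem stDich (hm : 1 ≤ m) : StDich m := by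
  intro U ε R r φ μ a hL hM ha2
  by_cases h : ∃ b : 𝔼 m, ‖b‖ = 1 ∧ |φ b| = 1
  · right
    obtain ⟨b, hb, hφb⟩ := h
    have hfin : IsFiniteMeasureOnCompacts μ := hL.fin
    have hE : Module.finrank ℝ (𝔼 m) = m + 2 := by simp
    have hdim : 2 ≤ Module.finrank ℝ (𝔼 m) := by omega
    refine Crest.Agent.R246.G4b386.stG4 (𝔼 m) hdim φ μ b hfin hM.hom hM.cD
      (var_univ hdim hM.cD.lip hM.var) hM.conc hb hφb
      (fun ρ hρ => moment_zero hm hL hb (touch_eq hM hb hφb) hρ) ?_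
    rw [hM.mass]
    refine (ENNReal.ofReal_lt_ofReal_iff (by positivity)).2 ?_
    exact Crest.Agent.R246.ThetaK688.mass_lt_two hE ha2
  · left
    push Not at h
    exact nullCone_of hM h

end Crest.Agent.R246.Dich67
end
end

-- ▼ part R246/Flatx5_992
section

/-!
Row 246, block GL3 (helper992), part 5: the flat exclusion `Skel2.StFlat` from Lemma MS.
-/

set_option autoImplicit false

open Filter Topology Metric Set MeasureTheory
open scoped ContDiff RealInnerProductSpace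
open Crest.Agent.R246.MSP782 (hw acsol_of_sphere)
open Crest.Agent.R246.Lim538 (qq)
open Crest.GeometryTopology.SphereImmersion

noncomputable section

namespace Crest.Agent.R246.Flatx992

theorem SE_eq_En {m : ℕ} {ε : ℝ} {R : Skel656.E m → ℝ} (h : Skel656.ACsol m ε R) :
    SE (qq hw R ε) = Skel656.En ε R := by
  rw [Vb872.En_eq h, SE_qq]
  rfl

theorem sigW_area (m : ℕ) : sigW (m + 1) = unitSphereArea m := by
  rw [sigW_eq, ThetaK688.toSphere_univ, ENNReal.toReal_ofReal (ThetaK688.unitSphereArea_pos m).le]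

/-- **FLAT EXCLUSION** -/
theorem stFlat {m : ℕ} (hm : 1 ≤ m)
    (hMS : MS852.StMS (EuclideanSpace ℝ (Fin (m + 2))) (m + 1)) : Skel2.StFlat m := by
  intro U ε R r φ μ a hL _ ha ⟨e, he, hφ⟩
  have hU := hL.neBot
  -- a subsequence
  have hex : ∀ k : ℕ, ∃ j, ε j < 1 / ((k : ℝ) + 1) ∧
      (∀ x ∈ ({0}ᶜ : Set (Skel656.E m)), dist (r x) (R j x) < 1 / ((k : ℝ) + 1)) ∧
      dist (3 / 4 * Skel656.En (ε j) (R j)) a < 1 / ((k : ℝ) + 1) := by
    intro k
    have hk : (0 : ℝ) < 1 / ((k : ℝ) + 1) := by positivity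
    have h1 := hL.eps.eventually (gt_mem_nhds hk)
    have h2 := (Metric.tendstoUniformlyOn_iff.1 hL.conv) _ hk
    have h3 := (Metric.tendsto_nhds.1 hL.en) _ hk
    exact (h1.and (h2.and h3)).exists
  choose s hs1 hs2 hs3 using hex
  have hz : Tendsto (fun k : ℕ => 1 / ((k : ℝ) + 1)) atTop (𝓝 0) :=
    tendsto_one_div_add_atTop_nhds_zero_nat
  have hn : 3 ≤ m + 2 := by omega
  have H : ∀ k, Lim538.ACSol {0}ᶜ hw (R (s k)) (ε (s k)) := fun k =>
    acsol_of_sphere hn (hL.sol (s k)).pos (hL.sol (s k)).sm (hL.sol (s k)).eq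
  have hσ : 0 < unitSphereArea m := ThetaK688.unitSphereArea_pos m
  have hE : Tendsto (fun k => SE (qq hw (R (s k)) (ε (s k)))) atTop
      (𝓝 (4 / 3 * (a / unitSphereArea m) * sigW (m + 1))) := by
    have h1 : Tendsto (fun k => 3 / 4 * Skel656.En (ε (s k)) (R (s k))) atTop (𝓝 a) := by
      rw [tendsto_iff_dist_tendsto_zero]
      exact squeeze_zero (fun _ => dist_nonneg) (fun k => (hs3 k).le) hz
    have h2 := h1.const_mul (4 / 3)
    rw [sigW_area]
    have h3 : 4 / 3 * (a / unitSphereArea m) * unitSphereArea m = 4 / 3 * a := by field_simp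
    rw [h3]
    refine h2.congr fun k => ?_
    rw [SE_eq_En (hL.sol (s k))]
    ring
  have hfin := flat_core (θ := a / unitSphereArea m) hm hMS H (fun k => (hL.sol (s k)).sm)
    (squeeze_zero (fun k => (hL.sol (s k)).pos.le) (fun k => (hs1 k).le) hz) he hL.rpi
    (fun x => by rw [← hL.phi x, hφ x]) (fun δ hδ => by
      filter_upwards [hz.eventually (gt_mem_nhds hδ)] with k hk x hx
      have := hs2 k x hx
      rw [Real.dist_eq, abs_sub_comm] at this
      exact this.trans hk) hE (by rw [div_lt_iff₀ hσ]; exact ha)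
  rwa [div_le_one hσ] at hfin

end Crest.Agent.R246.Flatx992
end
end

-- ▼ part R246/D3LimD_67
section

/-!
R246, helper67.  D3.2 (limit of the Riccati inequality), part D: the limit cone function is
superharmonic where it is positive (and subharmonic where it is negative), Lipschitz tests.
-/

set_option autoImplicit false
noncomputable section
open MeasureTheory Set Filter Topology Metric
open scoped RealInnerProductSpace NNReal ContDiff Gradient
open Crest.GeometryTopology.CoordMetric Crest.GeometryTopology.AffineMaximal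
open Crest.Agent.R236.Jet

namespace Crest.Agent.R246.D3Lim67
open Crest.Agent.R246.Flat105 Crest.Agent.R246.D2x782 Crest.Agent.R246.Artanh657
open Crest.Agent.R246.E2x782 Crest.Agent.R202.SphDiv

theorem half_le_tanh {s : ℝ} (hs : 1 ≤ s) : 1 / 2 ≤ Real.tanh s := by
  rw [Real.tanh_eq_sinh_div_cosh, div_le_div_iff₀ (by norm_num) (Real.cosh_pos s), Real.sinh_eq,
    Real.cosh_eq]
  have h1 : Real.exp s = Real.exp (2 * s) * Real.exp (-s) := by
    rw [← Real.exp_add]; congr 1; ring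
  have h2 : 2 * s + 1 ≤ Real.exp (2 * s) := Real.add_one_le_exp _
  have h3 : 0 < Real.exp (-s) := Real.exp_pos _
  rw [h1]
  nlinarith

variable {n : ℕ}

local notation "EE" => EuclideanSpace ℝ (Fin n)

/-- pointwise lower bound of `-|x| Δ(|x| sin R)` -/
theorem pointwise_lower (hn : 3 ≤ n) {ε q ρ : ℝ} (hε : 0 < ε) (hq0 : 0 < q) (hq1 : q < 1)
    (hρ : 0 ≤ ρ) {R : EE → ℝ} (h : SmHom0 R) (hR : ACeq ε R) {x : EE} (hx : x ≠ 0)
    (hεR : ε ≤ R x) (hup : R x ≤ Real.pi / 2 + ρ)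
    (hric : q * (R x - (1 - q)) ≤ Real.arctan (-slap R x / (q * ((n : ℝ) - 2)))) :
    Aq ((n : ℝ) - 2) q (R x) - (ρ + ε) * (-slap R x) ≤ -(‖x‖ * lapl (phc R) x) ∧
      0 ≤ -slap R x ∧ Tq ((n : ℝ) - 2) q (R x) ≤ -slap R x := by
  have hm : (0 : ℝ) < (n : ℝ) - 2 := by
    have : (3 : ℝ) ≤ n := by exact_mod_cast hn
    linarith
  have hR0 : 0 ≤ R x := by linarith
  have hT := Tq_le hm hq0 hq1 hR0 hric
  have hg1 := modica hn hε h hR hx
  have ht : 1 / 2 ≤ Real.tanh (R x / ε) := half_le_tanh (by rw [one_le_div hε]; exact hεR)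
  have hy : -slap R x = 2 / ε * Real.tanh (R x / ε) * (1 - sgsq R x) := by rw [hR x hx]; ring
  have h1g : 0 ≤ 1 - sgsq R x := by linarith
  have hy0 : 0 ≤ -slap R x := by
    rw [hy]; positivity
  have hyg : 1 - sgsq R x ≤ ε * (-slap R x) := by
    rw [hy]
    have : ε * (2 / ε * Real.tanh (R x / ε) * (1 - sgsq R x)) =
        2 * Real.tanh (R x / ε) * (1 - sgsq R x) := by field_simp
    rw [this]
    nlinarith
  have hc := cos_lower hR0 hρ hup hy0 hT
  refine ⟨?_, hy0, hT⟩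
  rw [lapl_phc h hx]
  have h5 : Real.sin (R x) * (1 - sgsq R x) ≤ ε * (-slap R x) := by
    have h6 := Real.sin_le_one (R x)
    nlinarith
  unfold Aq
  nlinarith [hc, h5]

theorem continuous_mul_of_notMem {w f : EE → ℝ} (hw : Continuous w) (h0 : (0 : EE) ∉ tsupport w)
    (hf : ContinuousOn f {0}ᶜ) : Continuous fun x => w x * f x :=
  continuous_iff_continuousAt.2 fun x => by
    by_cases hx : x = 0
    · subst hx
      have h1 : (fun x => w x * f x) =ᶠ[𝓝 0] fun _ => 0 := by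
        filter_upwards [notMem_tsupport_iff_eventuallyEq.1 h0] with y hy
        rw [hy]; simp
      exact continuousAt_const.congr h1.symm
    · exact hw.continuousAt.mul (hf.continuousAt (isOpen_compl_singleton.mem_nhds hx))

theorem continuousOn_limit {ε : ℕ → ℝ} {R : ℕ → EE → ℝ} {r : EE → ℝ} {C : ℝ}
    (h : ACSeq ε R r C) : ContinuousOn r {0}ᶜ :=
  h.conv.continuousOn (Frequently.of_forall fun k =>
    fun _ hx => ((h.sm k).smooth _ hx).continuousAt.continuousWithinAt)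

theorem abs_limit_le (hn : 3 ≤ n) {ε : ℕ → ℝ} {R : ℕ → EE → ℝ} {r : EE → ℝ} {C : ℝ}
    (h : ACSeq ε R r C) {x : EE} (hx : x ≠ 0) : |r x| ≤ Real.pi :=
  le_of_tendsto' (tendsto_pt h hx).abs fun k => abs_le_pi hn (h.pos k) (h.sm k) (h.eq k) hx

theorem tendsto_pos_thq {s : ℝ} (hs0 : 0 < s) (hs : s ≤ Real.pi / 2) :
    Tendsto (fun j => thq (qj j) s) atTop (𝓝 s) := by
  unfold thq
  have h1 : Tendsto (fun j => qj j * (max s 0 - (1 - qj j))) atTop (𝓝 (1 * (max s 0 - (1 - 1)))) :=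
    tendsto_qj.mul (tendsto_const_nhds.sub (tendsto_const_nhds.sub tendsto_qj))
  have h2 : Tendsto (fun j => qj j * (Real.pi / 2)) atTop (𝓝 (1 * (Real.pi / 2))) :=
    tendsto_qj.mul tendsto_const_nhds
  have h3 := h1.min h2
  rw [max_eq_left hs0.le] at h3
  have e : min (1 * (s - (1 - 1))) (1 * (Real.pi / 2)) = s := by
    rw [one_mul, one_mul, sub_self, sub_zero]; exact min_eq_left hs
  rw [e] at h3
  simpa only [max_eq_left hs0.le] using h3

theorem tendsto_Tq {m s : ℝ} (hs0 : 0 < s) (hs : s < Real.pi / 2) :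
    Tendsto (fun j => Tq m (qj j) s) atTop (𝓝 (m * Real.tan s)) := by
  have hc : Real.cos s ≠ 0 := (Real.cos_pos_of_mem_Ioo ⟨by linarith, hs⟩).ne'
  have h1 := (Real.continuousAt_tan.2 hc).tendsto.comp (tendsto_pos_thq hs0 hs.le)
  have h2 := (tendsto_qj.mul_const m).mul h1
  rw [one_mul] at h2
  exact h2

theorem tendsto_Aq {m s : ℝ} (hs0 : 0 < s) (hs : s < Real.pi / 2) :
    Tendsto (fun j => Aq m (qj j) s) atTop (𝓝 0) := by
  have hc : 0 < Real.cos s := Real.cos_pos_of_mem_Ioo ⟨by linarith, hs⟩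
  have h1 := ((tendsto_Tq (m := m) hs0 hs).const_mul (max (Real.cos s) 0)).sub_const
    (m * Real.sin s)
  have e : max (Real.cos s) 0 * (m * Real.tan s) - m * Real.sin s = 0 := by
    rw [max_eq_left hc.le, Real.tan_eq_sin_div_cos]
    field_simp
    ring
  rw [e] at h1
  exact h1

theorem Aq_top (m q : ℝ) : Aq m q (Real.pi / 2) = -m := by
  unfold Aq
  rw [Real.cos_pi_div_two, Real.sin_pi_div_two]
  simp

theorem thq_nonneg {q s : ℝ} (hq0 : 0 < q) (hs : 1 - q ≤ s) : 0 ≤ thq q s := by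
  unfold thq
  refine le_min ?_ (by have := Real.pi_pos; positivity)
  exact mul_nonneg hq0.le (by linarith [le_max_left s 0])

theorem Tq_nonneg {m q s : ℝ} (hm : 0 ≤ m) (hq0 : 0 < q) (hq1 : q < 1) (hs : 1 - q ≤ s) :
    0 ≤ Tq m q s := by
  unfold Tq
  refine mul_nonneg (by positivity) ?_
  exact Real.tan_nonneg_of_nonneg_of_le_pi_div_two (thq_nonneg hq0 hs) (thq_mem hq0 hq1 s).2.le

theorem abs_Aq_le {m q s : ℝ} (hm : 0 ≤ m) (hq0 : 0 < q) (hq1 : q < 1) (hs1 : 1 - q ≤ s)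
    (hs : s ≤ Real.pi / 2) : |Aq m q s| ≤ m := by
  have hs0 : 0 < s := by linarith
  rcases hs.eq_or_lt with h | h
  · rw [h, Aq_top, abs_neg, abs_of_nonneg hm]
  · have hc : 0 < Real.cos s := Real.cos_pos_of_mem_Ioo ⟨by linarith, h⟩
    have h1 : 0 ≤ max (Real.cos s) 0 * Tq m q s :=
      mul_nonneg (le_max_right _ _) (Tq_nonneg hm hq0 hq1 hs1)
    have h2 : thq q s ≤ s := by
      refine (min_le_left _ _).trans ?_
      rw [max_eq_left hs0.le]
      nlinarith
    have h3 : Real.tan (thq q s) ≤ Real.tan s := by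
      rcases h2.eq_or_lt with h4 | h4
      · rw [h4]
      · exact (Real.tan_lt_tan_of_lt_of_lt_pi_div_two (thq_mem hq0 hq1 s).1 h h4).le
    have h0 : 0 ≤ Real.tan (thq q s) :=
      Real.tan_nonneg_of_nonneg_of_le_pi_div_two (thq_nonneg hq0 hs1) (thq_mem hq0 hq1 s).2.le
    have h4 : max (Real.cos s) 0 * Tq m q s ≤ m * Real.sin s := by
      rw [max_eq_left hc.le]
      have e : Real.sin s = Real.cos s * Real.tan s := by
        rw [Real.tan_eq_sin_div_cos]; field_simp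
      rw [e]
      unfold Tq
      calc Real.cos s * (q * m * Real.tan (thq q s))
          = (Real.cos s * m) * (q * Real.tan (thq q s)) := by ring
        _ ≤ (Real.cos s * m) * (1 * Real.tan s) := by
            apply mul_le_mul_of_nonneg_left _ (by positivity)
            exact mul_le_mul hq1.le h3 h0 zero_le_one
        _ = m * (Real.cos s * Real.tan s) := by ring
    have h5 : m * Real.sin s ≤ m := by
      have := Real.sin_le_one s
      nlinarith
    unfold Aq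
    rw [abs_le]
    constructor <;> linarith

/-- `T_q(π/2) → ∞` -/
theorem tendsto_Tq_top {m : ℝ} (hm : 0 < m) :
    Tendsto (fun j => Tq m (qj j) (Real.pi / 2)) atTop atTop := by
  have hpi := Real.pi_pos
  have h1 : Tendsto (fun j => thq (qj j) (Real.pi / 2)) atTop (𝓝[<] (Real.pi / 2)) := by
    rw [tendsto_nhdsWithin_iff]
    exact ⟨tendsto_pos_thq (by positivity) le_rfl,
      Eventually.of_forall fun j => (thq_mem (qj_pos j) (qj_lt j) _).2⟩
  have h2 := Real.tendsto_tan_pi_div_two.comp h1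
  have h3 : Tendsto (fun j => qj j * m) atTop (𝓝 (1 * m)) := tendsto_qj.mul_const m
  rw [one_mul] at h3
  exact h3.pos_mul_atTop hm h2

/-- the error `ρ_j = (1-q_j) + π/(2 q_j) - π/2` -/
def rj (j : ℕ) : ℝ := (1 - qj j) + Real.pi / 2 / qj j - Real.pi / 2

theorem rj_nonneg (j : ℕ) : 0 ≤ rj j := by
  unfold rj
  have h1 := qj_lt j
  have h2 := qj_pos j
  have h3 : Real.pi / 2 ≤ Real.pi / 2 / qj j := by
    rw [le_div_iff₀ h2]
    have := Real.pi_pos
    nlinarith
  linarith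

theorem tendsto_rj : Tendsto rj atTop (𝓝 0) := by
  have h2 : Tendsto rj atTop (𝓝 ((1 - 1) + Real.pi / 2 / 1 - Real.pi / 2)) :=
    ((tendsto_const_nhds.sub tendsto_qj).add (tendsto_const_nhds.div tendsto_qj one_ne_zero)).sub
      tendsto_const_nhds
  have e : (1 - 1) + Real.pi / 2 / 1 - Real.pi / 2 = 0 := by ring
  rwa [e] at h2

end Crest.Agent.R246.D3Lim67
end
end

-- ▼ part R246/D3LimE_67
section

/-!
R246, helper67.  D3.2 (limit of the Riccati inequality), part E: (S+) and (S-) for the limit cone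
function.
-/

set_option autoImplicit false
noncomputable section
open MeasureTheory Set Filter Topology Metric
open scoped RealInnerProductSpace NNReal ContDiff Gradient
open Crest.GeometryTopology.CoordMetric Crest.GeometryTopology.AffineMaximal
open Crest.Agent.R236.Jet

namespace Crest.Agent.R246.D3Lim67
open Crest.Agent.R246.Flat105 Crest.Agent.R246.D2x782 Crest.Agent.R246.Artanh657
open Crest.Agent.R246.E2x782 Crest.Agent.R202.SphDiv

variable {n : ℕ}

local notation "EE" => EuclideanSpace ℝ (Fin n)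

theorem lip_phc_k (hn : 3 ≤ n) {ε : ℕ → ℝ} {R : ℕ → EE → ℝ} {r : EE → ℝ} {C : ℝ}
    (h : ACSeq ε R r C) (k : ℕ) : LipschitzWith 1 (phc (R k)) :=
  (geo_of_sgsq (by omega) (h.sm k) fun _ hx =>
    (modica hn (h.pos k) (h.sm k) (h.eq k) hx).le).lipschitz_phi

theorem lip_phc {ε : ℕ → ℝ} {R : ℕ → EE → ℝ} {r : EE → ℝ} {C : ℝ}
    (h : ACSeq ε R r C) : LipschitzWith 1 (phc r) := h.geo.lipschitz_phi

theorem tendsto_phc {ε : ℕ → ℝ} {R : ℕ → EE → ℝ} {r : EE → ℝ} {C : ℝ}
    (h : ACSeq ε R r C) (x : EE) : Tendsto (fun k => phc (R k) x) atTop (𝓝 (phc r x)) := by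
  unfold phc
  by_cases hx : x = 0
  · subst hx; simp
  · exact ((Real.continuous_sin.tendsto _).comp (tendsto_pt h hx)).const_mul _

theorem phc_zero (r : EE → ℝ) : phc r 0 = 0 := by unfold phc; simp

/-- the data of a test function -/
structure TD (r ζ : EuclideanSpace ℝ (Fin n) → ℝ) : Prop where
  lip : ∃ K, LipschitzWith K ζ
  cpt : HasCompactSupport ζ
  nonneg : ∀ x, 0 ≤ ζ x
  sub : tsupport ζ ⊆ {x | 0 < phc r x}

/-- the weight `ζ / |x|` -/
def ww (ζ : EuclideanSpace ℝ (Fin n) → ℝ) (x : EuclideanSpace ℝ (Fin n)) : ℝ := ζ x * ‖x‖⁻¹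

namespace TD

variable {r ζ : EuclideanSpace ℝ (Fin n) → ℝ}

theorem zero_notMem (h : TD r ζ) : (0 : EE) ∉ tsupport ζ := fun h0 => by
  have := h.sub h0
  simp only [mem_ofPred_eq, phc_zero, lt_self_iff_false] at this

theorem ne_zero (h : TD r ζ) {x : EE} (hx : x ∈ tsupport ζ) : x ≠ 0 := fun h0 =>
  h.zero_notMem (h0 ▸ hx)

theorem cont (h : TD r ζ) : Continuous ζ := by
  obtain ⟨K, hK⟩ := h.lip
  exact hK.continuous

theorem contOn_inv : ContinuousOn (fun x : EE => ‖x‖⁻¹) {0}ᶜ := fun x hx =>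
  (continuous_norm.continuousAt.inv₀ (norm_ne_zero_iff.2 hx)).continuousWithinAt

theorem cont_ww (h : TD r ζ) : Continuous (ww ζ) :=
  continuous_mul_of_notMem h.cont h.zero_notMem contOn_inv

theorem ww_nonneg (h : TD r ζ) (x : EE) : 0 ≤ ww ζ x :=
  mul_nonneg (h.nonneg x) (inv_nonneg.2 (norm_nonneg _))

theorem tsupport_ww : tsupport (ww ζ) ⊆ tsupport ζ :=
  closure_mono fun _ hx => by
    simp only [Function.mem_support, ww] at hx ⊢
    exact left_ne_zero_of_mul hx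

theorem zero_notMem_ww (h : TD r ζ) : (0 : EE) ∉ tsupport (ww ζ) := fun h0 =>
  h.zero_notMem (tsupport_ww h0)

theorem cpt_ww (h : TD r ζ) : HasCompactSupport (ww ζ) := h.cpt.mul_right

theorem ww_eq_zero {x : EE} (hx : x ∉ tsupport ζ) : ww ζ x = 0 := by
  unfold ww
  rw [image_eq_zero_of_notMem_tsupport hx, zero_mul]

theorem int_ww_mul (h : TD r ζ) {f : EE → ℝ} (hf : ContinuousOn f {0}ᶜ) :
    Integrable fun x => ww ζ x * f x :=
  (continuous_mul_of_notMem h.cont_ww h.zero_notMem_ww hf).integrable_of_hasCompactSupport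
    h.cpt_ww.mul_right

theorem int_ww (h : TD r ζ) : Integrable (ww ζ) :=
  h.cont_ww.integrable_of_hasCompactSupport h.cpt_ww

theorem ww_le (h : TD r ζ) : ∃ B, 0 ≤ B ∧ ∀ x : EE, ww ζ x ≤ B * Real.exp (-‖x‖ ^ 2) := by
  have hc : Continuous fun x : EE => ww ζ x * Real.exp (‖x‖ ^ 2) :=
    h.cont_ww.mul (by fun_prop)
  obtain ⟨B, hB⟩ := hc.bounded_above_of_compact_support h.cpt_ww.mul_right
  refine ⟨B, (norm_nonneg _).trans (hB 0), fun x => ?_⟩
  have h1 := (le_abs_self _).trans (hB x)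
  have h2 : Real.exp (‖x‖ ^ 2) * Real.exp (-‖x‖ ^ 2) = 1 := by
    rw [← Real.exp_add]; simp
  have h3 : 0 < Real.exp (-‖x‖ ^ 2) := Real.exp_pos _
  calc ww ζ x = ww ζ x * (Real.exp (‖x‖ ^ 2) * Real.exp (-‖x‖ ^ 2)) := by rw [h2, mul_one]
    _ = (ww ζ x * Real.exp (‖x‖ ^ 2)) * Real.exp (-‖x‖ ^ 2) := by ring
    _ ≤ B * Real.exp (-‖x‖ ^ 2) := mul_le_mul_of_nonneg_right h1 h3.le

end TD

/-- uniform bound `∫ w |Δ_S R_k| ≤ M` -/
theorem mass_ww (hn : 3 ≤ n) {ε : ℕ → ℝ} {R : ℕ → EE → ℝ} {r ζ : EE → ℝ} {C : ℝ}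
    (h : ACSeq ε R r C) (hζ : TD r ζ) :
    ∃ M, 0 ≤ M ∧ ∀ k, ∫ x, ww ζ x * |slap (R k) x| ≤ M := by
  obtain ⟨B, hB0, hB⟩ := hζ.ww_le
  have h0 : ∀ k, 0 ≤ ∫ z : Sph n, |slap (R k) z| ∂(sig n) := fun k =>
    integral_nonneg fun _ => abs_nonneg _
  have hk0 := kap_nonneg n
  refine ⟨B * (kap n * C), mul_nonneg hB0 (mul_nonneg hk0 ((h0 0).trans (h.mass 0))), fun k => ?_⟩
  have hI := integrable_gauss_slap hn (h.pos k) (h.sm k) (h.eq k)
  calc ∫ x, ww ζ x * |slap (R k) x|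
      ≤ ∫ x, B * (Real.exp (-‖x‖ ^ 2) * |slap (R k) x|) := by
        refine integral_mono (hζ.int_ww_mul (continuousOn_slap (h.sm k)).abs) (hI.const_mul B) ?_
        intro x
        show ww ζ x * |slap (R k) x| ≤ B * (Real.exp (-‖x‖ ^ 2) * |slap (R k) x|)
        rw [← mul_assoc]
        exact mul_le_mul_of_nonneg_right (hB x) (abs_nonneg _)
    _ = B * (kap n * ∫ z : Sph n, |slap (R k) z| ∂(sig n)) := by
        rw [integral_const_mul, integral_gauss_slap hn (h.pos k) (h.sm k) (h.eq k)]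
    _ ≤ B * (kap n * C) := by
        exact mul_le_mul_of_nonneg_left (mul_le_mul_of_nonneg_left (h.mass k) hk0) hB0

/-- dominated convergence for `∫ w f(R_k)` -/
theorem tendsto_ww {ε : ℕ → ℝ} {R : ℕ → EE → ℝ} {r ζ : EE → ℝ} {C : ℝ}
    (h : ACSeq ε R r C) (hζ : TD r ζ) {f : ℝ → ℝ} (hf : Continuous f) {B : ℝ}
    (hB : ∀ s, |f s| ≤ B) :
    Tendsto (fun k => ∫ x, ww ζ x * f (R k x)) atTop (𝓝 (∫ x, ww ζ x * f (r x))) := by
  refine tendsto_integral_of_dominated_convergence (fun x => ww ζ x * B) ?_ ?_ ?_ ?_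
  · intro k
    have hc : ContinuousOn (fun x => f (R k x)) {0}ᶜ := fun x hx =>
      (hf.continuousAt.comp ((h.sm k).smooth x hx).continuousAt).continuousWithinAt
    exact (hζ.int_ww_mul hc).aestronglyMeasurable
  · exact hζ.int_ww.mul_const B
  · intro k
    refine Eventually.of_forall fun x => ?_
    rw [norm_mul, Real.norm_eq_abs, Real.norm_eq_abs, abs_of_nonneg (hζ.ww_nonneg x)]
    exact mul_le_mul_of_nonneg_left (hB _) (hζ.ww_nonneg x)
  · refine Eventually.of_forall fun x => ?_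
    by_cases hx : x ∈ tsupport ζ
    · exact ((hf.tendsto _).comp (tendsto_pt h (hζ.ne_zero hx))).const_mul _
    · simp only [TD.ww_eq_zero hx, zero_mul, tendsto_const_nhds]

/-- on the support of the test function `r ≥ τ > 0`. -/
theorem exists_tau (hn : 3 ≤ n) {ε : ℕ → ℝ} {R : ℕ → EE → ℝ} {r ζ : EE → ℝ} {C : ℝ}
    (h : ACSeq ε R r C) (hζ : TD r ζ) : ∃ τ > 0, ∀ x ∈ tsupport ζ, τ ≤ r x := by
  have hc : ContinuousOn r (tsupport ζ) :=
    (continuousOn_limit h).mono fun x hx => hζ.ne_zero hx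
  refine hζ.cpt.isCompact.exists_forall_le' hc fun x hx => ?_
  by_contra hcon
  push Not at hcon
  have h1 := hζ.sub hx
  have h2 := (abs_le.1 (abs_limit_le hn h (hζ.ne_zero hx))).1
  have h3 : Real.sin (r x) ≤ 0 := Real.sin_nonpos_of_nonpos_of_neg_pi_le hcon h2
  simp only [mem_ofPred_eq, phc] at h1
  have h4 := norm_nonneg x
  nlinarith [mul_nonneg h4 (neg_nonneg.2 h3)]

/-- eventually on the support everything is in the good range. -/
theorem good_ev (hn : 3 ≤ n) {ε : ℕ → ℝ} {R : ℕ → EE → ℝ} {r ζ : EE → ℝ} {C : ℝ}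
    (h : ACSeq ε R r C) (hRic : RicQ R) (hζ : TD r ζ) (j : ℕ) :
    ∀ᶠ k in atTop, ∀ x ∈ tsupport ζ,
      Aq ((n : ℝ) - 2) (qj j) (R k x) - (rj j + ε k) * (-slap (R k) x) ≤
        -(‖x‖ * lapl (phc (R k)) x) ∧ 0 ≤ -slap (R k) x ∧
        Tq ((n : ℝ) - 2) (qj j) (R k x) ≤ -slap (R k) x := by
  obtain ⟨τ, hτ, hr⟩ := exists_tau hn h hζ
  have h1 := (Metric.tendstoUniformlyOn_iff.1 h.conv) (τ / 2) (by positivity)
  have h2 : ∀ᶠ k in atTop, ε k < τ / 2 := h.lim.eventually (gt_mem_nhds (by positivity))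
  filter_upwards [h1, h2, hRic (qj j) (qj_pos j) (qj_lt j),
    upper_ev hRic (qj_pos j) (qj_lt j)] with k hk1 hk2 hk3 hk4 x hx
  have hx0 := hζ.ne_zero hx
  have h3 := hk1 x hx0
  rw [Real.dist_eq, abs_lt] at h3
  have h4 := hr x hx
  have h5 : ε k ≤ R k x := by linarith [h3.2]
  have h6 : 0 ≤ R k x := (h.pos k).le.trans h5
  refine pointwise_lower hn (h.pos k) (qj_pos j) (qj_lt j) (rj_nonneg j) (h.sm k) (h.eq k) hx0 h5
    ?_ (hk3 x hx0 h6)
  have := hk4 x hx0
  unfold rj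
  linarith

/-- lower bound of the limit for fixed `j`. -/
theorem lower_j (hn : 3 ≤ n) {ε : ℕ → ℝ} {R : ℕ → EE → ℝ} {r ζ : EE → ℝ} {C : ℝ}
    (h : ACSeq ε R r C) (hRic : RicQ R) (hζ : TD r ζ) {M : ℝ}
    (hM : ∀ k, ∫ x, ww ζ x * |slap (R k) x| ≤ M) (j : ℕ) :
    (∫ x, ww ζ x * Aq ((n : ℝ) - 2) (qj j) (r x)) - rj j * M ≤ ∫ x, ⟪∇ (phc r) x, ∇ ζ x⟫ := by
  obtain ⟨K, hK⟩ := hζ.lip
  obtain ⟨B, hB⟩ := bdd_Aq ((n : ℝ) - 2) (qj_pos j) (qj_lt j)
  have hcA := continuous_Aq ((n : ℝ) - 2) (qj_pos j) (qj_lt j)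
  have hgi : Integrable (fun x => ∇ ζ x) := by
    have hm : AEStronglyMeasurable (fun x => ∇ ζ x) volume := (meas_grad ζ).aestronglyMeasurable
    have hcs : HasCompactSupport (fun x => ∇ ζ x) := hζ.cpt.mono' fun x hx => by
      by_contra hn'
      exact hx (grad_zero_of_notMem hn')
    have h1 : IntegrableOn (fun x => ∇ ζ x) (tsupport ζ) :=
      Measure.integrableOn_of_bounded (M := (K : ℝ)) hζ.cpt.isCompact.measure_lt_top.ne hm
        (Eventually.of_forall fun x => norm_grad_le hK x)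
    refine (integrableOn_iff_integrable_of_support_subset fun x hx => ?_).1 h1
    by_contra hn'
    exact hx (grad_zero_of_notMem hn')
  have hL := weak_conv_vec (lip_phc_k hn h) (lip_phc h) (tendsto_phc h) hgi
  have hR := ((tendsto_ww h hζ hcA hB).sub
    ((h.lim.const_add (rj j)).mul_const M))
  rw [add_zero] at hR
  refine le_of_tendsto_of_tendsto hR hL ?_
  filter_upwards [good_ev hn h hRic hζ j] with k hk
  have hlap : ContinuousOn (fun x => -(‖x‖ * lapl (phc (R k)) x)) {0}ᶜ := by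
    intro x hx
    have h1 : ContinuousAt (fun x => -(((n : ℝ) - 1) * Real.sin (R k x) +
        Real.cos (R k x) * slap (R k) x - Real.sin (R k x) * sgsq (R k) x)) x := by
      have c1 := ((h.sm k).smooth x hx).continuousAt
      have c2 := ((h.sm k).smooth_slap hx).continuousAt
      have c3 := ((h.sm k).smooth_sgsq hx).continuousAt
      have c4 : ContinuousAt (fun x => Real.sin (R k x)) x :=
        Real.continuous_sin.continuousAt.comp c1
      have c5 : ContinuousAt (fun x => Real.cos (R k x)) x :=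
        Real.continuous_cos.continuousAt.comp c1
      exact (((continuousAt_const.mul c4).add (c5.mul c2)).sub (c4.mul c3)).neg
    refine (h1.congr ?_).continuousWithinAt
    filter_upwards [ev_ne hx] with y hy
    rw [lapl_phc (h.sm k) hy]
  have hAc : ContinuousOn (fun x => Aq ((n : ℝ) - 2) (qj j) (R k x)) {0}ᶜ := fun x hx =>
    (hcA.continuousAt.comp ((h.sm k).smooth x hx).continuousAt).continuousWithinAt
  have e1 : ∫ x, ⟪∇ (phc (R k)) x, ∇ ζ x⟫ = ∫ x, ww ζ x * (-(‖x‖ * lapl (phc (R k)) x)) := by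
    rw [ibp_lapl (fun x hx => smooth_phc (h.sm k) hx) hK hζ.cpt hζ.zero_notMem, ← integral_neg]
    refine integral_congr_ae (Eventually.of_forall fun x => ?_)
    by_cases hx : x ∈ tsupport ζ
    · have : ‖x‖ ≠ 0 := norm_ne_zero_iff.2 (hζ.ne_zero hx)
      simp only [ww]
      field_simp
    · simp only [TD.ww_eq_zero hx, image_eq_zero_of_notMem_tsupport hx, zero_mul, neg_zero]
  have i1 := hζ.int_ww_mul hlap
  have i2 := hζ.int_ww_mul hAc
  have i3 := hζ.int_ww_mul (continuousOn_slap (h.sm k)).abs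
  have e2 : (∫ x, ww ζ x * Aq ((n : ℝ) - 2) (qj j) (R k x)) -
      (rj j + ε k) * (∫ x, ww ζ x * |slap (R k) x|) ≤
      ∫ x, ww ζ x * (-(‖x‖ * lapl (phc (R k)) x)) := by
    rw [← integral_const_mul, ← integral_sub i2 (i3.const_mul _)]
    refine integral_mono (i2.sub (i3.const_mul _)) i1 fun x => ?_
    show ww ζ x * Aq ((n : ℝ) - 2) (qj j) (R k x) - (rj j + ε k) * (ww ζ x * |slap (R k) x|) ≤
      ww ζ x * (-(‖x‖ * lapl (phc (R k)) x))
    by_cases hx : x ∈ tsupport ζ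
    · obtain ⟨k1, k2, k3⟩ := hk x hx
      have k4 : |slap (R k) x| = -slap (R k) x := abs_of_nonpos (by linarith)
      rw [k4]
      have := mul_le_mul_of_nonneg_left k1 (hζ.ww_nonneg x)
      linarith
    · simp only [TD.ww_eq_zero hx, zero_mul, mul_zero, sub_zero, le_refl]
  rw [e1]
  refine le_trans ?_ e2
  have h5 : 0 ≤ rj j + ε k := add_nonneg (rj_nonneg j) (h.pos k).le
  have := mul_le_mul_of_nonneg_left (hM k) h5
  linarith

/-- the contact set `{r = π/2}` is a null set (weighted form) -/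
theorem contact_null (hn : 3 ≤ n) {ε : ℕ → ℝ} {R : ℕ → EE → ℝ} {r ζ : EE → ℝ} {C : ℝ}
    (h : ACSeq ε R r C) (hRic : RicQ R) (hζ : TD r ζ) {M : ℝ}
    (hM : ∀ k, ∫ x, ww ζ x * |slap (R k) x| ≤ M) :
    ∫ x, ww ζ x * (if r x = Real.pi / 2 then 1 else 0) ≤ 0 := by
  obtain ⟨τ, hτ, hr⟩ := exists_tau hn h hζ
  set m : ℝ := (n : ℝ) - 2 with hm
  have hm0 : 0 < m := by
    have : (3 : ℝ) ≤ n := by exact_mod_cast hn
    rw [hm]; linarith
  set c : ℕ → ℝ := fun j => Tq m (qj j) (Real.pi / 2) with hc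
  have hctop : Tendsto c atTop atTop := tendsto_Tq_top hm0
  have hrc := continuousOn_limit h
  -- ∫ w T_q(r) ≤ M
  have hT : ∀ j, ∫ x, ww ζ x * Tq m (qj j) (r x) ≤ M := by
    intro j
    obtain ⟨B, hB⟩ := bdd_Tq m (qj_pos j) (qj_lt j)
    have hcT := continuous_Tq m (qj_pos j) (qj_lt j)
    refine le_of_tendsto (tendsto_ww h hζ hcT hB) ?_
    filter_upwards [good_ev hn h hRic hζ j] with k hk
    refine le_trans ?_ (hM k)
    have hTc : ContinuousOn (fun x => Tq m (qj j) (R k x)) {0}ᶜ := fun x hx =>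
      (hcT.continuousAt.comp ((h.sm k).smooth x hx).continuousAt).continuousWithinAt
    refine integral_mono (hζ.int_ww_mul hTc)
      (hζ.int_ww_mul (continuousOn_slap (h.sm k)).abs) fun x => ?_
    show ww ζ x * Tq m (qj j) (R k x) ≤ ww ζ x * |slap (R k) x|
    by_cases hx : x ∈ tsupport ζ
    · obtain ⟨k1, k2, k3⟩ := hk x hx
      have k4 : |slap (R k) x| = -slap (R k) x := abs_of_nonpos (by linarith)
      rw [k4]
      exact mul_le_mul_of_nonneg_left k3 (hζ.ww_nonneg x)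
    · simp only [TD.ww_eq_zero hx, zero_mul, le_refl]
  -- the approximants
  set G : ℕ → EE → ℝ := fun j x => ww ζ x * max 0 (min (Tq m (qj j) (r x) / c j) 1) with hG
  have hlim : Tendsto (fun j => ∫ x, G j x) atTop
      (𝓝 (∫ x, ww ζ x * (if r x = Real.pi / 2 then 1 else 0))) := by
    refine tendsto_integral_of_dominated_convergence (fun x => ww ζ x * 1) ?_ ?_ ?_ ?_
    · intro j
      have hcT := continuous_Tq m (qj_pos j) (qj_lt j)
      have : ContinuousOn (fun x => max 0 (min (Tq m (qj j) (r x) / c j) 1)) {0}ᶜ := by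
        have h1 : ContinuousOn (fun x => Tq m (qj j) (r x)) {0}ᶜ := hcT.comp_continuousOn hrc
        exact ((continuous_const.max (continuous_id.min continuous_const)).comp_continuousOn
          (h1.div_const (c j)))
      exact (hζ.int_ww_mul this).aestronglyMeasurable
    · exact hζ.int_ww.mul_const 1
    · intro j
      refine Eventually.of_forall fun x => ?_
      simp only [hG]
      rw [norm_mul, Real.norm_eq_abs, Real.norm_eq_abs, abs_of_nonneg (hζ.ww_nonneg x),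
        abs_of_nonneg (le_max_left _ _)]
      exact mul_le_mul_of_nonneg_left (max_le zero_le_one (min_le_right _ _)) (hζ.ww_nonneg x)
    · refine Eventually.of_forall fun x => ?_
      by_cases hx : x ∈ tsupport ζ
      · refine Tendsto.const_mul _ ?_
        have hr1 := le_pi_div_two h hRic (hζ.ne_zero hx)
        have hr0 := hτ.trans_le (hr x hx)
        rcases hr1.eq_or_lt with h1 | h1
        · rw [if_pos h1, h1]
          have : ∀ᶠ j in atTop, max 0 (min (Tq m (qj j) (Real.pi / 2) / c j) 1) = 1 := by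
            filter_upwards [hctop.eventually_gt_atTop 0] with j hj
            have : Tq m (qj j) (Real.pi / 2) / c j = 1 := div_self hj.ne'
            rw [this]; simp
          exact tendsto_const_nhds.congr' (this.mono fun j hj => hj.symm)
        · rw [if_neg h1.ne]
          have h2 : Tendsto (fun j => Tq m (qj j) (r x) / c j) atTop (𝓝 0) :=
            (tendsto_Tq (m := m) hr0 h1).div_atTop hctop
          have h3 := (tendsto_const_nhds (x := (0 : ℝ))).max
            (h2.min (tendsto_const_nhds (x := (1 : ℝ))))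
          simpa using h3
      · simp only [hG, TD.ww_eq_zero hx, zero_mul, tendsto_const_nhds]
  have hup : Tendsto (fun j => M / c j) atTop (𝓝 0) := tendsto_const_nhds.div_atTop hctop
  refine le_of_tendsto_of_tendsto hlim hup ?_
  have hq : ∀ᶠ j in atTop, 1 - qj j < τ := by
    have h1 : Tendsto (fun j => 1 - qj j) atTop (𝓝 (1 - 1)) :=
      tendsto_const_nhds.sub tendsto_qj
    rw [sub_self] at h1
    exact h1.eventually (gt_mem_nhds hτ)
  filter_upwards [hq, hctop.eventually_gt_atTop 0] with j hj1 hj2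
  have hcT := continuous_Tq m (qj_pos j) (qj_lt j)
  have hTr : ContinuousOn (fun x => Tq m (qj j) (r x)) {0}ᶜ := hcT.comp_continuousOn hrc
  rw [le_div_iff₀ hj2]
  refine le_trans ?_ (hT j)
  rw [← integral_mul_const]
  have hGc : ContinuousOn (fun x => max 0 (min (Tq m (qj j) (r x) / c j) 1)) {0}ᶜ :=
    (continuous_const.max (continuous_id.min continuous_const)).comp_continuousOn
      (hTr.div_const (c j))
  refine integral_mono ((hζ.int_ww_mul hGc).mul_const _) (hζ.int_ww_mul hTr) fun x => ?_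
  show ww ζ x * max 0 (min (Tq m (qj j) (r x) / c j) 1) * c j ≤ ww ζ x * Tq m (qj j) (r x)
  by_cases hx : x ∈ tsupport ζ
  · have h1 : 0 ≤ Tq m (qj j) (r x) :=
      Tq_nonneg hm0.le (qj_pos j) (qj_lt j) (hj1.le.trans (hr x hx))
    have h2 : max 0 (min (Tq m (qj j) (r x) / c j) 1) ≤ Tq m (qj j) (r x) / c j :=
      max_le (by positivity) (min_le_left _ _)
    have h3 : max 0 (min (Tq m (qj j) (r x) / c j) 1) * c j ≤ Tq m (qj j) (r x) := by
      calc max 0 (min (Tq m (qj j) (r x) / c j) 1) * c j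
          ≤ Tq m (qj j) (r x) / c j * c j := mul_le_mul_of_nonneg_right h2 hj2.le
        _ = Tq m (qj j) (r x) := by field_simp
    rw [mul_assoc]
    exact mul_le_mul_of_nonneg_left h3 (hζ.ww_nonneg x)
  · simp only [TD.ww_eq_zero hx, zero_mul, le_refl]

/-- **(S+)** the limit cone function is superharmonic where it is positive. -/
theorem super_pos (hn : 3 ≤ n) {ε : ℕ → ℝ} {R : ℕ → EE → ℝ} {r ζ : EE → ℝ} {C : ℝ}
    (h : ACSeq ε R r C) (hRic : RicQ R) (hζ : TD r ζ) :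
    0 ≤ ∫ x, ⟪∇ (phc r) x, ∇ ζ x⟫ := by
  obtain ⟨M, hM0, hM⟩ := mass_ww hn h hζ
  obtain ⟨τ, hτ, hr⟩ := exists_tau hn h hζ
  set m : ℝ := (n : ℝ) - 2 with hm
  have hm0 : 0 < m := by
    have : (3 : ℝ) ≤ n := by exact_mod_cast hn
    rw [hm]; linarith
  have hnull := contact_null hn h hRic hζ hM
  have hq : ∀ᶠ j in atTop, 1 - qj j < τ := by
    have h1 : Tendsto (fun j => 1 - qj j) atTop (𝓝 (1 - 1)) :=
      tendsto_const_nhds.sub tendsto_qj
    rw [sub_self] at h1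
    exact h1.eventually (gt_mem_nhds hτ)
  have hrc := continuousOn_limit h
  have hlim : Tendsto (fun j => ∫ x, ww ζ x * Aq m (qj j) (r x)) atTop
      (𝓝 (∫ x, ww ζ x * ((if r x = Real.pi / 2 then 1 else 0) * (-m)))) := by
    refine tendsto_integral_filter_of_dominated_convergence (fun x => ww ζ x * m) ?_ ?_
      (hζ.int_ww.mul_const m) ?_
    · exact Eventually.of_forall fun j => (hζ.int_ww_mul
        ((continuous_Aq m (qj_pos j) (qj_lt j)).comp_continuousOn hrc)).aestronglyMeasurable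
    · filter_upwards [hq] with j hj
      refine Eventually.of_forall fun x => ?_
      by_cases hx : x ∈ tsupport ζ
      · rw [norm_mul, Real.norm_eq_abs, Real.norm_eq_abs, abs_of_nonneg (hζ.ww_nonneg x)]
        exact mul_le_mul_of_nonneg_left (abs_Aq_le hm0.le (qj_pos j) (qj_lt j)
          (hj.le.trans (hr x hx)) (le_pi_div_two h hRic (hζ.ne_zero hx))) (hζ.ww_nonneg x)
      · simp only [TD.ww_eq_zero hx, zero_mul, norm_zero, le_refl]
    · refine Eventually.of_forall fun x => ?_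
      by_cases hx : x ∈ tsupport ζ
      · refine Tendsto.const_mul _ ?_
        have hr1 := le_pi_div_two h hRic (hζ.ne_zero hx)
        have hr0 := hτ.trans_le (hr x hx)
        rcases hr1.eq_or_lt with h1 | h1
        · rw [if_pos h1, h1]
          simp only [Aq_top, one_mul, tendsto_const_nhds]
        · rw [if_neg h1.ne, zero_mul]
          exact tendsto_Aq hr0 h1
      · simp only [TD.ww_eq_zero hx, zero_mul, tendsto_const_nhds]
  have hlim2 := hlim.sub (tendsto_rj.mul_const M)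
  rw [zero_mul, sub_zero] at hlim2
  have h1 := le_of_tendsto' hlim2 fun j => lower_j hn h hRic hζ hM j
  refine le_trans ?_ h1
  have e : ∫ x, ww ζ x * ((if r x = Real.pi / 2 then 1 else 0) * (-m)) =
      (∫ x, ww ζ x * (if r x = Real.pi / 2 then 1 else 0)) * (-m) := by
    rw [← integral_mul_const]
    refine integral_congr_ae (Eventually.of_forall fun x => ?_)
    show ww ζ x * ((if r x = Real.pi / 2 then 1 else 0) * (-m)) =
      ww ζ x * (if r x = Real.pi / 2 then 1 else 0) * (-m)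
    ring
  rw [e]
  nlinarith

end Crest.Agent.R246.D3Lim67
end
end

-- ▼ part R246/D3Fin_118
section

/-! R246, block D3.1 (helper118): the pointwise Riccati comparison for smooth Allen-Cahn solutions
on the sphere `S^{m+1} ⊂ ℝ^{m+2}`, `m ≥ 2`, on helper782's interface. -/

set_option autoImplicit false

open scoped ContDiff Topology
open Crest.GeometryTopology.CoordMetric Crest.GeometryTopology.AffineMaximal Filter Metric Set
open Crest.Agent.R236.Jet
open Crest.Agent.R246.D2x782 (SmHom0 ACeq slap sgsq lapl gsq)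

namespace Crest.Agent.R246.D3x118

noncomputable section

local notation "𝔼" n => EuclideanSpace ℝ (Fin n)

/-! ### one-dimensional estimates -/

lemma tanh_nonneg' {t : ℝ} (ht : 0 ≤ t) : 0 ≤ Real.tanh t := by
  rw [Real.tanh_eq_sinh_div_cosh]
  exact div_nonneg (Real.sinh_nonneg_iff.2 ht) (Real.cosh_pos t).le

lemma kk_le {ε t : ℝ} (hε : 0 < ε) (ht : 0 < t) : kk ε t ≤ ε ^ 2 / (2 * t ^ 2) := by
  have hs : 0 < t / ε := div_pos ht hε
  have h1 : t / ε ≤ Real.sinh (t / ε) := Real.self_le_sinh_iff.2 hs.le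
  have h2 : (t / ε) ^ 2 ≤ Real.sinh (t / ε) ^ 2 := pow_le_pow_left₀ hs.le h1 2
  unfold kk
  calc 1 / 2 * (1 / Real.sinh (t / ε) ^ 2) ≤ 1 / 2 * (1 / (t / ε) ^ 2) := by gcongr
    _ = ε ^ 2 / (2 * t ^ 2) := by field_simp

lemma cc_le {ε t : ℝ} (hε : 0 < ε) (ht : ε ≤ t) : cc ε t ≤ ε := by
  have hs : 1 ≤ t / ε := by rwa [one_le_div hε]
  have hs0 : 0 < t / ε := by linarith
  have h1 : t / ε ≤ Real.sinh (t / ε) := Real.self_le_sinh_iff.2 hs0.le
  have hsh : 0 < Real.sinh (t / ε) := by linarith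
  have h2 : Real.cosh (t / ε) - Real.sinh (t / ε) = Real.exp (-(t / ε)) := Real.cosh_sub_sinh _
  have h3 : Real.exp (-(t / ε)) ≤ 1 := Real.exp_le_one_iff.2 (by linarith)
  have h4 : Real.cosh (t / ε) / Real.sinh (t / ε) ≤ 2 := by
    rw [div_le_iff₀ hsh]; linarith
  unfold cc
  calc ε / 2 * (Real.cosh (t / ε) / Real.sinh (t / ε)) ≤ ε / 2 * 2 := by gcongr
    _ = ε := by ring

lemma theta_nonneg {m m₁ z : ℝ} (hm : 0 < m) (hm₁ : 0 < m₁) (hz : 0 ≤ z) :
    0 ≤ theta m m₁ z := by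
  unfold theta
  have hq : 0 < √(m * m₁) := Real.sqrt_pos.2 (by positivity)
  have : 0 ≤ Real.arctan (z / √(m * m₁)) := Real.arctan_nonneg.2 (by positivity)
  positivity

lemma theta_anti {m m₁ m₂ z : ℝ} (hm : 0 < m) (hm₁ : 0 < m₁) (h : m₁ ≤ m₂) (hz : 0 ≤ z) :
    theta m m₂ z ≤ theta m m₁ z := by
  unfold theta
  have hq : 0 < √(m * m₁) := Real.sqrt_pos.2 (by positivity)
  have hq2 : √(m * m₁) ≤ √(m * m₂) := Real.sqrt_le_sqrt (by gcongr)
  have h0 : 0 ≤ Real.arctan (z / √(m * m₂)) := Real.arctan_nonneg.2 (by positivity)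
  have h1 : Real.arctan (z / √(m * m₂)) ≤ Real.arctan (z / √(m * m₁)) :=
    Real.arctan_strictMono.monotone (by gcongr)
  gcongr

lemma theta_eq {m m₁ : ℝ} (hm : 0 < m) (hm₁ : 0 < m₁) (z : ℝ) :
    theta m m₁ z = √(m / m₁) * Real.arctan (z / √(m * m₁)) := by
  unfold theta
  congr 1
  rw [Real.sqrt_div hm.le, Real.sqrt_mul hm.le]
  have h1 : 0 < √m := Real.sqrt_pos.2 hm
  have h2 : 0 < √m₁ := Real.sqrt_pos.2 hm₁
  rw [div_eq_div_iff (by positivity) (by positivity)]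
  have h3 : √m * √m = m := Real.mul_self_sqrt hm.le
  linear_combination (-√m₁) * h3

/-! ### the bridge to `SmHom0`, `ACeq` -/

section Bridge

variable {n : ℕ} {R : (𝔼 n) → ℝ} {ε : ℝ}

lemma slap_eq (R : (𝔼 n) → ℝ) (x : 𝔼 n) : slap R x = nsq x * lap R x := rfl

lemma sgsq_eq (R : (𝔼 n) → ℝ) (x : 𝔼 n) : sgsq R x = nsq x * grad2 R x := rfl

lemma yy_eq (R : (𝔼 n) → ℝ) (x : 𝔼 n) : yy R x = -slap R x := rfl

lemma isAC (hε : 0 < ε) (h : ACeq ε R) : IsAC ε R := by
  intro x hx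
  have h1 := h x hx
  rw [slap_eq, sgsq_eq] at h1
  rw [h1]
  field_simp
  ring

/-- `slap R` is `0`-homogeneous for Allen-Cahn solutions -/
lemma slap_smul (h : SmHom0 R) (hac : ACeq ε R) {x : 𝔼 n} (hx : x ≠ 0) {t : ℝ} (ht : 0 < t) :
    slap R (t • x) = slap R x := by
  rw [hac (t • x) (smul_ne_zero ht.ne' hx), hac x hx, h.hom t x ht, h.sgsq_smul hx ht]

end Bridge

/-! ### the theorem -/

section Main

variable {m : ℕ} {R : (𝔼 (m + 2)) → ℝ} {ε δ τ : ℝ}

/-- the comparison for `δ ≤ 1` -/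
theorem bound_core (hm : 2 ≤ m) (hδ : 0 < δ) (hδ1 : δ ≤ 1) (hτ : 0 < τ) (hε : 0 < ε)
    (h2 : ε ≤ δ / (20 * (m : ℝ) ^ 2)) (h3 : ε ≤ τ * (δ / (2 * m)))
    (hR : SmHom0 R) (hac : ACeq ε R) {x : 𝔼 (m + 2)} (hx : x ≠ 0) (hRx : 0 ≤ R x) :
    R x - τ ≤ theta m (m - δ) (-slap R x) := by
  by_contra hcon
  push Not at hcon
  have hm0 : (0 : ℝ) < m := by exact_mod_cast (by omega : 0 < m)
  have hm2 : (2 : ℝ) ≤ m := by exact_mod_cast hm
  have hm1 : 0 < (m : ℝ) - δ := by linarith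
  have smR : Sm0 R := fun x hx => hR.smooth x hx
  have hsmyy := sm_yy smR
  set Ψ : (𝔼 (m + 2)) → ℝ := fun z => R z - theta m (m - δ) (yy R z) with hΨ
  have hΨc : ∀ z : 𝔼 (m + 2), z ≠ 0 → ContinuousAt Ψ z := fun z hz =>
    (smR z hz).continuousAt.sub ((contDiff_theta _ _).continuous.continuousAt.comp
      (hsmyy z hz).continuousAt)
  have hΨh : ∀ (t : ℝ) (z : 𝔼 (m + 2)), 0 < t → z ≠ 0 → Ψ (t • z) = Ψ z := by
    intro t z ht hz
    simp only [hΨ]
    rw [hR.hom t z ht, yy_eq, yy_eq, slap_smul hR hac hz ht]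
  have hyy0 : ∀ z : 𝔼 (m + 2), z ≠ 0 → 0 ≤ R z → 0 ≤ yy R z := by
    intro z hz hRz
    rw [yy_eq, hac z hz]
    have h4 : sgsq R z < 1 := D2x782.modica (by omega) hε hR hac hz
    have h5 : 0 ≤ Real.tanh (R z / ε) := tanh_nonneg' (div_nonneg hRz hε.le)
    have h6 : 0 ≤ 2 / ε * Real.tanh (R z / ε) := by positivity
    nlinarith
  -- the compact set
  set K : Set (𝔼 (m + 2)) := sphere 0 1 ∩ {z | 0 ≤ R z} with hK
  have hne : ∀ z ∈ sphere (0 : 𝔼 (m + 2)) 1, z ≠ 0 := by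
    intro z hz h0
    rw [h0] at hz
    simp at hz
  have hRc : ContinuousOn R (sphere (0 : 𝔼 (m + 2)) 1) := fun z hz =>
    (smR z (hne z hz)).continuousAt.continuousWithinAt
  have hKc : IsCompact K := by
    have h4 : IsClosed (sphere (0 : 𝔼 (m + 2)) 1 ∩ R ⁻¹' Ici 0) :=
      hRc.preimage_isClosed_of_isClosed isClosed_sphere isClosed_Ici
    exact (isCompact_sphere (0 : 𝔼 (m + 2)) 1).of_isClosed_subset h4 inter_subset_left
  have hnorm : ∀ z : 𝔼 (m + 2), z ≠ 0 → (‖z‖⁻¹ • z) ∈ sphere (0 : 𝔼 (m + 2)) 1 := by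
    intro z hz
    rw [mem_sphere_zero_iff_norm, norm_smul, norm_inv, norm_norm]
    exact inv_mul_cancel₀ (norm_ne_zero_iff.2 hz)
  have hpos : ∀ z : 𝔼 (m + 2), z ≠ 0 → 0 < ‖z‖⁻¹ := fun z hz => inv_pos.2 (norm_pos_iff.2 hz)
  have hx1K : (‖x‖⁻¹ • x) ∈ K := ⟨hnorm x hx, by
    change 0 ≤ R _
    rwa [hR.hom _ x (hpos x hx)]⟩
  obtain ⟨x0, hx0K, hx0max⟩ := hKc.exists_isMaxOn ⟨_, hx1K⟩
    (f := Ψ) (fun z hz => (hΨc z (hne z hz.1)).continuousWithinAt)
  have hx0ne := hne x0 hx0K.1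
  have hval : τ < Ψ x0 := by
    have h4 : Ψ (‖x‖⁻¹ • x) ≤ Ψ x0 := hx0max hx1K
    rw [hΨh _ x (hpos x hx) hx] at h4
    have h5 : τ < Ψ x := by
      simp only [hΨ]
      rw [yy_eq]
      linarith
    linarith
  have hRτ : τ < R x0 := by
    have h4 := theta_nonneg (z := yy R x0) hm0 hm1 (hyy0 x0 hx0ne hx0K.2)
    have h5 : Ψ x0 = R x0 - theta m (m - δ) (yy R x0) := rfl
    linarith
  have hRx0 : 0 < R x0 := hτ.trans hRτ
  have hlm : IsLocalMax Ψ x0 := by
    have h4 : ∀ᶠ z in 𝓝 x0, z ≠ 0 ∧ 0 < R z :=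
      (ev_ne hx0ne).and ((smR x0 hx0ne).continuousAt.eventually (lt_mem_nhds hRx0))
    filter_upwards [h4] with z hz
    have h5 : (‖z‖⁻¹ • z) ∈ K := ⟨hnorm z hz.1, by
      change 0 ≤ R _
      rw [hR.hom _ z (hpos z hz.1)]
      exact hz.2.le⟩
    have h6 : Ψ (‖z‖⁻¹ • z) ≤ Ψ x0 := hx0max h5
    rwa [hΨh _ z (hpos z hz.1) hz.1] at h6
  have hnx : nsq x0 = 1 := by
    rw [nsq_eq, mem_sphere_zero_iff_norm.1 hx0K.1]; norm_num
  -- smallness
  have hq1 : δ / (2 * (m : ℝ)) ≤ 1 / 4 := by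
    rw [div_le_div_iff₀ (by positivity) (by norm_num)]
    linarith
  have hq0 : 0 < δ / (2 * (m : ℝ)) := by positivity
  have hετ : ε ≤ τ := by nlinarith
  have hk : kk ε (R x0) ≤ (δ / (2 * (m : ℝ))) ^ 2 / 2 := by
    refine (kk_le hε hRx0).trans ?_
    have h4 : ε ^ 2 ≤ (τ * (δ / (2 * m))) ^ 2 := pow_le_pow_left₀ hε.le h3 2
    have h5 : τ ^ 2 ≤ R x0 ^ 2 := pow_le_pow_left₀ hτ.le hRτ.le 2
    calc ε ^ 2 / (2 * R x0 ^ 2) ≤ (τ * (δ / (2 * m))) ^ 2 / (2 * τ ^ 2) := by gcongr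
      _ = (δ / (2 * (m : ℝ))) ^ 2 / 2 := by field_simp
  refine no_touch hm hδ hδ1 hε smR (fun t z ht _ => hR.hom t z ht) (isAC hε hac)
    (fun z hz => D2x782.modica (by omega) hε hR hac hz) hnx hRx0 ?_ ?_ ?_ hlm
  · refine hk.trans ?_
    nlinarith
  · refine hk.trans ?_
    have h4 : δ / (4 * (m : ℝ)) = δ / (2 * m) / 2 := by field_simp; ring
    rw [h4]
    nlinarith
  · exact (cc_le hε (hετ.trans hRτ.le)).trans h2

/-- **D3.1**, the pointwise Riccati comparison at the `ε`-level. -/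
theorem riccati (hm : 2 ≤ m) : ∀ τ : ℝ, 0 < τ → ∀ δ : ℝ, 0 < δ → δ < m → ∃ ε0 : ℝ, 0 < ε0 ∧
    ∀ ε : ℝ, 0 < ε → ε ≤ ε0 → ∀ R : (𝔼 (m + 2)) → ℝ, SmHom0 R → ACeq ε R →
    ∀ x : 𝔼 (m + 2), x ≠ 0 → 0 ≤ R x →
    R x - τ ≤ √(m / (m - δ)) * Real.arctan (-slap R x / √(m * (m - δ))) := by
  intro τ hτ δ hδ hδm
  have hm0 : (0 : ℝ) < m := by exact_mod_cast (by omega : 0 < m)
  set d := min δ 1 with hd
  have hd0 : 0 < d := lt_min hδ one_pos
  have hd1 : d ≤ 1 := min_le_right _ _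
  have hdδ : d ≤ δ := min_le_left _ _
  refine ⟨min (d / (20 * (m : ℝ) ^ 2)) (τ * (d / (2 * m))), by positivity, ?_⟩
  intro ε hε hε0 R hR hac x hx hRx
  have h1 := bound_core hm hd0 hd1 hτ hε (hε0.trans (min_le_left _ _))
    (hε0.trans (min_le_right _ _)) hR hac hx hRx
  have hm1 : 0 < (m : ℝ) - δ := by linarith
  rw [← theta_eq hm0 hm1]
  refine h1.trans (theta_anti hm0 hm1 (by linarith) ?_)
  rw [hac x hx]
  have h4 : sgsq R x < 1 := D2x782.modica (by omega) hε hR hac hx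
  have h5 : 0 ≤ Real.tanh (R x / ε) := tanh_nonneg' (div_nonneg hRx hε.le)
  have h6 : 0 ≤ 2 / ε * Real.tanh (R x / ε) := by positivity
  nlinarith

end Main

/-- the same statement for `ℝⁿ`, `n ≥ 4`, with `m = n - 2` -/
theorem riccati_n {n : ℕ} (hn : 4 ≤ n) : ∀ τ : ℝ, 0 < τ → ∀ δ : ℝ, 0 < δ → δ < (n : ℝ) - 2 →
    ∃ ε0 : ℝ, 0 < ε0 ∧ ∀ ε : ℝ, 0 < ε → ε ≤ ε0 → ∀ R : (𝔼 n) → ℝ, SmHom0 R → ACeq ε R →
    ∀ x : 𝔼 n, x ≠ 0 → 0 ≤ R x →
    R x - τ ≤ √(((n : ℝ) - 2) / ((n : ℝ) - 2 - δ)) *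
      Real.arctan (-slap R x / √(((n : ℝ) - 2) * ((n : ℝ) - 2 - δ))) := by
  obtain ⟨m, rfl⟩ : ∃ m, n = m + 2 := ⟨n - 2, by omega⟩
  have h : ((m + 2 : ℕ) : ℝ) - 2 = m := by push_cast; ring
  rw [h]
  exact riccati (by omega)

end

end Crest.Agent.R246.D3x118
end

-- ▼ part R246/D3LimF_67

/-!
R246, helper67.  D3.2 (limit of the Riccati inequality), final statements:
`|r| ≤ π/2` and (S+), (S-) for the cone function `phc r x = ‖x‖ sin (r x)` of a limit `r` of
Allen–Cahn solutions with bounded `∫ |Δ_S R|`.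
-/

set_option autoImplicit false
noncomputable section
open MeasureTheory Set Filter Topology Metric
open scoped RealInnerProductSpace NNReal ContDiff Gradient
open Crest.GeometryTopology.CoordMetric Crest.GeometryTopology.AffineMaximal

namespace Crest.Agent.R246.D3Lim67
open Crest.Agent.R246.D2x782 Crest.Agent.R246.E2x782 Crest.Agent.R202.SphDiv

variable {n : ℕ}

local notation "EE" => EuclideanSpace ℝ (Fin n)

/-- 118's pointwise Riccati inequality gives the sequence form. -/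
theorem ricQ_of (hn : 4 ≤ n) {ε : ℕ → ℝ} {R : ℕ → EE → ℝ} (hpos : ∀ k, 0 < ε k)
    (hlim : Tendsto ε atTop (𝓝 0)) (hsm : ∀ k, SmHom0 (R k)) (heq : ∀ k, ACeq (ε k) (R k)) :
    RicQ R := by
  intro q hq0 hq1
  set m : ℝ := (n : ℝ) - 2 with hm
  have hm0 : 0 < m := by
    have : (4 : ℝ) ≤ n := by exact_mod_cast hn
    rw [hm]; linarith
  have hq2 : q ^ 2 < 1 := by nlinarith
  have hq2' : 0 < q ^ 2 := by positivity
  obtain ⟨ε0, hε0, H⟩ := Crest.Agent.R246.D3x118.riccati_n hn (1 - q) (by linarith)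
    (m * (1 - q ^ 2)) (mul_pos hm0 (by linarith)) (by nlinarith)
  filter_upwards [hlim.eventually (gt_mem_nhds hε0)] with k hk x hx h0
  have h1 := H (ε k) (hpos k) hk.le (R k) (hsm k) (heq k) x hx h0
  have e1 : m - m * (1 - q ^ 2) = m * q ^ 2 := by ring
  have e2 : √(m / (m * q ^ 2)) = 1 / q := by
    have : m / (m * q ^ 2) = (1 / q) ^ 2 := by field_simp
    rw [this, Real.sqrt_sq (by positivity)]
  have e3 : √(m * (m * q ^ 2)) = q * m := by
    have : m * (m * q ^ 2) = (q * m) ^ 2 := by ring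
    rw [this, Real.sqrt_sq (by positivity)]
  rw [← hm, e1, e2, e3] at h1
  calc q * (R k x - (1 - q)) ≤ q * (1 / q * Real.arctan (-slap (R k) x / (q * m))) :=
        mul_le_mul_of_nonneg_left h1 hq0.le
    _ = Real.arctan (-slap (R k) x / (q * m)) := by field_simp

theorem ACSeq.ricQ (hn : 4 ≤ n) {ε : ℕ → ℝ} {R : ℕ → EE → ℝ} {r : EE → ℝ} {C : ℝ}
    (h : ACSeq ε R r C) : RicQ R := ricQ_of hn h.pos h.lim h.sm h.eq

/-- **(L1)** `|r| ≤ π/2`. -/
theorem abs_le_pi_div_two (hn : 4 ≤ n) {ε : ℕ → ℝ} {R : ℕ → EE → ℝ} {r : EE → ℝ} {C : ℝ}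
    (h : ACSeq ε R r C) {x : EE} (hx : x ≠ 0) : |r x| ≤ Real.pi / 2 := by
  rw [abs_le]
  have h1 := le_pi_div_two h (h.ricQ hn) hx
  have h2 := le_pi_div_two h.neg (h.neg.ricQ hn) hx
  constructor <;> linarith

/-- **(S+)** -/
theorem supp (hn : 4 ≤ n) {ε : ℕ → ℝ} {R : ℕ → EE → ℝ} {r : EE → ℝ} {C : ℝ}
    (h : ACSeq ε R r C) (ζ : EE → ℝ) (hζ : ∃ K, LipschitzWith K ζ) (hc : HasCompactSupport ζ)
    (h0 : ∀ x, 0 ≤ ζ x) (hs : tsupport ζ ⊆ {x | 0 < ‖x‖ * Real.sin (r x)}) :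
    0 ≤ ∫ x, ⟪gradient (fun x => ‖x‖ * Real.sin (r x)) x, gradient ζ x⟫ :=
  super_pos (by omega) h (h.ricQ hn) ⟨hζ, hc, h0, hs⟩

/-- **(S-)** -/
theorem subm (hn : 4 ≤ n) {ε : ℕ → ℝ} {R : ℕ → EE → ℝ} {r : EE → ℝ} {C : ℝ}
    (h : ACSeq ε R r C) (ζ : EE → ℝ) (hζ : ∃ K, LipschitzWith K ζ) (hc : HasCompactSupport ζ)
    (h0 : ∀ x, 0 ≤ ζ x) (hs : tsupport ζ ⊆ {x | ‖x‖ * Real.sin (r x) < 0}) :
    ∫ x, ⟪gradient (fun x => ‖x‖ * Real.sin (r x)) x, gradient ζ x⟫ ≤ 0 := by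
  have h1 : tsupport ζ ⊆ {x | 0 < phc (fun y => -r y) x} := fun x hx => by
    have := hs hx
    rw [mem_ofPred_eq] at this ⊢
    rw [phc_neg]
    unfold phc
    linarith
  have h2 := super_pos (by omega) h.neg (h.neg.ricQ hn) ⟨hζ, hc, h0, h1⟩
  have e : ∀ x, gradient (phc fun y => -r y) x =
      -gradient (fun x => ‖x‖ * Real.sin (r x)) x := by
    intro x
    have : (phc fun y => -r y) = fun x => -(‖x‖ * Real.sin (r x)) := by
      funext y; exact phc_neg r y
    rw [this]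
    unfold gradient
    rw [fderiv_fun_neg, map_neg]
  simp only [e, inner_neg_left] at h2
  rw [integral_neg] at h2
  linarith

end Crest.Agent.R246.D3Lim67
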