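import Crest.Agent.R246.F4a_669
import Crest.Agent.R246.MSDefs_852

-- ▼ part R246/F4b_669
section

/-!
Row 246, block F (Lemma MS), leaf F4 (helper669): the slab test field
`X = χ(s) ψ(|y|²/ρ²) y`, `s = ⟪a, x - p⟫`, `y = x - p - s a`, and the slab identity.
-/

set_option autoImplicit false

open Filter Topology Set MeasureTheory Metric InnerProductSpace
open scoped ContDiff RealInnerProductSpace Gradient

noncomputable section

namespace Crest.Agent.R246.F4x669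

open Crest.Agent.R246.MS852

/-! ### the one-variable cut-offs -/

/-- `1` for `|s| ≤ D/4`, `0` for `|s| ≥ D/2` -/
def chi (D s : ℝ) : ℝ := tkap (-4) (-1) (3 / 2) (-(16 * s ^ 2 / D ^ 2)) / (3 / 2)

def chi' (D s : ℝ) : ℝ :=
  tkap' (-4) (-1) (3 / 2) (-(16 * s ^ 2 / D ^ 2)) * (-(32 * s / D ^ 2)) / (3 / 2)

theorem hab0 : (2 : ℝ) * (3 / 2) ≤ -1 - -4 := by norm_num
theorem hd0 : (0 : ℝ) < 3 / 2 := by norm_num

theorem hasDerivAt_chi (D s : ℝ) : HasDerivAt (chi D) (chi' D s) s := by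
  have h1 : HasDerivAt (fun s : ℝ => -(16 * s ^ 2 / D ^ 2)) (-(32 * s / D ^ 2)) s := by
    have h2 : HasDerivAt (fun s : ℝ => s ^ 2) (2 * s) s := by simpa using hasDerivAt_pow 2 s
    refine (((h2.const_mul 16).div_const (D ^ 2)).neg).congr_deriv ?_
    ring
  have h3 := HasDerivAt.comp (h₂ := tkap (-4) (-1) (3 / 2))
    (h := fun s : ℝ => -(16 * s ^ 2 / D ^ 2)) s (hasDerivAt_tkap hd0 _) h1
  exact h3.div_const (3 / 2)

theorem continuous_chi' (D : ℝ) : Continuous (chi' D) := by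
  unfold chi'
  have h1 : Continuous fun s : ℝ => tkap' (-4) (-1) (3 / 2) (-(16 * s ^ 2 / D ^ 2)) :=
    continuous_tkap'.comp (by fun_prop)
  fun_prop

theorem contDiff_chi (D : ℝ) : ContDiff ℝ 1 (chi D) := by
  rw [contDiff_one_iff_deriv]
  refine ⟨fun s => (hasDerivAt_chi D s).differentiableAt, ?_⟩
  have : deriv (chi D) = chi' D := funext fun s => (hasDerivAt_chi D s).deriv
  rw [this]; exact continuous_chi' D

theorem chi_nonneg (D s : ℝ) : 0 ≤ chi D s := by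
  unfold chi
  exact div_nonneg (tkap_nonneg hd0 hab0 _) hd0.le

theorem chi_le_one (D s : ℝ) : chi D s ≤ 1 := by
  unfold chi
  rw [div_le_one hd0]
  have := tkap_le hd0 hab0 (-(16 * s ^ 2 / D ^ 2))
  linarith

theorem chi_eq_one {D s : ℝ} (hD : 0 < D) (hs : |s| ≤ D / 4) : chi D s = 1 := by
  unfold chi
  have h1 : (-1 : ℝ) ≤ -(16 * s ^ 2 / D ^ 2) := by
    have h2 : s ^ 2 ≤ (D / 4) ^ 2 := by
      rw [← sq_abs s]; exact pow_le_pow_left₀ (abs_nonneg s) hs 2
    have : 16 * s ^ 2 / D ^ 2 ≤ 1 := by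
      rw [div_le_one (by positivity)]; nlinarith
    linarith
  rw [tkap_of_ge hd0 hab0 h1]; norm_num

theorem chi_eq_zero {D s : ℝ} (hD : 0 < D) (hs : D / 2 ≤ |s|) : chi D s = 0 := by
  unfold chi
  have h1 : -(16 * s ^ 2 / D ^ 2) ≤ (-4 : ℝ) := by
    have h2 : (D / 2) ^ 2 ≤ s ^ 2 := by
      rw [← sq_abs s]; exact pow_le_pow_left₀ (by positivity) hs 2
    have : 4 ≤ 16 * s ^ 2 / D ^ 2 := by
      rw [le_div_iff₀ (by positivity)]; nlinarith
    linarith
  rw [tkap_of_le hd0 hab0 h1]; norm_num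

theorem chi'_eq_zero {D s : ℝ} (hD : 0 < D) (hs : D / 2 ≤ |s|) : chi' D s = 0 := by
  unfold chi'
  have h1 : -(16 * s ^ 2 / D ^ 2) ≤ (-4 : ℝ) := by
    have h2 : (D / 2) ^ 2 ≤ s ^ 2 := by
      rw [← sq_abs s]; exact pow_le_pow_left₀ (by positivity) hs 2
    have : 4 ≤ 16 * s ^ 2 / D ^ 2 := by
      rw [le_div_iff₀ (by positivity)]; nlinarith
    linarith
  rw [tkap'_of_le hd0 hab0 h1]; norm_num

theorem abs_chi'_le {D s : ℝ} (hD : 0 < D) : |chi' D s| ≤ 11 / D := by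
  rcases le_total (D / 2) |s| with hs | hs
  · rw [chi'_eq_zero hD hs, abs_zero]; positivity
  · unfold chi'
    rw [abs_div, abs_mul, abs_of_nonneg (tkap'_nonneg hd0 hab0 _), abs_neg, abs_div, abs_mul,
      abs_of_pos (by positivity : (0 : ℝ) < D ^ 2), abs_of_pos (by norm_num : (0 : ℝ) < 32),
      abs_of_pos hd0]
    have h1 := tkap'_le_one hd0 hab0 (-(16 * s ^ 2 / D ^ 2))
    have h0 := tkap'_nonneg hd0 hab0 (-(16 * s ^ 2 / D ^ 2))
    have h2 : 32 * |s| / D ^ 2 ≤ 16 / D := by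
      rw [div_le_div_iff₀ (by positivity) hD]
      nlinarith
    have h3 : tkap' (-4) (-1) (3 / 2) (-(16 * s ^ 2 / D ^ 2)) * (32 * |s| / D ^ 2) ≤ 16 / D := by
      calc _ ≤ 1 * (16 / D) := mul_le_mul h1 h2 (by positivity) (by norm_num)
        _ = _ := one_mul _
    calc _ ≤ 16 / D / (3 / 2) := by gcongr
      _ ≤ 11 / D := by
        rw [div_div, div_le_div_iff₀ (by positivity) hD]
        nlinarith

theorem hasDerivAt_psi (t : ℝ) : HasDerivAt psi (dpsi t) t := by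
  have h1 : HasDerivAt (fun t : ℝ => 1 - t) (-1) t := by
    simpa using (hasDerivAt_id t).const_sub 1
  have h2 := HasDerivAt.comp (h₂ := P2) (h := fun t : ℝ => 1 - t) t (hasDerivAt_P2 (1 - t)) h1
  have h3 : (P2 ∘ fun t : ℝ => 1 - t) = psi := by
    funext t; simp [P2, psi, max_comm]
  rw [h3] at h2
  refine h2.congr_deriv ?_
  unfold dpsi
  rw [max_comm]; ring

theorem continuous_dpsi : Continuous dpsi := by unfold dpsi; fun_prop

theorem contDiff_psi : ContDiff ℝ 1 psi := by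
  rw [contDiff_one_iff_deriv]
  refine ⟨fun s => (hasDerivAt_psi s).differentiableAt, ?_⟩
  have : deriv psi = dpsi := funext fun s => (hasDerivAt_psi s).deriv
  rw [this]; exact continuous_dpsi

theorem psi_nonneg (t : ℝ) : 0 ≤ psi t := by unfold psi; positivity

theorem psi_le_one {t : ℝ} (ht : 0 ≤ t) : psi t ≤ 1 := by
  unfold psi
  have h1 : max 0 (1 - t) ≤ 1 := max_le (by norm_num) (by linarith)
  have h0 : 0 ≤ max 0 (1 - t) := le_max_left _ _
  nlinarith

theorem psi_eq_zero {t : ℝ} (ht : 1 ≤ t) : psi t = 0 := by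
  unfold psi; rw [max_eq_left (by linarith)]; norm_num

theorem dpsi_eq_zero {t : ℝ} (ht : 1 ≤ t) : dpsi t = 0 := by
  unfold dpsi; rw [max_eq_left (by linarith)]; norm_num

theorem dpsi_nonpos (t : ℝ) : dpsi t ≤ 0 := by
  unfold dpsi
  have h0 : 0 ≤ max 0 (1 - t) := le_max_left _ _
  linarith

theorem abs_dpsi_le {t : ℝ} (ht : 0 ≤ t) : |dpsi t| ≤ 2 := by
  rw [abs_of_nonpos (dpsi_nonpos t)]
  unfold dpsi
  have h1 : max 0 (1 - t) ≤ 1 := max_le (by norm_num) (by linarith)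
  linarith

theorem psi_anti {s t : ℝ} (hst : s ≤ t) : psi t ≤ psi s := by
  unfold psi
  have h0 : 0 ≤ max 0 (1 - t) := le_max_left _ _
  have h1 : max 0 (1 - t) ≤ max 0 (1 - s) := max_le_max le_rfl (by linarith)
  exact pow_le_pow_left₀ h0 h1 2

/-- Lipschitz bound -/
theorem psi_le_add {s t : ℝ} (hs : 0 ≤ s) (hst : s ≤ t) : psi s ≤ psi t + 2 * (t - s) := by
  unfold psi
  have h0 : 0 ≤ max 0 (1 - t) := le_max_left _ _
  have h1 : max 0 (1 - s) ≤ max 0 (1 - t) + (t - s) := by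
    apply max_le
    · linarith
    · have := le_max_right 0 (1 - t); linarith
  have h2 : max 0 (1 - s) ≤ 1 := max_le (by norm_num) (by linarith)
  have h3 : max 0 (1 - t) ≤ 1 := max_le (by norm_num) (by linarith)
  have h4 : max 0 (1 - t) ≤ max 0 (1 - s) := max_le_max le_rfl (by linarith)
  nlinarith

/-! ### geometry of the slab -/

section
variable {E : Type*} [NormedAddCommGroup E] [InnerProductSpace ℝ E]

/-- vertical coordinate relative to `p` -/
def sc (a p x : E) : ℝ := ⟪a, x - p⟫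

/-- horizontal part of `x - p` -/
def yv (a p x : E) : E := x - p - sc a p x • a

/-- the projection `v ↦ v - ⟪a,v⟫ a` -/
def Pm (a : E) : E →L[ℝ] E := ContinuousLinearMap.id ℝ E - (innerSL ℝ a).smulRight a

theorem Pm_apply (a v : E) : Pm a v = v - ⟪a, v⟫ • a := by
  simp [Pm]

variable {a : E} (ha : ‖a‖ = 1)
include ha

theorem inner_aa : ⟪a, a⟫ = (1 : ℝ) := by rw [real_inner_self_eq_norm_sq, ha]; norm_num

theorem inner_a_yv (p x : E) : ⟪a, yv a p x⟫ = (0 : ℝ) := by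
  unfold yv sc
  rw [inner_sub_right, inner_smul_right, inner_aa ha]; ring

theorem norm_yv_sq (p x : E) : ‖yv a p x‖ ^ 2 = ‖x - p‖ ^ 2 - sc a p x ^ 2 := by
  have h1 : ‖yv a p x‖ ^ 2 = ‖x - p‖ ^ 2 - 2 * ⟪x - p, sc a p x • a⟫ + ‖sc a p x • a‖ ^ 2 := by
    unfold yv; exact norm_sub_sq_real _ _
  rw [h1, inner_smul_right, norm_smul, mul_pow, ha, real_inner_comm, Real.norm_eq_abs, sq_abs]
  unfold sc
  ring

theorem norm_Pm_sq (v : E) : ‖Pm a v‖ ^ 2 = ‖v‖ ^ 2 - ⟪a, v⟫ ^ 2 := by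
  rw [Pm_apply]
  have h1 : ‖v - ⟪a, v⟫ • a‖ ^ 2 = ‖v‖ ^ 2 - 2 * ⟪v, ⟪a, v⟫ • a⟫ + ‖(⟪a, v⟫ : ℝ) • a‖ ^ 2 :=
    norm_sub_sq_real _ _
  rw [h1, inner_smul_right, norm_smul, mul_pow, ha, real_inner_comm, Real.norm_eq_abs, sq_abs]
  ring

theorem inner_yv_eq (p x v : E) : ⟪yv a p x, v⟫ = ⟪yv a p x, Pm a v⟫ := by
  rw [Pm_apply, inner_sub_right, inner_smul_right, real_inner_comm a, inner_a_yv ha]
  ring

theorem abs_inner_yv_le (p x v : E) : |⟪yv a p x, v⟫| ≤ ‖yv a p x‖ * ‖Pm a v‖ := by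
  rw [inner_yv_eq ha]
  exact abs_real_inner_le_norm _ _

theorem sc_sq_le (p x : E) : sc a p x ^ 2 ≤ ‖x - p‖ ^ 2 := by
  have h1 := norm_yv_sq ha p x
  have h2 : 0 ≤ ‖yv a p x‖ ^ 2 := by positivity
  linarith

omit ha in
theorem hasFDerivAt_sc (a p x : E) : HasFDerivAt (sc a p) (innerSL ℝ a) x := by
  have h1 : HasFDerivAt (fun x : E => x - p) (ContinuousLinearMap.id ℝ E) x :=
    (hasFDerivAt_id x).sub_const p
  have h2 : HasFDerivAt (fun x : E => innerSL ℝ a (x - p))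
      ((innerSL ℝ a).comp (ContinuousLinearMap.id ℝ E)) x :=
    (innerSL ℝ a).hasFDerivAt.comp x h1
  rw [ContinuousLinearMap.comp_id] at h2
  exact h2

omit ha in
theorem hasFDerivAt_yv (a p x : E) : HasFDerivAt (yv a p) (Pm a) x := by
  have h1 : HasFDerivAt (fun x : E => x - p) (ContinuousLinearMap.id ℝ E) x :=
    (hasFDerivAt_id x).sub_const p
  exact h1.sub ((hasFDerivAt_sc a p x).smul_const a)

/-- the test functions -/
def TT (a p : E) (D ρ : ℝ) (b x : E) : ℝ :=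
  chi D (sc a p x) * psi (‖yv a p x‖ ^ 2 / ρ ^ 2) * ⟪yv a p x, b⟫

omit ha in
theorem contDiff_sc (a p : E) : ContDiff ℝ 1 (sc a p) := by
  exact contDiff_const.inner ℝ (contDiff_id.sub contDiff_const)

omit ha in
theorem contDiff_yv (a p : E) : ContDiff ℝ 1 (yv a p) := by
  unfold yv
  have := contDiff_sc a p
  fun_prop

omit ha in
theorem contDiff_TT (a p : E) (D ρ : ℝ) (b : E) : ContDiff ℝ 1 (TT a p D ρ b) := by
  unfold TT
  have h1 := contDiff_sc a p
  have h2 := contDiff_yv a p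
  have h3 : ContDiff ℝ 1 fun x : E => ‖yv a p x‖ ^ 2 / ρ ^ 2 := (h2.norm_sq ℝ).div_const _
  exact (((contDiff_chi D).comp h1).mul (contDiff_psi.comp h3)).mul (h2.inner ℝ contDiff_const)

theorem hasFDerivAt_ysq (p x : E) :
    HasFDerivAt (fun x : E => ‖yv a p x‖ ^ 2) ((2 : ℝ) • innerSL ℝ (yv a p x)) x := by
  have h1 := (hasFDerivAt_yv a p x).norm_sq
  refine h1.congr_fderiv ?_
  ext v
  simp only [FunLike.coe_smul, Pi.smul_apply, ContinuousLinearMap.comp_apply, innerSL_apply_apply,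
    smul_eq_mul]
  rw [← inner_yv_eq ha]
  simp

theorem fderiv_TT (p : E) (D ρ : ℝ) (b x v : E) :
    fderiv ℝ (TT a p D ρ b) x v =
      chi' D (sc a p x) * ⟪a, v⟫ * psi (‖yv a p x‖ ^ 2 / ρ ^ 2) * ⟪yv a p x, b⟫
      + chi D (sc a p x) * (dpsi (‖yv a p x‖ ^ 2 / ρ ^ 2) * (2 * ⟪yv a p x, v⟫ / ρ ^ 2))
        * ⟪yv a p x, b⟫
      + chi D (sc a p x) * psi (‖yv a p x‖ ^ 2 / ρ ^ 2) * ⟪Pm a v, b⟫ := by
  have h1 : HasFDerivAt (fun x => chi D (sc a p x)) (chi' D (sc a p x) • innerSL ℝ a) x :=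
    (hasDerivAt_chi D _).comp_hasFDerivAt x (hasFDerivAt_sc a p x)
  have h2 : HasFDerivAt (fun x => ‖yv a p x‖ ^ 2 / ρ ^ 2)
      ((ρ ^ 2)⁻¹ • ((2 : ℝ) • innerSL ℝ (yv a p x))) x := by
    have := (hasFDerivAt_ysq ha p x).mul_const (ρ ^ 2)⁻¹
    simpa only [div_eq_mul_inv] using this
  have h3 : HasFDerivAt (fun x => psi (‖yv a p x‖ ^ 2 / ρ ^ 2))
      (dpsi (‖yv a p x‖ ^ 2 / ρ ^ 2) • ((ρ ^ 2)⁻¹ • ((2 : ℝ) • innerSL ℝ (yv a p x)))) x :=
    (hasDerivAt_psi _).comp_hasFDerivAt x h2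
  have h4 : HasFDerivAt (fun x => ⟪yv a p x, b⟫) ((innerSL ℝ b).comp (Pm a)) x := by
    have h5 := (innerSL ℝ b).hasFDerivAt.comp x (hasFDerivAt_yv a p x)
    have h6 : (fun x => ⟪yv a p x, b⟫) = (innerSL ℝ b) ∘ (yv a p) := by
      funext z; simp [real_inner_comm]
    rw [h6]; exact h5
  have h7 := (h1.mul h3).mul h4
  have h8 : HasFDerivAt (TT a p D ρ b) _ x := h7
  rw [h8.fderiv]
  simp only [FunLike.coe_add, FunLike.coe_smul, Pi.add_apply, Pi.smul_apply, Pi.mul_apply,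
    ContinuousLinearMap.comp_apply, innerSL_apply_apply, smul_eq_mul]
  rw [real_inner_comm (Pm a v) b]
  ring

end

end Crest.Agent.R246.F4x669
end
end

-- ▼ part R246/F4c_669
section

/-!
Row 246, block F (Lemma MS), leaf F4 (helper669): the slab identity and the derivative inequality.
-/

set_option autoImplicit false
set_option linter.unusedSectionVars false

open Filter Topology Set MeasureTheory Metric InnerProductSpace
open scoped ContDiff RealInnerProductSpace Gradient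

noncomputable section

namespace Crest.Agent.R246.F4x669

open Crest.Agent.R246.MS852

section
variable {E : Type*} [NormedAddCommGroup E] [InnerProductSpace ℝ E] [FiniteDimensional ℝ E]

/-! ### sums over an orthonormal basis -/

theorem fderiv_eq_inner_grad (r : E → ℝ) (x v : E) : fderiv ℝ r x v = ⟪∇ r x, v⟫ := by
  rw [gradient, toDual_symm_apply]

variable {a : E} (ha : ‖a‖ = 1)
include ha

theorem sum_div {d : ℕ} (hd : Module.finrank ℝ E = d + 1) (p : E) (D ρ : ℝ) (x : E) :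
    ∑ i, fderiv ℝ (TT a p D ρ (stdOrthonormalBasis ℝ E i)) x (stdOrthonormalBasis ℝ E i) =
      chi D (sc a p x) * (d * psi (‖yv a p x‖ ^ 2 / ρ ^ 2)
        + 2 * (‖yv a p x‖ ^ 2 / ρ ^ 2) * dpsi (‖yv a p x‖ ^ 2 / ρ ^ 2)) := by
  set b := stdOrthonormalBasis ℝ E with hb
  have h1 : ∀ i, fderiv ℝ (TT a p D ρ (b i)) x (b i) =
      chi' D (sc a p x) * psi (‖yv a p x‖ ^ 2 / ρ ^ 2) * (⟪a, b i⟫ * ⟪b i, yv a p x⟫)
      + chi D (sc a p x) * dpsi (‖yv a p x‖ ^ 2 / ρ ^ 2) * (2 / ρ ^ 2)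
        * (⟪yv a p x, b i⟫ * ⟪b i, yv a p x⟫)
      + chi D (sc a p x) * psi (‖yv a p x‖ ^ 2 / ρ ^ 2) * (1 - ⟪a, b i⟫ * ⟪b i, a⟫) := by
    intro i
    rw [fderiv_TT ha, Pm_apply, inner_sub_left, inner_smul_left, real_inner_self_eq_norm_sq,
      b.orthonormal.1 i, real_inner_comm (b i) (yv a p x), real_inner_comm (b i) a]
    simp only [conj_trivial]
    ring
  rw [Finset.sum_congr rfl fun i _ => h1 i, Finset.sum_add_distrib, Finset.sum_add_distrib,
    ← Finset.mul_sum, ← Finset.mul_sum, ← Finset.mul_sum, Finset.sum_sub_distrib,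
    b.sum_inner_mul_inner, b.sum_inner_mul_inner, b.sum_inner_mul_inner, inner_a_yv ha,
    real_inner_self_eq_norm_sq, inner_aa ha]
  have hc : (∑ _i : Fin (Module.finrank ℝ E), (1 : ℝ)) = d + 1 := by
    rw [Finset.sum_const, Finset.card_univ, Fintype.card_fin, hd]; simp
  rw [hc]
  ring

theorem sum_grad (r : E → ℝ) (p : E) (D ρ : ℝ) (x : E) :
    ∑ i, fderiv ℝ r x (stdOrthonormalBasis ℝ E i) *
        fderiv ℝ (TT a p D ρ (stdOrthonormalBasis ℝ E i)) x (∇ r x) =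
      chi' D (sc a p x) * ⟪a, ∇ r x⟫ * psi (‖yv a p x‖ ^ 2 / ρ ^ 2) * ⟪yv a p x, ∇ r x⟫
      + chi D (sc a p x) * (dpsi (‖yv a p x‖ ^ 2 / ρ ^ 2) * (2 / ρ ^ 2)) * ⟪yv a p x, ∇ r x⟫ ^ 2
      + chi D (sc a p x) * psi (‖yv a p x‖ ^ 2 / ρ ^ 2) * ‖Pm a (∇ r x)‖ ^ 2 := by
  set b := stdOrthonormalBasis ℝ E with hb
  have h1 : ∀ i, fderiv ℝ r x (b i) * fderiv ℝ (TT a p D ρ (b i)) x (∇ r x) =
      chi' D (sc a p x) * ⟪a, ∇ r x⟫ * psi (‖yv a p x‖ ^ 2 / ρ ^ 2)
        * (⟪yv a p x, b i⟫ * ⟪b i, ∇ r x⟫)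
      + chi D (sc a p x) * dpsi (‖yv a p x‖ ^ 2 / ρ ^ 2) * (2 * ⟪yv a p x, ∇ r x⟫ / ρ ^ 2)
        * (⟪yv a p x, b i⟫ * ⟪b i, ∇ r x⟫)
      + chi D (sc a p x) * psi (‖yv a p x‖ ^ 2 / ρ ^ 2)
        * (⟪Pm a (∇ r x), b i⟫ * ⟪b i, ∇ r x⟫) := by
    intro i
    rw [fderiv_TT ha, fderiv_eq_inner_grad, real_inner_comm (b i) (∇ r x)]
    ring
  rw [Finset.sum_congr rfl fun i _ => h1 i, Finset.sum_add_distrib, Finset.sum_add_distrib,
    ← Finset.mul_sum, ← Finset.mul_sum, ← Finset.mul_sum,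
    b.sum_inner_mul_inner, b.sum_inner_mul_inner]
  have h2 : ⟪Pm a (∇ r x), ∇ r x⟫ = ‖Pm a (∇ r x)‖ ^ 2 := by
    rw [norm_Pm_sq ha, Pm_apply, inner_sub_left, inner_smul_left, real_inner_self_eq_norm_sq]
    simp only [conj_trivial]
    ring
  rw [h2]
  ring

omit ha in
theorem sum_h (h : E → ℝ) (p : E) (D ρ : ℝ) (x : E) :
    ∑ i, fderiv ℝ h x (stdOrthonormalBasis ℝ E i) * TT a p D ρ (stdOrthonormalBasis ℝ E i) x =
      chi D (sc a p x) * psi (‖yv a p x‖ ^ 2 / ρ ^ 2) * fderiv ℝ h x (yv a p x) := by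
  set b := stdOrthonormalBasis ℝ E with hb
  have h1 : ∀ i, fderiv ℝ h x (b i) * TT a p D ρ (b i) x =
      chi D (sc a p x) * psi (‖yv a p x‖ ^ 2 / ρ ^ 2) * (⟪∇ h x, b i⟫ * ⟪b i, yv a p x⟫) := by
    intro i
    rw [fderiv_eq_inner_grad, TT, real_inner_comm (b i) (yv a p x)]
    ring
  rw [Finset.sum_congr rfl fun i _ => h1 i, ← Finset.mul_sum, b.sum_inner_mul_inner,
    fderiv_eq_inner_grad]

/-! ### supports -/

theorem norm_lt_of_slab {p x : E} {D ρ : ℝ} (hρ : 0 < ρ) (hDρ : D / 4 ≤ ρ)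
    (hD : 0 < D) (h1 : ‖yv a p x‖ < ρ) (h2 : |sc a p x| < D / 2) : ‖x - p‖ < 3 * ρ := by
  have h3 := norm_yv_sq ha p x
  have h4 : ‖yv a p x‖ ^ 2 < ρ ^ 2 := by
    have := norm_nonneg (yv a p x); nlinarith
  have h5 : sc a p x ^ 2 < (D / 2) ^ 2 := by
    rw [← sq_abs (sc a p x)]
    have := abs_nonneg (sc a p x); nlinarith
  have h6 : ‖x - p‖ ^ 2 < (3 * ρ) ^ 2 := by nlinarith
  exact lt_of_pow_lt_pow_left₀ 2 (by positivity) h6

omit ha in
theorem psi_zero_of {p x : E} {ρ : ℝ} (hρ : 0 < ρ) (h1 : ρ ≤ ‖yv a p x‖) :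
    psi (‖yv a p x‖ ^ 2 / ρ ^ 2) = 0 ∧ dpsi (‖yv a p x‖ ^ 2 / ρ ^ 2) = 0 := by
  have h2 : 1 ≤ ‖yv a p x‖ ^ 2 / ρ ^ 2 := by
    rw [le_div_iff₀ (by positivity), one_mul]
    exact pow_le_pow_left₀ hρ.le h1 2
  exact ⟨psi_eq_zero h2, dpsi_eq_zero h2⟩

theorem slab_dich {p x : E} {D ρ : ℝ} (hρ : 0 < ρ) (hDρ : D / 4 ≤ ρ) (hD : 0 < D)
    (hx : x ∉ closedBall p (3 * ρ)) :
    (psi (‖yv a p x‖ ^ 2 / ρ ^ 2) = 0 ∧ dpsi (‖yv a p x‖ ^ 2 / ρ ^ 2) = 0) ∨
      (chi D (sc a p x) = 0 ∧ chi' D (sc a p x) = 0) := by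
  by_contra hcon
  rw [not_or] at hcon
  obtain ⟨h1, h2⟩ := hcon
  have h3 : ‖yv a p x‖ < ρ := by
    by_contra h; exact h1 (psi_zero_of hρ (not_lt.1 h))
  have h4 : |sc a p x| < D / 2 := by
    by_contra h
    exact h2 ⟨chi_eq_zero hD (not_lt.1 h), chi'_eq_zero hD (not_lt.1 h)⟩
  apply hx
  rw [mem_closedBall, dist_eq_norm]
  exact (norm_lt_of_slab ha hρ hDρ hD h3 h4).le

theorem tsupport_TT {p : E} {D ρ : ℝ} (hρ : 0 < ρ) (hDρ : D / 4 ≤ ρ) (hD : 0 < D) (b : E) :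
    tsupport (TT a p D ρ b) ⊆ closedBall p (3 * ρ) := by
  apply closure_minimal _ isClosed_closedBall
  intro x hx
  by_contra h
  apply hx
  unfold TT
  rcases slab_dich ha hρ hDρ hD h with h1 | h1
  · rw [h1.1]; ring
  · rw [h1.1]; ring

end

end Crest.Agent.R246.F4x669
end
end

-- ▼ part R246/F4d_669
section

/-!
Row 246, block F (Lemma MS), leaf F4 (helper669): derivative of the slab energy ratio, and `StSlab`.
-/

set_option autoImplicit false
set_option linter.unusedSectionVars false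

open Filter Topology Set MeasureTheory Metric InnerProductSpace
open scoped ContDiff RealInnerProductSpace Gradient

noncomputable section

namespace Crest.Agent.R246.F4x669

open Crest.Agent.R246.MS852

section
variable {E : Type*} [NormedAddCommGroup E] [InnerProductSpace ℝ E] [FiniteDimensional ℝ E]
  [MeasurableSpace E] [BorelSpace E]
variable {a : E} {ε η : ℝ} {h r : E → ℝ}

theorem continuous_S4 (hr : Continuous r) : Continuous (S4 ε r) := by
  unfold S4
  have h1 : Continuous fun x => Real.cosh (r x / ε) ^ 4 :=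
    (Real.continuous_cosh.comp (hr.div_const ε)).pow 4
  exact continuous_const.div h1 fun x => (pow_pos (Real.cosh_pos _) 4).ne'

theorem S4_pos (x : E) : 0 < S4 ε r x := by
  unfold S4
  exact div_pos one_pos (pow_pos (Real.cosh_pos _) 4)

theorem continuous_grad (hr : ContDiff ℝ 1 r) : Continuous fun x => ∇ r x := by
  unfold gradient
  exact (toDual ℝ E).symm.continuous.comp (hr.continuous_fderiv one_ne_zero)

theorem continuous_q (H : Hyp a ε η h r) : Continuous (q ε h r) := by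
  unfold q
  have h1 := continuous_S4 (ε := ε) H.cr.continuous
  have h2 := continuous_grad H.cr
  exact (h1.div_const _).mul (H.ch.continuous.add (h2.norm.pow 2))

theorem continuous_kap (H : Hyp a ε η h r) : Continuous (kap a ε h r) := by
  unfold kap
  have h1 := continuous_S4 (ε := ε) H.cr.continuous
  have h2 := continuous_grad H.cr
  have h3 : Continuous fun x => fderiv ℝ r x a :=
    (H.cr.continuous_fderiv one_ne_zero).clm_apply continuous_const
  exact (h1.div_const _).mul (((H.ch.continuous.sub (h2.norm.pow 2)).div_const 2).add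
    ((h2.norm.pow 2).sub (h3.pow 2)))

theorem h_ge (H : Hyp a ε η h r) {x : E} (hx : x ∈ ball (0 : E) 2) : 1 / 2 ≤ h x := by
  have h1 := H.near x hx
  have h2 := H.hη
  rw [abs_le] at h1
  linarith [h1.1]

theorem q_ge1 (H : Hyp a ε η h r) {x : E} (hx : x ∈ ball (0 : E) 2) :
    S4 ε r x / ε * ‖∇ r x‖ ^ 2 ≤ q ε h r x := by
  have h1 := H.modica x hx
  have h2 := S4_pos (ε := ε) (r := r) x
  have h3 := H.hε
  unfold q
  have h4 : S4 ε r x / (2 * ε) * (h x + ‖∇ r x‖ ^ 2) =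
      S4 ε r x / ε * ((h x + ‖∇ r x‖ ^ 2) / 2) := by
    field_simp
  rw [h4]
  apply mul_le_mul_of_nonneg_left _ (by positivity)
  linarith

theorem q_nonneg (H : Hyp a ε η h r) {x : E} (hx : x ∈ ball (0 : E) 2) : 0 ≤ q ε h r x := by
  have h2 := S4_pos (ε := ε) (r := r) x
  have h3 := H.hε
  exact (by positivity : 0 ≤ S4 ε r x / ε * ‖∇ r x‖ ^ 2).trans (q_ge1 H hx)

theorem q_ge2 (H : Hyp a ε η h r) {x : E} (hx : x ∈ ball (0 : E) 2) :
    S4 ε r x / (2 * ε) ≤ 2 * q ε h r x := by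
  have h1 := h_ge H hx
  have h2 := S4_pos (ε := ε) (r := r) x
  have h3 := H.hε
  unfold q
  have h4 : 0 < S4 ε r x / (2 * ε) := by positivity
  nlinarith [sq_nonneg ‖∇ r x‖]

theorem grad_dir (r : E → ℝ) (a x : E) : fderiv ℝ r x a = ⟪a, ∇ r x⟫ := by
  rw [fderiv_eq_inner_grad, real_inner_comm]

theorem kap_ge (H : Hyp a ε η h r) {x : E} (hx : x ∈ ball (0 : E) 2) :
    S4 ε r x / ε * ‖Pm a (∇ r x)‖ ^ 2 ≤ kap a ε h r x := by
  have h1 := H.modica x hx
  have h2 := S4_pos (ε := ε) (r := r) x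
  have h3 := H.hε
  unfold kap
  rw [norm_Pm_sq H.ha, grad_dir]
  apply mul_le_mul_of_nonneg_left _ (by positivity)
  linarith

theorem kap_nonneg' (H : Hyp a ε η h r) {x : E} (hx : x ∈ ball (0 : E) 2) :
    0 ≤ kap a ε h r x := by
  have h2 := S4_pos (ε := ε) (r := r) x
  have h3 := H.hε
  exact (by positivity : 0 ≤ S4 ε r x / ε * ‖Pm a (∇ r x)‖ ^ 2).trans (kap_ge H hx)

/-- the divergence part of the slab field, times `q` -/
def GG (d : ℕ) (a : E) (ε : ℝ) (h r : E → ℝ) (p : E) (D ρ : ℝ) (x : E) : ℝ :=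
  q ε h r x * (chi D (sc a p x) * (d * psi (‖yv a p x‖ ^ 2 / ρ ^ 2)
        + 2 * (‖yv a p x‖ ^ 2 / ρ ^ 2) * dpsi (‖yv a p x‖ ^ 2 / ρ ^ 2)))

/-- the stress part -/
def SS (a : E) (ε : ℝ) (r : E → ℝ) (p : E) (D ρ : ℝ) (x : E) : ℝ :=
  S4 ε r x / ε * (chi' D (sc a p x) * ⟪a, ∇ r x⟫ * psi (‖yv a p x‖ ^ 2 / ρ ^ 2) * ⟪yv a p x, ∇ r x⟫
      + chi D (sc a p x) * (dpsi (‖yv a p x‖ ^ 2 / ρ ^ 2) * (2 / ρ ^ 2)) * ⟪yv a p x, ∇ r x⟫ ^ 2
      + chi D (sc a p x) * psi (‖yv a p x‖ ^ 2 / ρ ^ 2) * ‖Pm a (∇ r x)‖ ^ 2)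

/-- the weight part -/
def WW (a : E) (ε : ℝ) (h r : E → ℝ) (p : E) (D ρ : ℝ) (x : E) : ℝ :=
  S4 ε r x / (2 * ε) * (chi D (sc a p x) * psi (‖yv a p x‖ ^ 2 / ρ ^ 2)
    * fderiv ℝ h x (yv a p x))

theorem continuous_sc (a p : E) : Continuous (sc a p) := (contDiff_sc a p).continuous
theorem continuous_yv (a p : E) : Continuous (yv a p) := (contDiff_yv a p).continuous

theorem continuous_psi : Continuous psi := contDiff_psi.continuous

theorem continuous_chi (D : ℝ) : Continuous (chi D) := (contDiff_chi D).continuous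

theorem continuous_ysq (a p : E) (ρ : ℝ) : Continuous fun x => ‖yv a p x‖ ^ 2 / ρ ^ 2 :=
  ((continuous_yv a p).norm.pow 2).div_const _

theorem continuous_GG (H : Hyp a ε η h r) (d : ℕ) (p : E) (D ρ : ℝ) :
    Continuous (GG d a ε h r p D ρ) := by
  unfold GG
  have h1 := continuous_q H
  have h2 := (continuous_chi D).comp (continuous_sc a p)
  have h3 := continuous_psi.comp (continuous_ysq a p ρ)
  have h4 := continuous_dpsi.comp (continuous_ysq a p ρ)
  have h5 := continuous_ysq a p ρ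
  simp only [Function.comp_def] at h2 h3 h4
  fun_prop

theorem continuous_SS (H : Hyp a ε η h r) (p : E) (D ρ : ℝ) :
    Continuous (SS a ε r p D ρ) := by
  unfold SS
  have h0 := continuous_S4 (ε := ε) H.cr.continuous
  have h1 := continuous_grad H.cr
  have h2 := (continuous_chi D).comp (continuous_sc a p)
  have h2' := (continuous_chi' D).comp (continuous_sc a p)
  have h3 := continuous_psi.comp (continuous_ysq a p ρ)
  have h4 := continuous_dpsi.comp (continuous_ysq a p ρ)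
  have h5 := continuous_yv a p
  have h6 : Continuous fun x => ⟪a, ∇ r x⟫ := continuous_const.inner h1
  have h7 : Continuous fun x => ⟪yv a p x, ∇ r x⟫ := h5.inner h1
  have h8 : Continuous fun x => ‖Pm a (∇ r x)‖ ^ 2 := (((Pm a).continuous.comp h1).norm).pow 2
  simp only [Function.comp_def] at h2 h2' h3 h4
  fun_prop

theorem continuous_WW (H : Hyp a ε η h r) (p : E) (D ρ : ℝ) :
    Continuous (WW a ε h r p D ρ) := by
  unfold WW
  have h0 := continuous_S4 (ε := ε) H.cr.continuous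
  have h2 := (continuous_chi D).comp (continuous_sc a p)
  have h3 := continuous_psi.comp (continuous_ysq a p ρ)
  have h5 := continuous_yv a p
  have h6 : Continuous fun x => fderiv ℝ h x (yv a p x) :=
    (H.ch.continuous_fderiv one_ne_zero).clm_apply h5
  simp only [Function.comp_def] at h2 h3
  fun_prop

theorem hcs_of {f : E → ℝ} {p : E} {R : ℝ} (hf : ∀ x, x ∉ closedBall p R → f x = 0) :
    HasCompactSupport f :=
  HasCompactSupport.intro (isCompact_closedBall p R) fun x hx => hf x hx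

theorem GG_zero (H : Hyp a ε η h r) (d : ℕ) {p x : E} {D ρ : ℝ} (hρ : 0 < ρ) (hDρ : D / 4 ≤ ρ)
    (hD : 0 < D) (hx : x ∉ closedBall p (3 * ρ)) : GG d a ε h r p D ρ x = 0 := by
  unfold GG
  rcases slab_dich H.ha hρ hDρ hD hx with h1 | h1
  · rw [h1.1, h1.2]; ring
  · rw [h1.1]; ring

theorem SS_zero (H : Hyp a ε η h r) {p x : E} {D ρ : ℝ} (hρ : 0 < ρ) (hDρ : D / 4 ≤ ρ)
    (hD : 0 < D) (hx : x ∉ closedBall p (3 * ρ)) : SS a ε r p D ρ x = 0 := by
  unfold SS
  rcases slab_dich H.ha hρ hDρ hD hx with h1 | h1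
  · rw [h1.1, h1.2]; ring
  · rw [h1.1, h1.2]; ring

theorem WW_zero (H : Hyp a ε η h r) {p x : E} {D ρ : ℝ} (hρ : 0 < ρ) (hDρ : D / 4 ≤ ρ)
    (hD : 0 < D) (hx : x ∉ closedBall p (3 * ρ)) : WW a ε h r p D ρ x = 0 := by
  unfold WW
  rcases slab_dich H.ha hρ hDρ hD hx with h1 | h1
  · rw [h1.1]; ring
  · rw [h1.1]; ring

/-- SLAB IDENTITY -/
theorem slab_identity {d : ℕ} (hd : Module.finrank ℝ E = d + 1) (H : Hyp a ε η h r)
    {p : E} {D ρ : ℝ} (hρ : 0 < ρ) (hDρ : D / 4 ≤ ρ) (hD : 0 < D)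
    (hB : closedBall p (3 * ρ) ⊆ ball (0 : E) 2) :
    ∫ x, GG d a ε h r p D ρ x = (∫ x, SS a ε r p D ρ x) - ∫ x, WW a ε h r p D ρ x := by
  set b := stdOrthonormalBasis ℝ E with hb
  have hts : ∀ i, tsupport (TT a p D ρ (b i)) ⊆ closedBall p (3 * ρ) := fun i =>
    tsupport_TT H.ha hρ hDρ hD (b i)
  have hstat : ∀ i, ∫ x, (q ε h r x * fderiv ℝ (TT a p D ρ (b i)) x (b i)
      - S4 ε r x / ε * fderiv ℝ r x (b i) * fderiv ℝ (TT a p D ρ (b i)) x (∇ r x)) =
      - ∫ x, S4 ε r x / (2 * ε) * fderiv ℝ h x (b i) * TT a p D ρ (b i) x := fun i =>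
    H.stat _ (b i) (contDiff_TT a p D ρ (b i)) ((hts i).trans hB)
  have hfz : ∀ i, ∀ x, x ∉ closedBall p (3 * ρ) → fderiv ℝ (TT a p D ρ (b i)) x = 0 := by
    intro i x hx
    have h1 : x ∉ tsupport (TT a p D ρ (b i)) := fun h => hx (hts i h)
    have h0 : TT a p D ρ (b i) =ᶠ[𝓝 x] fun _ => 0 := by
      have : (tsupport (TT a p D ρ (b i)))ᶜ ∈ 𝓝 x :=
        (isClosed_tsupport _).isOpen_compl.mem_nhds h1
      filter_upwards [this] with y hy
      rw [image_eq_zero_of_notMem_tsupport hy]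
    rw [h0.fderiv_eq]; simp
  have hTz : ∀ i, ∀ x, x ∉ closedBall p (3 * ρ) → TT a p D ρ (b i) x = 0 := fun i x hx =>
    image_eq_zero_of_notMem_tsupport fun h => hx (hts i h)
  have hcq := continuous_q H
  have hcS := continuous_S4 (ε := ε) H.cr.continuous
  have hcg := continuous_grad H.cr
  have hcT : ∀ i, Continuous (fderiv ℝ (TT a p D ρ (b i))) := fun i =>
    (contDiff_TT a p D ρ (b i)).continuous_fderiv one_ne_zero
  have hcr : Continuous (fderiv ℝ r) := H.cr.continuous_fderiv one_ne_zero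
  have hch : Continuous (fderiv ℝ h) := H.ch.continuous_fderiv one_ne_zero
  have hi1 : ∀ i ∈ Finset.univ, Integrable (fun x => q ε h r x * fderiv ℝ (TT a p D ρ (b i)) x (b i)
      - S4 ε r x / ε * fderiv ℝ r x (b i) * fderiv ℝ (TT a p D ρ (b i)) x (∇ r x)) := by
    intro i _
    apply Continuous.integrable_of_hasCompactSupport
    · exact (hcq.mul ((hcT i).clm_apply continuous_const)).sub
        (((hcS.div_const _).mul (hcr.clm_apply continuous_const)).mul ((hcT i).clm_apply hcg))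
    · apply hcs_of (p := p) (R := 3 * ρ)
      intro x hx
      rw [hfz i x hx]; simp
  have hi2 : ∀ i ∈ Finset.univ, Integrable (fun x =>
      S4 ε r x / (2 * ε) * fderiv ℝ h x (b i) * TT a p D ρ (b i) x) := by
    intro i _
    apply Continuous.integrable_of_hasCompactSupport
    · exact ((hcS.div_const _).mul (hch.clm_apply continuous_const)).mul
        (contDiff_TT a p D ρ (b i)).continuous
    · apply hcs_of (p := p) (R := 3 * ρ)
      intro x hx
      rw [hTz i x hx]; simp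
  have hsum := Finset.sum_congr rfl fun i (_ : i ∈ Finset.univ) => hstat i
  rw [Finset.sum_neg_distrib, ← integral_finsetSum _ hi1, ← integral_finsetSum _ hi2] at hsum
  have e1 : (fun x => ∑ i, (q ε h r x * fderiv ℝ (TT a p D ρ (b i)) x (b i)
      - S4 ε r x / ε * fderiv ℝ r x (b i) * fderiv ℝ (TT a p D ρ (b i)) x (∇ r x))) =
      fun x => GG d a ε h r p D ρ x - SS a ε r p D ρ x := by
    funext x
    rw [Finset.sum_sub_distrib, ← Finset.mul_sum, sum_div H.ha hd p D ρ x]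
    have : ∑ i, S4 ε r x / ε * fderiv ℝ r x (b i) * fderiv ℝ (TT a p D ρ (b i)) x (∇ r x) =
        S4 ε r x / ε * ∑ i, fderiv ℝ r x (b i) * fderiv ℝ (TT a p D ρ (b i)) x (∇ r x) := by
      rw [Finset.mul_sum]
      exact Finset.sum_congr rfl fun i _ => by ring
    rw [this, sum_grad H.ha r p D ρ x]
    rfl
  have e2 : (fun x => ∑ i, S4 ε r x / (2 * ε) * fderiv ℝ h x (b i) * TT a p D ρ (b i) x) =
      fun x => WW a ε h r p D ρ x := by
    funext x
    have : ∑ i, S4 ε r x / (2 * ε) * fderiv ℝ h x (b i) * TT a p D ρ (b i) x =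
        S4 ε r x / (2 * ε) * ∑ i, fderiv ℝ h x (b i) * TT a p D ρ (b i) x := by
      rw [Finset.mul_sum]
      exact Finset.sum_congr rfl fun i _ => by ring
    rw [this, sum_h h p D ρ x]
    rfl
  rw [e1, e2] at hsum
  rw [integral_sub] at hsum
  · linarith
  · exact (continuous_GG H d p D ρ).integrable_of_hasCompactSupport
      (hcs_of fun x hx => GG_zero H d hρ hDρ hD hx)
  · exact (continuous_SS H p D ρ).integrable_of_hasCompactSupport
      (hcs_of fun x hx => SS_zero H hρ hDρ hD hx)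

end

end Crest.Agent.R246.F4x669
end
end

-- ▼ part R246/F4e_669
section

/-!
Row 246, block F (Lemma MS), leaf F4 (helper669): `StSlab`.
-/

set_option autoImplicit false
set_option linter.unusedSectionVars false

open Filter Topology Set MeasureTheory Metric InnerProductSpace
open scoped ContDiff RealInnerProductSpace Gradient

noncomputable section

namespace Crest.Agent.R246.F4x669

open Crest.Agent.R246.MS852

section
variable {E : Type*} [NormedAddCommGroup E] [InnerProductSpace ℝ E] [FiniteDimensional ℝ E]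
  [MeasurableSpace E] [BorelSpace E]
variable {a : E} {ε η : ℝ} {h r : E → ℝ}

/-- pointwise bound of the error terms -/
theorem pointwise_bound (H : Hyp a ε η h r) {p x : E} {D ρ τ : ℝ} (hρ : 0 < ρ)
    (hD : 0 < D) (hτ : 0 < τ) (hx : x ∈ ball (0 : E) 2) :
    SS a ε r p D ρ x - WW a ε h r p D ρ x ≤
      (11 / (2 * D) * ρ * τ + 2 * η * ρ) * q ε h r x
        + (11 / (2 * D) * ρ / τ + 1) * kap a ε h r x := by
  have hq := q_nonneg H hx
  have hk := kap_nonneg' H hx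
  have hη := H.hη0
  have hS := S4_pos (ε := ε) (r := r) x
  have hε := H.hε
  have hR : 0 ≤ (11 / (2 * D) * ρ * τ + 2 * η * ρ) * q ε h r x
        + (11 / (2 * D) * ρ / τ + 1) * kap a ε h r x := by positivity
  rcases le_or_gt ρ ‖yv a p x‖ with hy | hy
  · obtain ⟨h1, h2⟩ := psi_zero_of hρ hy
    have e1 : SS a ε r p D ρ x = 0 := by unfold SS; rw [h1, h2]; ring
    have e2 : WW a ε h r p D ρ x = 0 := by unfold WW; rw [h1]; ring
    rw [e1, e2]; simpa using hR
  set y := yv a p x with hyd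
  set χ := chi D (sc a p x) with hχ
  set χ' := chi' D (sc a p x) with hχ'
  set ψ := psi (‖y‖ ^ 2 / ρ ^ 2) with hψ
  set ψ' := dpsi (‖y‖ ^ 2 / ρ ^ 2) with hψ'
  set g := ∇ r x with hg
  set P := ‖Pm a g‖ with hP
  have hχ0 : 0 ≤ χ := chi_nonneg _ _
  have hχ1 : χ ≤ 1 := chi_le_one _ _
  have hχ'1 : |χ'| ≤ 11 / D := abs_chi'_le hD
  have hψ0 : 0 ≤ ψ := psi_nonneg _
  have hψ1 : ψ ≤ 1 := psi_le_one (by positivity)
  have hψ'0 : ψ' ≤ 0 := dpsi_nonpos _
  have hP0 : 0 ≤ P := norm_nonneg _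
  have hyg : |⟪y, g⟫| ≤ ρ * P :=
    (abs_inner_yv_le H.ha p x g).trans (mul_le_mul_of_nonneg_right hy.le hP0)
  have hPg : P ^ 2 = ‖g‖ ^ 2 - ⟪a, g⟫ ^ 2 := norm_Pm_sq H.ha g
  -- term 1
  have t1 : χ' * ⟪a, g⟫ * ψ * ⟪y, g⟫ ≤ 11 / (2 * D) * ρ * (τ * ⟪a, g⟫ ^ 2 + P ^ 2 / τ) := by
    have h1 : χ' * ⟪a, g⟫ * ψ * ⟪y, g⟫ ≤ (11 / D) * |⟪a, g⟫| * 1 * (ρ * P) := by
      calc χ' * ⟪a, g⟫ * ψ * ⟪y, g⟫ ≤ |χ' * ⟪a, g⟫ * ψ * ⟪y, g⟫| := le_abs_self _
        _ = |χ'| * |⟪a, g⟫| * ψ * |⟪y, g⟫| := by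
            rw [abs_mul, abs_mul, abs_mul, abs_of_nonneg hψ0]
        _ ≤ _ := by gcongr
    have h2 : |⟪a, g⟫| * P ≤ (τ * ⟪a, g⟫ ^ 2 + P ^ 2 / τ) / 2 := by
      have h3 : 0 ≤ (τ * |⟪a, g⟫| - P) ^ 2 / τ := by positivity
      have h4 : (τ * |⟪a, g⟫| - P) ^ 2 / τ = τ * |⟪a, g⟫| ^ 2 - 2 * (|⟪a, g⟫| * P) + P ^ 2 / τ := by
        field_simp
        ring
      rw [h4, sq_abs] at h3
      linarith
    calc _ ≤ _ := h1
      _ = 11 / D * ρ * (|⟪a, g⟫| * P) := by ring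
      _ ≤ 11 / D * ρ * ((τ * ⟪a, g⟫ ^ 2 + P ^ 2 / τ) / 2) := by gcongr
      _ = _ := by field_simp
  have t2 : χ * (ψ' * (2 / ρ ^ 2)) * ⟪y, g⟫ ^ 2 ≤ 0 := by
    have : 0 ≤ χ * ((-ψ') * (2 / ρ ^ 2)) * ⟪y, g⟫ ^ 2 := by
      have : 0 ≤ -ψ' := by linarith
      positivity
    linarith
  have t3 : χ * ψ * P ^ 2 ≤ P ^ 2 := by
    have : χ * ψ ≤ 1 := mul_le_one₀ hχ1 hψ0 hψ1
    nlinarith [sq_nonneg P]
  have t4 : -(χ * ψ * fderiv ℝ h x y) ≤ η * ρ := by
    have h1 : |fderiv ℝ h x y| ≤ η * ρ := by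
      have h2 := (fderiv ℝ h x).le_opNorm y
      rw [Real.norm_eq_abs] at h2
      exact h2.trans (mul_le_mul (H.dh x hx) hy.le (norm_nonneg _) hη.le)
    have h2 : χ * ψ ≤ 1 := mul_le_one₀ hχ1 hψ0 hψ1
    have h3 : 0 ≤ χ * ψ := mul_nonneg hχ0 hψ0
    calc -(χ * ψ * fderiv ℝ h x y) ≤ |χ * ψ * fderiv ℝ h x y| := neg_le_abs _
      _ = χ * ψ * |fderiv ℝ h x y| := by rw [abs_mul, abs_of_nonneg h3]
      _ ≤ 1 * (η * ρ) := mul_le_mul h2 h1 (abs_nonneg _) (by norm_num)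
      _ = _ := one_mul _
  have hqa : S4 ε r x / ε * ⟪a, g⟫ ^ 2 ≤ q ε h r x := by
    refine le_trans ?_ (q_ge1 H hx)
    apply mul_le_mul_of_nonneg_left _ (by positivity)
    have := sq_nonneg P
    rw [hPg] at this
    linarith
  have hkP : S4 ε r x / ε * P ^ 2 ≤ kap a ε h r x := kap_ge H hx
  have hqS : S4 ε r x / (2 * ε) ≤ 2 * q ε h r x := q_ge2 H hx
  have hSe : 0 ≤ S4 ε r x / ε := by positivity
  have hSe2 : 0 ≤ S4 ε r x / (2 * ε) := by positivity
  have hSS : SS a ε r p D ρ x ≤ S4 ε r x / ε *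
      (11 / (2 * D) * ρ * (τ * ⟪a, g⟫ ^ 2 + P ^ 2 / τ) + P ^ 2) := by
    unfold SS
    apply mul_le_mul_of_nonneg_left _ hSe
    linarith
  have hWW : -WW a ε h r p D ρ x ≤ S4 ε r x / (2 * ε) * (η * ρ) := by
    unfold WW
    rw [← mul_neg]
    exact mul_le_mul_of_nonneg_left t4 hSe2
  have c1 : 0 ≤ 11 / (2 * D) * ρ * τ := by positivity
  have c2 : 0 ≤ 11 / (2 * D) * ρ / τ := by positivity
  have f1 : S4 ε r x / ε * (11 / (2 * D) * ρ * (τ * ⟪a, g⟫ ^ 2 + P ^ 2 / τ) + P ^ 2) =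
      11 / (2 * D) * ρ * τ * (S4 ε r x / ε * ⟪a, g⟫ ^ 2)
      + 11 / (2 * D) * ρ / τ * (S4 ε r x / ε * P ^ 2) + S4 ε r x / ε * P ^ 2 := by
    field_simp
  rw [f1] at hSS
  have g1 := mul_le_mul_of_nonneg_left hqa c1
  have g2 := mul_le_mul_of_nonneg_left hkP c2
  have g3 := mul_le_mul_of_nonneg_right hqS (by positivity : 0 ≤ η * ρ)
  nlinarith

/-- integrated error bound -/
theorem int_GG_le {d : ℕ} (hd : Module.finrank ℝ E = d + 1) (H : Hyp a ε η h r)
    {p : E} {D ρ τ : ℝ} (hρ : 0 < ρ) (hDρ : D / 4 ≤ ρ) (hD : 0 < D) (hτ : 0 < τ)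
    (hB : closedBall p (3 * ρ) ⊆ ball (0 : E) 2) :
    ∫ x, GG d a ε h r p D ρ x ≤
      (11 / (2 * D) * ρ * τ + 2 * η * ρ) * En ε h r (closedBall p (3 * ρ))
        + (11 / (2 * D) * ρ / τ + 1) * Kp a ε h r (closedBall p (3 * ρ)) := by
  rw [slab_identity hd H hρ hDρ hD hB, ← integral_sub]
  · have hz : ∀ x, x ∉ closedBall p (3 * ρ) → SS a ε r p D ρ x - WW a ε h r p D ρ x = 0 := by
      intro x hx
      rw [SS_zero H hρ hDρ hD hx, WW_zero H hρ hDρ hD hx, sub_zero]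
    rw [← setIntegral_eq_integral_of_forall_compl_eq_zero hz]
    unfold En Kp
    have iq : IntegrableOn (q ε h r) (closedBall p (3 * ρ)) :=
      (continuous_q H).continuousOn.integrableOn_compact (isCompact_closedBall _ _)
    have ik : IntegrableOn (kap a ε h r) (closedBall p (3 * ρ)) :=
      (continuous_kap H).continuousOn.integrableOn_compact (isCompact_closedBall _ _)
    rw [← integral_const_mul, ← integral_const_mul, ← integral_add (iq.const_mul _)
      (ik.const_mul _)]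
    apply setIntegral_mono_on _ ((iq.const_mul _).add (ik.const_mul _))
      isClosed_closedBall.measurableSet
    · intro x hx
      exact pointwise_bound H hρ hD hτ (hB hx)
    · exact ((continuous_SS H p D ρ).sub (continuous_WW H p D ρ)).continuousOn.integrableOn_compact
        (isCompact_closedBall _ _)
  · exact (continuous_SS H p D ρ).integrable_of_hasCompactSupport
      (hcs_of fun x hx => SS_zero H hρ hDρ hD hx)
  · exact (continuous_WW H p D ρ).integrable_of_hasCompactSupport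
      (hcs_of fun x hx => WW_zero H hρ hDρ hD hx)

/-- slab energy -/
def II (a : E) (ε : ℝ) (h r : E → ℝ) (p : E) (D ρ : ℝ) : ℝ :=
  ∫ x in ball (0 : E) 2, chi D (sc a p x) * q ε h r x * psi (‖yv a p x‖ ^ 2 / ρ ^ 2)

theorem integrableOn_ball2 {f : E → ℝ} (hf : Continuous f) : IntegrableOn f (ball (0 : E) 2) :=
  (hf.continuousOn.integrableOn_compact (isCompact_closedBall 0 2)).mono_set ball_subset_closedBall

theorem hasDerivAt_II (H : Hyp a ε η h r) (p : E) (D : ℝ) {ρ : ℝ} (hρ : 0 < ρ) :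
    HasDerivAt (II a ε h r p D) (∫ x in ball (0 : E) 2, chi D (sc a p x) * q ε h r x *
      (dpsi (‖yv a p x‖ ^ 2 / ρ ^ 2) * (-(2 * ‖yv a p x‖ ^ 2 / ρ ^ 3)))) ρ := by
  have hcq := continuous_q H
  have hc2 := (continuous_chi D).comp (continuous_sc a p)
  have hcF : ∀ s : ℝ, Continuous fun x => chi D (sc a p x) * q ε h r x *
      psi (‖yv a p x‖ ^ 2 / s ^ 2) := by
    intro s
    have h3 := continuous_psi.comp (continuous_ysq a p s)
    exact (hc2.mul hcq).mul h3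
  have hcF' : Continuous fun x => chi D (sc a p x) * q ε h r x *
      (dpsi (‖yv a p x‖ ^ 2 / ρ ^ 2) * (-(2 * ‖yv a p x‖ ^ 2 / ρ ^ 3))) := by
    have h3 := continuous_dpsi.comp (continuous_ysq a p ρ)
    have h4 : Continuous fun x => -(2 * ‖yv a p x‖ ^ 2 / ρ ^ 3) :=
      ((continuous_const.mul ((continuous_yv a p).norm.pow 2)).div_const _).neg
    exact (hc2.mul hcq).mul (h3.mul h4)
  have hs : Ioo (ρ / 2) (2 * ρ) ∈ 𝓝 ρ := Ioo_mem_nhds (by linarith) (by linarith)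
  have key := hasDerivAt_integral_of_dominated_loc_of_deriv_le
    (μ := volume.restrict (ball (0 : E) 2)) (x₀ := ρ) (s := Ioo (ρ / 2) (2 * ρ))
    (F := fun s x => chi D (sc a p x) * q ε h r x * psi (‖yv a p x‖ ^ 2 / s ^ 2))
    (F' := fun s x => chi D (sc a p x) * q ε h r x *
      (dpsi (‖yv a p x‖ ^ 2 / s ^ 2) * (-(2 * ‖yv a p x‖ ^ 2 / s ^ 3))))
    (bound := fun x => |chi D (sc a p x) * q ε h r x| * (8 / ρ)) hs
    (Eventually.of_forall fun s => (hcF s).aestronglyMeasurable)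
    (integrableOn_ball2 (hcF ρ)) hcF'.aestronglyMeasurable
    ?_ ?_ ?_
  · exact key.2
  · refine Eventually.of_forall fun x s hs => ?_
    have hs0 : 0 < s := by linarith [hs.1]
    rw [norm_mul, Real.norm_eq_abs, Real.norm_eq_abs]
    apply mul_le_mul_of_nonneg_left _ (abs_nonneg _)
    rw [abs_mul]
    rcases le_or_gt s ‖yv a p x‖ with hy | hy
    · rw [(psi_zero_of hs0 hy).2]; simp; positivity
    · have h1 : |dpsi (‖yv a p x‖ ^ 2 / s ^ 2)| ≤ 2 := abs_dpsi_le (by positivity)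
      have h2 : |-(2 * ‖yv a p x‖ ^ 2 / s ^ 3)| ≤ 4 / ρ := by
        rw [abs_neg, abs_of_nonneg (by positivity)]
        rw [div_le_div_iff₀ (by positivity) hρ]
        have h3 : ‖yv a p x‖ ^ 2 ≤ s ^ 2 := pow_le_pow_left₀ (norm_nonneg _) hy.le 2
        have h4 : ρ ≤ 2 * s := by linarith [hs.1]
        calc 2 * ‖yv a p x‖ ^ 2 * ρ ≤ 2 * s ^ 2 * (2 * s) := by gcongr
          _ = 4 * s ^ 3 := by ring
      calc _ ≤ 2 * (4 / ρ) := mul_le_mul h1 h2 (abs_nonneg _) (by norm_num)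
        _ = 8 / ρ := by ring
  · exact (integrableOn_ball2 ((hc2.mul hcq).abs)).mul_const (8 / ρ)
  · refine Eventually.of_forall fun x s hs => ?_
    have hs0 : s ≠ 0 := by have := hs.1; intro h0; rw [h0] at this; linarith
    have h1 : HasDerivAt (fun s : ℝ => ‖yv a p x‖ ^ 2 / s ^ 2)
        (-(2 * ‖yv a p x‖ ^ 2 / s ^ 3)) s := by
      have h2 : HasDerivAt (fun s : ℝ => s ^ 2) (2 * s) s := by simpa using hasDerivAt_pow 2 s
      have h3 := (h2.inv (pow_ne_zero 2 hs0)).const_mul (‖yv a p x‖ ^ 2)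
      have h4 : HasDerivAt (fun s : ℝ => ‖yv a p x‖ ^ 2 / s ^ 2) _ s := h3
      refine h4.congr_deriv ?_
      field_simp
    have h5 := HasDerivAt.comp (h₂ := psi) (h := fun s : ℝ => ‖yv a p x‖ ^ 2 / s ^ 2) s
      (hasDerivAt_psi _) h1
    exact h5.const_mul _

end

end Crest.Agent.R246.F4x669
end
end

-- ▼ part R246/F4f_669

/-!
Row 246, block F (Lemma MS), leaf F4 (helper669): proof of `StSlab`.
-/

set_option autoImplicit false
set_option linter.unusedSectionVars false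

open Filter Topology Set MeasureTheory Metric InnerProductSpace
open scoped ContDiff RealInnerProductSpace Gradient

noncomputable section

namespace Crest.Agent.R246.F4x669

open Crest.Agent.R246.MS852

section
variable {E : Type*} [NormedAddCommGroup E] [InnerProductSpace ℝ E] [FiniteDimensional ℝ E]
  [MeasurableSpace E] [BorelSpace E]
variable {a : E} {ε η : ℝ} {h r : E → ℝ}

theorem int_GG_eq (H : Hyp a ε η h r) (d : ℕ) {p : E} {D ρ : ℝ} (hρ : 0 < ρ)
    (hDρ : D / 4 ≤ ρ) (hD : 0 < D) (hB : closedBall p (3 * ρ) ⊆ ball (0 : E) 2) :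
    ∫ x, GG d a ε h r p D ρ x = d * II a ε h r p D ρ - ρ * ∫ x in ball (0 : E) 2,
      chi D (sc a p x) * q ε h r x *
      (dpsi (‖yv a p x‖ ^ 2 / ρ ^ 2) * (-(2 * ‖yv a p x‖ ^ 2 / ρ ^ 3))) := by
  have hcq := continuous_q H
  have hc2 := (continuous_chi D).comp (continuous_sc a p)
  have hz : ∀ x, x ∉ ball (0 : E) 2 → GG d a ε h r p D ρ x = 0 := fun x hx =>
    GG_zero H d hρ hDρ hD fun h => hx (hB h)
  rw [← setIntegral_eq_integral_of_forall_compl_eq_zero hz]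
  unfold II
  rw [← integral_const_mul, ← integral_const_mul, ← integral_sub]
  · apply setIntegral_congr_fun measurableSet_ball
    intro x _
    show GG d a ε h r p D ρ x = _
    unfold GG
    field_simp
    ring
  · have h3 := continuous_psi.comp (continuous_ysq a p ρ)
    exact (integrableOn_ball2 ((hc2.mul hcq).mul h3)).const_mul _
  · have h3 := continuous_dpsi.comp (continuous_ysq a p ρ)
    have h4 : Continuous fun x => -(2 * ‖yv a p x‖ ^ 2 / ρ ^ 3) :=
      ((continuous_const.mul ((continuous_yv a p).norm.pow 2)).div_const _).neg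
    exact (integrableOn_ball2 ((hc2.mul hcq).mul (h3.mul h4))).const_mul _

theorem ratio_aux (d : ℕ) {f : ℝ → ℝ} {f' ρ : ℝ} (hρ : 0 < ρ) (hf : HasDerivAt f f' ρ) :
    HasDerivAt (fun s => f s / s ^ d) (-(d * f ρ - ρ * f') / ρ ^ (d + 1)) ρ := by
  have h2 : HasDerivAt (fun s : ℝ => s ^ d) (d * ρ ^ (d - 1)) ρ := hasDerivAt_pow d ρ
  have h3 := hf.div h2 (pow_pos hρ d).ne'
  refine HasDerivAt.congr_deriv (f := fun s => f s / s ^ d) h3 ?_
  cases d with
  | zero => simp; field_simp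
  | succ k =>
    simp only [Nat.add_sub_cancel]
    field_simp
    ring

theorem hasDerivAt_ratio (H : Hyp a ε η h r) (d : ℕ) {p : E} {D ρ : ℝ} (hρ : 0 < ρ)
    (hDρ : D / 4 ≤ ρ) (hD : 0 < D) (hB : closedBall p (3 * ρ) ⊆ ball (0 : E) 2) :
    HasDerivAt (fun s => II a ε h r p D s / s ^ d) (-(∫ x, GG d a ε h r p D ρ x) / ρ ^ (d + 1))
      ρ := by
  rw [int_GG_eq H d hρ hDρ hD hB]
  exact ratio_aux d hρ (hasDerivAt_II H p D hρ)

/-- one slab -/
theorem one_slab {d : ℕ} (hd : Module.finrank ℝ E = d + 1) (H : Hyp a ε η h r)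
    {G lam K D : ℝ} (hG : 1 ≤ G) (hGr : Growth ε h r d G) (hl : 0 < lam) (hl1 : lam ≤ 1)
    (hK : 1 ≤ K) (hD : 0 < D) (hKD : 3 * K * D ≤ 1 / 100) {p : E} (hp : Good a ε h r d lam p) :
    II a ε h r p D (D / 4) / (D / 4) ^ d ≤ II a ε h r p D (K * D) / (K * D) ^ d
      + 15 * 3 ^ d * G * (K * (Real.sqrt lam + η)) := by
  set τ := Real.sqrt lam with hτd
  have hτ : 0 < τ := Real.sqrt_pos.2 hl
  have hττ : τ * τ = lam := Real.mul_self_sqrt hl.le
  have hτ1 : τ ≤ 1 := by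
    by_contra hcon
    push Not at hcon
    nlinarith
  have hη := H.hη0
  have hDK : D / 4 ≤ K * D := by nlinarith
  set B : ℝ := 3 ^ d * G * (15 * τ / D + 2 * η) with hB
  have hgeo : ∀ ρ ∈ Icc (D / 4) (K * D), 0 < ρ ∧ 3 * ρ ≤ 1 / 100 ∧
      closedBall p (3 * ρ) ⊆ ball (0 : E) 2 := by
    intro ρ hρ
    have h0 : 0 < ρ := lt_of_lt_of_le (by positivity) hρ.1
    have h1 : 3 * ρ ≤ 1 / 100 := by
      have := hρ.2; linarith
    refine ⟨h0, h1, ?_⟩
    intro x hx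
    have hp1 := hp.1
    rw [mem_ball_zero_iff] at hp1 ⊢
    rw [mem_closedBall, dist_eq_norm] at hx
    have : ‖x‖ ≤ ‖x - p‖ + ‖p‖ := by
      calc ‖x‖ = ‖(x - p) + p‖ := by rw [sub_add_cancel]
        _ ≤ _ := norm_add_le _ _
    linarith
  have hder : ∀ ρ ∈ Icc (D / 4) (K * D), HasDerivAt (fun s => II a ε h r p D s / s ^ d)
      (-(∫ x, GG d a ε h r p D ρ x) / ρ ^ (d + 1)) ρ := by
    intro ρ hρ
    obtain ⟨h0, _, h2⟩ := hgeo ρ hρ
    exact hasDerivAt_ratio H d h0 hρ.1 hD h2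
  have hbd : ∀ ρ ∈ Icc (D / 4) (K * D), -B ≤ -(∫ x, GG d a ε h r p D ρ x) / ρ ^ (d + 1) := by
    intro ρ hρ
    obtain ⟨h0, h1, h2⟩ := hgeo ρ hρ
    have hmain := int_GG_le hd H h0 hρ.1 hD hτ h2
    have hEn : En ε h r (closedBall p (3 * ρ)) ≤ G * (3 * ρ) ^ d := by
      apply hGr p _ (3 * ρ) (by positivity) (by linarith)
      exact ball_subset_ball (by norm_num) hp.1
    have hKp : Kp a ε h r (closedBall p (3 * ρ)) ≤ lam * (3 * ρ) ^ d :=
      hp.2 (3 * ρ) (by positivity) h1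
    have hc1 : 0 ≤ 11 / (2 * D) * ρ * τ + 2 * η * ρ := by positivity
    have hc2 : 0 ≤ 11 / (2 * D) * ρ / τ + 1 := by positivity
    have hfin : ∫ x, GG d a ε h r p D ρ x ≤ B * ρ ^ (d + 1) := by
      calc _ ≤ _ := hmain
        _ ≤ (11 / (2 * D) * ρ * τ + 2 * η * ρ) * (G * (3 * ρ) ^ d)
            + (11 / (2 * D) * ρ / τ + 1) * (lam * (3 * ρ) ^ d) := by gcongr
        _ = (3 * ρ) ^ d * (11 / (2 * D) * ρ * τ * G + 2 * η * ρ * G + 11 / (2 * D) * ρ * τ
              + lam) := by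
            rw [← hττ]; field_simp; ring
        _ ≤ (3 * ρ) ^ d * (ρ * (G * (15 * τ / D + 2 * η))) := by
            apply mul_le_mul_of_nonneg_left _ (by positivity)
            have e1 : lam ≤ ρ * (4 * τ / D) := by
              have : 1 ≤ ρ * (4 / D) := by
                rw [mul_div_assoc', le_div_iff₀ hD]; linarith [hρ.1]
              calc lam = τ * τ := hττ.symm
                _ ≤ τ * 1 := by gcongr
                _ ≤ τ * (ρ * (4 / D)) := by gcongr
                _ = _ := by ring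
            have e2 : lam ≤ ρ * (4 * τ / D) * G := by
              have : 0 ≤ ρ * (4 * τ / D) := by positivity
              nlinarith
            have e3 : 11 / (2 * D) * ρ * τ ≤ 11 / (2 * D) * ρ * τ * G := by
              have : 0 ≤ 11 / (2 * D) * ρ * τ := by positivity
              nlinarith
            have e4 : ρ * (G * (15 * τ / D + 2 * η)) = 11 / (2 * D) * ρ * τ * G
                + 2 * η * ρ * G + 11 / (2 * D) * ρ * τ * G + ρ * (4 * τ / D) * G := by
              field_simp; ring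
            linarith
        _ = B * ρ ^ (d + 1) := by rw [hB, mul_pow, pow_succ]; ring
    rw [le_div_iff₀ (by positivity)]
    linarith
  have hmv := (convex_Icc (D / 4) (K * D)).mul_sub_le_image_sub_of_le_deriv
    (f := fun s => II a ε h r p D s / s ^ d)
    (fun ρ hρ => (hder ρ hρ).continuousAt.continuousWithinAt)
    (fun ρ hρ => (hder ρ (interior_subset hρ)).differentiableAt.differentiableWithinAt)
    (C := -B) (fun ρ hρ => by
      rw [(hder ρ (interior_subset hρ)).deriv]; exact hbd ρ (interior_subset hρ))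
    (D / 4) (left_mem_Icc.2 hDK) (K * D) (right_mem_Icc.2 hDK) hDK
  have hB0 : 0 ≤ B := by positivity
  have e1 : B * (K * D - D / 4) ≤ B * (K * D) := by
    apply mul_le_mul_of_nonneg_left _ hB0; linarith
  have e2 : B * (K * D) = 3 ^ d * G * (15 * K * τ + 2 * η * (K * D)) := by
    rw [hB]; field_simp
  have e3 : 3 ^ d * G * (15 * K * τ + 2 * η * (K * D)) ≤ 15 * 3 ^ d * G * (K * (τ + η)) := by
    have : 15 * K * τ + 2 * η * (K * D) ≤ 15 * (K * (τ + η)) := by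
      have : K * D ≤ 1 := by nlinarith
      nlinarith
    calc _ ≤ 3 ^ d * G * (15 * (K * (τ + η))) := by gcongr
      _ = _ := by ring
  linarith

theorem J_le_II (H : Hyp a ε η h r) (p : E) {D : ℝ} (hD : 0 < D) :
    J ε h r p (D / 4) ≤ II a ε h r p D (D / 4) := by
  have hcq := continuous_q H
  have hc2 := (continuous_chi D).comp (continuous_sc a p)
  unfold J II
  apply setIntegral_mono_on
  · have : Continuous fun x : E => psi (‖x - p‖ ^ 2 / (D / 4) ^ 2) :=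
      continuous_psi.comp (((continuous_id.sub continuous_const).norm.pow 2).div_const _)
    exact integrableOn_ball2 (hcq.mul this)
  · exact integrableOn_ball2 ((hc2.mul hcq).mul (continuous_psi.comp (continuous_ysq a p (D / 4))))
  · exact measurableSet_ball
  intro x hx
  have hq := q_nonneg H hx
  have h1 := norm_yv_sq H.ha p x
  rcases le_or_gt (D / 4) ‖x - p‖ with hxp | hxp
  · have h2 : psi (‖x - p‖ ^ 2 / (D / 4) ^ 2) = 0 := by
      apply psi_eq_zero
      rw [le_div_iff₀ (by positivity), one_mul]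
      exact pow_le_pow_left₀ (by positivity) hxp 2
    rw [h2, mul_zero]
    exact mul_nonneg (mul_nonneg (chi_nonneg _ _) hq) (psi_nonneg _)
  · have h3 : chi D (sc a p x) = 1 := by
      apply chi_eq_one hD
      have h4 := sc_sq_le H.ha p x
      have h5 : |sc a p x| ≤ ‖x - p‖ := abs_le_of_sq_le_sq h4 (norm_nonneg _)
      linarith
    rw [h3, one_mul]
    apply mul_le_mul_of_nonneg_left _ hq
    apply psi_anti
    have h6 : 0 ≤ sc a p x ^ 2 := sq_nonneg _
    apply div_le_div_of_nonneg_right _ (by positivity)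
    linarith

/-- the two slabs together -/
theorem II_add_le (H : Hyp a ε η h r) {p : E} {K D : ℝ} (hK : 1 ≤ K) (hD : 0 < D)
    (hB : closedBall p (3 * (K * D)) ⊆ ball (0 : E) 2) :
    II a ε h r p D (K * D) + II a ε h r (p + D • a) D (K * D) ≤
      J ε h r p (K * D) + 9 / 2 / K ^ 2 * En ε h r (closedBall p (3 * (K * D))) := by
  have hcq := continuous_q H
  have hKD : 0 < K * D := by positivity
  have hψc : Continuous fun x : E => psi (‖x - p‖ ^ 2 / (K * D) ^ 2) :=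
      continuous_psi.comp (((continuous_id.sub continuous_const).norm.pow 2).div_const _)
  have hc : ∀ c : E, IntegrableOn (fun x => chi D (sc a c x) * q ε h r x *
      psi (‖yv a c x‖ ^ 2 / (K * D) ^ 2)) (ball (0 : E) 2) := fun c =>
    integrableOn_ball2 ((((continuous_chi D).comp (continuous_sc a c)).mul hcq).mul
      (continuous_psi.comp (continuous_ysq a c (K * D))))
  have hind : En ε h r (closedBall p (3 * (K * D))) =
      ∫ x in ball (0 : E) 2, (closedBall p (3 * (K * D))).indicator (q ε h r) x := by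
    unfold En
    rw [setIntegral_indicator isClosed_closedBall.measurableSet, inter_eq_right.2 hB]
  rw [hind]
  unfold II J
  have hqi : IntegrableOn ((closedBall p (3 * (K * D))).indicator (q ε h r)) (ball (0 : E) 2) :=
    (integrableOn_ball2 hcq).indicator isClosed_closedBall.measurableSet
  have hJi : IntegrableOn (fun x => q ε h r x * psi (‖x - p‖ ^ 2 / (K * D) ^ 2))
      (ball (0 : E) 2) := integrableOn_ball2 (hcq.mul hψc)
  rw [← integral_const_mul, ← integral_add (hc p) (hc (p + D • a)),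
    ← integral_add hJi (hqi.const_mul _)]
  apply setIntegral_mono_on ((hc p).add (hc (p + D • a)))
    (hJi.add (hqi.const_mul _)) measurableSet_ball
  intro x hx
  have hq := q_nonneg H hx
  have haa : ⟪a, a⟫ = (1 : ℝ) := inner_aa H.ha
  have hs2 : sc a (p + D • a) x = sc a p x - D := by
    unfold sc
    rw [← sub_sub, inner_sub_right, inner_smul_right, haa, mul_one]
  have hy2 : yv a (p + D • a) x = yv a p x := by
    unfold yv
    rw [hs2]
    module
  simp only [Pi.add_apply]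
  rw [hs2, hy2]
  set s := sc a p x with hs
  set t := ‖yv a p x‖ ^ 2 / (K * D) ^ 2 with ht
  have hψ0 := psi_nonneg t
  have hψx := psi_nonneg (‖x - p‖ ^ 2 / (K * D) ^ 2)
  have hiq : 0 ≤ (closedBall p (3 * (K * D))).indicator (q ε h r) x := by
    by_cases hm : x ∈ closedBall p (3 * (K * D))
    · rw [indicator_of_mem hm]; exact hq
    · rw [indicator_of_notMem hm]
  have hR : 0 ≤ q ε h r x * psi (‖x - p‖ ^ 2 / (K * D) ^ 2)
      + 9 / 2 / K ^ 2 * (closedBall p (3 * (K * D))).indicator (q ε h r) x := by positivity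
  have hwsum : chi D s + chi D (s - D) ≤ 1 := by
    rcases lt_or_ge (|s|) (D / 2) with h1 | h1
    · have h2 : D / 2 ≤ |s - D| := by
        rw [abs_lt] at h1
        rw [le_abs]; right; linarith [h1.2]
      rw [chi_eq_zero hD h2, add_zero]; exact chi_le_one _ _
    · rw [chi_eq_zero hD h1, zero_add]; exact chi_le_one _ _
  have hw0 : 0 ≤ chi D s + chi D (s - D) := add_nonneg (chi_nonneg _ _) (chi_nonneg _ _)
  have hL : chi D s * q ε h r x * psi t + chi D (s - D) * q ε h r x * psi t =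
      (chi D s + chi D (s - D)) * (q ε h r x * psi t) := by ring
  rw [hL]
  rcases le_or_gt (K * D) ‖yv a p x‖ with hy | hy
  · rw [ht, (psi_zero_of hKD hy).1, mul_zero, mul_zero]; exact hR
  rcases le_or_gt (3 / 2 * D) |s| with hs3 | hs3
  · have h1 : chi D s = 0 := chi_eq_zero hD (by linarith)
    have h2 : chi D (s - D) = 0 := by
      apply chi_eq_zero hD
      rw [le_abs] at hs3 ⊢
      rcases hs3 with h | h
      · left; linarith
      · right; linarith
    rw [h1, h2, add_zero, zero_mul]; exact hR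
  have hnorm := norm_yv_sq H.ha p x
  rw [← hs] at hnorm
  have hs2' : s ^ 2 ≤ (3 / 2 * D) ^ 2 := by
    rw [← sq_abs]; exact pow_le_pow_left₀ (abs_nonneg _) hs3.le 2
  have hy2' : ‖yv a p x‖ ^ 2 ≤ (K * D) ^ 2 := pow_le_pow_left₀ (norm_nonneg _) hy.le 2
  have hDK : D ≤ K * D := by nlinarith
  have hmem : x ∈ closedBall p (3 * (K * D)) := by
    rw [mem_closedBall, dist_eq_norm]
    apply abs_le_of_sq_le_sq' _ (by positivity) |>.2
    nlinarith
  rw [indicator_of_mem hmem]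
  have hst : psi t ≤ psi (‖x - p‖ ^ 2 / (K * D) ^ 2) + 9 / 2 / K ^ 2 := by
    have h1 : t ≤ ‖x - p‖ ^ 2 / (K * D) ^ 2 := by
      rw [ht]
      have := sq_nonneg s
      apply div_le_div_of_nonneg_right _ (by positivity)
      linarith
    have h2 := psi_le_add (by positivity : 0 ≤ t) h1
    have h3 : ‖x - p‖ ^ 2 / (K * D) ^ 2 - t = s ^ 2 / (K * D) ^ 2 := by
      rw [ht, hnorm, ← sub_div]; congr 1; ring
    have h4 : s ^ 2 / (K * D) ^ 2 ≤ 9 / 4 / K ^ 2 := by
      rw [div_le_div_iff₀ (by positivity) (by positivity)]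
      nlinarith [sq_nonneg K]
    rw [h3] at h2
    have h5 : 2 * (9 / 4 / K ^ 2) = 9 / 2 / K ^ 2 := by ring
    linarith
  calc (chi D s + chi D (s - D)) * (q ε h r x * psi t) ≤ 1 * (q ε h r x * psi t) := by gcongr
    _ = q ε h r x * psi t := one_mul _
    _ ≤ q ε h r x * (psi (‖x - p‖ ^ 2 / (K * D) ^ 2) + 9 / 2 / K ^ 2) := by gcongr
    _ = _ := by ring

end

/-- LEAF 7 of Lemma MS -/
theorem stSlab (E : Type*) [NormedAddCommGroup E] [InnerProductSpace ℝ E]
    [FiniteDimensional ℝ E] [MeasurableSpace E] [BorelSpace E] (d : ℕ) : StSlab E d := by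
  intro hd
  refine ⟨30 * 3 ^ d, by positivity, ?_⟩
  intro a ε η h r H G lam K D hG hGr hl hl1 hK hD hKD x1 hx1 hg1 hg2
  have hKD0 : 0 < K * D := by positivity
  have hη := H.hη0
  have s1 := one_slab hd H hG hGr hl hl1 hK hD hKD hg1
  have s2 := one_slab hd H hG hGr hl hl1 hK hD hKD hg2
  have j1 := J_le_II H x1 hD
  have j2 := J_le_II H (x1 + D • a) hD
  have hB : closedBall x1 (3 * (K * D)) ⊆ ball (0 : E) 2 := by
    intro x hx
    rw [mem_ball_zero_iff] at hx1 ⊢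
    rw [mem_closedBall, dist_eq_norm] at hx
    have : ‖x‖ ≤ ‖x - x1‖ + ‖x1‖ := by
      calc ‖x‖ = ‖(x - x1) + x1‖ := by rw [sub_add_cancel]
        _ ≤ _ := norm_add_le _ _
    linarith
  have hsum := II_add_le H hK hD hB
  have hEn : En ε h r (closedBall x1 (3 * (K * D))) ≤ G * (3 * (K * D)) ^ d := by
    apply hGr x1 _ (3 * (K * D)) (by positivity) (by linarith)
    exact ball_subset_ball (by norm_num) hx1
  have hD4 : (0 : ℝ) < (D / 4) ^ d := by positivity
  have hKDd : (0 : ℝ) < (K * D) ^ d := by positivity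
  have a1 : J ε h r x1 (D / 4) / (D / 4) ^ d ≤ II a ε h r x1 D (D / 4) / (D / 4) ^ d := by
    gcongr
  have a2 : J ε h r (x1 + D • a) (D / 4) / (D / 4) ^ d ≤
      II a ε h r (x1 + D • a) D (D / 4) / (D / 4) ^ d := by gcongr
  have a3 : II a ε h r x1 D (K * D) / (K * D) ^ d
      + II a ε h r (x1 + D • a) D (K * D) / (K * D) ^ d ≤
      J ε h r x1 (K * D) / (K * D) ^ d + 9 / 2 / K ^ 2 * (G * 3 ^ d) := by
    rw [← add_div]
    have h1 : 9 / 2 / K ^ 2 * (G * 3 ^ d) =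
        9 / 2 / K ^ 2 * (G * (3 * (K * D)) ^ d) / (K * D) ^ d := by
      rw [mul_pow]; field_simp
    rw [h1, ← add_div]
    apply div_le_div_of_nonneg_right _ hKDd.le
    refine hsum.trans ?_
    gcongr
  have hs0 : 0 ≤ Real.sqrt lam + η := add_nonneg (Real.sqrt_nonneg _) hη.le
  have hKK : K * (Real.sqrt lam + η) ≤ K ^ 2 * (Real.sqrt lam + η) := by
    apply mul_le_mul_of_nonneg_right _ hs0
    nlinarith
  have hfin : 15 * 3 ^ d * G * (K * (Real.sqrt lam + η)) + 15 * 3 ^ d * G *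
      (K * (Real.sqrt lam + η)) + 9 / 2 / K ^ 2 * (G * 3 ^ d) ≤
      30 * 3 ^ d * G * (K ^ 2 * (Real.sqrt lam + η) + 1 / K ^ 2) := by
    have b1 : 15 * 3 ^ d * G * (K * (Real.sqrt lam + η)) ≤
        15 * 3 ^ d * G * (K ^ 2 * (Real.sqrt lam + η)) := by gcongr
    have b2 : 9 / 2 / K ^ 2 * (G * 3 ^ d) ≤ 30 * 3 ^ d * G * (1 / K ^ 2) := by
      have : 9 / 2 / K ^ 2 * (G * 3 ^ d) = (9 / 2) * (3 ^ d * G * (1 / K ^ 2)) := by ring
      rw [this]
      have h0 : 0 ≤ 3 ^ d * G * (1 / K ^ 2) := by positivity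
      nlinarith
    have b3 : 30 * 3 ^ d * G * (K ^ 2 * (Real.sqrt lam + η) + 1 / K ^ 2) =
        15 * 3 ^ d * G * (K ^ 2 * (Real.sqrt lam + η))
        + 15 * 3 ^ d * G * (K ^ 2 * (Real.sqrt lam + η)) + 30 * 3 ^ d * G * (1 / K ^ 2) := by ring
    linarith
  linarith

end Crest.Agent.R246.F4x669
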