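import Crest.Agent.R246.H2b1_622

-- ▼ part R246/H2b2_622
section

/-!
R246, block H2b (helper622).  Part 2: the `C^{1,α}` estimate for `Δ v = div f`.
-/

open MeasureTheory Metric Set Filter Topology
open scoped ContDiff

namespace Crest.Agent.R246.H2x622

noncomputable section

set_option linter.unusedSectionVars false

variable {F : Type*} [NormedAddCommGroup F] [InnerProductSpace ℝ F] [FiniteDimensional ℝ F]
  [MeasurableSpace F] [BorelSpace F]
variable {V : Type*} [NormedAddCommGroup V] [NormedSpace ℝ V]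

variable (F) in
/-- bounds for the kernels -/
structure KB (κ : ℝ) : Prop where
  nonneg : 0 ≤ κ
  bK : ∀ y : F, ‖KK y‖ ≤ κ
  bD : ∀ y : F, ‖deta y‖ ≤ κ
  lK : ∀ y y' : F, ‖KK y - KK y'‖ ≤ κ * ‖y - y'‖
  lD : ∀ y y' : F, ‖deta y - deta y'‖ ≤ κ * ‖y - y'‖

variable (F) in
lemma exists_KB : ∃ κ, KB F κ := by
  have hK : HasCompactSupport (KK : F → F →L[ℝ] F) :=
    HasCompactSupport.intro (isCompact_closedBall 0 1) (fun _ hy => KK_zero hy)
  have hD : HasCompactSupport (deta : F → F →L[ℝ] ℝ) :=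
    HasCompactSupport.intro (isCompact_closedBall 0 1) (fun _ hy => deta_zero hy)
  obtain ⟨c1, h1⟩ := (KK_contDiff (F := F)).continuous.bounded_above_of_compact_support hK
  obtain ⟨c2, h2⟩ := (deta_contDiff (F := F)).continuous.bounded_above_of_compact_support hD
  obtain ⟨c3, h3⟩ := (KK_contDiff (F := F)).lipschitzWith_of_hasCompactSupport hK (by simp)
  obtain ⟨c4, h4⟩ := (deta_contDiff (F := F)).lipschitzWith_of_hasCompactSupport hD (by simp)
  refine ⟨|c1| + |c2| + c3 + c4, ⟨by positivity, ?_, ?_, ?_, ?_⟩⟩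
  · intro y
    have := h1 y
    have h5 := le_abs_self c1
    have h6 := abs_nonneg c2
    have h7 : (0:ℝ) ≤ c3 := c3.2
    have h8 : (0:ℝ) ≤ c4 := c4.2
    linarith
  · intro y
    have := h2 y
    have h5 := le_abs_self c2
    have h6 := abs_nonneg c1
    have h7 : (0:ℝ) ≤ c3 := c3.2
    have h8 : (0:ℝ) ≤ c4 := c4.2
    linarith
  · intro y y'
    have h5 := h3.dist_le_mul y y'
    rw [dist_eq_norm, dist_eq_norm] at h5
    refine h5.trans (mul_le_mul_of_nonneg_right ?_ (norm_nonneg _))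
    have h8 : (0:ℝ) ≤ c4 := c4.2
    have h6 := abs_nonneg c1
    have h6 := abs_nonneg c2
    linarith
  · intro y y'
    have h5 := h4.dist_le_mul y y'
    rw [dist_eq_norm, dist_eq_norm] at h5
    refine h5.trans (mul_le_mul_of_nonneg_right ?_ (norm_nonneg _))
    have h8 : (0:ℝ) ≤ c3 := c3.2
    have h6 := abs_nonneg c1
    have h6 := abs_nonneg c2
    linarith

variable (F) in
def vb (r : ℝ) : ℝ := volume.real (closedBall (0 : F) r)

lemma vb_nonneg (r : ℝ) : 0 ≤ vb F r := measureReal_nonneg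

variable [CompleteSpace V]

lemma integral_clm_KK (L : F →L[ℝ] V) (e : F) : ∫ y : F, L (KK y e) = 0 := by
  have h1 : Integrable (fun y : F => KK y e) := by
    have h := integrable_KK (H := fun _ : F => ContinuousLinearMap.id ℝ F) e continuousOn_const
    simpa using h
  rw [ContinuousLinearMap.integral_comp_comm L h1, integral_KK, map_zero]

lemma QQ_bound {κ : ℝ} (hκ : KB F κ) {f : F → F →L[ℝ] V} {x : F} {s R K α : ℝ}
    (hs : 0 ≤ s) (hsR : s < R) (hf : ContinuousOn f (ball x R)) (hK0 : 0 ≤ K) (hα : 0 ≤ α)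
    (hK : ∀ z ∈ ball x R, ‖f z - f x‖ ≤ K * ‖z - x‖ ^ α) (e : F) :
    ‖QQ f s x e‖ ≤ K * s ^ α * κ * ‖e‖ * vb F 1 := by
  have hfc := contOn_resc hs hsR hf
  have h1 : QQ f s x e = ∫ y, (f (x - s • y) - f x) (KK y e) := by
    simp only [sub_apply]
    rw [integral_sub (integrable_KK e hfc) (integrable_KK e continuousOn_const),
      integral_clm_KK, sub_zero, QQ]
  rw [h1]
  refine norm_integral_le_ball (fun y hy => by simp [KK_zero hy]) ?_
  intro y hy
  have h2 := sub_smul_mem (x := x) hs hy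
  have h3 := hK _ (closedBall_subset_ball hsR h2)
  rw [mem_closedBall, dist_eq_norm] at h2
  have h4 : ‖x - s • y - x‖ ^ α ≤ s ^ α := Real.rpow_le_rpow (norm_nonneg _) h2 hα
  have h5 : ‖f (x - s • y) - f x‖ ≤ K * s ^ α := h3.trans (mul_le_mul_of_nonneg_left h4 hK0)
  have h6 : ‖KK y e‖ ≤ κ * ‖e‖ :=
    ((KK y).le_opNorm e).trans (mul_le_mul_of_nonneg_right (hκ.bK y) (norm_nonneg _))
  calc ‖(f (x - s • y) - f x) (KK y e)‖ ≤ ‖f (x - s • y) - f x‖ * ‖KK y e‖ :=
        ContinuousLinearMap.le_opNorm _ _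
    _ ≤ (K * s ^ α) * (κ * ‖e‖) := mul_le_mul h5 h6 (norm_nonneg _) (by positivity)
    _ = _ := by ring


lemma shift_mem {c y : F} (hc : ‖c‖ ≤ 1) (hy : y ∉ closedBall (0 : F) 2) :
    y ∉ closedBall (0 : F) 1 ∧ y + c ∉ closedBall (0 : F) 1 := by
  simp only [mem_closedBall, dist_zero_right, not_le] at hy ⊢
  constructor
  · linarith
  · have : ‖y‖ ≤ ‖y + c‖ + ‖c‖ := by
      calc ‖y‖ = ‖(y + c) - c‖ := by rw [add_sub_cancel_right]
        _ ≤ _ := norm_sub_le _ _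
    linarith

lemma sub_smul_mem2 {x y : F} {s : ℝ} (hs : 0 ≤ s) (hy : y ∈ closedBall (0 : F) 2) :
    x - s • y ∈ closedBall x (2 * s) := by
  simp only [mem_closedBall, dist_zero_right] at hy
  rw [mem_closedBall, dist_eq_norm]
  have : x - s • y - x = -(s • y) := by abel
  rw [this, norm_neg, norm_smul, Real.norm_of_nonneg hs]
  nlinarith

lemma QQ_diff {κ : ℝ} (hκ : KB F κ) {f : F → F →L[ℝ] V} {x x' : F} {s R K α : ℝ}
    (hs : 0 < s) (hsR : 2 * s < R) (hf : ContinuousOn f (ball x R)) (hK0 : 0 ≤ K) (hα : 0 ≤ α)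
    (hK : ∀ z ∈ ball x R, ‖f z - f x‖ ≤ K * ‖z - x‖ ^ α) (hxx : ‖x' - x‖ ≤ s) (e : F) :
    ‖QQ f s x e - QQ f s x' e‖ ≤ K * (2 * s) ^ α * (κ * (s⁻¹ * ‖x' - x‖) * ‖e‖) * vb F 2 := by
  have hfc := contOn_resc hs.le (by linarith : s < R) hf
  set c : F := s⁻¹ • (x' - x) with hc
  have hc1 : ‖c‖ ≤ 1 := by
    rw [hc, norm_smul, norm_inv, Real.norm_of_nonneg hs.le]
    exact (inv_mul_le_iff₀ hs).2 (by linarith)
  have hsc : s • c = x' - x := by
    rw [hc, smul_smul, mul_inv_cancel₀ hs.ne', one_smul]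
  have hpt : ∀ y, x' - s • (y + c) = x - s • y := by
    intro y
    rw [smul_add, hsc]; abel
  have hQ' : QQ f s x' e = ∫ y, f (x - s • y) (KK (y + c) e) := by
    rw [QQ, ← integral_add_right_eq_self (fun y => f (x' - s • y) (KK y e)) c]
    simp only [hpt]
  have hball : closedBall x' s ⊆ ball x R := by
    intro z hz
    rw [mem_closedBall, dist_eq_norm] at hz
    rw [mem_ball, dist_eq_norm]
    calc ‖z - x‖ = ‖(z - x') + (x' - x)‖ := by congr 1; abel
      _ ≤ ‖z - x'‖ + ‖x' - x‖ := norm_add_le _ _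
      _ < R := by linarith
  have hfc' : ContinuousOn (fun y => f (x' - s • y)) (closedBall 0 1) := by
    refine hf.comp (by fun_prop) ?_
    intro y hy
    exact hball (sub_smul_mem hs.le hy)
  have hI1 : Integrable (fun y => f (x - s • y) (KK y e)) := integrable_KK e hfc
  have hI2 : Integrable (fun y => f (x - s • y) (KK (y + c) e)) := by
    have h := (integrable_KK (H := fun y => f (x' - s • y)) e hfc').comp_add_right c
    simpa only [hpt] using h
  have hI3 : Integrable (fun y => f x (KK y e)) := integrable_KK e continuousOn_const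
  have hI4 : Integrable (fun y => f x (KK (y + c) e)) := hI3.comp_add_right c
  have hz4 : ∫ y, f x (KK (y + c) e) = 0 := by
    rw [integral_add_right_eq_self (fun y => f x (KK y e)) c, integral_clm_KK]
  have hmain : QQ f s x e - QQ f s x' e
      = ∫ y, (f (x - s • y) - f x) ((KK y - KK (y + c)) e) := by
    have h1 : ∀ y, (f (x - s • y) - f x) ((KK y - KK (y + c)) e)
        = (f (x - s • y) (KK y e) - f (x - s • y) (KK (y + c) e))
          - (f x (KK y e) - f x (KK (y + c) e)) := by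
      intro y
      simp only [sub_apply, map_sub]
      abel
    simp only [h1]
    have hI12 : Integrable (fun y => f (x - s • y) (KK y e) - f (x - s • y) (KK (y + c) e)) :=
      hI1.sub hI2
    have hI34 : Integrable (fun y => f x (KK y e) - f x (KK (y + c) e)) := hI3.sub hI4
    rw [integral_sub hI12 hI34, integral_sub hI1 hI2, integral_sub hI3 hI4,
      integral_clm_KK, hz4, hQ', QQ]
    simp
  rw [hmain]
  refine norm_integral_le_ball (r := 2) (fun y hy => ?_) ?_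
  · obtain ⟨h1, h2⟩ := shift_mem hc1 hy
    simp [KK_zero h1, KK_zero h2]
  · intro y hy
    have h2 := sub_smul_mem2 (x := x) hs.le hy
    have h3 := hK _ (closedBall_subset_ball hsR h2)
    rw [mem_closedBall, dist_eq_norm] at h2
    have h4 : ‖x - s • y - x‖ ^ α ≤ (2 * s) ^ α := Real.rpow_le_rpow (norm_nonneg _) h2 hα
    have h5 : ‖f (x - s • y) - f x‖ ≤ K * (2 * s) ^ α :=
      h3.trans (mul_le_mul_of_nonneg_left h4 hK0)
    have h6 : ‖(KK y - KK (y + c)) e‖ ≤ κ * (s⁻¹ * ‖x' - x‖) * ‖e‖ := by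
      refine ((KK y - KK (y + c)).le_opNorm e).trans ?_
      refine mul_le_mul_of_nonneg_right ?_ (norm_nonneg _)
      refine (hκ.lK _ _).trans ?_
      have : ‖y - (y + c)‖ = s⁻¹ * ‖x' - x‖ := by
        rw [sub_add_cancel_left, norm_neg, hc, norm_smul, norm_inv, Real.norm_of_nonneg hs.le]
      rw [this]
    exact (ContinuousLinearMap.le_opNorm _ _).trans
      (mul_le_mul h5 h6 (norm_nonneg _) (by positivity))

lemma AA_diff {κ : ℝ} (hκ : KB F κ) {v : F → V} {x x' : F} {s R M : ℝ}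
    (hs : 0 < s) (hsR : 2 * s < R) (hv : ContinuousOn v (ball x R))
    (hM : ∀ z ∈ ball x R, ‖v z‖ ≤ M) (hxx : ‖x' - x‖ ≤ s) (e : F) :
    ‖AA v s x e - AA v s x' e‖ ≤ (κ * (s⁻¹ * ‖x' - x‖) * ‖e‖) * M * vb F 2 := by
  have hfc := contOn_resc hs.le (by linarith : s < R) hv
  set c : F := s⁻¹ • (x' - x) with hc
  have hc1 : ‖c‖ ≤ 1 := by
    rw [hc, norm_smul, norm_inv, Real.norm_of_nonneg hs.le]
    exact (inv_mul_le_iff₀ hs).2 (by linarith)
  have hsc : s • c = x' - x := by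
    rw [hc, smul_smul, mul_inv_cancel₀ hs.ne', one_smul]
  have hpt : ∀ y, x' - s • (y + c) = x - s • y := by
    intro y
    rw [smul_add, hsc]; abel
  have hQ' : AA v s x' e = ∫ y, deta (y + c) e • v (x - s • y) := by
    rw [AA, ← integral_add_right_eq_self (fun y => deta y e • v (x' - s • y)) c]
    simp only [hpt]
  have hball : closedBall x' s ⊆ ball x R := by
    intro z hz
    rw [mem_closedBall, dist_eq_norm] at hz
    rw [mem_ball, dist_eq_norm]
    calc ‖z - x‖ = ‖(z - x') + (x' - x)‖ := by congr 1; abel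
      _ ≤ ‖z - x'‖ + ‖x' - x‖ := norm_add_le _ _
      _ < R := by linarith
  have hfc' : ContinuousOn (fun y => v (x' - s • y)) (closedBall 0 1) := by
    refine hv.comp (by fun_prop) ?_
    intro y hy
    exact hball (sub_smul_mem hs.le hy)
  have hI1 : Integrable (fun y => deta y e • v (x - s • y)) := integrable_deta_smul e hfc
  have hI2 : Integrable (fun y => deta (y + c) e • v (x - s • y)) := by
    have h := (integrable_deta_smul (h := fun y => v (x' - s • y)) e hfc').comp_add_right c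
    simpa only [hpt] using h
  rw [hQ', AA, ← integral_sub hI1 hI2]
  refine norm_integral_le_ball (r := 2) (fun y hy => ?_) ?_
  · obtain ⟨h1, h2⟩ := shift_mem hc1 hy
    simp [deta_zero h1, deta_zero h2]
  · intro y hy
    have h3 := hM _ (closedBall_subset_ball hsR (sub_smul_mem2 (x := x) hs.le hy))
    have h6 : ‖(deta y - deta (y + c)) e‖ ≤ κ * (s⁻¹ * ‖x' - x‖) * ‖e‖ := by
      refine ((deta y - deta (y + c)).le_opNorm e).trans ?_
      refine mul_le_mul_of_nonneg_right ?_ (norm_nonneg _)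
      refine (hκ.lD _ _).trans ?_
      have : ‖y - (y + c)‖ = s⁻¹ * ‖x' - x‖ := by
        rw [sub_add_cancel_left, norm_neg, hc, norm_smul, norm_inv, Real.norm_of_nonneg hs.le]
      rw [this]
    rw [← sub_smul, ← sub_apply, norm_smul]
    exact mul_le_mul h6 h3 (norm_nonneg _) (mul_nonneg (mul_nonneg hκ.nonneg (by positivity)) (norm_nonneg _))

end

end Crest.Agent.R246.H2x622
end

-- ▼ part R246/H2b3_622
section

/-!
R246, block H2b (helper622).  Part 3: the Schauder estimate for `Δ v = div f`.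
-/

open MeasureTheory Metric Set Filter Topology
open scoped ContDiff

namespace Crest.Agent.R246.H2x622

noncomputable section

set_option linter.unusedSectionVars false

variable {F : Type*} [NormedAddCommGroup F] [InnerProductSpace ℝ F] [FiniteDimensional ℝ F]
  [MeasurableSpace F] [BorelSpace F]
variable {V : Type*} [NormedAddCommGroup V] [NormedSpace ℝ V]

variable (F) in
/-- mass of the mollifier -/
def ce : ℝ := ∫ y : F, eta y

lemma G1_one_pos : 0 < G1 1 := by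
  have h1 : HasDerivAt (fun x : ℝ => Real.exp (-x⁻¹)) (Real.exp (-(1:ℝ)⁻¹) * (-(-((1:ℝ) ^ 2)⁻¹))) 1 :=
    ((hasDerivAt_inv one_ne_zero).neg).exp
  have h2 : G0 =ᶠ[𝓝 1] (fun x : ℝ => Real.exp (-x⁻¹)) := by
    filter_upwards [Ioi_mem_nhds (show (0:ℝ) < 1 by norm_num)] with x hx
    have : ¬ x ≤ 0 := not_le.2 hx
    simp [G0, expNegInvGlue, this]
  have h3 : G1 1 = Real.exp (-(1:ℝ)⁻¹) * (-(-((1:ℝ) ^ 2)⁻¹)) := by
    rw [G1, h2.deriv_eq, h1.deriv]
  rw [h3]
  have := Real.exp_pos (-(1:ℝ)⁻¹)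
  simpa using this

lemma eta_nonneg (y : F) : 0 ≤ eta y := mul_nonneg (by norm_num) (G1_nonneg _)

lemma ce_pos : 0 < ce F := by
  refine (eta_contDiff (F := F)).continuous.integral_pos_of_hasCompactSupport_nonneg_nonzero
    (HasCompactSupport.intro (isCompact_closedBall 0 1) (fun _ hy => eta_zero hy)) eta_nonneg
    (x := 0) ?_
  simp [eta, G1_one_pos.ne']

variable [CompleteSpace V]

lemma PP_tendsto {g : F → F →L[ℝ] V} {x : F} {R : ℝ} (hR : 0 < R)
    (hg : ContinuousOn g (ball x R)) (e : F) :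
    Tendsto (fun s => PP g s x e) (𝓝[>] 0) (𝓝 (ce F • g x e)) := by
  rw [Metric.tendsto_nhds]
  intro ε hε
  have hgx : ContinuousAt g x := (hg x (mem_ball_self hR)).continuousAt (ball_mem_nhds x hR)
  set δ : ℝ := ε / (2 * (ce F * (‖e‖ + 1))) with hδ
  have hce := ce_pos (F := F)
  have hδ0 : 0 < δ := by positivity
  obtain ⟨ρ, hρ, hρ2⟩ := Metric.continuousAt_iff.1 hgx δ hδ0
  filter_upwards [Ioo_mem_nhdsGT (show (0:ℝ) < min ρ R by positivity)] with s hs
  have hsρ : s < ρ := hs.2.trans_le (min_le_left _ _)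
  have hsR : s < R := hs.2.trans_le (min_le_right _ _)
  have hc := contOn_resc hs.1.le hsR hg
  have h1 : PP g s x e - ce F • g x e = ∫ y : F, eta y • (g (x - s • y) e - g x e) := by
    rw [PP, ce, ← integral_smul_const, ← integral_sub]
    · simp only [smul_sub]
    · exact integrable_eta_smul (hc.clm_apply continuousOn_const)
    · exact integrable_eta_smul (h := fun _ => g x e) continuousOn_const
  rw [dist_eq_norm, h1]
  have h2 : ∀ y : F, ‖eta y • (g (x - s • y) e - g x e)‖ ≤ eta y * (δ * ‖e‖) := by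
    intro y
    rw [norm_smul, Real.norm_of_nonneg (eta_nonneg y)]
    by_cases hy : y ∈ closedBall (0 : F) 1
    · refine mul_le_mul_of_nonneg_left ?_ (eta_nonneg y)
      have h3 := sub_smul_mem (x := x) hs.1.le hy
      have h4 := hρ2 (lt_of_le_of_lt (mem_closedBall.1 h3) hsρ)
      rw [dist_eq_norm] at h4
      rw [← sub_apply]
      exact ((g (x - s • y) - g x).le_opNorm e).trans
        (mul_le_mul_of_nonneg_right h4.le (norm_nonneg _))
    · simp [eta_zero hy]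
  have hint : Integrable (fun y : F => eta y * (δ * ‖e‖)) := by
    simpa using integrable_eta_smul (F := F) (h := fun _ => δ * ‖e‖) continuousOn_const
  refine lt_of_le_of_lt (norm_integral_le_of_norm_le hint (Eventually.of_forall h2)) ?_
  rw [integral_mul_const]
  change ce F * (δ * ‖e‖) < ε
  have h5 : ce F * (δ * ‖e‖) = ε / 2 * (‖e‖ / (‖e‖ + 1)) := by
    rw [hδ]; field_simp
  rw [h5]
  have h6 : ‖e‖ / (‖e‖ + 1) ≤ 1 := by
    rw [div_le_one (by positivity)]; linarith [norm_nonneg e]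
  nlinarith

lemma PP_lim_bound {κ : ℝ} (hκ : KB F κ) {v : F → V} {g f : F → F →L[ℝ] V} {x : F} {R t K α : ℝ}
    (hα : 0 < α) (hK0 : 0 ≤ K)
    (hv : ∀ z ∈ ball x R, HasFDerivAt v (g z) z) (hg : ContinuousOn g (ball x R))
    (hf : ContinuousOn f (ball x R)) (hw : WeakDiv (fun z => g z - f z) (ball x R))
    (hK : ∀ z ∈ ball x R, ‖f z - f x‖ ≤ K * ‖z - x‖ ^ α)
    (ht : 0 < t) (htR : t < R) (e : F) :
    ‖PP g t x e - ce F • g x e‖ ≤ K * κ * ‖e‖ * vb F 1 / α * t ^ α := by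
  set C : ℝ := K * κ * ‖e‖ * vb F 1 with hC
  have hC0 : 0 ≤ C := by
    have := hκ.nonneg; have := vb_nonneg (F := F) 1; positivity
  have key : ∀ ε ∈ Ioo 0 t, ‖PP g t x e - PP g ε x e‖ ≤ C / α * t ^ α := by
    intro ε hε
    have hder : ∀ s ∈ Icc ε t, HasDerivAt (fun s => PP g s x e - PP g ε x e)
        (-(s⁻¹ • QQ f s x e)) s := by
      intro s hs
      have hs0 : 0 < s := hε.1.trans_le hs.1
      exact (hasDerivAt_PP hv hg hf hw hs0 (hs.2.trans_lt htR) e).sub_const _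
    have hB : ∀ s ∈ Icc ε t, HasDerivAt (fun s => C / α * (s ^ α - ε ^ α)) (C * s ^ (α - 1)) s := by
      intro s hs
      have hs0 : 0 < s := hε.1.trans_le hs.1
      have h1 := ((Real.hasDerivAt_rpow_const (p := α) (Or.inl hs0.ne')).sub_const (ε ^ α)).const_mul
        (C / α)
      refine h1.congr_deriv ?_
      field_simp
    have h := image_norm_le_of_norm_deriv_right_le_deriv_boundary' (a := ε) (b := t)
      (f := fun s => PP g s x e - PP g ε x e) (f' := fun s => -(s⁻¹ • QQ f s x e))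
      (B := fun s => C / α * (s ^ α - ε ^ α)) (B' := fun s => C * s ^ (α - 1))
      (fun s hs => (hder s hs).continuousAt.continuousWithinAt)
      (fun s hs => (hder s (Ico_subset_Icc_self hs)).hasDerivWithinAt) (by simp)
      (fun s hs => (hB s hs).continuousAt.continuousWithinAt)
      (fun s hs => (hB s (Ico_subset_Icc_self hs)).hasDerivWithinAt) ?_ (right_mem_Icc.2 hε.2.le)
    · refine h.trans ?_
      have : 0 ≤ ε ^ α := Real.rpow_nonneg hε.1.le _
      exact mul_le_mul_of_nonneg_left (by linarith) (by positivity)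
    · intro s hs
      have hs0 : 0 < s := hε.1.trans_le hs.1
      have h2 := QQ_bound hκ hs0.le (hs.2.trans htR) hf hK0 hα.le hK e
      rw [norm_neg, norm_smul, norm_inv, Real.norm_of_nonneg hs0.le]
      have h3 : s ^ (α - 1) = s⁻¹ * s ^ α := by
        rw [Real.rpow_sub_one hs0.ne']; ring
      rw [h3]
      calc s⁻¹ * ‖QQ f s x e‖ ≤ s⁻¹ * (K * s ^ α * κ * ‖e‖ * vb F 1) :=
            mul_le_mul_of_nonneg_left h2 (by positivity)
        _ = _ := by rw [hC]; ring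
  have hlim : Tendsto (fun ε => ‖PP g t x e - PP g ε x e‖) (𝓝[>] 0)
      (𝓝 ‖PP g t x e - ce F • g x e‖) :=
    (tendsto_const_nhds.sub (PP_tendsto (ht.trans htR) hg e)).norm
  refine le_of_tendsto hlim ?_
  filter_upwards [Ioo_mem_nhdsGT ht] with ε hε
  exact key ε hε

lemma PP_diff_bound {κ : ℝ} (hκ : KB F κ) {v : F → V} {g f : F → F →L[ℝ] V} {x x' : F}
    {R r t K α : ℝ} (hα : 0 < α) (hα1 : α < 1) (hK0 : 0 ≤ K)
    (hv : ∀ z ∈ ball x R, HasFDerivAt v (g z) z) (hg : ContinuousOn g (ball x R))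
    (hf : ContinuousOn f (ball x R)) (hw : WeakDiv (fun z => g z - f z) (ball x R))
    (hK : ∀ z ∈ ball x R, ‖f z - f x‖ ≤ K * ‖z - x‖ ^ α)
    (ht : 0 < t) (htr : t ≤ r) (hrR : 2 * r < R) (hxx : ‖x' - x‖ ≤ t) (e : F) :
    ‖(PP g r x e - PP g r x' e) - (PP g t x e - PP g t x' e)‖
      ≤ K * 2 ^ α * κ * ‖x' - x‖ * ‖e‖ * vb F 2 / (1 - α) * t ^ (α - 1) := by
  set C : ℝ := K * 2 ^ α * κ * ‖x' - x‖ * ‖e‖ * vb F 2 with hC
  have hC0 : 0 ≤ C := by
    have := hκ.nonneg; have := vb_nonneg (F := F) 2; positivity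
  have hα2 : 0 < 1 - α := by linarith
  have hsub : ball x' (R - t) ⊆ ball x R := by
    intro z hz
    rw [mem_ball, dist_eq_norm] at hz ⊢
    calc ‖z - x‖ = ‖(z - x') + (x' - x)‖ := by congr 1; abel
      _ ≤ ‖z - x'‖ + ‖x' - x‖ := norm_add_le _ _
      _ < R := by linarith
  have hw' : WeakDiv (fun z => g z - f z) (ball x' (R - t)) :=
    fun ζ h1 h2 h3 => hw ζ h1 h2 (h3.trans hsub)
  have hder : ∀ s ∈ Icc t r, HasDerivAt
      (fun s => (PP g s x e - PP g s x' e) - (PP g t x e - PP g t x' e))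
        (-(s⁻¹ • QQ f s x e) - -(s⁻¹ • QQ f s x' e)) s := by
    intro s hs
    have hs0 : 0 < s := ht.trans_le hs.1
    have h1 := hasDerivAt_PP hv hg hf hw hs0 (by linarith [hs.2] : s < R) e
    have h2 := hasDerivAt_PP (fun z hz => hv z (hsub hz)) (hg.mono hsub) (hf.mono hsub) hw' hs0
      (by linarith [hs.2, hs.1] : s < R - t) e
    exact (h1.sub h2).sub_const _
  have hB : ∀ s ∈ Icc t r, HasDerivAt (fun s => C / (1 - α) * (t ^ (α - 1) - s ^ (α - 1)))
      (C * s ^ (α - 2)) s := by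
    intro s hs
    have hs0 : 0 < s := ht.trans_le hs.1
    have h1 := ((Real.hasDerivAt_rpow_const (p := α - 1) (Or.inl hs0.ne')).const_sub
      (t ^ (α - 1))).const_mul (C / (1 - α))
    refine h1.congr_deriv ?_
    have : α - 1 - 1 = α - 2 := by ring
    rw [this]
    field_simp
    ring
  have h := image_norm_le_of_norm_deriv_right_le_deriv_boundary' (a := t) (b := r)
      (f := fun s => (PP g s x e - PP g s x' e) - (PP g t x e - PP g t x' e))
      (f' := fun s => -(s⁻¹ • QQ f s x e) - -(s⁻¹ • QQ f s x' e))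
      (B := fun s => C / (1 - α) * (t ^ (α - 1) - s ^ (α - 1))) (B' := fun s => C * s ^ (α - 2))
      (fun s hs => (hder s hs).continuousAt.continuousWithinAt)
      (fun s hs => (hder s (Ico_subset_Icc_self hs)).hasDerivWithinAt) (by simp)
      (fun s hs => (hB s hs).continuousAt.continuousWithinAt)
      (fun s hs => (hB s (Ico_subset_Icc_self hs)).hasDerivWithinAt) ?_ (right_mem_Icc.2 htr)
  · refine h.trans ?_
    have : 0 ≤ r ^ (α - 1) := Real.rpow_nonneg (ht.le.trans htr) _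
    exact mul_le_mul_of_nonneg_left (by linarith) (by positivity)
  · intro s hs
    have hs0 : 0 < s := ht.trans_le hs.1
    have h2 := QQ_diff hκ hs0 (by linarith [hs.2] : 2 * s < R) hf hK0 hα.le hK
      (hxx.trans hs.1) e
    have h4 : -(s⁻¹ • QQ f s x e) - -(s⁻¹ • QQ f s x' e)
        = -(s⁻¹ • (QQ f s x e - QQ f s x' e)) := by
      rw [smul_sub]; abel
    rw [h4, norm_neg, norm_smul, norm_inv, Real.norm_of_nonneg hs0.le]
    have h3 : s ^ (α - 2) = s⁻¹ * s⁻¹ * s ^ α := by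
      have : α - 2 = α - 1 - 1 := by ring
      rw [this, Real.rpow_sub_one hs0.ne', Real.rpow_sub_one hs0.ne']; ring
    rw [h3]
    rw [Real.mul_rpow (by norm_num) hs0.le] at h2
    calc s⁻¹ * ‖QQ f s x e - QQ f s x' e‖
        ≤ s⁻¹ * (K * (2 ^ α * s ^ α) * (κ * (s⁻¹ * ‖x' - x‖) * ‖e‖) * vb F 2) :=
          mul_le_mul_of_nonneg_left h2 (by positivity)
      _ = _ := by rw [hC]; ring

variable (F) in
/-- the Schauder constant -/
def CS (κ α : ℝ) : ℝ := (ce F)⁻¹ * (2 * κ * vb F 1 / α + 2 ^ α * κ * vb F 2 / (1 - α) + κ * vb F 2)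

/-- The `C^{1,α}` estimate for `Δ v = div f`. -/
theorem schauder {κ : ℝ} (hκ : KB F κ) {v : F → V} {g f : F → F →L[ℝ] V} {x x' : F}
    {R K M α : ℝ} (hα : 0 < α) (hα1 : α < 1) (hK0 : 0 ≤ K) (hR : 0 < R) (hM0 : 0 ≤ M)
    (hv : ∀ z ∈ ball x (3 * R), HasFDerivAt v (g z) z) (hg : ContinuousOn g (ball x (3 * R)))
    (hf : ContinuousOn f (ball x (3 * R)))
    (hw : WeakDiv (fun z => g z - f z) (ball x (3 * R)))
    (hK : ∀ z ∈ ball x (3 * R), ∀ z' ∈ ball x (3 * R), ‖f z - f z'‖ ≤ K * ‖z - z'‖ ^ α)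
    (hM : ∀ z ∈ ball x (3 * R), ‖v z‖ ≤ M)
    (hxx : ‖x' - x‖ ≤ R) :
    ‖g x - g x'‖ ≤ CS F κ α * (K + M * R ^ (-1 - α)) * ‖x' - x‖ ^ α := by
  have hce := ce_pos (F := F)
  have hκ0 := hκ.nonneg
  have hv1 := vb_nonneg (F := F) 1
  have hv2 := vb_nonneg (F := F) 2
  have hα2 : 0 < 1 - α := by linarith
  have hCS0 : 0 ≤ CS F κ α := by unfold CS; positivity
  rcases eq_or_ne x' x with rfl | hne
  · simp only [sub_self, norm_zero]
    positivity
  set t : ℝ := ‖x' - x‖ with ht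
  have ht0 : 0 < t := norm_pos_iff.2 (sub_ne_zero.2 hne)
  have hsub : ball x' (2 * R) ⊆ ball x (3 * R) := by
    intro z hz
    rw [mem_ball, dist_eq_norm] at hz ⊢
    calc ‖z - x‖ = ‖(z - x') + (x' - x)‖ := by congr 1; abel
      _ ≤ ‖z - x'‖ + ‖x' - x‖ := norm_add_le _ _
      _ < 3 * R := by linarith
  have hx : x ∈ ball x (3 * R) := mem_ball_self (by linarith)
  have hx' : x' ∈ ball x (3 * R) := hsub (mem_ball_self (by linarith))
  have hw' : WeakDiv (fun z => g z - f z) (ball x' (2 * R)) :=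
    fun ζ h1 h2 h3 => hw ζ h1 h2 (h3.trans hsub)
  have hvc : ContinuousOn v (ball x (3 * R)) :=
    fun z hz => (hv z hz).continuousAt.continuousWithinAt
  have hpw : 0 ≤ t ^ α := Real.rpow_nonneg ht0.le _
  refine ContinuousLinearMap.opNorm_le_bound _ (by positivity) ?_
  intro e
  rw [sub_apply]
  have h1 := PP_lim_bound hκ hα hK0 hv hg hf hw (fun z hz => hK z hz x hx) ht0
    (by linarith : t < 3 * R) e
  have h2 := PP_lim_bound hκ hα hK0 (fun z hz => hv z (hsub hz)) (hg.mono hsub) (hf.mono hsub) hw'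
    (fun z hz => hK z (hsub hz) x' hx') ht0 (by linarith : t < 2 * R) e
  have h3 := PP_diff_bound hκ hα hα1 hK0 hv hg hf hw (fun z hz => hK z hz x hx) ht0
    hxx (by linarith : 2 * R < 3 * R) (le_of_eq ht.symm) e
  have h4 := AA_diff hκ hR (by linarith : 2 * R < 3 * R) hvc hM (x' := x') hxx e
  rw [← PP_ibp hv hg hR (by linarith) e,
    ← PP_ibp (fun z hz => hv z (hsub hz)) (hg.mono hsub) hR (by linarith) e, ← smul_sub,
    norm_smul, Real.norm_of_nonneg hR.le] at h4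
  have h5 : ‖PP g R x e - PP g R x' e‖ ≤ R⁻¹ * ((κ * (R⁻¹ * t) * ‖e‖) * M * vb F 2) := by
    rw [← inv_mul_le_iff₀ (inv_pos.2 hR), inv_inv]
    exact h4
  have h6 : ‖ce F • (g x e - g x' e)‖ ≤
      2 * (K * κ * ‖e‖ * vb F 1 / α * t ^ α)
      + K * 2 ^ α * κ * t * ‖e‖ * vb F 2 / (1 - α) * t ^ (α - 1)
      + R⁻¹ * ((κ * (R⁻¹ * t) * ‖e‖) * M * vb F 2) := by
    have h7 : ce F • (g x e - g x' e) =
        -(PP g t x e - ce F • g x e) + (PP g t x' e - ce F • g x' e)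
        - ((PP g R x e - PP g R x' e) - (PP g t x e - PP g t x' e))
        + (PP g R x e - PP g R x' e) := by
      rw [smul_sub]; abel
    rw [h7]
    refine (norm_add_le _ _).trans ?_
    refine add_le_add ((norm_sub_le _ _).trans ?_) h5
    refine add_le_add ((norm_add_le _ _).trans ?_) h3
    rw [norm_neg]
    linarith
  rw [norm_smul, Real.norm_of_nonneg hce.le] at h6
  have h8 : t * t ^ (α - 1) = t ^ α := by
    rw [Real.rpow_sub_one ht0.ne']; field_simp
  have h9 : R⁻¹ * R⁻¹ * t ≤ R ^ (-1 - α) * t ^ α := by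
    have h10 : R ^ (-1 - α) = R⁻¹ * (R ^ α)⁻¹ := by
      rw [Real.rpow_sub hR, Real.rpow_neg_one]; rfl
    rw [h10]
    have h11 : (t / R) ^ (1:ℝ) ≤ (t / R) ^ α := by
      apply Real.rpow_le_rpow_of_exponent_ge (by positivity) ((div_le_one hR).2 hxx) hα1.le
    rw [Real.rpow_one, Real.div_rpow ht0.le hR.le] at h11
    calc R⁻¹ * R⁻¹ * t = R⁻¹ * (t / R) := by ring
      _ ≤ R⁻¹ * (t ^ α / R ^ α) := mul_le_mul_of_nonneg_left h11 (by positivity)
      _ = _ := by ring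
  have h12 : ce F * ‖g x e - g x' e‖ ≤
      ((2 * κ * vb F 1 / α + 2 ^ α * κ * vb F 2 / (1 - α)) * K
      + κ * vb F 2 * (M * R ^ (-1 - α))) * t ^ α * ‖e‖ := by
    refine h6.trans ?_
    have e1 : K * 2 ^ α * κ * t * ‖e‖ * vb F 2 / (1 - α) * t ^ (α - 1)
        = 2 ^ α * κ * vb F 2 / (1 - α) * K * (t * t ^ (α - 1)) * ‖e‖ := by ring
    have e2 : R⁻¹ * ((κ * (R⁻¹ * t) * ‖e‖) * M * vb F 2)
        = κ * vb F 2 * M * ‖e‖ * (R⁻¹ * R⁻¹ * t) := by ring
    have e3 : κ * vb F 2 * M * ‖e‖ * (R⁻¹ * R⁻¹ * t)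
        ≤ κ * vb F 2 * M * ‖e‖ * (R ^ (-1 - α) * t ^ α) :=
      mul_le_mul_of_nonneg_left h9 (by positivity)
    rw [e1, e2, h8]
    refine (add_le_add_right e3 _).trans (le_of_eq ?_)
    ring
  have h13 : ‖g x e - g x' e‖ ≤ (ce F)⁻¹ * (((2 * κ * vb F 1 / α + 2 ^ α * κ * vb F 2 / (1 - α)) * K
      + κ * vb F 2 * (M * R ^ (-1 - α))) * t ^ α * ‖e‖) := by
    rw [← inv_mul_le_iff₀ (inv_pos.2 hce), inv_inv]
    exact h12
  refine h13.trans ?_
  have hRp : 0 ≤ R ^ (-1 - α) := Real.rpow_nonneg hR.le _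
  have h14 : (2 * κ * vb F 1 / α + 2 ^ α * κ * vb F 2 / (1 - α)) * K
      + κ * vb F 2 * (M * R ^ (-1 - α)) ≤
      (2 * κ * vb F 1 / α + 2 ^ α * κ * vb F 2 / (1 - α) + κ * vb F 2) * (K + M * R ^ (-1 - α)) := by
    have a1 : 0 ≤ (2 * κ * vb F 1 / α + 2 ^ α * κ * vb F 2 / (1 - α)) * (M * R ^ (-1 - α)) := by
      positivity
    have a2 : 0 ≤ κ * vb F 2 * K := by positivity
    nlinarith
  unfold CS
  calc (ce F)⁻¹ * (((2 * κ * vb F 1 / α + 2 ^ α * κ * vb F 2 / (1 - α)) * K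
      + κ * vb F 2 * (M * R ^ (-1 - α))) * t ^ α * ‖e‖)
      ≤ (ce F)⁻¹ * (((2 * κ * vb F 1 / α + 2 ^ α * κ * vb F 2 / (1 - α) + κ * vb F 2)
        * (K + M * R ^ (-1 - α))) * t ^ α * ‖e‖) := by
        refine mul_le_mul_of_nonneg_left ?_ (by positivity)
        refine mul_le_mul_of_nonneg_right ?_ (norm_nonneg _)
        exact mul_le_mul_of_nonneg_right h14 hpw
    _ = _ := by ring

end

end Crest.Agent.R246.H2x622
end

-- ▼ part R246/H2b4_622
section

/-!
R246, block H2b (helper622).  Part 4: absorption, `div((I+B)∇v) = div f₀`.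
-/

open MeasureTheory Metric Set Filter Topology
open scoped ContDiff

namespace Crest.Agent.R246.H2x622

noncomputable section

set_option linter.unusedSectionVars false

variable {F : Type*} [NormedAddCommGroup F] [InnerProductSpace ℝ F] [FiniteDimensional ℝ F]
  [MeasurableSpace F] [BorelSpace F]
variable {V : Type*} [NormedAddCommGroup V] [NormedSpace ℝ V]

/-- weighted interior Hölder bound of the gradient -/
def WH (g : F → F →L[ℝ] V) (x₀ : F) (ρ α N : ℝ) : Prop :=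
  ∀ x ∈ ball x₀ ρ, ∀ x', ‖x' - x‖ ≤ (ρ - ‖x - x₀‖) / 4 →
    (ρ - ‖x - x₀‖) ^ (1 + α) * ‖g x - g x'‖ ≤ N * ‖x' - x‖ ^ α

lemma dist_pos_of_mem {x x₀ : F} {ρ : ℝ} (hx : x ∈ ball x₀ ρ) : 0 < ρ - ‖x - x₀‖ := by
  rw [mem_ball, dist_eq_norm] at hx; linarith

lemma dist_le' {x z x₀ : F} {ρ : ℝ} : ρ - ‖x - x₀‖ - ‖z - x‖ ≤ ρ - ‖z - x₀‖ := by
  have : ‖z - x₀‖ ≤ ‖z - x‖ + ‖x - x₀‖ := by
    calc ‖z - x₀‖ = ‖(z - x) + (x - x₀)‖ := by congr 1; abel
      _ ≤ _ := norm_add_le _ _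
  linarith

lemma mem_of_near {x z x₀ : F} {ρ : ℝ} (hz : ‖z - x‖ < ρ - ‖x - x₀‖) : z ∈ ball x₀ ρ := by
  have := dist_le' (x := x) (z := z) (x₀ := x₀) (ρ := ρ)
  rw [mem_ball, dist_eq_norm]; linarith

lemma WH_grad {v : F → V} {g : F → F →L[ℝ] V} {x₀ : F} {ρ α N M : ℝ} (hα : 0 < α) (hN : 0 ≤ N)
    (hv : ∀ z ∈ ball x₀ ρ, HasFDerivAt v (g z) z) (hM : ∀ z ∈ ball x₀ ρ, ‖v z‖ ≤ M)
    (hM0 : 0 ≤ M) (hW : WH g x₀ ρ α N) {τ : ℝ} (hτ : 0 < τ) (hτ4 : τ ≤ 1 / 4) {x : F}
    (hx : x ∈ ball x₀ ρ) :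
    (ρ - ‖x - x₀‖) * ‖g x‖ ≤ 2 * M / τ + N * τ ^ α := by
  set d : ℝ := ρ - ‖x - x₀‖ with hd
  have hd0 : 0 < d := dist_pos_of_mem hx
  have hτd : 0 < τ * d := by positivity
  set C : ℝ := N * d ^ (-1 - α) * (τ * d) ^ α with hC
  have hCd : C * d = N * τ ^ α := by
    rw [hC, Real.mul_rpow hτ.le hd0.le, Real.rpow_sub hd0, Real.rpow_neg_one]
    field_simp
  have hbound : ∀ e : F, ‖g x e‖ ≤ ((2 * M / τ + N * τ ^ α) / d) * ‖e‖ := by
    intro e
    rcases eq_or_ne e 0 with rfl | he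
    · simp
    have he0 : 0 < ‖e‖ := norm_pos_iff.2 he
    set u : F := (τ * d / ‖e‖) • e with hu
    have hun : ‖u‖ = τ * d := by
      rw [hu, norm_smul, Real.norm_of_nonneg (by positivity)]
      field_simp
    have hsub : closedBall x (τ * d) ⊆ ball x₀ ρ := by
      intro z hz
      rw [mem_closedBall, dist_eq_norm] at hz
      apply mem_of_near (x := x)
      rw [← hd]
      nlinarith
    have hder : ∀ z ∈ closedBall x (τ * d), HasFDerivWithinAt v (g z) (closedBall x (τ * d)) z :=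
      fun z hz => (hv z (hsub hz)).hasFDerivWithinAt
    have hbd : ∀ z ∈ closedBall x (τ * d), ‖g z - g x‖ ≤ C := by
      intro z hz
      rw [mem_closedBall, dist_eq_norm] at hz
      have h1 := hW x hx z (by rw [← hd]; nlinarith)
      rw [← hd] at h1
      have h2 : ‖z - x‖ ^ α ≤ (τ * d) ^ α := Real.rpow_le_rpow (norm_nonneg _) hz hα.le
      have h3 : d ^ (1 + α) * ‖g x - g z‖ ≤ N * (τ * d) ^ α :=
        h1.trans (mul_le_mul_of_nonneg_left h2 hN)
      have h4 : d ^ (-1 - α) * d ^ (1 + α) = 1 := by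
        rw [← Real.rpow_add hd0]; ring_nf; exact Real.rpow_zero d
      have h5 : 0 ≤ d ^ (-1 - α) := Real.rpow_nonneg hd0.le _
      rw [norm_sub_rev]
      calc ‖g x - g z‖ = d ^ (-1 - α) * (d ^ (1 + α) * ‖g x - g z‖) := by
            rw [← mul_assoc, h4, one_mul]
        _ ≤ d ^ (-1 - α) * (N * (τ * d) ^ α) := mul_le_mul_of_nonneg_left h3 h5
        _ = C := by rw [hC]; ring
    have hxu : x + u ∈ closedBall x (τ * d) := by
      rw [mem_closedBall, dist_eq_norm, add_sub_cancel_left, hun]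
    have h6 := (convex_closedBall x (τ * d)).norm_image_sub_le_of_norm_hasFDerivWithin_le'
      hder hbd (mem_closedBall_self hτd.le) hxu
    rw [add_sub_cancel_left, hun] at h6
    have h7 : ‖g x u‖ ≤ 2 * M + C * (τ * d) := by
      have h8 : g x u = (v (x + u) - v x) - (v (x + u) - v x - g x u) := by abel
      rw [h8]
      refine (norm_sub_le _ _).trans (add_le_add ?_ h6)
      refine (norm_sub_le _ _).trans ?_
      have := hM _ (hsub hxu)
      have := hM _ hx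
      linarith
    have h9 : g x u = (τ * d / ‖e‖) • g x e := by rw [hu, map_smul]
    rw [h9, norm_smul, Real.norm_of_nonneg (by positivity)] at h7
    have h10 : ‖g x e‖ ≤ (2 * M + C * (τ * d)) * ‖e‖ / (τ * d) := by
      rw [le_div_iff₀ hτd]
      have : τ * d / ‖e‖ * ‖g x e‖ * ‖e‖ ≤ (2 * M + C * (τ * d)) * ‖e‖ :=
        mul_le_mul_of_nonneg_right h7 he0.le
      have h11 : τ * d / ‖e‖ * ‖g x e‖ * ‖e‖ = ‖g x e‖ * (τ * d) := by field_simp
      linarith
    refine h10.trans (le_of_eq ?_)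
    have h12 : (2 * M + C * (τ * d)) * ‖e‖ / (τ * d) = (2 * M / τ + C * d) / d * ‖e‖ := by
      field_simp
    rw [h12, hCd]
  have h13 : ‖g x‖ ≤ (2 * M / τ + N * τ ^ α) / d :=
    ContinuousLinearMap.opNorm_le_bound _ (by positivity) hbound
  rw [le_div_iff₀ hd0] at h13
  linarith

variable [CompleteSpace V]

lemma WH_step {κ : ℝ} (hκ : KB F κ) {v : F → V} {g f : F → F →L[ℝ] V} {x₀ : F}
    {ρ α β b N M F0 τ : ℝ} (hα : 0 < α) (hα1 : α < 1) (hρ1 : ρ ≤ 1) (hN : 0 ≤ N)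
    (hv : ∀ z ∈ ball x₀ ρ, HasFDerivAt v (g z) z) (hg : ContinuousOn g (ball x₀ ρ))
    (hf : ContinuousOn f (ball x₀ ρ)) (hw : WeakDiv (fun z => g z - f z) (ball x₀ ρ))
    (hM : ∀ z ∈ ball x₀ ρ, ‖v z‖ ≤ M) (hM0 : 0 ≤ M) (hb : 0 ≤ b) (hβ : 0 ≤ β) (hF0 : 0 ≤ F0)
    (hfb : ∀ z ∈ ball x₀ ρ, ∀ z' ∈ ball x₀ ρ,
      ‖f z - f z'‖ ≤ β * ‖g z - g z'‖ + (b * ‖g z'‖ + F0) * ‖z - z'‖ ^ α)
    (hτ : 0 < τ) (hτ4 : τ ≤ 1 / 4) (hW : WH g x₀ ρ α N) :
    WH g x₀ ρ α (CS F κ α * (4 * β * N + 2 * b * (2 * M / τ + N * τ ^ α) + F0 + 1024 * M)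
      + 96 * (2 * M / τ + N * τ ^ α)) := by
  have hce := ce_pos (F := F)
  have hκ0 := hκ.nonneg
  have hv1 := vb_nonneg (F := F) 1
  have hv2 := vb_nonneg (F := F) 2
  have hα2 : 0 < 1 - α := by linarith
  have hCS0 : 0 ≤ CS F κ α := by unfold CS; positivity
  set L : ℝ := 2 * M / τ + N * τ ^ α with hL
  have hL0 : 0 ≤ L := by
    have : 0 ≤ τ ^ α := Real.rpow_nonneg hτ.le _
    positivity
  have hgr : ∀ x ∈ ball x₀ ρ, (ρ - ‖x - x₀‖) * ‖g x‖ ≤ L := fun x hx =>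
    WH_grad hα hN hv hM hM0 hW hτ hτ4 hx
  intro x hx x' hxx
  set d : ℝ := ρ - ‖x - x₀‖ with hd
  have hd0 : 0 < d := dist_pos_of_mem hx
  have hd1 : d ≤ 1 := by have := norm_nonneg (x - x₀); linarith
  have hpw : 0 ≤ ‖x' - x‖ ^ α := Real.rpow_nonneg (norm_nonneg _) _
  have hdp : 0 < d ^ (1 + α) := Real.rpow_pos_of_pos hd0 _
  have hdp1 : d ^ (1 + α) ≤ 1 := Real.rpow_le_one hd0.le hd1 (by linarith)
  have hdpa1 : d ^ α ≤ 1 := Real.rpow_le_one hd0.le hd1 hα.le
  have hdpa : 0 < d ^ α := Real.rpow_pos_of_pos hd0 _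
  have hsplit : d ^ (1 + α) = d * d ^ α := by rw [Real.rpow_add hd0, Real.rpow_one]
  have hx' : x' ∈ ball x₀ ρ := mem_of_near (x := x) (by rw [← hd]; linarith)
  have hdx' : 3 / 4 * d ≤ ρ - ‖x' - x₀‖ := by
    have := dist_le' (x := x) (z := x') (x₀ := x₀) (ρ := ρ)
    rw [← hd] at this; linarith
  rcases le_or_gt ‖x' - x‖ (d / 32) with hcase | hcase
  · -- near case
    set R : ℝ := d / 32 with hR
    have hR0 : 0 < R := by positivity
    have hsub : ball x (3 * R) ⊆ ball x₀ ρ := by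
      intro z hz
      rw [mem_ball, dist_eq_norm] at hz
      apply mem_of_near (x := x); rw [← hd]; linarith
    have hdz : ∀ z ∈ ball x (3 * R), 29 / 32 * d ≤ ρ - ‖z - x₀‖ := by
      intro z hz
      rw [mem_ball, dist_eq_norm] at hz
      have := dist_le' (x := x) (z := z) (x₀ := x₀) (ρ := ρ)
      rw [← hd] at this; linarith
    set K : ℝ := 4 * β * N * d ^ (-1 - α) + 2 * b * L / d + F0 with hK
    have hdm : 0 < d ^ (-1 - α) := Real.rpow_pos_of_pos hd0 _
    have hK0 : 0 ≤ K := by positivity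
    have hmul : d ^ (-1 - α) * d ^ (1 + α) = 1 := by
      rw [← Real.rpow_add hd0]; ring_nf; exact Real.rpow_zero d
    have hKh : ∀ z ∈ ball x (3 * R), ∀ z' ∈ ball x (3 * R),
        ‖f z - f z'‖ ≤ K * ‖z - z'‖ ^ α := by
      intro z hz z' hz'
      have h1 := hfb z (hsub hz) z' (hsub hz')
      have hzp : 0 ≤ ‖z - z'‖ ^ α := Real.rpow_nonneg (norm_nonneg _) _
      have hzz : ‖z' - z‖ ≤ (ρ - ‖z - x₀‖) / 4 := by
        have h2 := hdz z hz
        rw [mem_ball, dist_eq_norm] at hz hz'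
        have h3 : ‖z' - z‖ ≤ ‖z' - x‖ + ‖z - x‖ := by
          calc ‖z' - z‖ = ‖(z' - x) - (z - x)‖ := by congr 1; abel
            _ ≤ _ := norm_sub_le _ _
        linarith
      have h2 := hW z (hsub hz) z' hzz
      have h3 := hdz z hz
      have h4 : d ^ (1 + α) / 4 ≤ (ρ - ‖z - x₀‖) ^ (1 + α) := by
        have h5 : (d / 2) ^ (1 + α) ≤ (ρ - ‖z - x₀‖) ^ (1 + α) :=
          Real.rpow_le_rpow (by positivity) (by linarith) (by linarith)
        have h6 : (d / 2) ^ (1 + α) = d ^ (1 + α) * (1 / 2) ^ (1 + α) := by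
          rw [← Real.mul_rpow hd0.le (by norm_num)]; congr 1; ring
        have h7 : (1 / 4 : ℝ) ≤ (1 / 2 : ℝ) ^ (1 + α) := by
          have h8 : ((1:ℝ) / 2) ^ (2:ℝ) ≤ (1 / 2 : ℝ) ^ (1 + α) :=
            Real.rpow_le_rpow_of_exponent_ge (by norm_num) (by norm_num) (by linarith)
          have h9 : ((1:ℝ) / 2) ^ (2:ℝ) = 1 / 4 := by norm_num
          linarith
        have h10 : d ^ (1 + α) * (1 / 4) ≤ d ^ (1 + α) * (1 / 2) ^ (1 + α) :=
          mul_le_mul_of_nonneg_left h7 hdp.le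
        linarith
      have h5 : d ^ (1 + α) / 4 * ‖g z - g z'‖ ≤ N * ‖z - z'‖ ^ α := by
        refine (mul_le_mul_of_nonneg_right h4 (norm_nonneg _)).trans ?_
        rw [norm_sub_rev z z']; exact h2
      have h6 : ‖g z - g z'‖ ≤ 4 * N * d ^ (-1 - α) * ‖z - z'‖ ^ α := by
        have h7 : ‖g z - g z'‖ = 4 * d ^ (-1 - α) * (d ^ (1 + α) / 4 * ‖g z - g z'‖) := by
          have : 4 * d ^ (-1 - α) * (d ^ (1 + α) / 4 * ‖g z - g z'‖)
            = (d ^ (-1 - α) * d ^ (1 + α)) * ‖g z - g z'‖ := by ring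
          rw [this, hmul, one_mul]
        rw [h7]
        refine (mul_le_mul_of_nonneg_left h5 (by positivity)).trans (le_of_eq (by ring))
      have h7 : ‖g z'‖ ≤ 2 * L / d := by
        have h8 := hgr z' (hsub hz')
        have h9 := hdz z' hz'
        rw [le_div_iff₀ hd0]
        have h10 : d / 2 * ‖g z'‖ ≤ (ρ - ‖z' - x₀‖) * ‖g z'‖ :=
          mul_le_mul_of_nonneg_right (by linarith) (norm_nonneg _)
        linarith
      calc ‖f z - f z'‖ ≤ β * ‖g z - g z'‖ + (b * ‖g z'‖ + F0) * ‖z - z'‖ ^ α := h1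
        _ ≤ β * (4 * N * d ^ (-1 - α) * ‖z - z'‖ ^ α) + (b * (2 * L / d) + F0) * ‖z - z'‖ ^ α := by
            refine add_le_add (mul_le_mul_of_nonneg_left h6 hβ) ?_
            refine mul_le_mul_of_nonneg_right ?_ hzp
            have := mul_le_mul_of_nonneg_left h7 hb
            linarith
        _ = K * ‖z - z'‖ ^ α := by rw [hK]; ring
    have hmain := schauder hκ hα hα1 hK0 hR0 hM0 (fun z hz => hv z (hsub hz)) (hg.mono hsub)
      (hf.mono hsub) (fun ζ h1 h2 h3 => hw ζ h1 h2 (h3.trans hsub)) hKh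
      (fun z hz => hM z (hsub hz)) hcase
    have hRp : R ^ (-1 - α) ≤ 1024 * d ^ (-1 - α) := by
      have h1 : R ^ (-1 - α) = d ^ (-1 - α) * (1 / 32) ^ (-1 - α) := by
        rw [← Real.mul_rpow hd0.le (by norm_num)]; congr 1; rw [hR]; ring
      have h2 : ((1:ℝ) / 32) ^ (-1 - α) ≤ (1 / 32 : ℝ) ^ (-2 : ℝ) :=
        Real.rpow_le_rpow_of_exponent_ge (by norm_num) (by norm_num) (by linarith)
      have h3 : ((1:ℝ) / 32) ^ (-2 : ℝ) = 1024 := by
        rw [Real.rpow_neg (by norm_num)]; norm_num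
      rw [h1]
      rw [h3] at h2
      nlinarith
    have h1 : d ^ (1 + α) * ‖g x - g x'‖ ≤
        d ^ (1 + α) * (CS F κ α * (K + M * (1024 * d ^ (-1 - α))) * ‖x' - x‖ ^ α) := by
      refine mul_le_mul_of_nonneg_left (hmain.trans ?_) hdp.le
      refine mul_le_mul_of_nonneg_right ?_ hpw
      refine mul_le_mul_of_nonneg_left ?_ hCS0
      have := mul_le_mul_of_nonneg_left hRp hM0
      linarith
    have h2 : d ^ (1 + α) * (K + M * (1024 * d ^ (-1 - α)))
        ≤ 4 * β * N + 2 * b * L + F0 + 1024 * M := by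
      have e1 : d ^ (1 + α) * (K + M * (1024 * d ^ (-1 - α)))
          = (4 * β * N + 1024 * M) * (d ^ (-1 - α) * d ^ (1 + α)) + 2 * b * L * d ^ α
            + F0 * d ^ (1 + α) := by
        rw [hK, hsplit]; field_simp; ring
      rw [e1, hmul]
      have e2 : 2 * b * L * d ^ α ≤ 2 * b * L * 1 := mul_le_mul_of_nonneg_left hdpa1 (by positivity)
      have e3 : F0 * d ^ (1 + α) ≤ F0 * 1 := mul_le_mul_of_nonneg_left hdp1 hF0
      linarith
    calc d ^ (1 + α) * ‖g x - g x'‖ ≤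
        d ^ (1 + α) * (CS F κ α * (K + M * (1024 * d ^ (-1 - α))) * ‖x' - x‖ ^ α) := h1
      _ = CS F κ α * (d ^ (1 + α) * (K + M * (1024 * d ^ (-1 - α)))) * ‖x' - x‖ ^ α := by ring
      _ ≤ CS F κ α * (4 * β * N + 2 * b * L + F0 + 1024 * M) * ‖x' - x‖ ^ α := by
          refine mul_le_mul_of_nonneg_right ?_ hpw
          exact mul_le_mul_of_nonneg_left h2 hCS0
      _ ≤ _ := by
          refine mul_le_mul_of_nonneg_right ?_ hpw
          linarith
  · -- far case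
    have h1 := hgr x hx
    have h2 := hgr x' hx'
    rw [← hd] at h1
    have h3 : d * ‖g x'‖ ≤ 4 / 3 * L := by
      have : 3 / 4 * d * ‖g x'‖ ≤ (ρ - ‖x' - x₀‖) * ‖g x'‖ :=
        mul_le_mul_of_nonneg_right hdx' (norm_nonneg _)
      linarith
    have h4 : d * ‖g x - g x'‖ ≤ 3 * L := by
      have : d * ‖g x - g x'‖ ≤ d * (‖g x‖ + ‖g x'‖) :=
        mul_le_mul_of_nonneg_left (norm_sub_le _ _) hd0.le
      linarith
    have h5 : d ^ α ≤ 32 * ‖x' - x‖ ^ α := by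
      have h6 : d ^ α ≤ (32 * ‖x' - x‖) ^ α := Real.rpow_le_rpow hd0.le (by linarith) hα.le
      rw [Real.mul_rpow (by norm_num) (norm_nonneg _)] at h6
      have h7 : (32:ℝ) ^ α ≤ 32 ^ (1:ℝ) := Real.rpow_le_rpow_of_exponent_le (by norm_num) hα1.le
      rw [Real.rpow_one] at h7
      exact h6.trans (mul_le_mul_of_nonneg_right h7 hpw)
    have h6 : d ^ (1 + α) * ‖g x - g x'‖ ≤ 96 * L * ‖x' - x‖ ^ α := by
      calc d ^ (1 + α) * ‖g x - g x'‖ = d ^ α * (d * ‖g x - g x'‖) := by rw [hsplit]; ring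
        _ ≤ d ^ α * (3 * L) := mul_le_mul_of_nonneg_left h4 hdpa.le
        _ ≤ (32 * ‖x' - x‖ ^ α) * (3 * L) := mul_le_mul_of_nonneg_right h5 (by positivity)
        _ = _ := by ring
    refine h6.trans (mul_le_mul_of_nonneg_right ?_ hpw)
    have : 0 ≤ CS F κ α * (4 * β * N + 2 * b * L + F0 + 1024 * M) := by positivity
    linarith

variable (F) in
/-- admissible size of the perturbation of the identity -/
def bet (κ α : ℝ) : ℝ := 1 / (16 * CS F κ α + 1)

lemma CS_nonneg {κ α : ℝ} (hκ : KB F κ) (hα : 0 < α) (hα1 : α < 1) : 0 ≤ CS F κ α := by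
  have hce := ce_pos (F := F)
  have hκ0 := hκ.nonneg
  have hv1 := vb_nonneg (F := F) 1
  have hv2 := vb_nonneg (F := F) 2
  have hα2 : 0 < 1 - α := by linarith
  unfold CS; positivity

lemma bet_pos {κ α : ℝ} (hκ : KB F κ) (hα : 0 < α) (hα1 : α < 1) : 0 < bet F κ α := by
  have := CS_nonneg hκ hα hα1
  unfold bet; positivity

/-- Interior `C^{1,α}` a priori estimate for perturbations of the Laplacian in divergence form. -/
theorem schauder_pert {κ α : ℝ} (hκ : KB F κ) (hα : 0 < α) (hα1 : α < 1) {b ρ : ℝ} (hb : 0 ≤ b)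
    (hρ0 : 0 < ρ) (hρ1 : ρ ≤ 1) :
    ∃ C : ℝ, 0 ≤ C ∧ ∀ (v : F → V) (g f : F → F →L[ℝ] V) (x₀ : F) (M F0 K0 : ℝ),
      0 ≤ M → 0 ≤ F0 →
      (∀ z ∈ ball x₀ ρ, HasFDerivAt v (g z) z) → ContinuousOn f (ball x₀ ρ) →
      WeakDiv (fun z => g z - f z) (ball x₀ ρ) →
      (∀ z ∈ ball x₀ ρ, ∀ z' ∈ ball x₀ ρ, ‖g z - g z'‖ ≤ K0 * ‖z - z'‖ ^ α) →
      (∀ z ∈ ball x₀ ρ, ‖v z‖ ≤ M) →
      (∀ z ∈ ball x₀ ρ, ∀ z' ∈ ball x₀ ρ,
        ‖f z - f z'‖ ≤ bet F κ α * ‖g z - g z'‖ + (b * ‖g z'‖ + F0) * ‖z - z'‖ ^ α) →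
      (∀ x ∈ ball x₀ (ρ / 2), ‖g x‖ ≤ C * (M + F0)) ∧
      (∀ x ∈ ball x₀ (ρ / 2), ∀ x', ‖x' - x‖ ≤ ρ / 8 →
        ‖g x - g x'‖ ≤ C * (M + F0) * ‖x' - x‖ ^ α) := by
  have hCS := CS_nonneg hκ hα hα1
  have hbet := bet_pos hκ hα hα1
  set C0 := CS F κ α with hC0
  -- choice of τ
  obtain ⟨τ, hτ, hτ4, hτs⟩ : ∃ τ : ℝ, 0 < τ ∧ τ ≤ 1 / 4 ∧ (2 * b * C0 + 96) * τ ^ α ≤ 1 / 4 := by
    have hD : 0 < 4 * (2 * b * C0 + 96) := by positivity
    refine ⟨min (1 / 4) ((1 / (4 * (2 * b * C0 + 96))) ^ (1 / α)), ?_, min_le_left _ _, ?_⟩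
    · exact lt_min (by norm_num) (Real.rpow_pos_of_pos (by positivity) _)
    · have h1 : (min (1 / 4) ((1 / (4 * (2 * b * C0 + 96))) ^ (1 / α))) ^ α
          ≤ ((1 / (4 * (2 * b * C0 + 96))) ^ (1 / α)) ^ α :=
        Real.rpow_le_rpow (le_min (by norm_num) (Real.rpow_nonneg (by positivity) _))
          (min_le_right _ _) hα.le
      rw [← Real.rpow_mul (by positivity), one_div_mul_cancel hα.ne', Real.rpow_one] at h1
      calc (2 * b * C0 + 96) * _ ≤ (2 * b * C0 + 96) * (1 / (4 * (2 * b * C0 + 96))) :=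
            mul_le_mul_of_nonneg_left h1 (by positivity)
        _ = 1 / 4 := by field_simp
  set A1 : ℝ := C0 * 1025 + (2 * b * C0 + 96) * (2 / τ) with hA1
  have hA10 : 0 ≤ A1 := by positivity
  have hρ2 : 0 < ρ / 2 := by positivity
  set E1 : ℝ := (ρ / 2) ^ (-1 - α) with hE1
  have hE10 : 0 < E1 := Real.rpow_pos_of_pos hρ2 _
  refine ⟨(2 / τ + 2 * A1) / (ρ / 2) + 2 * A1 * E1, by positivity, ?_⟩
  intro v g f x₀ M F0 K0 hM0 hF0 hv hf hw hK0 hM hfb
  have hg : ContinuousOn g (ball x₀ ρ) := by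
    intro z hz
    apply ContinuousAt.continuousWithinAt
    rw [Metric.continuousAt_iff]
    intro ε hε
    have h1 : Tendsto (fun z' : F => |K0| * ‖z - z'‖ ^ α) (𝓝 z) (𝓝 (|K0| * ‖z - z‖ ^ α)) := by
      have : Continuous fun z' : F => |K0| * ‖z - z'‖ ^ α :=
        continuous_const.mul ((continuous_const.sub continuous_id).norm.rpow_const
          (fun _ => Or.inr hα.le))
      exact this.tendsto z
    rw [sub_self, norm_zero, Real.zero_rpow hα.ne', mul_zero] at h1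
    have h2 := (h1.eventually (gt_mem_nhds hε)).and (isOpen_ball.mem_nhds hz)
    obtain ⟨δ, hδ, hδ2⟩ := Metric.eventually_nhds_iff.1 h2
    refine ⟨δ, hδ, fun {z'} hz' => ?_⟩
    obtain ⟨h3, h4⟩ := hδ2 hz'
    rw [dist_comm, dist_eq_norm]
    refine lt_of_le_of_lt (hK0 z hz z' h4) (lt_of_le_of_lt ?_ h3)
    exact mul_le_mul_of_nonneg_right (le_abs_self K0) (Real.rpow_nonneg (norm_nonneg _) _)
  set A : ℝ := A1 * (M + F0) with hA
  have hA0 : 0 ≤ A := by positivity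
  have hstep : ∀ N, 0 ≤ N → WH g x₀ ρ α N → WH g x₀ ρ α (N / 2 + A) := by
    intro N hN hW
    have h := WH_step hκ hα hα1 hρ1 hN hv hg hf hw hM hM0 hb hbet.le hF0 hfb hτ hτ4 hW
    intro x hx x' hxx
    refine (h x hx x' hxx).trans (mul_le_mul_of_nonneg_right ?_ (Real.rpow_nonneg (norm_nonneg _) _))
    have e1 : C0 * (4 * bet F κ α * N + 2 * b * (2 * M / τ + N * τ ^ α) + F0 + 1024 * M)
        + 96 * (2 * M / τ + N * τ ^ α)
        = N * (4 * (C0 * bet F κ α) + (2 * b * C0 + 96) * τ ^ α)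
          + (C0 * (F0 + 1024 * M) + (2 * b * C0 + 96) * (2 / τ) * M) := by
      field_simp; ring
    rw [← hC0, e1]
    have e2 : C0 * bet F κ α ≤ 1 / 16 := by
      rw [bet, ← hC0, mul_one_div, div_le_iff₀ (by positivity)]; linarith
    have e3 : N * (4 * (C0 * bet F κ α) + (2 * b * C0 + 96) * τ ^ α) ≤ N * (1 / 2) :=
      mul_le_mul_of_nonneg_left (by linarith) hN
    have e4 : C0 * (F0 + 1024 * M) + (2 * b * C0 + 96) * (2 / τ) * M ≤ A := by
      rw [hA, hA1]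
      have a1 : 0 ≤ C0 * M := by positivity
      have a2 : 0 ≤ C0 * F0 := by positivity
      have a3 : 0 ≤ (2 * b * C0 + 96) * (2 / τ) * F0 := by positivity
      nlinarith
    linarith
  have hW0 : WH g x₀ ρ α |K0| := by
    intro x hx x' hxx
    have hd0 := dist_pos_of_mem hx
    have hd1 : ρ - ‖x - x₀‖ ≤ 1 := by have := norm_nonneg (x - x₀); linarith
    have hx' : x' ∈ ball x₀ ρ := mem_of_near (x := x) (by linarith)
    have h1 := hK0 x hx x' hx'
    have h2 : (ρ - ‖x - x₀‖) ^ (1 + α) ≤ 1 := Real.rpow_le_one hd0.le hd1 (by linarith)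
    rw [norm_sub_rev x x'] at h1
    have h3 : 0 ≤ ‖x' - x‖ ^ α := Real.rpow_nonneg (norm_nonneg _) _
    calc (ρ - ‖x - x₀‖) ^ (1 + α) * ‖g x - g x'‖ ≤ 1 * ‖g x - g x'‖ :=
          mul_le_mul_of_nonneg_right h2 (norm_nonneg _)
      _ ≤ |K0| * ‖x' - x‖ ^ α := by
          rw [one_mul]
          exact h1.trans (mul_le_mul_of_nonneg_right (le_abs_self _) h3)
  have hiter : ∀ k : ℕ, WH g x₀ ρ α (|K0| / 2 ^ k + 2 * A) := by
    intro k
    induction k with
    | zero =>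
      intro x hx x' hxx
      refine (hW0 x hx x' hxx).trans (mul_le_mul_of_nonneg_right ?_
        (Real.rpow_nonneg (norm_nonneg _) _))
      simp; positivity
    | succ k ih =>
      have h := hstep _ (by positivity) ih
      intro x hx x' hxx
      refine (h x hx x' hxx).trans (mul_le_mul_of_nonneg_right (le_of_eq ?_)
        (Real.rpow_nonneg (norm_nonneg _) _))
      rw [pow_succ]; field_simp; ring
  have hfin : WH g x₀ ρ α (2 * A) := by
    intro x hx x' hxx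
    have hlim : Tendsto (fun k : ℕ => (|K0| / 2 ^ k + 2 * A) * ‖x' - x‖ ^ α) atTop
        (𝓝 ((0 + 2 * A) * ‖x' - x‖ ^ α)) := by
      refine Tendsto.mul_const _ (Tendsto.add_const _ ?_)
      have h1 : Tendsto (fun k : ℕ => |K0| * (1 / 2 : ℝ) ^ k) atTop (𝓝 (|K0| * 0)) :=
        (tendsto_pow_atTop_nhds_zero_of_lt_one (by norm_num) (by norm_num)).const_mul _
      rw [mul_zero] at h1
      refine h1.congr (fun k => ?_)
      rw [one_div, inv_pow]; rfl
    rw [zero_add] at hlim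
    exact ge_of_tendsto' hlim (fun k => hiter k x hx x' hxx)
  have hMF : 0 ≤ M + F0 := by positivity
  have hdge : ∀ x ∈ ball x₀ (ρ / 2), ρ / 2 ≤ ρ - ‖x - x₀‖ := by
    intro x hx
    rw [mem_ball, dist_eq_norm] at hx; linarith
  have hsub : ball x₀ (ρ / 2) ⊆ ball x₀ ρ := ball_subset_ball (by linarith)
  constructor
  · intro x hx
    have h1 := WH_grad hα (by positivity : 0 ≤ 2 * A) hv hM hM0 hfin hτ hτ4 (hsub hx)
    have h2 := hdge x hx
    have h3 : ρ / 2 * ‖g x‖ ≤ 2 * M / τ + 2 * A * τ ^ α :=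
      (mul_le_mul_of_nonneg_right h2 (norm_nonneg _)).trans h1
    have h4 : τ ^ α ≤ 1 := Real.rpow_le_one hτ.le (by linarith) hα.le
    have h5 : ‖g x‖ ≤ (2 * M / τ + 2 * A) / (ρ / 2) := by
      rw [le_div_iff₀ hρ2]
      have : 2 * A * τ ^ α ≤ 2 * A * 1 := mul_le_mul_of_nonneg_left h4 (by positivity)
      linarith
    refine h5.trans ?_
    have h6 : (2 * M / τ + 2 * A) / (ρ / 2) ≤ (2 / τ + 2 * A1) / (ρ / 2) * (M + F0) := by
      have h7 : (2 / τ + 2 * A1) / (ρ / 2) * (M + F0)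
          = ((2 / τ + 2 * A1) * (M + F0)) / (ρ / 2) := by ring
      rw [h7]
      apply div_le_div_of_nonneg_right _ hρ2.le
      rw [hA]
      have h8 : 0 ≤ 2 / τ * F0 := by positivity
      have h9 : 2 * M / τ = 2 / τ * M := by ring
      rw [h9]; nlinarith
    have h7 : 0 ≤ 2 * A1 * E1 * (M + F0) := by positivity
    linarith
  · intro x hx x' hxx
    have hx2 := hdge x hx
    have h1 := hfin x (hsub hx) x' (by linarith)
    have hd0 := dist_pos_of_mem (hsub hx)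
    have h2 : (ρ / 2) ^ (1 + α) ≤ (ρ - ‖x - x₀‖) ^ (1 + α) :=
      Real.rpow_le_rpow hρ2.le hx2 (by linarith)
    have h3 : (ρ / 2) ^ (1 + α) * ‖g x - g x'‖ ≤ 2 * A * ‖x' - x‖ ^ α :=
      (mul_le_mul_of_nonneg_right h2 (norm_nonneg _)).trans h1
    have h4 : E1 * (ρ / 2) ^ (1 + α) = 1 := by
      rw [hE1, ← Real.rpow_add hρ2]; ring_nf; exact Real.rpow_zero _
    have hpw : 0 ≤ ‖x' - x‖ ^ α := Real.rpow_nonneg (norm_nonneg _) _
    calc ‖g x - g x'‖ = E1 * ((ρ / 2) ^ (1 + α) * ‖g x - g x'‖) := by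
          rw [← mul_assoc, h4, one_mul]
      _ ≤ E1 * (2 * A * ‖x' - x‖ ^ α) := mul_le_mul_of_nonneg_left h3 hE10.le
      _ = (2 * A1 * E1) * (M + F0) * ‖x' - x‖ ^ α := by rw [hA]; ring
      _ ≤ _ := by
          refine mul_le_mul_of_nonneg_right ?_ hpw
          refine mul_le_mul_of_nonneg_right ?_ hMF
          have : 0 ≤ (2 / τ + 2 * A1) / (ρ / 2) := by positivity
          linarith

end

end Crest.Agent.R246.H2x622
end

-- ▼ part R246/H2c1_622
section

/-!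
R246, block H2c (helper622).  Part 1: Hölder second differences give `C^{1,α}`.
-/

open MeasureTheory Metric Set Filter Topology
open scoped ContDiff

namespace Crest.Agent.R246.H2x622

noncomputable section

set_option linter.unusedSectionVars false

section dyadic

variable {F : Type*} [NormedAddCommGroup F] [NormedSpace ℝ F]
variable {W : Type*} [NormedAddCommGroup W] [NormedSpace ℝ W]

/-- dyadic difference quotient -/
def dq (g : F → W) (x h : F) (k : ℕ) : W := (2 : ℝ) ^ k • (g (x + (2⁻¹ : ℝ) ^ k • h) - g x)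

lemma two_half (k : ℕ) : (2 : ℝ) ^ k * (2⁻¹ : ℝ) ^ k = 1 := by
  rw [← mul_pow]; norm_num

lemma norm_half_smul (h : F) (k : ℕ) : ‖((2⁻¹ : ℝ) ^ k • h)‖ = (2⁻¹ : ℝ) ^ k * ‖h‖ := by
  rw [norm_smul, Real.norm_of_nonneg (by positivity)]

lemma tendsto_half (h : F) : Tendsto (fun k : ℕ => (2⁻¹ : ℝ) ^ k * ‖h‖) atTop (𝓝 0) := by
  have h1 : Tendsto (fun k : ℕ => (2⁻¹ : ℝ) ^ k) atTop (𝓝 0) :=
    tendsto_pow_atTop_nhds_zero_of_lt_one (by norm_num) (by norm_num)
  simpa using h1.mul_const ‖h‖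

lemma eventually_half (h : F) {r : ℝ} (hr : 0 < r) :
    ∀ᶠ k : ℕ in atTop, ‖((2⁻¹ : ℝ) ^ k • h)‖ < r := by
  filter_upwards [(tendsto_half h).eventually (gt_mem_nhds hr)] with k hk
  rw [norm_half_smul]; exact hk

lemma dq_step {g : F → W} {x₀ : F} {r C α : ℝ} (hC : 0 ≤ C) (hα : 0 < α)
    (h2 : ∀ x ∈ ball x₀ r, ∀ x' ∈ ball x₀ r, ∀ h, ‖h‖ < r →
      ‖(g (x + h) - g x) - (g (x' + h) - g x')‖ ≤ C * ‖h‖ * ‖x - x'‖ ^ α)
    {x : F} (hx : x ∈ ball x₀ (r / 2)) {h : F} (hh : ‖h‖ < r / 2) (k : ℕ) :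
    dist (dq g x h k) (dq g x h (k + 1)) ≤ (C * ‖h‖ * ‖h‖ ^ α) * ((2⁻¹ : ℝ) ^ α) ^ k := by
  have hr : 0 < r / 2 := (norm_nonneg h).trans_lt hh
  set h' : F := (2⁻¹ : ℝ) ^ (k + 1) • h with hh'
  have hn' : ‖h'‖ = (2⁻¹ : ℝ) ^ (k + 1) * ‖h‖ := norm_half_smul h (k + 1)
  have hle : ‖h'‖ ≤ ‖h‖ := by
    rw [hn']
    have : (2⁻¹ : ℝ) ^ (k + 1) ≤ 1 := pow_le_one₀ (by norm_num) (by norm_num)
    nlinarith [norm_nonneg h]
  have hdouble : (2⁻¹ : ℝ) ^ k • h = h' + h' := by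
    rw [hh', ← two_smul ℝ, smul_smul, pow_succ]
    congr 1; ring
  have hxr : x ∈ ball x₀ r := ball_subset_ball (by linarith) hx
  have hxh : x + h' ∈ ball x₀ r := by
    rw [mem_ball, dist_eq_norm] at hx ⊢
    have : x + h' - x₀ = (x - x₀) + h' := by abel
    rw [this]
    refine (norm_add_le _ _).trans_lt ?_
    linarith
  have h3 := h2 x hxr (x + h') hxh h' (by linarith)
  have h4 : dq g x h k - dq g x h (k + 1)
      = -((2 : ℝ) ^ k • ((g (x + h') - g x) - (g (x + h' + h') - g (x + h')))) := by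
    rw [dq, dq, hdouble, ← hh', pow_succ, ← add_assoc]
    module
  rw [dist_eq_norm, h4, norm_neg, norm_smul, Real.norm_of_nonneg (by positivity)]
  have h5 : ‖x - (x + h')‖ = ‖h'‖ := by rw [sub_add_cancel_left, norm_neg]
  rw [h5] at h3
  have h6 : ‖h'‖ ^ α ≤ ((2⁻¹ : ℝ) ^ α) ^ k * ‖h‖ ^ α := by
    rw [hn', Real.mul_rpow (by positivity) (norm_nonneg _)]
    refine mul_le_mul_of_nonneg_right ?_ (Real.rpow_nonneg (norm_nonneg _) _)
    have h7 : ((2⁻¹ : ℝ) ^ (k + 1)) ^ α = ((2⁻¹ : ℝ) ^ α) ^ (k + 1) := by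
      rw [← Real.rpow_natCast, ← Real.rpow_natCast, ← Real.rpow_mul (by norm_num),
        ← Real.rpow_mul (by norm_num), mul_comm]
    rw [h7, pow_succ]
    have h8 : (2⁻¹ : ℝ) ^ α ≤ 1 := Real.rpow_le_one (by norm_num) (by norm_num) hα.le
    have h9 : 0 ≤ ((2⁻¹ : ℝ) ^ α) ^ k := by positivity
    nlinarith
  calc (2 : ℝ) ^ k * ‖(g (x + h') - g x) - (g (x + h' + h') - g (x + h'))‖
      ≤ (2 : ℝ) ^ k * (C * ‖h'‖ * ‖h'‖ ^ α) := mul_le_mul_of_nonneg_left h3 (by positivity)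
    _ = C * ((2 : ℝ) ^ k * ‖h'‖) * ‖h'‖ ^ α := by ring
    _ ≤ C * ‖h‖ * (((2⁻¹ : ℝ) ^ α) ^ k * ‖h‖ ^ α) := by
        have h10 : (2 : ℝ) ^ k * ‖h'‖ ≤ ‖h‖ := by
          rw [hn', pow_succ, mul_comm _ (2⁻¹ : ℝ), mul_assoc, ← mul_assoc, mul_comm _ (2⁻¹ : ℝ),
            mul_assoc, ← mul_assoc ((2:ℝ) ^ k), two_half, one_mul]
          linarith [norm_nonneg h]
        exact mul_le_mul (mul_le_mul_of_nonneg_left h10 hC) h6 (Real.rpow_nonneg (norm_nonneg _) _)
          (by positivity)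
    _ = _ := by ring

variable [CompleteSpace W]

lemma dq_tendsto {g : F → W} {x₀ : F} {r C α : ℝ} (hr : 0 < r) (hC : 0 ≤ C) (hα : 0 < α)
    (h2 : ∀ x ∈ ball x₀ r, ∀ x' ∈ ball x₀ r, ∀ h, ‖h‖ < r →
      ‖(g (x + h) - g x) - (g (x' + h) - g x')‖ ≤ C * ‖h‖ * ‖x - x'‖ ^ α)
    {x : F} (hx : x ∈ ball x₀ (r / 2)) (h : F) :
    ∃ l, Tendsto (dq g x h) atTop (𝓝 l) := by
  obtain ⟨n, hn⟩ := (eventually_half h (half_pos hr)).exists
  have hq : (2⁻¹ : ℝ) ^ α < 1 := Real.rpow_lt_one (by norm_num) (by norm_num) hα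
  have hcs := cauchySeq_of_le_geometric _ _ hq (dq_step hC hα h2 hx hn)
  obtain ⟨l, hl⟩ := cauchySeq_tendsto_of_complete hcs
  refine ⟨(2 : ℝ) ^ n • l, ?_⟩
  rw [← tendsto_add_atTop_iff_nat n]
  refine (hl.const_smul ((2 : ℝ) ^ n)).congr (fun k => ?_)
  rw [dq, dq, smul_smul, smul_smul, ← pow_add, ← pow_add, add_comm n k]

theorem diff_of_second_diff {g : F → W} {x₀ : F} {r C α : ℝ} (hr : 0 < r) (hC : 0 ≤ C)
    (hα : 0 < α)
    (h1 : ∀ x ∈ ball x₀ r, ∀ h, ‖h‖ < r → ‖g (x + h) - g x‖ ≤ C * ‖h‖)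
    (h2 : ∀ x ∈ ball x₀ r, ∀ x' ∈ ball x₀ r, ∀ h, ‖h‖ < r →
      ‖(g (x + h) - g x) - (g (x' + h) - g x')‖ ≤ C * ‖h‖ * ‖x - x'‖ ^ α) :
    ∃ g' : F → F →L[ℝ] W, (∀ x ∈ ball x₀ (r / 2), HasFDerivAt g (g' x) x) ∧
      ∀ x ∈ ball x₀ (r / 2), ∀ x' ∈ ball x₀ (r / 2), ‖g' x - g' x'‖ ≤ C * ‖x - x'‖ ^ α := by
  have hq : (2⁻¹ : ℝ) ^ α < 1 := Real.rpow_lt_one (by norm_num) (by norm_num) hα
  have hq0 : 0 < (2⁻¹ : ℝ) ^ α := Real.rpow_pos_of_pos (by norm_num) _
  have hex : ∀ x : F, ∃ L : F →L[ℝ] W, x ∈ ball x₀ (r / 2) →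
      ∀ h, Tendsto (dq g x h) atTop (𝓝 (L h)) := by
    intro x
    by_cases hx : x ∈ ball x₀ (r / 2)
    · choose l hl using fun h => dq_tendsto hr hC hα h2 hx h
      have hxr : x ∈ ball x₀ r := ball_subset_ball (by linarith) hx
      have hbound : ∀ h, ‖l h‖ ≤ C * ‖h‖ := by
        intro h
        refine le_of_tendsto (hl h).norm ?_
        filter_upwards [eventually_half h hr] with k hk
        rw [dq, norm_smul, Real.norm_of_nonneg (by positivity)]
        have h3 := h1 x hxr _ hk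
        rw [norm_half_smul] at h3
        calc (2 : ℝ) ^ k * ‖g (x + (2⁻¹ : ℝ) ^ k • h) - g x‖
            ≤ (2 : ℝ) ^ k * (C * ((2⁻¹ : ℝ) ^ k * ‖h‖)) :=
              mul_le_mul_of_nonneg_left h3 (by positivity)
          _ = ((2 : ℝ) ^ k * (2⁻¹ : ℝ) ^ k) * (C * ‖h‖) := by ring
          _ = C * ‖h‖ := by rw [two_half, one_mul]
      have hadd : ∀ h h', l (h + h') = l h + l h' := by
        intro h h'
        have hT : Tendsto (fun k => dq g x (h + h') k - dq g x h k - dq g x h' k) atTop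
            (𝓝 (l (h + h') - l h - l h')) := ((hl _).sub (hl _)).sub (hl _)
        have hT0 : Tendsto (fun k => dq g x (h + h') k - dq g x h k - dq g x h' k) atTop (𝓝 0) := by
          have hz : Tendsto (fun k : ℕ => C * ‖h'‖ * ((2⁻¹ : ℝ) ^ k * ‖h‖) ^ α) atTop (𝓝 0) := by
            have h3 := (tendsto_half h).rpow_const (p := α) (Or.inr hα.le)
            rw [Real.zero_rpow hα.ne'] at h3
            simpa using h3.const_mul (C * ‖h'‖)
          refine squeeze_zero_norm' ?_ hz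
          filter_upwards [eventually_half h (half_pos hr), eventually_half h' hr] with k hk hk'
          have hxh : x + (2⁻¹ : ℝ) ^ k • h ∈ ball x₀ r := by
            rw [mem_ball, dist_eq_norm] at hx ⊢
            have : x + (2⁻¹ : ℝ) ^ k • h - x₀ = (x - x₀) + (2⁻¹ : ℝ) ^ k • h := by abel
            rw [this]
            refine (norm_add_le _ _).trans_lt ?_
            linarith
          have h3 := h2 _ hxh x hxr _ hk'
          have h4 : dq g x (h + h') k - dq g x h k - dq g x h' k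
              = (2 : ℝ) ^ k • ((g (x + (2⁻¹ : ℝ) ^ k • h + (2⁻¹ : ℝ) ^ k • h')
                - g (x + (2⁻¹ : ℝ) ^ k • h)) - (g (x + (2⁻¹ : ℝ) ^ k • h') - g x)) := by
            rw [dq, dq, dq, smul_add, ← add_assoc]
            module
          rw [h4, norm_smul, Real.norm_of_nonneg (by positivity)]
          have h5 : ‖x + (2⁻¹ : ℝ) ^ k • h - x‖ = (2⁻¹ : ℝ) ^ k * ‖h‖ := by
            rw [add_sub_cancel_left, norm_half_smul]
          rw [h5, norm_half_smul] at h3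
          refine (mul_le_mul_of_nonneg_left h3 (by positivity)).trans (le_of_eq ?_)
          calc (2 : ℝ) ^ k * (C * ((2⁻¹ : ℝ) ^ k * ‖h'‖) * ((2⁻¹ : ℝ) ^ k * ‖h‖) ^ α)
              = ((2 : ℝ) ^ k * (2⁻¹ : ℝ) ^ k) * (C * ‖h'‖ * ((2⁻¹ : ℝ) ^ k * ‖h‖) ^ α) := by ring
            _ = _ := by rw [two_half, one_mul]
        have h5 := tendsto_nhds_unique hT hT0
        have : l (h + h') = (l (h + h') - l h - l h') + l h + l h' := by abel
        rw [this, h5, zero_add]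
      let A : F →+ W := AddMonoidHom.mk' l hadd
      have hAc : Continuous A := AddMonoidHomClass.continuous_of_bound A C hbound
      exact ⟨A.toRealLinearMap hAc, fun _ h => hl h⟩
    · exact ⟨0, fun h => absurd h hx⟩
  choose g' hg' using hex
  refine ⟨g', ?_, ?_⟩
  · intro x hx
    rw [hasFDerivAt_iff_isLittleO_nhds_zero, Asymptotics.isLittleO_iff]
    intro c hc
    have h3 : Tendsto (fun h : F => C / (1 - (2⁻¹ : ℝ) ^ α) * ‖h‖ ^ α) (𝓝 0) (𝓝 0) := by
      have h4 : Tendsto (fun h : F => ‖h‖ ^ α) (𝓝 0) (𝓝 (‖(0:F)‖ ^ α)) :=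
        (continuous_norm.rpow_const (fun _ => Or.inr hα.le)).tendsto 0
      rw [norm_zero, Real.zero_rpow hα.ne'] at h4
      simpa using h4.const_mul (C / (1 - (2⁻¹ : ℝ) ^ α))
    filter_upwards [ball_mem_nhds (0 : F) (half_pos hr), h3.eventually (gt_mem_nhds hc)] with h hh hh2
    rw [mem_ball, dist_zero_right] at hh
    have h5 := dist_le_of_le_geometric_of_tendsto₀ _ _ hq (dq_step hC hα h2 hx hh) (hg' x hx h)
    have h6 : dq g x h 0 = g (x + h) - g x := by simp [dq]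
    rw [h6, dist_eq_norm] at h5
    refine h5.trans ?_
    calc C * ‖h‖ * ‖h‖ ^ α / (1 - (2⁻¹ : ℝ) ^ α)
        = (C / (1 - (2⁻¹ : ℝ) ^ α) * ‖h‖ ^ α) * ‖h‖ := by ring
      _ ≤ c * ‖h‖ := mul_le_mul_of_nonneg_right hh2.le (norm_nonneg _)
  · intro x hx x' hx'
    refine ContinuousLinearMap.opNorm_le_bound _
      (mul_nonneg hC (Real.rpow_nonneg (norm_nonneg _) _)) ?_
    intro h
    rw [sub_apply]
    have hlim := ((hg' x hx h).sub (hg' x' hx' h)).norm
    refine le_of_tendsto hlim ?_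
    filter_upwards [eventually_half h hr] with k hk
    have h3 := h2 x (ball_subset_ball (by linarith) hx) x' (ball_subset_ball (by linarith) hx') _ hk
    rw [dq, dq, ← smul_sub, norm_smul, Real.norm_of_nonneg (by positivity)]
    rw [norm_half_smul] at h3
    refine (mul_le_mul_of_nonneg_left h3 (by positivity)).trans (le_of_eq ?_)
    calc (2 : ℝ) ^ k * (C * ((2⁻¹ : ℝ) ^ k * ‖h‖) * ‖x - x'‖ ^ α)
        = ((2 : ℝ) ^ k * (2⁻¹ : ℝ) ^ k) * (C * ‖x - x'‖ ^ α * ‖h‖) := by ring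
      _ = _ := by rw [two_half, one_mul]

end dyadic

end

end Crest.Agent.R246.H2x622
end

-- ▼ part R246/H2c2_622
section

/-!
R246, block H2c (helper622).  Part 2: `C^{1,α}` solutions of `Δ v = div G(v,∇v)` are `C^{2,α}`.
-/

open MeasureTheory Metric Set Filter Topology
open scoped ContDiff

namespace Crest.Agent.R246.H2x622

noncomputable section

set_option linter.unusedSectionVars false

variable {F : Type*} [NormedAddCommGroup F] [InnerProductSpace ℝ F] [FiniteDimensional ℝ F]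
  [MeasurableSpace F] [BorelSpace F]
variable {V : Type*} [NormedAddCommGroup V] [NormedSpace ℝ V]

lemma gradient_zero_of_notMem {ζ : F → ℝ} {z : F} (hz : z ∉ tsupport ζ) : gradient ζ z = 0 := by
  rw [gradient, fderiv_of_notMem_tsupport ℝ hz, map_zero]

lemma gradient_contDiff {ζ : F → ℝ} (hζ : ContDiff ℝ ∞ ζ) : ContDiff ℝ ∞ (gradient ζ) := by
  have h : ContDiff ℝ (∞ + 1) ζ := by simpa using hζ
  have h2 : ContDiff ℝ ∞ (fderiv ℝ ζ) := h.fderiv_right (m := ∞) le_rfl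
  exact (InnerProductSpace.toDual ℝ F).symm.contDiff.comp h2

lemma integrable_grad {W : Type*} [NormedAddCommGroup W] [NormedSpace ℝ W] {H : F → F →L[ℝ] W}
    {U : Set F} (hH : ContinuousOn H U) {ζ : F → ℝ} (hζ : ContDiff ℝ ∞ ζ)
    (hcs : HasCompactSupport ζ) (hU : tsupport ζ ⊆ U) :
    Integrable (fun z => H z (gradient ζ z)) := by
  have h1 : ContinuousOn (fun z => H z (gradient ζ z)) (tsupport ζ) :=
    (hH.mono hU).clm_apply (gradient_contDiff hζ).continuous.continuousOn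
  refine (h1.integrableOn_compact hcs).integrable_of_forall_notMem_eq_zero ?_
  intro z hz
  rw [gradient_zero_of_notMem hz, map_zero]

lemma weakDiv_translate {H : F → F →L[ℝ] V} {U D : Set F} {h : F} (hw : WeakDiv H U)
    (hc : ContinuousOn H U) (hD : D ⊆ U) (hDh : ∀ z ∈ D, z + h ∈ U) :
    WeakDiv (fun z => H (z + h) - H z) D := by
  intro ζ hζ hcs hts
  simp only [sub_apply]
  have hc2 : ContinuousOn (fun z => H (z + h)) D := by
    refine hc.comp (by fun_prop) ?_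
    intro z hz; exact hDh z hz
  rw [integral_sub (integrable_grad hc2 hζ hcs hts) (integrable_grad hc hζ hcs (hts.trans hD)),
    hw ζ hζ hcs (hts.trans hD), sub_zero]
  set ζ' : F → ℝ := fun z => ζ (z - h) with hζ'
  have hsm : ContDiff ℝ ∞ ζ' := hζ.comp (contDiff_id.sub contDiff_const)
  have hts' : tsupport ζ' ⊆ (fun z => z - h) ⁻¹' (tsupport ζ) :=
    tsupport_comp_subset_preimage (f := fun z : F => z - h) ζ (by fun_prop)
  have hcs' : HasCompactSupport ζ' := by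
    have : IsCompact ((fun z : F => z + h) '' (tsupport ζ)) := hcs.image (by fun_prop)
    refine HasCompactSupport.of_support_subset_isCompact this ?_
    intro z hz
    refine ⟨z - h, hts' (subset_tsupport _ hz), by simp⟩
  have hU : tsupport ζ' ⊆ U := by
    intro z hz
    have h1 := hDh _ (hts (hts' hz))
    simpa using h1
  have h1 := hw ζ' hsm hcs' hU
  have hgr : ∀ z, gradient ζ' z = gradient ζ (z - h) := by
    intro z
    rw [gradient, gradient, hζ', fderiv_comp_sub]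
  simp only [hgr] at h1
  rw [← integral_add_right_eq_self _ h] at h1
  simpa using h1

/-- `C^{1,α}_loc` solution of `Δ v = div G(v,∇v)` in `U` -/
structure Sol (α : ℝ) (G : V × (F →L[ℝ] V) → (F →L[ℝ] V)) (v : F → V) (g : F → F →L[ℝ] V)
    (U : Set F) : Prop where
  op : IsOpen U
  der : ∀ z ∈ U, HasFDerivAt v (g z) z
  hol : ∀ x ∈ U, ∃ r > 0, ∃ K, ∀ z ∈ ball x r, ∀ z' ∈ ball x r, ‖g z - g z'‖ ≤ K * ‖z - z'‖ ^ α
  weak : WeakDiv (fun z => g z - G (v z, g z)) U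

/-- smallness of the gradient dependence -/
def Sml (β : ℝ) (G : V × (F →L[ℝ] V) → (F →L[ℝ] V)) (p : V × (F →L[ℝ] V)) : Prop :=
  ∀ P : F →L[ℝ] V, ‖fderiv ℝ G p (0, P)‖ ≤ β * ‖P‖

lemma continuousAt_of_hol {W : Type*} [NormedAddCommGroup W] {g : F → W} {x : F} {r K α : ℝ}
    (hα : 0 < α) (hr : 0 < r)
    (h : ∀ z ∈ ball x r, ∀ z' ∈ ball x r, ‖g z - g z'‖ ≤ K * ‖z - z'‖ ^ α) : ContinuousAt g x := by
  rw [Metric.continuousAt_iff]
  intro ε hε
  have h1 : Tendsto (fun z' : F => K * ‖z' - x‖ ^ α) (𝓝 x) (𝓝 (K * ‖x - x‖ ^ α)) := by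
    have : Continuous fun z' : F => K * ‖z' - x‖ ^ α :=
      continuous_const.mul ((continuous_id.sub continuous_const).norm.rpow_const
        (fun _ => Or.inr hα.le))
    exact this.tendsto x
  rw [sub_self, norm_zero, Real.zero_rpow hα.ne', mul_zero] at h1
  have h2 := (h1.eventually (gt_mem_nhds hε)).and (ball_mem_nhds x hr)
  obtain ⟨δ, hδ, hδ2⟩ := Metric.eventually_nhds_iff.1 h2
  refine ⟨δ, hδ, fun {z'} hz' => ?_⟩
  obtain ⟨h3, h4⟩ := hδ2 hz'
  rw [dist_eq_norm]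
  exact lt_of_le_of_lt (h z' h4 x (mem_ball_self hr)) h3

lemma Sol.cont_g {α : ℝ} {G : V × (F →L[ℝ] V) → (F →L[ℝ] V)} {v : F → V} {g : F → F →L[ℝ] V}
    {U : Set F} (h : Sol α G v g U) (hα : 0 < α) : ContinuousOn g U := by
  intro x hx
  obtain ⟨r, hr, K, hK⟩ := h.hol x hx
  exact (continuousAt_of_hol hα hr hK).continuousWithinAt

lemma Sol.cont_X {α : ℝ} {G : V × (F →L[ℝ] V) → (F →L[ℝ] V)} {v : F → V} {g : F → F →L[ℝ] V}
    {U : Set F} (h : Sol α G v g U) (hα : 0 < α) : ContinuousOn (fun z => (v z, g z)) U := by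
  intro x hx
  exact ((h.der x hx).continuousAt.continuousWithinAt).prodMk (h.cont_g hα x hx)

/-- local bounds for the nonlinearity -/
lemma exists_G_bounds {W W' : Type*} [NormedAddCommGroup W] [NormedSpace ℝ W]
    [NormedAddCommGroup W'] [NormedSpace ℝ W'] {G : W → W'} (hG : ContDiff ℝ ∞ G) (X₀ : W)
    {c : ℝ} (hc : 0 < c) :
    ∃ δ > 0, ∃ L1 ≥ 0, ∃ L2 ≥ 0,
      (∀ Y ∈ ball X₀ δ, ‖fderiv ℝ G Y‖ ≤ L1) ∧
      (∀ Y ∈ ball X₀ δ, ‖fderiv ℝ G Y - fderiv ℝ G X₀‖ ≤ c) ∧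
      (∀ Y ∈ ball X₀ δ, ∀ Y' ∈ ball X₀ δ, ‖fderiv ℝ G Y - fderiv ℝ G Y'‖ ≤ L2 * ‖Y - Y'‖) := by
  have h : ContDiff ℝ (1 + 1) G := hG.of_le (by norm_cast)
  have h2 : ContDiff ℝ 1 (fderiv ℝ G) := h.fderiv_right (m := 1) le_rfl
  obtain ⟨L, t, ht, hL⟩ := (h2.contDiffAt (x := X₀)).exists_lipschitzOnWith
  have h3 : ∀ᶠ Y in 𝓝 X₀, ‖fderiv ℝ G Y - fderiv ℝ G X₀‖ < c := by
    have h4 : Tendsto (fun Y => ‖fderiv ℝ G Y - fderiv ℝ G X₀‖) (𝓝 X₀) (𝓝 0) := by
      have : Continuous fun Y => ‖fderiv ℝ G Y - fderiv ℝ G X₀‖ :=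
        (h2.continuous.sub continuous_const).norm
      simpa using this.tendsto X₀
    exact h4.eventually (gt_mem_nhds hc)
  obtain ⟨δ, hδ, hδ2⟩ := Metric.mem_nhds_iff.1 (inter_mem ht h3)
  refine ⟨δ, hδ, ‖fderiv ℝ G X₀‖ + c, by positivity, L, L.2, ?_, ?_, ?_⟩
  · intro Y hY
    have h5 := (hδ2 hY).2
    change _ < c at h5
    calc ‖fderiv ℝ G Y‖ = ‖fderiv ℝ G X₀ + (fderiv ℝ G Y - fderiv ℝ G X₀)‖ := by congr 1; abel
      _ ≤ _ := (norm_add_le _ _).trans (by linarith)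
  · intro Y hY
    have h5 := (hδ2 hY).2
    change _ < c at h5
    exact h5.le
  · intro Y hY Y' hY'
    have h5 := hL.dist_le_mul Y (hδ2 hY).1 Y' (hδ2 hY').1
    rwa [dist_eq_norm, dist_eq_norm] at h5

/-- mean value inequality on a segment of a ball -/
lemma seg_bound {W W' : Type*} [NormedAddCommGroup W] [NormedSpace ℝ W]
    [NormedAddCommGroup W'] [NormedSpace ℝ W'] {G : W → W'} (hG : Differentiable ℝ G)
    {X₀ Y1 Y2 : W} {δ c : ℝ} (h1 : Y1 ∈ ball X₀ δ) (h2 : Y2 ∈ ball X₀ δ)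
    (hc : ∀ Y ∈ ball X₀ δ, ‖fderiv ℝ G Y (Y1 - Y2)‖ ≤ c) : ‖G Y1 - G Y2‖ ≤ c := by
  have h := norm_image_sub_le_of_norm_deriv_le_segment_01'
    (f := fun t : ℝ => G (Y2 + t • (Y1 - Y2)))
    (f' := fun t : ℝ => fderiv ℝ G (Y2 + t • (Y1 - Y2)) (Y1 - Y2)) (C := c) ?_ ?_
  · simpa using h
  · intro t _
    have h3 : HasDerivAt (fun t : ℝ => Y2 + t • (Y1 - Y2)) (Y1 - Y2) t := by
      simpa using ((hasDerivAt_id t).smul_const (Y1 - Y2)).const_add Y2
    exact ((hG _).hasFDerivAt.comp_hasDerivAt t h3).hasDerivWithinAt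
  · intro t ht
    apply hc
    have := (convex_ball X₀ δ).add_smul_sub_mem h2 h1 (Ico_subset_Icc_self ht)
    exact this

lemma second_diff_bound {W W' : Type*} [NormedAddCommGroup W] [NormedSpace ℝ W]
    [NormedAddCommGroup W'] [NormedSpace ℝ W'] {G : W → W'} (hG : Differentiable ℝ G)
    {X₀ Y Y' D : W} {δ L2 : ℝ} (h1 : Y ∈ ball X₀ (δ / 3)) (h2 : Y' ∈ ball X₀ (δ / 3))
    (hD : ‖D‖ < 2 * (δ / 3))
    (hL : ∀ Y ∈ ball X₀ δ, ∀ Y' ∈ ball X₀ δ, ‖fderiv ℝ G Y - fderiv ℝ G Y'‖ ≤ L2 * ‖Y - Y'‖) :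
    ‖(G (Y + D) - G Y) - (G (Y' + D) - G Y')‖ ≤ L2 * ‖D‖ * ‖Y - Y'‖ := by
  have hδ : 0 < δ := by
    have := pos_of_mem_ball h1; linarith
  have h := norm_image_sub_le_of_norm_deriv_le_segment_01'
    (f := fun t : ℝ => G (Y' + t • (Y - Y') + D) - G (Y' + t • (Y - Y')))
    (f' := fun t : ℝ => fderiv ℝ G (Y' + t • (Y - Y') + D) (Y - Y')
      - fderiv ℝ G (Y' + t • (Y - Y')) (Y - Y')) (C := L2 * ‖D‖ * ‖Y - Y'‖) ?_ ?_
  · simpa using h
  · intro t _
    have h3 : HasDerivAt (fun t : ℝ => Y' + t • (Y - Y')) (Y - Y') t := by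
      simpa using ((hasDerivAt_id t).smul_const (Y - Y')).const_add Y'
    have h4 : HasDerivAt (fun t : ℝ => Y' + t • (Y - Y') + D) (Y - Y') t := h3.add_const D
    exact (((hG _).hasFDerivAt.comp_hasDerivAt t h4).sub
      ((hG _).hasFDerivAt.comp_hasDerivAt t h3)).hasDerivWithinAt
  · intro t ht
    have h5 : Y' + t • (Y - Y') ∈ ball X₀ (δ / 3) :=
      (convex_ball X₀ (δ / 3)).add_smul_sub_mem h2 h1 (Ico_subset_Icc_self ht)
    have h6 : Y' + t • (Y - Y') + D ∈ ball X₀ δ := by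
      rw [mem_ball, dist_eq_norm] at h5 ⊢
      have : Y' + t • (Y - Y') + D - X₀ = (Y' + t • (Y - Y') - X₀) + D := by abel
      rw [this]
      refine (norm_add_le _ _).trans_lt ?_
      linarith
    have h7 := hL _ h6 _ (ball_subset_ball (by linarith) h5)
    rw [add_sub_cancel_left] at h7
    rw [← sub_apply]
    exact (ContinuousLinearMap.le_opNorm _ _).trans
      (mul_le_mul_of_nonneg_right h7 (norm_nonneg _))

lemma norm_zero_prod {W : Type*} [NormedAddCommGroup W] [NormedSpace ℝ W] (P : W) :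
    ‖((0 : V), P)‖ = ‖P‖ := by
  rw [Prod.norm_def]; simp

variable [CompleteSpace V]

/-- `C^{1,α}` implies `C^{2,α}` (interior, local). -/
theorem sol_c2 {κ α β₁ : ℝ} (hκ : KB F κ) (hα : 0 < α) (hα1 : α < 1) (hβ : β₁ < bet F κ α)
    {G : V × (F →L[ℝ] V) → (F →L[ℝ] V)} (hG : ContDiff ℝ ∞ G) {v : F → V} {g : F → F →L[ℝ] V}
    {U : Set F} (hS : Sol α G v g U) (hsml : ∀ z ∈ U, Sml β₁ G (v z, g z)) {x₀ : F} (hx₀ : x₀ ∈ U) :
    ∃ r > 0, ∃ K, ∃ g' : F → F →L[ℝ] (F →L[ℝ] V), (∀ x ∈ ball x₀ r, HasFDerivAt g (g' x) x) ∧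
      ∀ x ∈ ball x₀ r, ∀ x' ∈ ball x₀ r, ‖g' x - g' x'‖ ≤ K * ‖x - x'‖ ^ α := by
  obtain ⟨r0, hr0, K', hK'⟩ := hS.hol x₀ hx₀
  obtain ⟨r1, hr1, hr1U⟩ := Metric.isOpen_iff.1 hS.op x₀ hx₀
  set K : ℝ := |K'| with hKdef
  have hK0 : 0 ≤ K := abs_nonneg _
  obtain ⟨δ, hδ, L1, hL1, L2, hL2, hb1, hb2, hb3⟩ := exists_G_bounds hG (v x₀, g x₀)
    (sub_pos.2 hβ)
  set X : F → V × (F →L[ℝ] V) := fun z => (v z, g z) with hX
  have hXc : ContinuousAt X x₀ := (hS.cont_X hα).continuousAt (hS.op.mem_nhds hx₀)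
  obtain ⟨r2, hr2, hX2⟩ := Metric.continuousAt_iff.1 hXc (δ / 3) (by positivity)
  -- the working radius
  obtain ⟨ρ, hρ, hρ0, hρ1, hρ2, hρ4⟩ : ∃ ρ : ℝ, 0 < ρ ∧ 2 * ρ ≤ r0 ∧ 2 * ρ ≤ r1 ∧ 2 * ρ ≤ r2 ∧
      4 * ρ ≤ 1 := by
    refine ⟨min (min r0 r1) (min r2 1) / 4, by positivity, ?_, ?_, ?_, ?_⟩
    · have h1 : min (min r0 r1) (min r2 1) ≤ r0 := (min_le_left _ _).trans (min_le_left _ _)
      linarith
    · have h1 : min (min r0 r1) (min r2 1) ≤ r1 := (min_le_left _ _).trans (min_le_right _ _)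
      linarith
    · have h1 : min (min r0 r1) (min r2 1) ≤ r2 := (min_le_right _ _).trans (min_le_left _ _)
      linarith
    · have h1 : min (min r0 r1) (min r2 1) ≤ 1 := (min_le_right _ _).trans (min_le_right _ _)
      linarith
  have hUB : ball x₀ (2 * ρ) ⊆ U := (ball_subset_ball hρ1).trans hr1U
  have hgK : ∀ z ∈ ball x₀ (2 * ρ), ∀ z' ∈ ball x₀ (2 * ρ), ‖g z - g z'‖ ≤ K * ‖z - z'‖ ^ α := by
    intro z hz z' hz'
    refine (hK' z (ball_subset_ball hρ0 hz) z' (ball_subset_ball hρ0 hz')).trans ?_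
    exact mul_le_mul_of_nonneg_right (le_abs_self _) (Real.rpow_nonneg (norm_nonneg _) _)
  have hXB : ∀ z ∈ ball x₀ (2 * ρ), X z ∈ ball (v x₀, g x₀) (δ / 3) := fun z hz =>
    hX2 ((mem_ball.1 hz).trans_le hρ2)
  set Mg : ℝ := ‖g x₀‖ + K with hMg
  have hMg0 : 0 ≤ Mg := by positivity
  have hgM : ∀ z ∈ ball x₀ (2 * ρ), ‖g z‖ ≤ Mg := by
    intro z hz
    have h1 := hgK z hz x₀ (mem_ball_self (by positivity))
    have h2 : ‖z - x₀‖ ^ α ≤ 1 := by
      rw [mem_ball, dist_eq_norm] at hz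
      exact Real.rpow_le_one (norm_nonneg _) (by linarith) hα.le
    calc ‖g z‖ = ‖g x₀ + (g z - g x₀)‖ := by congr 1; abel
      _ ≤ ‖g x₀‖ + ‖g z - g x₀‖ := norm_add_le _ _
      _ ≤ ‖g x₀‖ + K := by nlinarith
  have hpow1 : ∀ z ∈ ball x₀ (2 * ρ), ∀ z' ∈ ball x₀ (2 * ρ), ‖z - z'‖ ≤ ‖z - z'‖ ^ α := by
    intro z hz z' hz'
    rw [mem_ball, dist_eq_norm] at hz hz'
    have h1 : ‖z - z'‖ ≤ 1 := by
      calc ‖z - z'‖ = ‖(z - x₀) - (z' - x₀)‖ := by congr 1; abel
        _ ≤ _ := (norm_sub_le _ _).trans (by linarith)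
    calc ‖z - z'‖ = ‖z - z'‖ ^ (1:ℝ) := (Real.rpow_one _).symm
      _ ≤ _ := Real.rpow_le_rpow_of_exponent_ge' (norm_nonneg _) h1 hα.le hα1.le
  have hvM : ∀ z ∈ ball x₀ (2 * ρ), ∀ z' ∈ ball x₀ (2 * ρ), ‖v z - v z'‖ ≤ Mg * ‖z - z'‖ := by
    intro z hz z' hz'
    exact (convex_ball x₀ (2 * ρ)).norm_image_sub_le_of_norm_hasFDerivWithin_le
      (fun y hy => (hS.der y (hUB hy)).hasFDerivWithinAt) hgM hz' hz
  have hshift : ∀ z ∈ ball x₀ ρ, ∀ h : F, ‖h‖ < ρ → z + h ∈ ball x₀ (2 * ρ) := by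
    intro z hz h hh
    rw [mem_ball, dist_eq_norm] at hz ⊢
    have : z + h - x₀ = (z - x₀) + h := by abel
    rw [this]
    exact (norm_add_le _ _).trans_lt (by linarith)
  have hsub2 : ball x₀ ρ ⊆ ball x₀ (2 * ρ) := ball_subset_ball (by linarith)
  set KX : ℝ := Mg + K with hKX
  have hKX0 : 0 ≤ KX := by positivity
  have hXK : ∀ z ∈ ball x₀ (2 * ρ), ∀ z' ∈ ball x₀ (2 * ρ), ‖X z - X z'‖ ≤ KX * ‖z - z'‖ ^ α := by
    intro z hz z' hz'
    have h1 := hgK z hz z' hz'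
    have h2 := hvM z hz z' hz'
    have h3 := hpow1 z hz z' hz'
    have h4 : 0 ≤ ‖z - z'‖ ^ α := Real.rpow_nonneg (norm_nonneg _) _
    rw [Prod.norm_def]
    refine max_le ?_ ?_
    · change ‖v z - v z'‖ ≤ _
      nlinarith
    · change ‖g z - g z'‖ ≤ _
      nlinarith
  obtain ⟨C, hC0, hC⟩ := schauder_pert (V := V) hκ hα hα1 (b := L2 * KX) (ρ := ρ) (by positivity)
    hρ (by linarith)
  have hGd : Differentiable ℝ G := hG.differentiable (by simp)
  -- estimates for the translation differences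
  have key : ∀ h : F, ‖h‖ < ρ →
      (∀ x ∈ ball x₀ (ρ / 2), ‖g (x + h) - g x‖ ≤
        C * (Mg * ‖h‖ + (L1 * K + L2 * Mg * KX) * ‖h‖)) ∧
      (∀ x ∈ ball x₀ (ρ / 2), ∀ x', ‖x' - x‖ ≤ ρ / 8 →
        ‖(g (x + h) - g x) - (g (x' + h) - g x')‖ ≤
          C * (Mg * ‖h‖ + (L1 * K + L2 * Mg * KX) * ‖h‖) * ‖x' - x‖ ^ α) := by
    intro h hh
    refine hC (fun z => v (z + h) - v z) (fun z => g (z + h) - g z)
      (fun z => G (X (z + h)) - G (X z)) x₀ (Mg * ‖h‖) ((L1 * K + L2 * Mg * KX) * ‖h‖) (2 * K)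
      (by positivity) (by positivity) ?_ ?_ ?_ ?_ ?_ ?_
    · intro z hz
      have h1 := hS.der (z + h) (hUB (hshift z hz h hh))
      have h2 : HasFDerivAt (fun z => v (z + h)) (g (z + h)) z :=
        (hasFDerivAt_comp_add_right h).2 h1
      exact h2.sub (hS.der z (hUB (hsub2 hz)))
    · have h1 : ContinuousOn (fun z => G (X z)) (ball x₀ (2 * ρ)) :=
        hG.continuous.comp_continuousOn ((hS.cont_X hα).mono hUB)
      refine ContinuousOn.sub ?_ (h1.mono hsub2)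
      exact h1.comp (by fun_prop) (fun z hz => hshift z hz h hh)
    · have h1 : ContinuousOn (fun z => g z - G (v z, g z)) U :=
        (hS.cont_g hα).sub (hG.continuous.comp_continuousOn (hS.cont_X hα))
      have h2 := weakDiv_translate hS.weak h1 (hsub2.trans hUB)
        (fun z hz => hUB (hshift z hz h hh))
      intro ζ z1 z2 z3
      have h3 := h2 ζ z1 z2 z3
      rw [← h3]
      congr 1
      ext z
      simp only [hX, sub_apply]
      abel
    · intro z hz z' hz'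
      have h1 := hgK _ (hshift z hz h hh) _ (hshift z' hz' h hh)
      have h2 := hgK _ (hsub2 hz) _ (hsub2 hz')
      rw [add_sub_add_right_eq_sub] at h1
      calc ‖g (z + h) - g z - (g (z' + h) - g z')‖
          = ‖(g (z + h) - g (z' + h)) - (g z - g z')‖ := by congr 1; abel
        _ ≤ ‖g (z + h) - g (z' + h)‖ + ‖g z - g z'‖ := norm_sub_le _ _
        _ ≤ 2 * K * ‖z - z'‖ ^ α := by linarith
    · intro z hz
      have h1 := hvM _ (hshift z hz h hh) _ (hsub2 hz)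
      rwa [add_sub_cancel_left] at h1
    · intro z hz z' hz'
      set Y := X z with hY
      set Y' := X z' with hY'
      set Δ := X (z + h) - X z with hΔ
      set Δ' := X (z' + h) - X z' with hΔ'
      have hz2 := hsub2 hz
      have hz2' := hsub2 hz'
      have hzh := hshift z hz h hh
      have hzh' := hshift z' hz' h hh
      have hYb := hXB z hz2
      have hYb' := hXB z' hz2'
      have hYhb := hXB _ hzh
      have hYhb' := hXB _ hzh'
      have hΔ'n : ‖Δ'‖ < 2 * (δ / 3) := by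
        rw [mem_ball, dist_eq_norm] at hYb' hYhb'
        calc ‖Δ'‖ = ‖(X (z' + h) - (v x₀, g x₀)) - (X z' - (v x₀, g x₀))‖ := by
              rw [hΔ']; congr 1; abel
          _ ≤ _ := norm_sub_le _ _
          _ < _ := by linarith
      have e1 : X (z + h) = Y + Δ := by rw [hY, hΔ]; abel
      have e2 : X (z' + h) = Y' + Δ' := by rw [hY', hΔ']; abel
      have hYΔ' : Y + Δ' ∈ ball (v x₀, g x₀) δ := by
        rw [mem_ball, dist_eq_norm] at hYb ⊢
        have : Y + Δ' - (v x₀, g x₀) = (Y - (v x₀, g x₀)) + Δ' := by abel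
        rw [this]
        exact (norm_add_le _ _).trans_lt (by linarith)
      have hYΔ : Y + Δ ∈ ball (v x₀, g x₀) δ := by
        rw [← e1]; exact ball_subset_ball (by linarith) hYhb
      -- first difference
      have hdv : ‖(v (z + h) - v z) - (v (z' + h) - v z')‖ ≤ K * ‖z - z'‖ ^ α * ‖h‖ := by
        have h1 := norm_image_sub_le_of_norm_deriv_le_segment_01'
          (f := fun t : ℝ => v (z + t • h) - v (z' + t • h))
          (f' := fun t : ℝ => g (z + t • h) h - g (z' + t • h) h)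
          (C := K * ‖z - z'‖ ^ α * ‖h‖) ?_ ?_
        · have h2 : v (z + h) - v z - (v (z' + h) - v z')
              = (v (z + (1:ℝ) • h) - v (z' + (1:ℝ) • h)) - (v (z + (0:ℝ) • h) - v (z' + (0:ℝ) • h)) := by
            simp only [one_smul, zero_smul, add_zero]; abel
          rw [h2]; exact h1
        · intro t ht
          have ha : ∀ w : F, HasDerivAt (fun t : ℝ => w + t • h) h t := by
            intro w
            simpa using ((hasDerivAt_id t).smul_const h).const_add w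
          have hmem : ∀ w ∈ ball x₀ ρ, w + t • h ∈ ball x₀ (2 * ρ) := by
            intro w hw
            apply hshift w hw
            rw [norm_smul, Real.norm_of_nonneg ht.1]
            nlinarith [norm_nonneg h, ht.2]
          exact (((hS.der _ (hUB (hmem z hz))).comp_hasDerivAt t (ha z)).sub
            ((hS.der _ (hUB (hmem z' hz'))).comp_hasDerivAt t (ha z'))).hasDerivWithinAt
        · intro t ht
          have hmem : ∀ w ∈ ball x₀ ρ, w + t • h ∈ ball x₀ (2 * ρ) := by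
            intro w hw
            apply hshift w hw
            rw [norm_smul, Real.norm_of_nonneg ht.1]
            nlinarith [norm_nonneg h, ht.2]
          have h3 := hgK _ (hmem z hz) _ (hmem z' hz')
          rw [add_sub_add_right_eq_sub] at h3
          rw [← sub_apply]
          exact (ContinuousLinearMap.le_opNorm _ _).trans
            (mul_le_mul_of_nonneg_right h3 (norm_nonneg _))
      have hfirst : ‖G (Y + Δ) - G (Y + Δ')‖ ≤
          L1 * (K * ‖z - z'‖ ^ α * ‖h‖) + bet F κ α * ‖(g (z + h) - g z) - (g (z' + h) - g z')‖ := by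
        refine seg_bound hGd hYΔ hYΔ' ?_
        intro Z hZ
        have e3 : Y + Δ - (Y + Δ') = ((v (z + h) - v z) - (v (z' + h) - v z'), (0 : F →L[ℝ] V))
            + ((0 : V), (g (z + h) - g z) - (g (z' + h) - g z')) := by
          rw [add_sub_add_left_eq_sub, hΔ, hΔ']
          refine Prod.ext ?_ ?_
          · change (v (z + h) - v z) - (v (z' + h) - v z')
              = ((v (z + h) - v z) - (v (z' + h) - v z')) + 0
            rw [add_zero]
          · change (g (z + h) - g z) - (g (z' + h) - g z')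
              = 0 + ((g (z + h) - g z) - (g (z' + h) - g z'))
            rw [zero_add]
        rw [e3, map_add]
        refine (norm_add_le _ _).trans (add_le_add ?_ ?_)
        · refine (ContinuousLinearMap.le_opNorm _ _).trans ?_
          refine mul_le_mul (hb1 Z hZ) ?_ (norm_nonneg _) hL1
          rw [Prod.norm_def]
          simpa using hdv
        · set P := (g (z + h) - g z) - (g (z' + h) - g z') with hP
          have h3 : fderiv ℝ G Z (0, P) = fderiv ℝ G (v x₀, g x₀) (0, P)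
              + (fderiv ℝ G Z - fderiv ℝ G (v x₀, g x₀)) (0, P) := by
            rw [sub_apply]; abel
          rw [h3]
          have h4 := hsml x₀ hx₀ P
          have h5 : ‖(fderiv ℝ G Z - fderiv ℝ G (v x₀, g x₀)) ((0 : V), P)‖
              ≤ (bet F κ α - β₁) * ‖P‖ := by
            refine (ContinuousLinearMap.le_opNorm _ _).trans ?_
            rw [norm_zero_prod]
            exact mul_le_mul_of_nonneg_right (hb2 Z hZ) (norm_nonneg _)
          refine (norm_add_le _ _).trans ?_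
          linarith
      have hsecond := second_diff_bound hGd (X₀ := (v x₀, g x₀)) hYb hYb' hΔ'n hb3
      have hYY : ‖Y - Y'‖ ≤ KX * ‖z - z'‖ ^ α := hXK z hz2 z' hz2'
      have hΔ'b : ‖Δ'‖ ≤ Mg * ‖h‖ + ‖g (z' + h) - g z'‖ := by
        have h1 := hvM _ hzh' _ hz2'
        rw [add_sub_cancel_left] at h1
        rw [Prod.norm_def]
        have h2 : 0 ≤ Mg * ‖h‖ := by positivity
        have h3 := norm_nonneg (g (z' + h) - g z')
        refine max_le ?_ ?_
        · change ‖v (z' + h) - v z'‖ ≤ _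
          linarith
        · change ‖g (z' + h) - g z'‖ ≤ _
          linarith
      have hpz : 0 ≤ ‖z - z'‖ ^ α := Real.rpow_nonneg (norm_nonneg _) _
      have hsecond' : ‖(G (Y + Δ') - G Y) - (G (Y' + Δ') - G Y')‖ ≤
          L2 * (Mg * ‖h‖ + ‖g (z' + h) - g z'‖) * (KX * ‖z - z'‖ ^ α) := by
        refine hsecond.trans ?_
        refine mul_le_mul (mul_le_mul_of_nonneg_left hΔ'b hL2) hYY (norm_nonneg _) (by positivity)
      have e4 : G (X (z + h)) - G (X z) - (G (X (z' + h)) - G (X z'))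
          = (G (Y + Δ) - G (Y + Δ')) + ((G (Y + Δ') - G Y) - (G (Y' + Δ') - G Y')) := by
        rw [e1, e2]; abel
      change ‖G (X (z + h)) - G (X z) - (G (X (z' + h)) - G (X z'))‖ ≤ _
      rw [e4]
      refine (norm_add_le _ _).trans ((add_le_add hfirst hsecond').trans (le_of_eq ?_))
      ring
  -- conclusion
  set C1 : ℝ := C * (Mg + (L1 * K + L2 * Mg * KX)) with hC1
  have hC10 : 0 ≤ C1 := by positivity
  have hCe : ∀ h : F, C * (Mg * ‖h‖ + (L1 * K + L2 * Mg * KX) * ‖h‖) = C1 * ‖h‖ := by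
    intro h; rw [hC1]; ring
  have hA : ∀ x ∈ ball x₀ (ρ / 16), ∀ h, ‖h‖ < ρ / 16 → ‖g (x + h) - g x‖ ≤ C1 * ‖h‖ := by
    intro x hx h hh
    have h1 := (key h (by linarith)).1 x (ball_subset_ball (by linarith) hx)
    rwa [hCe] at h1
  have hB : ∀ x ∈ ball x₀ (ρ / 16), ∀ x' ∈ ball x₀ (ρ / 16), ∀ h, ‖h‖ < ρ / 16 →
      ‖(g (x + h) - g x) - (g (x' + h) - g x')‖ ≤ C1 * ‖h‖ * ‖x - x'‖ ^ α := by
    intro x hx x' hx' h hh
    have h2 : ‖x' - x‖ ≤ ρ / 8 := by
      rw [mem_ball, dist_eq_norm] at hx hx'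
      calc ‖x' - x‖ = ‖(x' - x₀) - (x - x₀)‖ := by congr 1; abel
        _ ≤ _ := (norm_sub_le _ _).trans (by linarith)
    have h1 := (key h (by linarith)).2 x (ball_subset_ball (by linarith) hx) x' h2
    rwa [hCe, norm_sub_rev x' x] at h1
  obtain ⟨g', hg1, hg2⟩ := diff_of_second_diff (g := g) (x₀ := x₀) (r := ρ / 16) (C := C1)
    (α := α) (by positivity) hC10 hα hA hB
  exact ⟨ρ / 16 / 2, by positivity, C1, g', hg1, hg2⟩

end

end Crest.Agent.R246.H2x622
end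

-- ▼ part R246/H2c3_622
section

/-!
R246, block H2c (helper622).  Part 3: prolongation and `C^∞` regularity.
-/

open MeasureTheory Metric Set Filter Topology
open scoped ContDiff

namespace Crest.Agent.R246.H2x622

noncomputable section

set_option linter.unusedSectionVars false

section prolong

variable {F : Type*} [NormedAddCommGroup F] [InnerProductSpace ℝ F]
variable {V : Type*} [NormedAddCommGroup V] [NormedSpace ℝ V]

lemma fderiv_of_affine {A B : Type*} [NormedAddCommGroup A] [NormedSpace ℝ A]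
    [NormedAddCommGroup B] [NormedSpace ℝ B] {H : A → B} (hH : Differentiable ℝ H) {p w : A} {W : B}
    (hline : ∀ t : ℝ, H (p + t • w) = H p + t • W) : fderiv ℝ H p w = W := by
  have h1 : HasDerivAt (fun t : ℝ => p + t • w) w 0 := by
    simpa using ((hasDerivAt_id (0:ℝ)).smul_const w).const_add p
  have h2 : HasFDerivAt H (fderiv ℝ H p) (p + (0:ℝ) • w) := by
    rw [zero_smul, add_zero]
    exact (hH p).hasFDerivAt
  have hd : HasDerivAt (fun t : ℝ => H (p + t • w)) (fderiv ℝ H p w) 0 :=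
    h2.comp_hasDerivAt (0:ℝ) h1
  have hd2 : HasDerivAt (fun t : ℝ => H (p + t • w)) W 0 := by
    simp only [hline]
    simpa using ((hasDerivAt_id (0:ℝ)).smul_const W).const_add (H p)
  exact hd.unique hd2

/-- flip as a continuous linear map -/
def flipC : (F →L[ℝ] F →L[ℝ] V) →L[ℝ] (F →L[ℝ] F →L[ℝ] V) :=
  ((ContinuousLinearMap.flipₗᵢ ℝ F F V).toContinuousLinearEquiv :
    (F →L[ℝ] F →L[ℝ] V) →L[ℝ] (F →L[ℝ] F →L[ℝ] V))

/-- pairing as a continuous linear map -/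
def prodC {W : Type*} [NormedAddCommGroup W] [NormedSpace ℝ W] :
    ((F →L[ℝ] V) × (F →L[ℝ] W)) →L[ℝ] (F →L[ℝ] V × W) :=
  ((ContinuousLinearMap.prodₗᵢ (𝕜 := ℝ) (E := F) (F := V) (G := W) ℝ).toContinuousLinearEquiv :
    ((F →L[ℝ] V) × (F →L[ℝ] W)) →L[ℝ] (F →L[ℝ] V × W))

lemma flip_contDiff : ContDiff ℝ ∞ (fun A : (F →L[ℝ] F →L[ℝ] V) => ContinuousLinearMap.flip A) := by
  have h : ContDiff ℝ ∞ (fun A : (F →L[ℝ] F →L[ℝ] V) => flipC A) := by
    apply ContinuousLinearMap.contDiff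
  exact h

lemma prod_contDiff {W : Type*} [NormedAddCommGroup W] [NormedSpace ℝ W] :
    ContDiff ℝ ∞ (fun A : ((F →L[ℝ] V) × (F →L[ℝ] W)) => ContinuousLinearMap.prod A.1 A.2) := by
  have h : ContDiff ℝ ∞ (fun A : ((F →L[ℝ] V) × (F →L[ℝ] W)) => prodC A) := by
    apply ContinuousLinearMap.contDiff
  exact h

/-- the prolonged nonlinearity -/
def pro (G : V × (F →L[ℝ] V) → (F →L[ℝ] V))
    (p : (V × (F →L[ℝ] V)) × (F →L[ℝ] (V × (F →L[ℝ] V)))) : F →L[ℝ] (V × (F →L[ℝ] V)) :=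
  (G p.1).prod ((fderiv ℝ G p.1 ∘L
    (p.1.2.prod ((ContinuousLinearMap.snd ℝ V (F →L[ℝ] V)) ∘L p.2).flip)).flip)

lemma pro_contDiff {G : V × (F →L[ℝ] V) → (F →L[ℝ] V)} (hG : ContDiff ℝ ∞ G) :
    ContDiff ℝ ∞ (pro G) := by
  have h : ContDiff ℝ (∞ + 1) G := by simpa using hG
  have h2 : ContDiff ℝ ∞ (fderiv ℝ G) := h.fderiv_right (m := ∞) le_rfl
  have h3 : ContDiff ℝ ∞ (fun p : (V × (F →L[ℝ] V)) × (F →L[ℝ] (V × (F →L[ℝ] V))) =>
      ((ContinuousLinearMap.snd ℝ V (F →L[ℝ] V)) ∘L p.2).flip) := by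
    have h4 : ContDiff ℝ ∞ (fun p : (V × (F →L[ℝ] V)) × (F →L[ℝ] (V × (F →L[ℝ] V))) =>
      ((ContinuousLinearMap.snd ℝ V (F →L[ℝ] V)) ∘L p.2)) := contDiff_const.clm_comp contDiff_snd
    exact flip_contDiff.comp h4
  have hf : ContDiff ℝ ∞ (Prod.fst : (V × (F →L[ℝ] V)) × (F →L[ℝ] (V × (F →L[ℝ] V))) → _) :=
    contDiff_fst
  have h5 : ContDiff ℝ ∞ (fun p : (V × (F →L[ℝ] V)) × (F →L[ℝ] (V × (F →L[ℝ] V))) =>
      p.1.2.prod ((ContinuousLinearMap.snd ℝ V (F →L[ℝ] V)) ∘L p.2).flip) := by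
    have h6 := (contDiff_snd.comp hf).prodMk h3
    exact prod_contDiff.comp h6
  have h7 := (h2.comp hf).clm_comp h5
  have h8 := flip_contDiff.comp h7
  have h9 := (hG.comp hf).prodMk h8
  exact prod_contDiff.comp h9

lemma pro_sml {G : V × (F →L[ℝ] V) → (F →L[ℝ] V)} (hG : ContDiff ℝ ∞ G) {β : ℝ} (hβ : 0 ≤ β)
    {p : V × (F →L[ℝ] V)} (hs : Sml β G p) (Q : F →L[ℝ] (V × (F →L[ℝ] V))) :
    Sml β (pro G) (p, Q) := by
  intro P
  set R : F →L[ℝ] (F →L[ℝ] V) := ((ContinuousLinearMap.snd ℝ V (F →L[ℝ] V)) ∘L P) with hR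
  set W : F →L[ℝ] (V × (F →L[ℝ] V)) := (0 : F →L[ℝ] V).prod ((fderiv ℝ G p ∘L
    ((0 : F →L[ℝ] V).prod R.flip)).flip) with hW
  have hline : ∀ t : ℝ, pro G ((p, Q) + t • ((0 : V × (F →L[ℝ] V)), P)) = pro G (p, Q) + t • W := by
    intro t
    have h1 : (p, Q) + t • ((0 : V × (F →L[ℝ] V)), P) = (p, Q + t • P) := by
      rw [Prod.smul_mk, Prod.mk_add_mk, smul_zero, add_zero]
    rw [h1]
    have h2 : ∀ y e : F, (fderiv ℝ G p (p.2 e,
        ((ContinuousLinearMap.snd ℝ V (F →L[ℝ] V)) ∘L (Q + t • P)).flip e)) y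
        = (fderiv ℝ G p (p.2 e, ((ContinuousLinearMap.snd ℝ V (F →L[ℝ] V)) ∘L Q).flip e)) y
          + t • (fderiv ℝ G p (0, R.flip e)) y := by
      intro y e
      have h3 : (p.2 e, ((ContinuousLinearMap.snd ℝ V (F →L[ℝ] V)) ∘L (Q + t • P)).flip e)
          = (p.2 e, ((ContinuousLinearMap.snd ℝ V (F →L[ℝ] V)) ∘L Q).flip e)
            + t • ((0 : V), R.flip e) := by
        rw [Prod.smul_mk, Prod.mk_add_mk, smul_zero, add_zero]
        rfl
      rw [h3, map_add, map_smul]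
      rfl
    refine ContinuousLinearMap.ext fun y => Prod.ext ?_ ?_
    · change G p y = G p y + t • (0 : V)
      rw [smul_zero, add_zero]
    · refine ContinuousLinearMap.ext fun e => ?_
      exact h2 y e
  have hfd := fderiv_of_affine ((pro_contDiff hG).differentiable (by simp)) hline
  rw [hfd]
  refine ContinuousLinearMap.opNorm_le_bound _ (mul_nonneg hβ (norm_nonneg _)) ?_
  intro y
  have hWy : W y = ((0 : V), (fderiv ℝ G p ∘L ((0 : F →L[ℝ] V).prod R.flip)).flip y) := rfl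
  rw [hWy, norm_zero_prod]
  have hR1 : ‖R‖ ≤ ‖P‖ := by
    refine (ContinuousLinearMap.opNorm_comp_le _ _).trans ?_
    have := ContinuousLinearMap.norm_snd_le (𝕜 := ℝ) V (F →L[ℝ] V)
    nlinarith [norm_nonneg P]
  refine ContinuousLinearMap.opNorm_le_bound _ (by positivity) ?_
  intro e
  change ‖(fderiv ℝ G p (0, R.flip e)) y‖ ≤ _
  have h1 := hs (R.flip e)
  have h2 : ‖R.flip e‖ ≤ ‖P‖ * ‖e‖ := by
    refine (ContinuousLinearMap.le_opNorm _ _).trans ?_
    rw [ContinuousLinearMap.opNorm_flip]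
    exact mul_le_mul_of_nonneg_right hR1 (norm_nonneg _)
  calc ‖(fderiv ℝ G p (0, R.flip e)) y‖ ≤ ‖fderiv ℝ G p (0, R.flip e)‖ * ‖y‖ :=
        ContinuousLinearMap.le_opNorm _ _
    _ ≤ (β * (‖P‖ * ‖e‖)) * ‖y‖ := by
        refine mul_le_mul_of_nonneg_right (h1.trans ?_) (norm_nonneg _)
        exact mul_le_mul_of_nonneg_left h2 hβ
    _ = β * ‖P‖ * ‖y‖ * ‖e‖ := by ring

end prolong

end

end Crest.Agent.R246.H2x622
end

-- ▼ part R246/H2c4_622
section

/-!
R246, block H2c (helper622).  Part 4: the prolonged solution and `C^∞` regularity.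
-/

open MeasureTheory Metric Set Filter Topology
open scoped ContDiff

namespace Crest.Agent.R246.H2x622

noncomputable section

set_option linter.unusedSectionVars false

variable {F : Type*} [NormedAddCommGroup F] [InnerProductSpace ℝ F] [FiniteDimensional ℝ F]
  [MeasurableSpace F] [BorelSpace F]
variable {V : Type*} [NormedAddCommGroup V] [NormedSpace ℝ V] [CompleteSpace V]

/-- directional derivative of a test function -/
lemma gradient_dir {ζ : F → ℝ} (hζ : ContDiff ℝ ∞ ζ) (e z : F) :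
    gradient (fun y => fderiv ℝ ζ y e) z = fderiv ℝ (gradient ζ) z e := by
  have h : ContDiff ℝ (∞ + 1) ζ := by simpa using hζ
  have h2 : ContDiff ℝ ∞ (fderiv ℝ ζ) := h.fderiv_right (m := ∞) le_rfl
  have h3 : HasFDerivAt (fderiv ℝ ζ) (fderiv ℝ (fderiv ℝ ζ) z) z :=
    (h2.differentiable (by simp) z).hasFDerivAt
  have h4 : HasFDerivAt (fun y => fderiv ℝ ζ y e) ((fderiv ℝ (fderiv ℝ ζ) z).flip e) z := by
    have := h3.clm_apply (hasFDerivAt_const e z)
    refine this.congr_fderiv ?_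
    ext u
    simp
  have h5 : HasFDerivAt (gradient ζ) (fderiv ℝ (gradient ζ) z) z :=
    ((gradient_contDiff hζ).differentiable (by simp) z).hasFDerivAt
  have hin : ∀ y u : F, inner ℝ (gradient ζ y) u = fderiv ℝ ζ y u := by
    intro y u
    rw [gradient, InnerProductSpace.toDual_symm_apply]
  have h6 : ∀ u : F, inner ℝ (fderiv ℝ (gradient ζ) z e) u = fderiv ℝ (fderiv ℝ ζ) z e u := by
    intro u
    have a1 : HasFDerivAt (fun y => inner ℝ (gradient ζ y) u)
        ((fderiv ℝ (fderiv ℝ ζ) z).flip u) z := by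
      simp only [hin]
      refine (h3.clm_apply (hasFDerivAt_const u z)).congr_fderiv ?_
      ext w
      simp
    have a2 := h5.inner ℝ (hasFDerivAt_const u z)
    have a3 := congrArg (fun L : F →L[ℝ] ℝ => L e) (a2.unique a1)
    simpa [ContinuousLinearMap.flip_apply] using a3
  refine ext_inner_right ℝ fun u => ?_
  rw [h6, gradient, InnerProductSpace.toDual_symm_apply, h4.fderiv, ContinuousLinearMap.flip_apply]
  exact second_derivative_symmetric (fun y => (hζ.differentiable (by simp) y).hasFDerivAt) h3 u e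

lemma sol_fderiv {κ α β₁ : ℝ} (hκ : KB F κ) (hα : 0 < α) (hα1 : α < 1) (hβ : β₁ < bet F κ α)
    {G : V × (F →L[ℝ] V) → (F →L[ℝ] V)} (hG : ContDiff ℝ ∞ G) {v : F → V} {g : F → F →L[ℝ] V}
    {U : Set F} (hS : Sol α G v g U) (hsml : ∀ z ∈ U, Sml β₁ G (v z, g z)) :
    (∀ z ∈ U, HasFDerivAt g (fderiv ℝ g z) z) ∧
    (∀ x ∈ U, ∃ r > 0, ∃ K, ∀ z ∈ ball x r, ∀ z' ∈ ball x r,
      ‖fderiv ℝ g z - fderiv ℝ g z'‖ ≤ K * ‖z - z'‖ ^ α) := by
  constructor
  · intro z hz
    obtain ⟨r, hr, K, g', h1, h2⟩ := sol_c2 hκ hα hα1 hβ hG hS hsml hz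
    exact (h1 z (mem_ball_self hr)).differentiableAt.hasFDerivAt
  · intro x hx
    obtain ⟨r, hr, K, g', h1, h2⟩ := sol_c2 hκ hα hα1 hβ hG hS hsml hx
    refine ⟨r, hr, K, fun z hz z' hz' => ?_⟩
    rw [(h1 z hz).fderiv, (h1 z' hz').fderiv]
    exact h2 z hz z' hz'

theorem sol_prolong {κ α β₁ : ℝ} (hκ : KB F κ) (hα : 0 < α) (hα1 : α < 1) (hβ : β₁ < bet F κ α)
    {G : V × (F →L[ℝ] V) → (F →L[ℝ] V)} (hG : ContDiff ℝ ∞ G) {v : F → V} {g : F → F →L[ℝ] V}
    {U : Set F} (hS : Sol α G v g U) (hsml : ∀ z ∈ U, Sml β₁ G (v z, g z)) :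
    Sol α (pro G) (fun z => (v z, g z)) (fun z => (g z).prod (fderiv ℝ g z)) U := by
  obtain ⟨hgd, hgh⟩ := sol_fderiv hκ hα hα1 hβ hG hS hsml
  have hgc : ContinuousOn g U := hS.cont_g hα
  have hXc : ContinuousOn (fun z => (v z, g z)) U := hS.cont_X hα
  have hg'c : ContinuousOn (fderiv ℝ g) U := by
    intro x hx
    obtain ⟨r, hr, K, hK⟩ := hgh x hx
    exact (continuousAt_of_hol (W := F →L[ℝ] (F →L[ℝ] V)) hα hr hK).continuousWithinAt
  have hGd : Differentiable ℝ G := hG.differentiable (by simp)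
  have hG2 : ContDiff ℝ (∞ + 1) G := by simpa using hG
  have hG'c : Continuous (fderiv ℝ G) := (hG2.fderiv_right (m := ∞) le_rfl).continuous
  have hg1c : ContinuousOn (fun z => (g z).prod (fderiv ℝ g z)) U :=
    (prodC (F := F) (V := V) (W := F →L[ℝ] V)).continuous.comp_continuousOn (hgc.prodMk hg'c)
  refine ⟨hS.op, ?_, ?_, ?_⟩
  · intro z hz
    exact (hS.der z hz).prodMk (hgd z hz)
  · intro x hx
    obtain ⟨r, hr, K, hK⟩ := hgh x hx
    obtain ⟨r', hr', K', hK'⟩ := hS.hol x hx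
    refine ⟨min r r', lt_min hr hr', K' + K, fun z hz z' hz' => ?_⟩
    have h1 := hK z (ball_subset_ball (min_le_left _ _) hz) z' (ball_subset_ball (min_le_left _ _) hz')
    have h2 := hK' z (ball_subset_ball (min_le_right _ _) hz) z'
      (ball_subset_ball (min_le_right _ _) hz')
    have e1 : (g z).prod (fderiv ℝ g z) - (g z').prod (fderiv ℝ g z')
        = (g z - g z').prod (fderiv ℝ g z - fderiv ℝ g z') := rfl
    rw [e1, ContinuousLinearMap.opNorm_prod, Prod.norm_def]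
    refine max_le ?_ ?_
    · change ‖g z - g z'‖ ≤ _
      have := le_trans (norm_nonneg (fderiv ℝ g z - fderiv ℝ g z')) h1
      linarith
    · change ‖fderiv ℝ g z - fderiv ℝ g z'‖ ≤ _
      have := le_trans (norm_nonneg (g z - g z')) h2
      linarith
  · intro ζ hζ hcs hts
    set X : F → V × (F →L[ℝ] V) := fun z => (v z, g z) with hX
    set H : F → F →L[ℝ] V := fun z => g z - G (X z) with hH
    set H' : F → F →L[ℝ] (F →L[ℝ] V) := fun z =>
      fderiv ℝ g z - (fderiv ℝ G (X z)) ∘L ((g z).prod (fderiv ℝ g z)) with hH'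
    have hHd : ∀ z ∈ U, HasFDerivAt H (H' z) z := by
      intro z hz
      have h1 : HasFDerivAt X ((g z).prod (fderiv ℝ g z)) z := (hS.der z hz).prodMk (hgd z hz)
      exact (hgd z hz).sub ((hGd (X z)).hasFDerivAt.comp z h1)
    have hHc : ContinuousOn H U := hgc.sub (hG.continuous.comp_continuousOn hXc)
    have hH'c : ContinuousOn H' U :=
      hg'c.sub ((hG'c.comp_continuousOn hXc).clm_comp hg1c)
    -- the directional equation
    have hdir : ∀ e : F, ∫ z, (H' z e) (gradient ζ z) = 0 := by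
      intro e
      set ζe : F → ℝ := fun y => fderiv ℝ ζ y e with hζe
      have h : ContDiff ℝ (∞ + 1) ζ := by simpa using hζ
      have h2 : ContDiff ℝ ∞ ζe := (h.fderiv_right (m := ∞) le_rfl).clm_apply contDiff_const
      have hsub : tsupport ζe ⊆ tsupport ζ := by
        refine closure_minimal ?_ (isClosed_tsupport ζ)
        intro z hz
        by_contra hz2
        apply hz
        simp only [hζe]
        rw [fderiv_of_notMem_tsupport ℝ hz2]
        rfl
      have hcse : HasCompactSupport ζe := hcs.of_isClosed_subset (isClosed_tsupport _) hsub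
      have h3 := hS.weak ζe h2 hcse (hsub.trans hts)
      have hgr : ∀ z, gradient ζe z = fderiv ℝ (gradient ζ) z e := gradient_dir hζ e
      have hi1 : Integrable (fun z => (H' z e) (gradient ζ z)) :=
        integrable_grad (H := fun z => H' z e) (hH'c.clm_apply continuousOn_const) hζ hcs hts
      have hi2 : Integrable (fun z => H z (fderiv ℝ (gradient ζ) z e)) := by
        have := integrable_grad hHc h2 hcse (hsub.trans hts)
        simpa only [hgr] using this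
      have hi3 : Integrable (fun z => H z (gradient ζ z)) := integrable_grad hHc hζ hcs hts
      have hib := integral_bilinear_hasFDerivAt_right_eq_neg_left_of_integrable
        (μ := (volume : Measure F)) (f := H) (f' := H') (g := gradient ζ)
        (g' := fderiv ℝ (gradient ζ)) (v := e) (B := ContinuousLinearMap.id ℝ (F →L[ℝ] V))
        hi1 hi2 hi3 ?_ ?_
      · simp only [ContinuousLinearMap.id_apply] at hib
        simp only [hgr] at h3
        have h4 : ∫ z, H z (fderiv ℝ (gradient ζ) z e) = 0 := h3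
        rw [h4] at hib
        exact (neg_eq_zero.1 hib.symm)
      · intro x hx
        apply hHd x (hts _)
        have : tsupport (gradient ζ) ⊆ tsupport ζ := by
          refine closure_minimal ?_ (isClosed_tsupport ζ)
          intro z hz
          by_contra hz2
          exact hz (gradient_zero_of_notMem hz2)
        exact this hx
      · intro x _
        exact ((gradient_contDiff hζ).differentiable (by simp) x).hasFDerivAt
    -- symmetry of the second derivative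
    have hsym : ∀ z ∈ U, ∀ y e : F, fderiv ℝ g z y e = fderiv ℝ g z e y := by
      intro z hz y e
      refine second_derivative_symmetric_of_eventually (f := v) (f' := g) ?_ (hgd z hz) y e
      filter_upwards [hS.op.mem_nhds hz] with y hy
      exact hS.der y hy
    set w : F → V × (F →L[ℝ] V) := fun z =>
      ((g z).prod (fderiv ℝ g z) - pro G (X z, (g z).prod (fderiv ℝ g z))) (gradient ζ z) with hw
    have hwint : Integrable w := by
      refine integrable_grad (H := fun z => (g z).prod (fderiv ℝ g z)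
        - pro G (X z, (g z).prod (fderiv ℝ g z))) (hg1c.sub ?_) hζ hcs hts
      exact (pro_contDiff hG).continuous.comp_continuousOn (hXc.prodMk hg1c)
    change ∫ z, w z = 0
    refine Prod.ext ?_ ?_
    · have h1 := (ContinuousLinearMap.fst ℝ V (F →L[ℝ] V)).integral_comp_comm hwint
      change (ContinuousLinearMap.fst ℝ V (F →L[ℝ] V)) (∫ z, w z) = 0
      rw [← h1]
      exact hS.weak ζ hζ hcs hts
    · have h1 := (ContinuousLinearMap.snd ℝ V (F →L[ℝ] V)).integral_comp_comm hwint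
      change (ContinuousLinearMap.snd ℝ V (F →L[ℝ] V)) (∫ z, w z) = 0
      rw [← h1]
      have hwint2 : Integrable (fun z => (ContinuousLinearMap.snd ℝ V (F →L[ℝ] V)) (w z)) :=
        (ContinuousLinearMap.snd ℝ V (F →L[ℝ] V)).integrable_comp hwint
      refine ContinuousLinearMap.ext fun e => ?_
      have h2 := (ContinuousLinearMap.apply ℝ V e).integral_comp_comm hwint2
      change (ContinuousLinearMap.apply ℝ V e) (∫ z, (ContinuousLinearMap.snd ℝ V (F →L[ℝ] V)) (w z))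
        = 0
      rw [← h2, ← hdir e]
      congr 1
      ext z
      by_cases hz : z ∈ U
      · change (fderiv ℝ g z (gradient ζ z)) e
          - (fderiv ℝ G (X z) (g z e, ((ContinuousLinearMap.snd ℝ V (F →L[ℝ] V)) ∘L
            ((g z).prod (fderiv ℝ g z))).flip e)) (gradient ζ z)
          = (fderiv ℝ g z e) (gradient ζ z)
            - (fderiv ℝ G (X z) (g z e, fderiv ℝ g z e)) (gradient ζ z)
        have h3 : ((ContinuousLinearMap.snd ℝ V (F →L[ℝ] V)) ∘L
            ((g z).prod (fderiv ℝ g z))).flip e = fderiv ℝ g z e := by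
          refine ContinuousLinearMap.ext fun y => ?_
          exact hsym z hz y e
        rw [h3, hsym z hz]
      · have h4 : gradient ζ z = 0 := gradient_zero_of_notMem (fun h => hz (hts h))
        simp [hw, h4]

end

end Crest.Agent.R246.H2x622
end

-- ▼ part R246/H2c5_622

/-!
R246, block H2c (helper622).  Part 5: `C^{1,α}` weak solutions of the minimal surface equation with
small gradient are `C^∞`.
-/

open MeasureTheory Metric Set Filter Topology
open scoped ContDiff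

namespace Crest.Agent.R246.H2x622

noncomputable section

set_option linter.unusedSectionVars false

theorem sol_contDiffOn {F : Type} [NormedAddCommGroup F] [InnerProductSpace ℝ F]
    [FiniteDimensional ℝ F] [MeasurableSpace F] [BorelSpace F] {κ α β₁ : ℝ} (hκ : KB F κ)
    (hα : 0 < α) (hα1 : α < 1) (hβ0 : 0 ≤ β₁) (hβ : β₁ < bet F κ α) {U : Set F} (n : ℕ) :
    ∀ {V : Type} [NormedAddCommGroup V] [NormedSpace ℝ V] [CompleteSpace V]
      {G : V × (F →L[ℝ] V) → (F →L[ℝ] V)} (_ : ContDiff ℝ ∞ G) {v : F → V} {g : F → F →L[ℝ] V},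
      Sol α G v g U → (∀ z ∈ U, Sml β₁ G (v z, g z)) → ContDiffOn ℝ n v U := by
  induction n with
  | zero =>
    intro V _ _ _ G hG v g hS hs
    rw [Nat.cast_zero, contDiffOn_zero]
    exact fun z hz => (hS.der z hz).continuousAt.continuousWithinAt
  | succ n ih =>
    intro V _ _ _ G hG v g hS hs
    have h1 := sol_prolong hκ hα hα1 hβ hG hS hs
    have h2 := ih (pro_contDiff hG) h1 (fun z hz => pro_sml hG hβ0 (hs z hz) _)
    have h3 : ContDiffOn ℝ n g U := h2.snd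
    rw [Nat.cast_succ, contDiffOn_succ_iff_fderiv_of_isOpen hS.op]
    refine ⟨fun z hz => (hS.der z hz).differentiableAt.differentiableWithinAt, by simp, ?_⟩
    exact h3.congr (fun z hz => (hS.der z hz).fderiv)

section mse

variable {F : Type} [NormedAddCommGroup F] [InnerProductSpace ℝ F] [FiniteDimensional ℝ F]
  [MeasurableSpace F] [BorelSpace F]

/-- the nonlinearity of the minimal surface equation, gradient part -/
def mseM (q : F →L[ℝ] ℝ) : F →L[ℝ] ℝ := q - (Real.sqrt (1 + ‖q‖ ^ 2))⁻¹ • q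

/-- the nonlinearity of the minimal surface equation -/
def mseG (p : ℝ × (F →L[ℝ] ℝ)) : F →L[ℝ] ℝ := mseM p.2

lemma normsq_contDiff : ContDiff ℝ ∞ (fun q : F →L[ℝ] ℝ => ‖q‖ ^ 2) := by
  have h1 : ContDiff ℝ ∞ (fun q : F →L[ℝ] ℝ => ‖(InnerProductSpace.toDual ℝ F).symm q‖ ^ 2) :=
    (contDiff_norm_sq ℝ).comp (InnerProductSpace.toDual ℝ F).symm.contDiff
  simpa only [LinearIsometryEquiv.norm_map] using h1

lemma mse_s_contDiff : ContDiff ℝ ∞ (fun q : F →L[ℝ] ℝ => (Real.sqrt (1 + ‖q‖ ^ 2))⁻¹) := by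
  have h1 : ContDiff ℝ ∞ (fun q : F →L[ℝ] ℝ => 1 + ‖q‖ ^ 2) := contDiff_const.add normsq_contDiff
  have h2 : ∀ q : F →L[ℝ] ℝ, 1 + ‖q‖ ^ 2 ≠ 0 := fun q => by positivity
  have h3 : ∀ q : F →L[ℝ] ℝ, Real.sqrt (1 + ‖q‖ ^ 2) ≠ 0 := fun q => by positivity
  exact (h1.sqrt h2).inv h3

lemma mseM_contDiff : ContDiff ℝ ∞ (mseM : (F →L[ℝ] ℝ) → (F →L[ℝ] ℝ)) :=
  contDiff_id.sub (mse_s_contDiff.smul contDiff_id)

lemma mseG_contDiff : ContDiff ℝ ∞ (mseG : ℝ × (F →L[ℝ] ℝ) → (F →L[ℝ] ℝ)) :=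
  mseM_contDiff.comp contDiff_snd

lemma fderiv_mseM_zero : fderiv ℝ (mseM : (F →L[ℝ] ℝ) → (F →L[ℝ] ℝ)) 0 = 0 := by
  have h1 : HasFDerivAt (fun q : F →L[ℝ] ℝ => (Real.sqrt (1 + ‖q‖ ^ 2))⁻¹)
      (fderiv ℝ (fun q : F →L[ℝ] ℝ => (Real.sqrt (1 + ‖q‖ ^ 2))⁻¹) 0) 0 :=
    (mse_s_contDiff.differentiable (by simp) _).hasFDerivAt
  have h2 : HasFDerivAt (mseM : (F →L[ℝ] ℝ) → (F →L[ℝ] ℝ)) _ 0 :=
    (hasFDerivAt_id (0 : F →L[ℝ] ℝ)).sub (h1.smul (hasFDerivAt_id (0 : F →L[ℝ] ℝ)))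
  rw [h2.fderiv]
  ext P
  simp

lemma small_of_fderiv_zero {W W' : Type*} [NormedAddCommGroup W] [NormedSpace ℝ W]
    [NormedAddCommGroup W'] [NormedSpace ℝ W'] {G : W → W'} (hG : ContDiff ℝ ∞ G)
    (h0 : ∀ P, fderiv ℝ G 0 P = 0) {β : ℝ} (hβ : 0 < β) :
    ∃ p₀ > 0, ∀ q, ‖q‖ < p₀ → ∀ P, ‖fderiv ℝ G q P‖ ≤ β * ‖P‖ := by
  obtain ⟨δ, hδ, L1, hL1, L2, hL2, hb1, hb2, hb3⟩ := exists_G_bounds hG 0 hβ
  refine ⟨δ, hδ, fun q hq P => ?_⟩
  have h1 := hb2 q (by rwa [mem_ball, dist_zero_right])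
  have h2 : fderiv ℝ G q P = (fderiv ℝ G q - fderiv ℝ G 0) P := by rw [sub_apply, h0, sub_zero]
  rw [h2]
  exact (ContinuousLinearMap.le_opNorm _ _).trans (mul_le_mul_of_nonneg_right h1 (norm_nonneg _))

lemma exists_small_mse {β : ℝ} (hβ : 0 < β) :
    ∃ p₀ > 0, ∀ p : ℝ × (F →L[ℝ] ℝ), ‖p.2‖ < p₀ → Sml β mseG p := by
  obtain ⟨p₀, hp, hp2⟩ := small_of_fderiv_zero (mseM_contDiff (F := F))
    (fun P => by rw [fderiv_mseM_zero]; rfl) hβ
  refine ⟨p₀, hp, fun p hpp P => ?_⟩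
  have h2 : HasFDerivAt (mseG : ℝ × (F →L[ℝ] ℝ) → (F →L[ℝ] ℝ))
      (fderiv ℝ mseM p.2 ∘L ContinuousLinearMap.snd ℝ ℝ (F →L[ℝ] ℝ)) p :=
    ((mseM_contDiff.differentiable (by simp) _).hasFDerivAt).comp p hasFDerivAt_snd
  rw [h2.fderiv]
  exact hp2 p.2 hpp P

variable (F) in
/-- **Regularity for the minimal surface equation**: `C^{1,α}` weak solutions with small gradient
are smooth. -/
theorem mse_smooth {α : ℝ} (hα : 0 < α) (hα1 : α < 1) :
    ∃ p₀ > 0, ∀ (U : Set F) (w : F → ℝ) (g : F → F →L[ℝ] ℝ), IsOpen U →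
      (∀ z ∈ U, HasFDerivAt w (g z) z) →
      (∀ x ∈ U, ∃ r > 0, ∃ K, ∀ z ∈ ball x r, ∀ z' ∈ ball x r, ‖g z - g z'‖ ≤ K * ‖z - z'‖ ^ α) →
      (∀ z ∈ U, ‖g z‖ < p₀) →
      (∀ ζ : F → ℝ, ContDiff ℝ ∞ ζ → HasCompactSupport ζ → tsupport ζ ⊆ U →
        ∫ z, (Real.sqrt (1 + ‖g z‖ ^ 2))⁻¹ * g z (gradient ζ z) = 0) →
      ContDiffOn ℝ ∞ w U := by
  obtain ⟨κ, hκ⟩ := exists_KB F
  have hb := bet_pos hκ hα hα1
  obtain ⟨p₀, hp, hp2⟩ := exists_small_mse (F := F) (half_pos hb)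
  refine ⟨p₀, hp, ?_⟩
  intro U w g hU hder hhol hsm hweak
  have hS : Sol α (mseG : ℝ × (F →L[ℝ] ℝ) → (F →L[ℝ] ℝ)) w g U := by
    refine ⟨hU, hder, hhol, ?_⟩
    intro ζ h1 h2 h3
    rw [← hweak ζ h1 h2 h3]
    congr 1
    ext z
    simp [mseG, mseM]
  rw [contDiffOn_infty]
  intro n
  exact sol_contDiffOn hκ hα hα1 (half_pos hb).le (half_lt_self hb) n mseG_contDiff hS
    (fun z hz => hp2 _ (hsm z hz))

end mse

end

end Crest.Agent.R246.H2x622
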