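import Crest.Agent.R246.Slice_990
import Mathlib.Analysis.Calculus.ContDiff.RCLike
import Mathlib.Analysis.Calculus.BumpFunction.FiniteDimension
import Mathlib.Analysis.Calculus.BumpFunction.InnerProduct
import Mathlib.MeasureTheory.Integral.DominatedConvergence

-- ▼ part R246/JE1_364
section

/-!
Row 246, part JE (1): one-sided positivity of the flux.

If `φ` is weakly superharmonic on `{φ > 0}` then `0 ≤ flux φ η` for every `0`-homogeneous test
function `η` vanishing on `{φ ≤ a ‖x‖}`, `a > 0`.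
-/

set_option autoImplicit false
set_option linter.unusedSectionVars false
noncomputable section
open MeasureTheory Set Filter Topology Metric Measure
open scoped RealInnerProductSpace NNReal

namespace Crest.Agent.R246.JE364

open Crest.Agent.R246.H990

variable {E : Type*} [NormedAddCommGroup E] [InnerProductSpace ℝ E]
variable [FiniteDimensional ℝ E] [MeasurableSpace E] [BorelSpace E]

/-- weak superharmonicity on an open set, tested with Lipschitz functions. -/
def Sup (U : Set E) (φ : E → ℝ) : Prop :=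
  ∀ ψ : E → ℝ, (∃ K, LipschitzWith K ψ) → HasCompactSupport ψ → tsupport ψ ⊆ U →
    (∀ x, 0 ≤ ψ x) → 0 ≤ ∫ x, ⟪gradient φ x, gradient ψ x⟫

/-! ### the Gaussian weight -/

/-- Gaussian weight. -/
def Gw (φ : E → ℝ) (x : E) : ℝ := Real.exp (-(‖x‖ ^ 2 - φ x ^ 2))

omit [FiniteDimensional ℝ E] [MeasurableSpace E] [BorelSpace E] in
theorem Gw_pos (φ : E → ℝ) (x : E) : 0 < Gw φ x := Real.exp_pos _

theorem sq_le_of_nullCone {φ : E → ℝ} (h : NullCone φ) (x : E) : φ x ^ 2 ≤ ‖x‖ ^ 2 := by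
  rw [← sq_abs]
  exact pow_le_pow_left₀ (abs_nonneg _) (h.abs_le x) 2

theorem Gw_le_one {φ : E → ℝ} (h : NullCone φ) (x : E) : Gw φ x ≤ 1 := by
  unfold Gw
  rw [Real.exp_le_one_iff]
  linarith [sq_le_of_nullCone h x]

theorem Gw_le {φ : E → ℝ} (h : NullCone φ) : ∃ b : ℝ, 0 < b ∧ ∀ x, Gw φ x ≤
    Real.exp (-b * ‖x‖ ^ 2) := by
  obtain ⟨c, hc0, hc1, hc⟩ := h.bd
  refine ⟨1 - c ^ 2, by nlinarith, fun x => ?_⟩
  unfold Gw
  apply Real.exp_le_exp.2
  have h1 : φ x ^ 2 ≤ (c * ‖x‖) ^ 2 := by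
    rw [← sq_abs]
    exact pow_le_pow_left₀ (abs_nonneg _) (hc x) 2
  nlinarith

theorem exp_sub_le {u v : ℝ} (hu : u ≤ 0) (hv : v ≤ 0) :
    |Real.exp u - Real.exp v| ≤ |u - v| := by
  wlog h : v ≤ u generalizing u v
  · rw [abs_sub_comm, abs_sub_comm u v]
    exact this hv hu (le_of_not_ge h)
  rw [abs_of_nonneg (sub_nonneg.2 (Real.exp_le_exp.2 h)), abs_of_nonneg (sub_nonneg.2 h)]
  have h1 : Real.exp v = Real.exp u * Real.exp (v - u) := by
    rw [← Real.exp_add]; congr 1; ring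
  have h2 := Real.add_one_le_exp (v - u)
  have h3 : Real.exp u ≤ 1 := Real.exp_le_one_iff.2 hu
  have h4 : 0 < Real.exp u := Real.exp_pos u
  rw [h1]
  nlinarith

theorem Gw_sub_le {φ : E → ℝ} (h : NullCone φ) (a b : E) :
    |Gw φ a - Gw φ b| ≤ 2 * (‖a‖ + ‖b‖) * ‖a - b‖ := by
  unfold Gw
  have h1 := sq_le_of_nullCone h a
  have h2 := sq_le_of_nullCone h b
  refine (exp_sub_le (by linarith) (by linarith)).trans ?_
  have e : -(‖a‖ ^ 2 - φ a ^ 2) - -(‖b‖ ^ 2 - φ b ^ 2) =
      (φ a + φ b) * (φ a - φ b) - (‖a‖ + ‖b‖) * (‖a‖ - ‖b‖) := by ring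
  rw [e]
  have h3 : |φ a + φ b| ≤ ‖a‖ + ‖b‖ :=
    (abs_add_le _ _).trans (add_le_add (h.abs_le a) (h.abs_le b))
  have h4 : |φ a - φ b| ≤ ‖a - b‖ := lip_abs h.lip a b
  have h5 : |‖a‖ - ‖b‖| ≤ ‖a - b‖ := abs_norm_sub_norm_le a b
  have h6 : 0 ≤ ‖a‖ + ‖b‖ := by positivity
  calc |(φ a + φ b) * (φ a - φ b) - (‖a‖ + ‖b‖) * (‖a‖ - ‖b‖)|
      ≤ |(φ a + φ b) * (φ a - φ b)| + |(‖a‖ + ‖b‖) * (‖a‖ - ‖b‖)| := abs_sub _ _
    _ = |φ a + φ b| * |φ a - φ b| + (‖a‖ + ‖b‖) * |‖a‖ - ‖b‖| := by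
        rw [abs_mul, abs_mul, abs_of_nonneg h6]
    _ ≤ (‖a‖ + ‖b‖) * ‖a - b‖ + (‖a‖ + ‖b‖) * ‖a - b‖ := by gcongr
    _ = 2 * (‖a‖ + ‖b‖) * ‖a - b‖ := by ring

theorem hasFDerivAt_Gw {φ : E → ℝ} {x : E} (hd : DifferentiableAt ℝ φ x) :
    HasFDerivAt (Gw φ) (Gw φ x • (-(2 • innerSL ℝ x - (2 * φ x) • fderiv ℝ φ x))) x := by
  have h1 : HasFDerivAt (fun x : E => ‖x‖ ^ 2) (2 • (innerSL ℝ x)) x := by
    have := (hasFDerivAt_id x).norm_sq
    simpa using this
  have h2 : HasFDerivAt (fun x : E => φ x ^ 2) ((2 * φ x) • fderiv ℝ φ x) x := by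
    have := hd.hasFDerivAt.pow 2
    simpa using this
  have h3 := ((h1.sub h2).neg).exp
  exact h3

/-- the derivative of the Gaussian weight along the null direction vanishes. -/
theorem fderiv_Gw_grad {φ : E → ℝ} (h : NullCone φ) {x : E} (hd : DifferentiableAt ℝ φ x)
    (hg : ‖fderiv ℝ φ x‖ = 1) :
    (Gw φ x • (-(2 • innerSL ℝ x - (2 * φ x) • fderiv ℝ φ x))) (gradient φ x) = 0 := by
  have e1 : fderiv ℝ φ x (gradient φ x) = 1 := by
    rw [← cv_inner (fderiv ℝ φ x) (gradient φ x), gradient_eq_cv, real_inner_self_eq_norm_sq,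
      cv_norm, hg, one_pow]
  have e2 : ⟪x, gradient φ x⟫ = φ x := by
    rw [real_inner_comm, gradient_eq_cv, cv_inner, h.euler hd.hasFDerivAt]
  simp only [_root_.smul_apply, _root_.neg_apply, _root_.sub_apply, innerSL_apply_apply,
    smul_eq_mul, nsmul_eq_mul, e1, e2]
  push_cast
  ring

/-! ### the radial cut-off -/

/-- fixed bump. -/
def kb (E : Type*) [NormedAddCommGroup E] [InnerProductSpace ℝ E] : ContDiffBump (0 : E) :=
  ⟨1, 2, one_pos, one_lt_two⟩

/-- radial cut-off `κ_R`. -/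
def kap' (R : ℝ) (x : E) : ℝ := kb E (R⁻¹ • x) - kb E (R • x)

theorem kb_contDiff : ContDiff ℝ 1 (kb E : E → ℝ) := (kb E).contDiff

theorem kb_lip : ∃ C : ℝ≥0, LipschitzWith C (kb E : E → ℝ) :=
  ContDiff.lipschitzWith_of_hasCompactSupport (kb E).hasCompactSupport kb_contDiff one_ne_zero

theorem kb_one {x : E} (hx : ‖x‖ ≤ 1) : kb E x = 1 :=
  (kb E).one_of_mem_closedBall (by simpa [kb] using hx)

theorem kb_zero {x : E} (hx : 2 ≤ ‖x‖) : kb E x = 0 :=
  (kb E).zero_of_le_dist (by simpa [kb] using hx)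

theorem kap'_contDiff (R : ℝ) : ContDiff ℝ 1 (kap' R : E → ℝ) := by
  unfold kap'
  exact (kb_contDiff.comp (contDiff_const_smul _)).sub (kb_contDiff.comp (contDiff_const_smul _))

theorem norm_smul_R {R : ℝ} (hR : 0 < R) (x : E) : ‖R • x‖ = R * ‖x‖ := by
  rw [norm_smul, Real.norm_of_nonneg hR.le]

theorem kap'_nonneg {R : ℝ} (hR : 2 ≤ R) (x : E) : 0 ≤ kap' R x := by
  have hR0 : 0 < R := by linarith
  unfold kap'
  by_cases hx : 2 ≤ ‖R • x‖
  · rw [kb_zero hx, sub_zero]; exact (kb E).nonneg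
  · push Not at hx
    rw [norm_smul_R hR0] at hx
    have : ‖R⁻¹ • x‖ ≤ 1 := by
      rw [norm_smul_R (inv_pos.2 hR0), inv_mul_le_iff₀ hR0]
      nlinarith [norm_nonneg x]
    rw [kb_one this]
    linarith [(kb E).le_one (x := R • x)]

theorem kap'_le_one (R : ℝ) (x : E) : kap' R x ≤ 1 := by
  unfold kap'
  linarith [(kb E).le_one (x := R⁻¹ • x), (kb E).nonneg (x := R • x)]

theorem kap'_small {R : ℝ} (hR : 2 ≤ R) {x : E} (hx : ‖x‖ ≤ R⁻¹) : kap' R x = 0 := by
  have hR0 : 0 < R := by linarith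
  have h1 : ‖R • x‖ ≤ 1 := by
    rw [norm_smul_R hR0]
    calc R * ‖x‖ ≤ R * R⁻¹ := by gcongr
      _ = 1 := mul_inv_cancel₀ hR0.ne'
  have h2 : ‖R⁻¹ • x‖ ≤ 1 := by
    rw [norm_smul_R (inv_pos.2 hR0)]
    have : R⁻¹ ≤ 1 := inv_le_one_of_one_le₀ (by linarith)
    have h3 : 0 < R⁻¹ := inv_pos.2 hR0
    nlinarith [norm_nonneg x]
  unfold kap'
  rw [kb_one h1, kb_one h2, sub_self]

theorem kap'_large {R : ℝ} (hR : 2 ≤ R) {x : E} (hx : 2 * R ≤ ‖x‖) : kap' R x = 0 := by
  have hR0 : 0 < R := by linarith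
  have h1 : 2 ≤ ‖R • x‖ := by
    rw [norm_smul_R hR0]
    nlinarith
  have h2 : 2 ≤ ‖R⁻¹ • x‖ := by
    rw [norm_smul_R (inv_pos.2 hR0), le_inv_mul_iff₀ hR0]
    linarith
  unfold kap'
  rw [kb_zero h1, kb_zero h2, sub_self]

theorem kap'_lip {R : ℝ} (hR : 2 ≤ R) : ∃ L : ℝ, 0 ≤ L ∧ ∀ a b : E,
    |kap' R a - kap' R b| ≤ L * ‖a - b‖ := by
  obtain ⟨C, hC⟩ := kb_lip (E := E)
  have hR0 : 0 < R := by linarith
  refine ⟨C * R⁻¹ + C * R, by positivity, fun a b => ?_⟩
  have h1 := hC.dist_le_mul (R⁻¹ • a) (R⁻¹ • b)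
  have h2 := hC.dist_le_mul (R • a) (R • b)
  rw [Real.dist_eq, dist_eq_norm, ← smul_sub, norm_smul_R (inv_pos.2 hR0)] at h1
  rw [Real.dist_eq, dist_eq_norm, ← smul_sub, norm_smul_R hR0] at h2
  unfold kap'
  have e : kb E (R⁻¹ • a) - kb E (R • a) - (kb E (R⁻¹ • b) - kb E (R • b)) =
    (kb E (R⁻¹ • a) - kb E (R⁻¹ • b)) - (kb E (R • a) - kb E (R • b)) := by ring
  rw [e]
  refine (abs_sub _ _).trans ?_
  linarith

/-- uniform bound for the gradient of the cut-off. -/
theorem kap'_fderiv_le : ∃ C : ℝ, 0 ≤ C ∧ ∀ R : ℝ, 2 ≤ R → ∀ x : E, x ≠ 0 →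
    ‖fderiv ℝ (kap' R) x‖ ≤ C * (1 + 2 * ‖x‖⁻¹) := by
  obtain ⟨C, hC⟩ := kb_lip (E := E)
  refine ⟨C, C.2, fun R hR x hx => ?_⟩
  have hR0 : 0 < R := by linarith
  have hd : Differentiable ℝ (kb E : E → ℝ) := kb_contDiff.differentiable (by norm_num)
  have hs : ∀ s : ℝ, HasFDerivAt (fun x : E => kb E (s • x))
      ((fderiv ℝ (kb E : E → ℝ) (s • x)).comp (s • ContinuousLinearMap.id ℝ E)) x := by
    intro s
    have h1 : HasFDerivAt (fun x : E => s • x) (s • ContinuousLinearMap.id ℝ E) x :=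
      (hasFDerivAt_id x).const_smul s
    exact (hd (s • x)).hasFDerivAt.comp x h1
  have hb : ∀ y : E, ‖fderiv ℝ (kb E : E → ℝ) y‖ ≤ C := fun y =>
    norm_fderiv_le_of_lipschitz ℝ hC
  have hns : ∀ s : ℝ, 0 < s → ‖(fderiv ℝ (kb E : E → ℝ) (s • x)).comp
      (s • ContinuousLinearMap.id ℝ E)‖ ≤ ‖fderiv ℝ (kb E : E → ℝ) (s • x)‖ * s := by
    intro s hs'
    refine (ContinuousLinearMap.opNorm_comp_le _ _).trans ?_
    gcongr
    rw [norm_smul, Real.norm_of_nonneg hs'.le]
    have := ContinuousLinearMap.norm_id_le (𝕜 := ℝ) (E := E)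
    nlinarith
  have hsub : fderiv ℝ (kap' R) x = (fderiv ℝ (kb E : E → ℝ) (R⁻¹ • x)).comp
      (R⁻¹ • ContinuousLinearMap.id ℝ E) - (fderiv ℝ (kb E : E → ℝ) (R • x)).comp
      (R • ContinuousLinearMap.id ℝ E) := ((hs R⁻¹).sub (hs R)).fderiv
  rw [hsub]
  refine (norm_sub_le _ _).trans ?_
  have hxn : 0 < ‖x‖ := norm_pos_iff.2 hx
  have h1 : ‖(fderiv ℝ (kb E : E → ℝ) (R⁻¹ • x)).comp (R⁻¹ • ContinuousLinearMap.id ℝ E)‖ ≤
      C * 1 := by
    refine (hns _ (inv_pos.2 hR0)).trans ?_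
    gcongr
    · exact hb _
    · exact inv_le_one_of_one_le₀ (by linarith)
  have h2 : ‖(fderiv ℝ (kb E : E → ℝ) (R • x)).comp (R • ContinuousLinearMap.id ℝ E)‖ ≤
      C * (2 * ‖x‖⁻¹) := by
    refine (hns _ hR0).trans ?_
    by_cases hx2 : 2 < ‖R • x‖
    · have : fderiv ℝ (kb E : E → ℝ) (R • x) = 0 := by
        have : (kb E : E → ℝ) =ᶠ[𝓝 (R • x)] fun _ => (0 : ℝ) := by
          filter_upwards [(continuous_norm.tendsto (R • x)).eventually (lt_mem_nhds hx2)] with y hy
          exact kb_zero hy.le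
        rw [this.fderiv_eq]; simp
      rw [this, norm_zero, zero_mul]
      positivity
    · push Not at hx2
      rw [norm_smul_R hR0] at hx2
      have : R ≤ 2 * ‖x‖⁻¹ := by
        rw [← div_eq_mul_inv, le_div_iff₀ hxn]; exact hx2
      gcongr
      exact hb _
  calc _ ≤ C * 1 + C * (2 * ‖x‖⁻¹) := add_le_add h1 h2
    _ = C * (1 + 2 * ‖x‖⁻¹) := by ring

/-- eventually the cut-off is locally constant one. -/
theorem kap'_eventually {x : E} (hx : x ≠ 0) : ∀ᶠ R : ℝ in atTop,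
    kap' R x = 1 ∧ fderiv ℝ (kap' R) x = 0 := by
  have hxn : 0 < ‖x‖ := norm_pos_iff.2 hx
  filter_upwards [eventually_gt_atTop ‖x‖, eventually_gt_atTop (2 / ‖x‖),
    eventually_gt_atTop 0] with R h1 h2 h3
  have h4 : kap' R =ᶠ[𝓝 x] fun _ : E => (1 : ℝ) := by
    have a1 : ∀ᶠ y in 𝓝 x, ‖y‖ < R := (continuous_norm.tendsto x).eventually (gt_mem_nhds h1)
    have a2 : ∀ᶠ y in 𝓝 x, 2 / R < ‖y‖ := by
      refine (continuous_norm.tendsto x).eventually (lt_mem_nhds ?_)
      rw [div_lt_iff₀ h3]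
      rw [div_lt_iff₀ hxn] at h2
      linarith
    filter_upwards [a1, a2] with y hy1 hy2
    unfold kap'
    rw [kb_one, kb_zero, sub_zero]
    · rw [norm_smul_R h3]
      rw [div_lt_iff₀ h3] at hy2
      linarith
    · rw [norm_smul_R (inv_pos.2 h3), inv_mul_le_iff₀ h3]
      linarith
  exact ⟨h4.self_of_nhds, by rw [h4.fderiv_eq]; simp⟩

end Crest.Agent.R246.JE364
end
end

-- ▼ part R246/JE2_364
section

/-!
Row 246, part JE (2): one-sided positivity of the flux.
-/

set_option autoImplicit false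
set_option linter.unusedSectionVars false
noncomputable section
open MeasureTheory Set Filter Topology Metric Measure
open scoped RealInnerProductSpace NNReal

namespace Crest.Agent.R246.JE364

open Crest.Agent.R246.H990

variable {E : Type*} [NormedAddCommGroup E] [InnerProductSpace ℝ E]
variable [FiniteDimensional ℝ E] [MeasurableSpace E] [BorelSpace E]

/-- the truncated test function. -/
def Psi (φ η : E → ℝ) (R : ℝ) (x : E) : ℝ := Gw φ x * kap' R x * η x

theorem Psi_nonneg {φ η : E → ℝ} (hη : ∀ x, 0 ≤ η x) {R : ℝ} (hR : 2 ≤ R) (x : E) :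
    0 ≤ Psi φ η R x :=
  mul_nonneg (mul_nonneg (Gw_pos φ x).le (kap'_nonneg hR x)) (hη x)

theorem tsupport_Psi {φ η : E → ℝ} (h : NullCone φ) {a : ℝ}
    (h0 : ∀ x, φ x ≤ a * ‖x‖ → η x = 0) {R : ℝ} (hR : 2 ≤ R) :
    tsupport (Psi φ η R) ⊆ {x | a * ‖x‖ ≤ φ x} ∩ {x | R⁻¹ ≤ ‖x‖} ∩ closedBall 0 (2 * R) := by
  have hφc := h.lip.continuous
  refine closure_minimal ?_ (((isClosed_le (by fun_prop) hφc).inter
    (isClosed_le continuous_const continuous_norm)).inter isClosed_closedBall)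
  intro x hx
  have h1 : kap' R x ≠ 0 := by
    intro h; apply hx; simp [Psi, h]
  have h2 : η x ≠ 0 := by
    intro h; apply hx; simp [Psi, h]
  refine ⟨⟨?_, ?_⟩, ?_⟩
  · by_contra hc
    exact h2 (h0 x (le_of_lt (not_le.1 hc)))
  · by_contra hc
    exact h1 (kap'_small hR (le_of_lt (not_le.1 hc)))
  · rw [mem_closedBall_zero_iff]
    by_contra hc
    exact h1 (kap'_large hR (le_of_lt (not_le.1 hc)))

theorem Psi_lip {φ η : E → ℝ} (h : NullCone φ) (hη : Test η) {R : ℝ} (hR : 2 ≤ R) :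
    ∃ K, LipschitzWith K (Psi φ η R) := by
  have hR0 : 0 < R := by linarith
  obtain ⟨L, hL0, hL⟩ := kap'_lip (E := E) hR
  obtain ⟨K, hK0, hK⟩ := hη.sub_le
  have hG : ∀ a b : E, ‖a‖ ≤ 2 * R → |Gw φ a - Gw φ b| ≤ (8 * R + 2) * ‖a - b‖ := by
    intro a b ha
    rcases le_or_gt 1 ‖a - b‖ with h1 | h1
    · have g1 := Gw_pos φ a
      have g2 := Gw_pos φ b
      have g3 := Gw_le_one h a
      have g4 := Gw_le_one h b
      have : |Gw φ a - Gw φ b| ≤ 1 := abs_le.2 ⟨by linarith, by linarith⟩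
      nlinarith
    · have hb : ‖b‖ ≤ 2 * R + 1 := by
        have := norm_sub_norm_le b a
        rw [norm_sub_rev] at this
        linarith
      refine (Gw_sub_le h a b).trans ?_
      have : 2 * (‖a‖ + ‖b‖) ≤ 8 * R + 2 := by linarith
      gcongr
  have hη1 : ∀ x, |η x| ≤ 1 := fun x => abs_le.2 ⟨by linarith [hη.nonneg x], hη.le_one x⟩
  set C : ℝ := K * R + L + (8 * R + 2) + L with hC
  have hC0 : 0 ≤ C := by positivity
  -- the one-sided estimate
  have key : ∀ a b : E, kap' R a ≠ 0 → |Psi φ η R a - Psi φ η R b| ≤ C * ‖a - b‖ := by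
    intro a b ha
    have ha1 : R⁻¹ ≤ ‖a‖ := by
      by_contra hc
      exact ha (kap'_small hR (le_of_lt (not_le.1 hc)))
    have ha2 : ‖a‖ ≤ 2 * R := by
      by_contra hc
      exact ha (kap'_large hR (le_of_lt (not_le.1 hc)))
    have hapos : 0 < ‖a‖ := lt_of_lt_of_le (inv_pos.2 hR0) ha1
    have hane : a ≠ 0 := norm_pos_iff.1 hapos
    have ka0 := kap'_nonneg hR a
    have ka1 := kap'_le_one R a
    have kb0 := kap'_nonneg hR b
    have kb1 := kap'_le_one R b
    have g1 := Gw_pos φ a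
    have g3 := Gw_le_one h a
    have g2 := Gw_pos φ b
    have g4 := Gw_le_one h b
    rcases eq_or_ne b 0 with rfl | hb
    · have hk0 : kap' R (0 : E) = 0 := kap'_small hR (by rw [norm_zero]; positivity)
      have e : Psi φ η R (0 : E) = 0 := by simp [Psi, hk0]
      rw [e, sub_zero]
      have h1 : |Psi φ η R a| ≤ kap' R a := by
        unfold Psi
        rw [abs_mul, abs_mul, abs_of_pos g1, abs_of_nonneg ka0]
        calc Gw φ a * kap' R a * |η a| ≤ 1 * kap' R a * 1 := by gcongr; exact hη1 a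
          _ = kap' R a := by ring
      have h2 := hL a 0
      rw [hk0, sub_zero, abs_of_nonneg ka0] at h2
      refine h1.trans (h2.trans ?_)
      have : L ≤ C := by
        have : 0 ≤ K * R := by positivity
        linarith
      gcongr
    · have e : Psi φ η R a - Psi φ η R b = Gw φ a * kap' R a * (η a - η b) +
          (kap' R a * (Gw φ a - Gw φ b) + (kap' R a - kap' R b) * Gw φ b) * η b := by
        unfold Psi; ring
      rw [e]
      have t1 : |Gw φ a * kap' R a * (η a - η b)| ≤ K * R * ‖a - b‖ := by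
        rw [abs_mul, abs_mul, abs_of_pos g1, abs_of_nonneg ka0]
        have h1 := hK a b hane hb
        have h2 : K / ‖a‖ ≤ K * R := by
          rw [div_le_iff₀ hapos]
          have : 1 ≤ R * ‖a‖ := by
            rw [inv_le_iff_one_le_mul₀ hR0] at ha1
            linarith
          nlinarith
        calc Gw φ a * kap' R a * |η a - η b| ≤ 1 * 1 * (K / ‖a‖ * ‖a - b‖) := by gcongr
          _ ≤ K * R * ‖a - b‖ := by rw [one_mul, one_mul]; gcongr
      have t2 : |(kap' R a * (Gw φ a - Gw φ b) + (kap' R a - kap' R b) * Gw φ b) * η b| ≤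
          ((8 * R + 2) + L) * ‖a - b‖ := by
        rw [abs_mul]
        have h1 : |kap' R a * (Gw φ a - Gw φ b)| ≤ (8 * R + 2) * ‖a - b‖ := by
          rw [abs_mul, abs_of_nonneg ka0]
          calc kap' R a * |Gw φ a - Gw φ b| ≤ 1 * ((8 * R + 2) * ‖a - b‖) := by
                gcongr; exact hG a b ha2
            _ = _ := one_mul _
        have h2 : |(kap' R a - kap' R b) * Gw φ b| ≤ L * ‖a - b‖ := by
          rw [abs_mul, abs_of_pos g2]
          calc |kap' R a - kap' R b| * Gw φ b ≤ (L * ‖a - b‖) * 1 := by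
                gcongr; exact hL a b
            _ = _ := mul_one _
        have h3 := (abs_add_le (kap' R a * (Gw φ a - Gw φ b))
          ((kap' R a - kap' R b) * Gw φ b)).trans (add_le_add h1 h2)
        calc _ ≤ ((8 * R + 2) * ‖a - b‖ + L * ‖a - b‖) * 1 := by
              gcongr; exact hη1 b
          _ = _ := by ring
      refine (abs_add_le _ _).trans ((add_le_add t1 t2).trans ?_)
      rw [hC, ← add_mul]
      have : K * R + (8 * R + 2 + L) ≤ K * R + L + (8 * R + 2) + L := by linarith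
      gcongr
  refine ⟨C.toNNReal, LipschitzWith.of_dist_le_mul fun a b => ?_⟩
  rw [Real.coe_toNNReal _ hC0, Real.dist_eq, dist_eq_norm]
  by_cases ha : kap' R a = 0
  · by_cases hb : kap' R b = 0
    · have e1 : Psi φ η R a = 0 := by simp [Psi, ha]
      have e2 : Psi φ η R b = 0 := by simp [Psi, hb]
      rw [e1, e2, sub_zero, abs_zero]
      positivity
    · rw [abs_sub_comm, norm_sub_rev]
      exact key b a hb
  · exact key a b ha

/-- the derivative of the truncated test function along the null direction. -/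
theorem fderiv_Psi {φ η : E → ℝ} (h : NullCone φ) (R : ℝ) {x : E}
    (hd : DifferentiableAt ℝ φ x) (hg : ‖fderiv ℝ φ x‖ = 1) (hη : DifferentiableAt ℝ η x) :
    ⟪gradient φ x, gradient (Psi φ η R) x⟫ =
      Gw φ x * (kap' R x * fderiv ℝ η x (gradient φ x) +
        η x * fderiv ℝ (kap' R) x (gradient φ x)) := by
  have h1 := hasFDerivAt_Gw hd
  have h2 : HasFDerivAt (kap' R : E → ℝ) (fderiv ℝ (kap' R) x) x :=
    (((kap'_contDiff (E := E) R).differentiable (by norm_num)) x).hasFDerivAt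
  have h3 := (h1.mul h2).mul hη.hasFDerivAt
  have e1 : ⟪gradient φ x, gradient (Psi φ η R) x⟫ =
      fderiv ℝ (Psi φ η R) x (gradient φ x) := by
    rw [real_inner_comm, gradient_eq_cv (Psi φ η R), cv_inner]
  rw [e1]
  have h4 : fderiv ℝ (Psi φ η R) x = (Gw φ x * kap' R x) • fderiv ℝ η x + η x •
      (Gw φ x • fderiv ℝ (kap' R) x + kap' R x •
        (Gw φ x • (-(2 • innerSL ℝ x - (2 * φ x) • fderiv ℝ φ x)))) := h3.fderiv
  have h5 := fderiv_Gw_grad h hd hg
  set B : E →L[ℝ] ℝ := Gw φ x • (-(2 • innerSL ℝ x - (2 * φ x) • fderiv ℝ φ x)) with hB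
  rw [h4]
  simp only [_root_.add_apply, _root_.smul_apply, smul_eq_mul, h5]
  ring

/-- integrability of the dominating function. -/
theorem integrable_dom (hn : 2 ≤ Module.finrank ℝ E) {b : ℝ} (hb : 0 < b) (C : ℝ) :
    Integrable (fun x : E => Real.exp (-b * ‖x‖ ^ 2) * (C * (1 + 2 * ‖x‖⁻¹)))
      (volume : Measure E) := by
  have hnt : Nontrivial E := by
    apply Module.nontrivial_of_finrank_pos (R := ℝ); omega
  obtain ⟨m, hm⟩ : ∃ m, Module.finrank ℝ E = m + 2 := ⟨_, (Nat.sub_add_cancel hn).symm⟩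
  refine (integrable_fun_norm_addHaar (E := E) volume
    (f := fun t : ℝ => Real.exp (-b * t ^ 2) * (C * (1 + 2 * t⁻¹)))).2 ?_
  have h1 := (integrableOn_gauss (m + 1) hb).const_mul C
  have h2 := (integrableOn_gauss m hb).const_mul (2 * C)
  have h3 : IntegrableOn (fun t : ℝ => C * (t ^ (m + 1) * Real.exp (-b * t ^ 2)) +
      2 * C * (t ^ m * Real.exp (-b * t ^ 2))) (Ioi 0) := Integrable.add h1 h2
  refine h3.congr_fun (fun t ht => ?_) measurableSet_Ioi
  have ht0 : t ≠ 0 := ne_of_gt ht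
  have e : Module.finrank ℝ E - 1 = m + 1 := by omega
  simp only [smul_eq_mul]
  rw [e, pow_succ]
  field_simp

/-- **One-sided positivity.** -/
theorem flux_nonneg (hn : 2 ≤ Module.finrank ℝ E) {φ : E → ℝ} (h : NullCone φ)
    (hS : Sup {x | 0 < φ x} φ) {η : E → ℝ} (hη : Test η) {a : ℝ} (ha : 0 < a)
    (h0 : ∀ x, φ x ≤ a * ‖x‖ → η x = 0) : 0 ≤ flux φ η := by
  have hnt : Nontrivial E := by
    apply Module.nontrivial_of_finrank_pos (R := ℝ); omega
  obtain ⟨K, hK0, hK⟩ := hη.fderiv_le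
  obtain ⟨C, hC0, hC⟩ := kap'_fderiv_le (E := E)
  obtain ⟨b, hb, hGb⟩ := Gw_le h
  have hne : ∀ᵐ x : E, x ≠ 0 := by
    have : volume ({0} : Set E) = 0 := measure_singleton 0
    exact measure_eq_zero_iff_ae_notMem.1 this
  have hpos : ∀ j : ℕ, 0 ≤ ∫ x, ⟪gradient φ x, gradient (Psi φ η ((j : ℝ) + 2)) x⟫ := by
    intro j
    have hR : (2 : ℝ) ≤ (j : ℝ) + 2 := by have := Nat.cast_nonneg (α := ℝ) j; linarith
    have hR0 : (0 : ℝ) < (j : ℝ) + 2 := by linarith
    have hts := tsupport_Psi h h0 hR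
    refine hS _ (Psi_lip h hη hR) ?_ ?_ (Psi_nonneg hη.nonneg hR)
    · exact (isCompact_closedBall (0 : E) (2 * ((j : ℝ) + 2))).of_isClosed_subset
        (isClosed_tsupport _) (hts.trans inter_subset_right)
    · intro x hx
      obtain ⟨⟨h1, h2⟩, -⟩ := hts hx
      have h3 : 0 < ‖x‖ := lt_of_lt_of_le (inv_pos.2 hR0) h2
      exact lt_of_lt_of_le (mul_pos ha h3) h1
  have hlim : Tendsto (fun j : ℕ => ∫ x, ⟪gradient φ x, gradient (Psi φ η ((j : ℝ) + 2)) x⟫)
      atTop (𝓝 (flux φ η)) := by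
    unfold flux
    refine tendsto_integral_of_dominated_convergence
      (fun x => Real.exp (-b * ‖x‖ ^ 2) * ((K + C) * (1 + 2 * ‖x‖⁻¹))) ?_
      (integrable_dom hn hb _) ?_ ?_
    · intro j
      have : (fun x => ⟪gradient φ x, gradient (Psi φ η ((j : ℝ) + 2)) x⟫) =
          fun x => fderiv ℝ (Psi φ η ((j : ℝ) + 2)) x (gradient φ x) := by
        funext x
        rw [real_inner_comm, gradient_eq_cv (Psi φ η _), cv_inner]
      rw [this]
      exact (measurable_fD φ _).aestronglyMeasurable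
    · intro j
      have hR : (2 : ℝ) ≤ (j : ℝ) + 2 := by have := Nat.cast_nonneg (α := ℝ) j; linarith
      filter_upwards [hne, h.lip.ae_differentiableAt, h.grad, hη.ae_differentiableAt]
        with x hx hd hg hηd
      rw [fderiv_Psi h _ hd hg (hηd hx), Real.norm_eq_abs, abs_mul, abs_of_pos (Gw_pos φ x)]
      have hxn : 0 < ‖x‖ := norm_pos_iff.2 hx
      have hgr : ‖gradient φ x‖ ≤ 1 := gradient_norm_le h.lip x
      have t1 : |kap' ((j : ℝ) + 2) x * fderiv ℝ η x (gradient φ x)| ≤ K * ‖x‖⁻¹ := by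
        rw [abs_mul, abs_of_nonneg (kap'_nonneg hR x)]
        have h4 := ContinuousLinearMap.le_opNorm (fderiv ℝ η x) (gradient φ x)
        rw [Real.norm_eq_abs] at h4
        have h5 := hK x hx
        calc kap' ((j : ℝ) + 2) x * |fderiv ℝ η x (gradient φ x)|
            ≤ 1 * (‖fderiv ℝ η x‖ * ‖gradient φ x‖) := by
              gcongr
              exact kap'_le_one _ _
          _ ≤ 1 * ((K / ‖x‖) * 1) := by gcongr
          _ = K * ‖x‖⁻¹ := by rw [div_eq_mul_inv]; ring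
      have t2 : |η x * fderiv ℝ (kap' ((j : ℝ) + 2)) x (gradient φ x)| ≤
          C * (1 + 2 * ‖x‖⁻¹) := by
        rw [abs_mul, abs_of_nonneg (hη.nonneg x)]
        have h4 := ContinuousLinearMap.le_opNorm (fderiv ℝ (kap' ((j : ℝ) + 2)) x)
          (gradient φ x)
        rw [Real.norm_eq_abs] at h4
        have h5 := hC _ hR x hx
        calc η x * |fderiv ℝ (kap' ((j : ℝ) + 2)) x (gradient φ x)|
            ≤ 1 * (‖fderiv ℝ (kap' ((j : ℝ) + 2)) x‖ * ‖gradient φ x‖) := by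
              gcongr
              exact hη.le_one x
          _ ≤ 1 * ((C * (1 + 2 * ‖x‖⁻¹)) * 1) := by gcongr
          _ = C * (1 + 2 * ‖x‖⁻¹) := by ring
      have t3 := (abs_add_le (kap' ((j : ℝ) + 2) x * fderiv ℝ η x (gradient φ x))
        (η x * fderiv ℝ (kap' ((j : ℝ) + 2)) x (gradient φ x))).trans (add_le_add t1 t2)
      have hinv : 0 < ‖x‖⁻¹ := inv_pos.2 hxn
      refine mul_le_mul (hGb x) (t3.trans ?_) (abs_nonneg _) (Real.exp_pos _).le
      nlinarith
    · filter_upwards [hne, h.lip.ae_differentiableAt, h.grad, hη.ae_differentiableAt]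
        with x hx hd hg hηd
      have h1 : Tendsto (fun j : ℕ => (j : ℝ) + 2) atTop atTop :=
        tendsto_atTop_add_const_right _ _ tendsto_natCast_atTop_atTop
      have h2 := h1.eventually (kap'_eventually hx)
      refine tendsto_nhds_of_eventually_eq ?_
      filter_upwards [h2] with j hj
      rw [fderiv_Psi h _ hd hg (hηd hx), hj.1, hj.2]
      simp [Gw]
  exact ge_of_tendsto' hlim hpos

end Crest.Agent.R246.JE364
end
end

-- ▼ part R246/JE3_364
section

/-!
Row 246, part JE (3): a tube bound and one-sided superharmonicity give the flux bound `VB`.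
-/

set_option autoImplicit false
set_option linter.unusedSectionVars false
noncomputable section
open MeasureTheory Set Filter Topology Metric Measure
open scoped RealInnerProductSpace NNReal

namespace Crest.Agent.R246.JE364

open Crest.Agent.R246.H990

/-! ### the profile -/

/-- trapezoid. -/
def trap (δ s : ℝ) : ℝ := max 0 (min 1 (min ((s - δ ^ 2) / δ ^ 2) ((δ - s) / δ ^ 2)))

theorem trap_cont (δ : ℝ) : Continuous (trap δ) := by unfold trap; fun_prop

theorem trap_nonneg (δ s : ℝ) : 0 ≤ trap δ s := le_max_left _ _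

theorem trap_le_one (δ s : ℝ) : trap δ s ≤ 1 := max_le zero_le_one (min_le_left _ _)

theorem trap_left {δ s : ℝ} (hδ : 0 < δ) (hs : s ≤ δ ^ 2) : trap δ s = 0 := by
  refine max_eq_left ((min_le_right _ _).trans ((min_le_left _ _).trans ?_))
  exact div_nonpos_of_nonpos_of_nonneg (by linarith) (by positivity)

theorem trap_right {δ s : ℝ} (hδ : 0 < δ) (hs : δ ≤ s) : trap δ s = 0 := by
  refine max_eq_left ((min_le_right _ _).trans ((min_le_right _ _).trans ?_))
  exact div_nonpos_of_nonpos_of_nonneg (by linarith) (by positivity)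

theorem trap_mid {δ s : ℝ} (hδ : 0 < δ) (h1 : 2 * δ ^ 2 ≤ s) (h2 : s ≤ δ - δ ^ 2) :
    trap δ s = 1 := by
  have hp : 0 < δ ^ 2 := by positivity
  have a1 : 1 ≤ (s - δ ^ 2) / δ ^ 2 := by rw [le_div_iff₀ hp]; linarith
  have a2 : 1 ≤ (δ - s) / δ ^ 2 := by rw [le_div_iff₀ hp]; linarith
  unfold trap
  rw [min_eq_left (le_min a1 a2)]
  exact max_eq_right zero_le_one

theorem profile {δ : ℝ} (hδ : 0 < δ) (hδ' : δ < 1 / 4) : ∃ P p : ℝ → ℝ, Continuous p ∧
    (∀ s, HasDerivAt P (p s) s) ∧ (∀ s, s ≤ δ ^ 2 → P s = 0) ∧ (∀ s, δ ≤ s → P s = 1) ∧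
    (∀ s, 0 ≤ P s) ∧ (∀ s, P s ≤ 1) ∧ (∀ s, 0 ≤ p s) ∧
    (∀ s, p s ≤ (δ * (1 - 3 * δ))⁻¹) ∧ (∀ s, s ≤ δ ^ 2 → p s = 0) ∧
    (∀ s, δ ≤ s → p s = 0) := by
  set I := ∫ s in (0 : ℝ)..δ, trap δ s with hI
  have hint : ∀ a b : ℝ, IntervalIntegrable (trap δ) volume a b := fun a b =>
    (trap_cont δ).intervalIntegrable a b
  have hd2 : 2 * δ ^ 2 ≤ δ - δ ^ 2 := by nlinarith
  have hI1 : δ * (1 - 3 * δ) ≤ I := by
    have h1 : I = (∫ s in (0 : ℝ)..(2 * δ ^ 2), trap δ s) +
        (∫ s in (2 * δ ^ 2)..(δ - δ ^ 2), trap δ s) + ∫ s in (δ - δ ^ 2)..δ, trap δ s := by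
      rw [intervalIntegral.integral_add_adjacent_intervals (hint _ _) (hint _ _),
        intervalIntegral.integral_add_adjacent_intervals (hint _ _) (hint _ _)]
    have h2 : 0 ≤ ∫ s in (0 : ℝ)..(2 * δ ^ 2), trap δ s :=
      intervalIntegral.integral_nonneg (by positivity) fun s _ => trap_nonneg δ s
    have h3 : 0 ≤ ∫ s in (δ - δ ^ 2)..δ, trap δ s :=
      intervalIntegral.integral_nonneg (by nlinarith) fun s _ => trap_nonneg δ s
    have h4 : ∫ s in (2 * δ ^ 2)..(δ - δ ^ 2), trap δ s = δ - δ ^ 2 - 2 * δ ^ 2 := by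
      have : ∫ s in (2 * δ ^ 2)..(δ - δ ^ 2), trap δ s =
          ∫ _s in (2 * δ ^ 2)..(δ - δ ^ 2), (1 : ℝ) := by
        refine intervalIntegral.integral_congr fun s hs => ?_
        rw [uIcc_of_le hd2] at hs
        exact trap_mid hδ hs.1 hs.2
      rw [this]; simp
    rw [h1, h4]
    nlinarith
  have hL : 0 < δ * (1 - 3 * δ) := mul_pos hδ (by linarith)
  have hI0 : 0 < I := lt_of_lt_of_le hL hI1
  have hder : ∀ u, HasDerivAt (fun u => ∫ s in (0 : ℝ)..u, trap δ s) (trap δ u) u := fun u =>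
    intervalIntegral.integral_hasDerivAt_right (hint _ _)
      ((trap_cont δ).stronglyMeasurableAtFilter _ _) (trap_cont δ).continuousAt
  have hleft : ∀ s, s ≤ δ ^ 2 → ∫ u in (0 : ℝ)..s, trap δ u = 0 := by
    intro s hs
    have : ∫ u in (0 : ℝ)..s, trap δ u = ∫ _u in (0 : ℝ)..s, (0 : ℝ) := by
      refine intervalIntegral.integral_congr fun u hu => ?_
      refine trap_left hδ ?_
      have hp : 0 ≤ δ ^ 2 := by positivity
      rcases le_total 0 s with h | h
      · rw [uIcc_of_le h] at hu; exact hu.2.trans hs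
      · rw [uIcc_of_ge h] at hu; exact hu.2.trans hp
    rw [this]; simp
  have hright : ∀ s, δ ≤ s → ∫ u in (0 : ℝ)..s, trap δ u = I := by
    intro s hs
    rw [← intervalIntegral.integral_add_adjacent_intervals (hint 0 δ) (hint δ s)]
    have : ∫ u in δ..s, trap δ u = ∫ _u in δ..s, (0 : ℝ) := by
      refine intervalIntegral.integral_congr fun u hu => ?_
      rw [uIcc_of_le hs] at hu
      exact trap_right hδ hu.1
    rw [this]; simp [hI]
  have hmono : Monotone fun u => ∫ s in (0 : ℝ)..u, trap δ s := by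
    refine monotone_of_deriv_nonneg (fun u => (hder u).differentiableAt) fun u => ?_
    rw [(hder u).deriv]
    exact trap_nonneg δ u
  have hδ2 : δ ^ 2 ≤ δ := by nlinarith
  refine ⟨fun u => (∫ s in (0 : ℝ)..u, trap δ s) / I, fun u => trap δ u / I,
    (trap_cont δ).div_const I, fun s => (hder s).div_const I, ?_, ?_, ?_, ?_, ?_, ?_, ?_, ?_⟩
  · intro s hs
    simp only [hleft s hs, zero_div]
  · intro s hs
    simp only [hright s hs]
    exact div_self hI0.ne'
  · intro s
    refine div_nonneg ?_ hI0.le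
    rcases le_total s (δ ^ 2) with h | h
    · rw [hleft s h]
    · have := hmono h
      simp only [hleft _ le_rfl] at this
      exact this
  · intro s
    rw [div_le_one hI0]
    rcases le_total s δ with h | h
    · have := hmono h
      simp only [hright _ le_rfl] at this
      exact this
    · rw [hright s h]
  · intro s
    exact div_nonneg (trap_nonneg δ s) hI0.le
  · intro s
    show trap δ s / I ≤ _
    rw [div_eq_mul_inv]
    calc trap δ s * I⁻¹ ≤ 1 * I⁻¹ := by
          have := inv_pos.2 hI0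
          gcongr
          exact trap_le_one δ s
      _ = I⁻¹ := one_mul _
      _ ≤ (δ * (1 - 3 * δ))⁻¹ := inv_anti₀ hL hI1
  · intro s hs
    simp only [trap_left hδ hs, zero_div]
  · intro s hs
    simp only [trap_right hδ hs, zero_div]

variable {E : Type*} [NormedAddCommGroup E] [InnerProductSpace ℝ E]
variable [FiniteDimensional ℝ E] [MeasurableSpace E] [BorelSpace E]

/-! ### algebra of test functions -/

theorem Test.one_sub {ζ : E → ℝ} (h : Test ζ) : Test (fun x => 1 - ζ x) where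
  hom := fun t ht x => by rw [h.hom t ht]
  nonneg := fun x => sub_nonneg.2 (h.le_one x)
  le_one := fun x => by linarith [h.nonneg x]
  lip := by
    obtain ⟨K, hK⟩ := h.lip
    refine ⟨K, LipschitzOnWith.of_dist_le_mul fun a ha b hb => ?_⟩
    have := hK.dist_le_mul a ha b hb
    rw [Real.dist_eq] at this ⊢
    have e : 1 - ζ a - (1 - ζ b) = -(ζ a - ζ b) := by ring
    rwa [e, abs_neg]

theorem Test.mul {ζ η : E → ℝ} (h : Test ζ) (h' : Test η) : Test (fun x => ζ x * η x) where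
  hom := fun t ht x => by rw [h.hom t ht, h'.hom t ht]
  nonneg := fun x => mul_nonneg (h.nonneg x) (h'.nonneg x)
  le_one := fun x => mul_le_one₀ (h.le_one x) (h'.nonneg x) (h'.le_one x)
  lip := by
    obtain ⟨K, hK⟩ := h.lip
    obtain ⟨K', hK'⟩ := h'.lip
    refine ⟨K + K', LipschitzOnWith.of_dist_le_mul fun a ha b hb => ?_⟩
    have h1 := hK.dist_le_mul a ha b hb
    have h2 := hK'.dist_le_mul a ha b hb
    rw [Real.dist_eq] at h1 h2 ⊢
    have e : ζ a * η a - ζ b * η b = ζ a * (η a - η b) + (ζ a - ζ b) * η b := by ring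
    rw [e]
    have a1 : |ζ a * (η a - η b)| ≤ 1 * (K' * dist a b) := by
      rw [abs_mul, abs_of_nonneg (h.nonneg a)]
      exact mul_le_mul (h.le_one a) h2 (abs_nonneg _) zero_le_one
    have a2 : |(ζ a - ζ b) * η b| ≤ (K * dist a b) * 1 := by
      rw [abs_mul, abs_of_nonneg (h'.nonneg b)]
      exact mul_le_mul h1 (h'.le_one b) (h'.nonneg b) (by positivity)
    refine (abs_add_le _ _).trans ((add_le_add a1 a2).trans ?_)
    push_cast
    linarith

theorem Test.continuousOn {ζ : E → ℝ} (h : Test ζ) : ContinuousOn ζ {0}ᶜ := by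
  obtain ⟨K, hK0, hK⟩ := h.sub_le
  intro a ha
  refine ContinuousAt.continuousWithinAt ?_
  rw [Metric.continuousAt_iff]
  intro ε hε
  have hane : a ≠ 0 := ha
  have hap : 0 < ‖a‖ := norm_pos_iff.2 hane
  refine ⟨min (ε / (K / ‖a‖ + 1)) ‖a‖, lt_min (by positivity) hap, fun {b} hb => ?_⟩
  have hb1 := lt_of_lt_of_le hb (min_le_left _ _)
  have hb2 := lt_of_lt_of_le hb (min_le_right _ _)
  have hbne : b ≠ 0 := by
    rintro rfl
    rw [dist_zero_left] at hb2
    exact lt_irrefl _ hb2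
  have h1 := hK a b hane hbne
  rw [dist_comm, Real.dist_eq]
  rw [dist_comm, dist_eq_norm, lt_div_iff₀ (by positivity)] at hb1
  refine h1.trans_lt ?_
  nlinarith [norm_nonneg (a - b)]

theorem Test.measurable {ζ : E → ℝ} (h : Test ζ) : Measurable ζ := by
  classical
  have h1 := (Test.continuousOn h).measurable_piecewise (g := fun _ : E => ζ 0) (s := {0}ᶜ)
    continuousOn_const (measurableSet_singleton (0 : E)).compl
  have h2 : ({0}ᶜ : Set E).piecewise ζ (fun _ => ζ 0) = ζ := by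
    funext x
    by_cases hx : x = 0
    · subst hx; simp
    · rw [Set.piecewise_eq_of_mem _ _ _ (by simpa using hx)]
  rwa [h2] at h1

theorem NullCone.neg {φ : E → ℝ} (h : NullCone φ) : NullCone (fun x => -φ x) where
  hom := fun t ht x => by rw [h.hom t ht]; ring
  lip := h.lip.neg
  grad := by
    filter_upwards [h.grad] with x hx
    rw [fderiv_fun_neg, norm_neg, hx]
  bd := by
    obtain ⟨c, hc0, hc1, hc⟩ := h.bd
    exact ⟨c, hc0, hc1, fun x => by rw [abs_neg]; exact hc x⟩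

theorem gradient_neg' (φ : E → ℝ) (x : E) : gradient (fun x => -φ x) x = -gradient φ x := by
  unfold gradient
  rw [fderiv_fun_neg, map_neg]

/-! ### the sphere and the ball -/

theorem sphere_ball (hn : 1 ≤ Module.finrank ℝ E) {Θ : E → ℝ} (hΘ : Measurable Θ)
    (hom : ∀ t : ℝ, 0 < t → ∀ x, Θ (t • x) = Θ x) :
    (Module.finrank ℝ E : ℝ) * ∫ x in {x : E | ‖x‖ < 1}, Θ x =
      ∫ q : sphere (0 : E) 1, Θ q ∂(sig E) := by
  have hnt : Nontrivial E := Module.nontrivial_of_finrank_pos (R := ℝ) (by omega)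
  set n := Module.finrank ℝ E with hndef
  have hmp := measurePreserving_polar (E := E)
  have hms : MeasurableSet {x : E | ‖x‖ < 1} := measurableSet_lt measurable_norm measurable_const
  rw [← integral_indicator hms]
  set F : E → ℝ := {x : E | ‖x‖ < 1}.indicator Θ with hF
  have hFm : Measurable F := hΘ.indicator hms
  have h1 : ∫ x, F x = ∫ p : sphere (0 : E) 1 × ℝ, F (p.2 • (p.1 : E))
      ∂((sig E).prod (radial (n - 1))) := by
    conv_lhs => rw [← hmp.map_eq]
    rw [integral_map hmp.measurable.aemeasurable hFm.aestronglyMeasurable]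
  have hpos : ∀ᵐ p ∂((sig E).prod (radial (n - 1))), 0 < p.2 :=
    (Measure.quasiMeasurePreserving_snd (μ := sig E) (ν := radial (n - 1))).ae (radial_ae_pos _)
  have h2 : ∫ p : sphere (0 : E) 1 × ℝ, F (p.2 • (p.1 : E)) ∂((sig E).prod (radial (n - 1))) =
      ∫ p : sphere (0 : E) 1 × ℝ, Θ p.1 * (Iio (1 : ℝ)).indicator (fun _ => (1 : ℝ)) p.2
        ∂((sig E).prod (radial (n - 1))) := by
    refine integral_congr_ae ?_
    filter_upwards [hpos] with p hp
    have hq : ‖(p.1 : E)‖ = 1 := mem_sphere_zero_iff_norm.1 p.1.2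
    have hnn : ‖p.2 • (p.1 : E)‖ = p.2 := by
      rw [norm_smul, hq, mul_one, Real.norm_of_nonneg hp.le]
    simp only [hF]
    by_cases h3 : p.2 < 1
    · rw [indicator_of_mem (show p.2 • (p.1 : E) ∈ {x : E | ‖x‖ < 1} by
        show ‖p.2 • (p.1 : E)‖ < 1; rw [hnn]; exact h3), hom _ hp,
        indicator_of_mem (show p.2 ∈ Iio (1 : ℝ) from h3), mul_one]
    · rw [indicator_of_notMem (show p.2 • (p.1 : E) ∉ {x : E | ‖x‖ < 1} by
        show ¬ (‖p.2 • (p.1 : E)‖ < 1); rw [hnn]; exact h3),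
        indicator_of_notMem (show p.2 ∉ Iio (1 : ℝ) from h3), mul_zero]
  rw [h1, h2, integral_prod_mul (fun q : sphere (0 : E) 1 => Θ q)
    (fun t => (Iio (1 : ℝ)).indicator (fun _ => (1 : ℝ)) t), integral_radial]
  have h4 : ∫ t in Ioi (0 : ℝ), t ^ (n - 1) * (Iio (1 : ℝ)).indicator (fun _ => (1 : ℝ)) t =
      1 / n := by
    have e : ∀ t : ℝ, t ^ (n - 1) * (Iio (1 : ℝ)).indicator (fun _ => (1 : ℝ)) t =
        (Iio (1 : ℝ)).indicator (fun t => t ^ (n - 1)) t := by
      intro t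
      by_cases h : t ∈ Iio (1 : ℝ)
      · rw [indicator_of_mem h, indicator_of_mem h, mul_one]
      · rw [indicator_of_notMem h, indicator_of_notMem h, mul_zero]
    simp_rw [e]
    rw [setIntegral_indicator measurableSet_Iio, Ioi_inter_Iio, ← integral_Ioc_eq_integral_Ioo,
      ← intervalIntegral.integral_of_le zero_le_one, integral_pow]
    have : ((n - 1 : ℕ) : ℝ) + 1 = n := by
      have h5 : n - 1 + 1 = n := by omega
      exact_mod_cast h5
    rw [this]
    have h6 : n - 1 + 1 ≠ 0 := by omega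
    rw [one_pow, zero_pow h6, sub_zero]
  rw [h4]
  have hn0 : (n : ℝ) ≠ 0 := by
    have : n ≠ 0 := by omega
    exact_mod_cast this
  field_simp

end Crest.Agent.R246.JE364
end
end

-- ▼ part R246/JE4_364

/-!
Row 246, part JE (4): **tube bound + superharmonicity off the zero set ⟹ `VB φ A`**.
-/

set_option autoImplicit false
set_option linter.unusedSectionVars false
noncomputable section
open MeasureTheory Set Filter Topology Metric Measure
open scoped RealInnerProductSpace NNReal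

namespace Crest.Agent.R246.JE364

open Crest.Agent.R246.H990

variable {E : Type*} [NormedAddCommGroup E] [InnerProductSpace ℝ E]
variable [FiniteDimensional ℝ E] [MeasurableSpace E] [BorelSpace E]

/-- the weight on the sphere. -/
def ww (φ : E → ℝ) (q : E) : ℝ := (Real.sqrt (1 - φ q ^ 2) ^ (Module.finrank ℝ E - 1))⁻¹

theorem ww_nonneg (φ : E → ℝ) (q : E) : 0 ≤ ww φ q :=
  inv_nonneg.2 (pow_nonneg (Real.sqrt_nonneg _) _)

theorem measurable_ww {φ : E → ℝ} (h : NullCone φ) : Measurable (ww φ) := by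
  have := h.lip.continuous.measurable
  unfold ww
  exact (((measurable_const.sub (this.pow_const 2)).sqrt).pow_const _).inv

theorem ww_le {φ : E → ℝ} (h : NullCone φ) : ∃ C : ℝ, ∀ q : sphere (0 : E) 1, ww φ q ≤ C := by
  obtain ⟨c, hc0, hc1, hc⟩ := h.bd'
  refine ⟨(Real.sqrt (1 - c) ^ (Module.finrank ℝ E - 1))⁻¹, fun q => ?_⟩
  unfold ww
  have h1 : 0 < Real.sqrt (1 - c) := Real.sqrt_pos.2 (by linarith)
  refine inv_anti₀ (pow_pos h1 _) (pow_le_pow_left₀ h1.le (Real.sqrt_le_sqrt ?_) _)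
  have := hc q
  linarith

theorem ww_le_of_small {φ : E → ℝ} {δ : ℝ} (hδ : δ ^ 2 < 1) {q : E} (hq : |φ q| < δ) :
    ww φ q ≤ (Real.sqrt (1 - δ ^ 2) ^ (Module.finrank ℝ E - 1))⁻¹ := by
  unfold ww
  have h1 : 0 < Real.sqrt (1 - δ ^ 2) := Real.sqrt_pos.2 (by linarith)
  refine inv_anti₀ (pow_pos h1 _) (pow_le_pow_left₀ h1.le (Real.sqrt_le_sqrt ?_) _)
  have : φ q ^ 2 ≤ δ ^ 2 := by
    rw [← sq_abs]
    exact pow_le_pow_left₀ (abs_nonneg _) hq.le 2
  linarith

/-- derivative of the profile test function along the null direction, on the sphere. -/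
theorem fderiv_prod {φ : E → ℝ} (h : NullCone φ) {ζ : E → ℝ} {P p : ℝ → ℝ}
    (hP : ∀ s, HasDerivAt P (p s) s) {q : E} (hq : ‖q‖ = 1) (hd : DifferentiableAt ℝ φ q)
    (hg : ‖fderiv ℝ φ q‖ = 1) (hζ : DifferentiableAt ℝ ζ q) :
    fderiv ℝ (fun x => ζ x * P (φ x * ‖x‖⁻¹)) q (gradient φ q) =
      P (φ q) * fderiv ℝ ζ q (gradient φ q) + ζ q * (p (φ q) * (1 - φ q ^ 2)) := by
  have h1 : DifferentiableAt ℝ (fun x => P (φ x * ‖x‖⁻¹)) q := by
    have h2 := hd.hasFDerivAt.mul (hasFDerivAt_inv_norm hq)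
    exact ((hP _).comp_hasFDerivAt q h2).differentiableAt
  rw [fderiv_fun_mul hζ h1, _root_.add_apply, _root_.smul_apply, _root_.smul_apply,
    fD_slice h hq hd hg (hP (φ q)), hq, inv_one, mul_one]
  simp only [smul_eq_mul]
  ring

theorem ae_good_test (hn : 1 ≤ Module.finrank ℝ E) {ζ : E → ℝ} (hζ : Test ζ) :
    ∀ᵐ q : sphere (0 : E) 1 ∂(sig E), DifferentiableAt ℝ ζ q := by
  have hnt : Nontrivial E := Module.nontrivial_of_finrank_pos (R := ℝ) (by omega)
  refine ae_sphere_of_ae (P := fun x => DifferentiableAt ℝ ζ x) ?_ ?_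
  · have hne : ∀ᵐ x : E, x ≠ 0 := by
      have : volume ({0} : Set E) = 0 := measure_singleton 0
      exact measure_eq_zero_iff_ae_notMem.1 this
    filter_upwards [hζ.ae_differentiableAt, hne] with x h1 h2 using h1 h2
  · intro t ht x hx
    exact differentiableAt_hom hζ.hom' ht hx

theorem profile_lip {P p : ℝ → ℝ} (hp : Continuous p) (hP : ∀ s, HasDerivAt P (p s) s) :
    ∃ K : NNReal, LipschitzOnWith K P (Icc (-1) 1) := by
  obtain ⟨B, hB⟩ := (isCompact_Icc (a := (-1 : ℝ)) (b := 1)).exists_bound_of_continuousOn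
    hp.continuousOn
  refine ⟨B.toNNReal, ?_⟩
  refine Convex.lipschitzOnWith_of_nnnorm_hasDerivWithin_le (convex_Icc _ _)
    (fun u hu => (hP u).hasDerivWithinAt) fun u hu => ?_
  rw [← NNReal.coe_le_coe, coe_nnnorm]
  exact (hB u hu).trans (Real.le_coe_toNNReal B)

/-- the one-sided inequality on the sphere. -/
theorem sphere_one_side (hn : 2 ≤ Module.finrank ℝ E) {φ : E → ℝ} (h : NullCone φ)
    (hS : Sup {x | 0 < φ x} φ) {ζ : E → ℝ} (hζ : Test ζ) {a : ℝ} (ha : 0 < a)
    {P p : ℝ → ℝ} (hp : Continuous p) (hP : ∀ s, HasDerivAt P (p s) s)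
    (hPa : ∀ s, s ≤ a → P s = 0) (hP0 : ∀ s, 0 ≤ P s) (hP1 : ∀ s, P s ≤ 1) :
    0 ≤ ∫ q : sphere (0 : E) 1, ww φ q * (P (φ q) * fderiv ℝ ζ q (gradient φ q) +
      ζ q * (p (φ q) * (1 - φ q ^ 2))) ∂(sig E) := by
  obtain ⟨K, hK⟩ := profile_lip hp hP
  have hT : Test (fun x => ζ x * P (φ x * ‖x‖⁻¹)) :=
    Test.mul hζ (slice_test h (fun u _ => hP0 u) (fun u _ => hP1 u) hK)
  have h1 := flux_nonneg hn h hS hT ha (fun x hx => by
    have : φ x * ‖x‖⁻¹ ≤ a := by
      rcases eq_or_ne x 0 with rfl | hx0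
      · simp [ha.le]
      · rw [← div_eq_mul_inv, div_le_iff₀ (norm_pos_iff.2 hx0)]; exact hx
    rw [hPa _ this, mul_zero])
  rw [flux_eq_sphere hn h hT] at h1
  have h2 := nonneg_of_mul_nonneg_right (a := cV E) h1 (cV_pos E)
  refine h2.trans_eq ?_
  refine integral_congr_ae ?_
  filter_upwards [h.ae_good (by omega), ae_good_test (by omega) hζ] with q hq hq2
  have hq1 : ‖(q : E)‖ = 1 := mem_sphere_zero_iff_norm.1 q.2
  rw [fderiv_prod h hP hq1 hq.1 hq.2 hq2]
  rfl

/-- a bounded measurable function is integrable on the sphere. -/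
theorem integrable_sphere {f : E → ℝ} (hf : Measurable f) {C : ℝ}
    (hC : ∀ q : sphere (0 : E) 1, |f q| ≤ C) :
    Integrable (fun q : sphere (0 : E) 1 => f q) (sig E) := by
  refine Integrable.mono' (integrable_const C)
    (hf.comp measurable_subtype_coe).aestronglyMeasurable ?_
  exact Eventually.of_forall fun q => hC q

/-- **Tube bound implies the flux bound.** -/
theorem VB_of_tube (hn : 2 ≤ Module.finrank ℝ E) {φ : E → ℝ} (h : NullCone φ)
    (hS1 : Sup {x | 0 < φ x} φ) (hS2 : Sup {x | 0 < -φ x} (fun x => -φ x))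
    (hZ : ∀ᵐ x : E, φ x ≠ 0) {A : ℝ}
    (hT : ∀ ζ : E → ℝ, Test ζ → ∀ ε > 0, ∀ᶠ δ in 𝓝[>] (0 : ℝ),
      (Module.finrank ℝ E : ℝ) * ∫ x in {x : E | ‖x‖ < 1 ∧ 0 < |φ x| ∧ |φ x| < δ * ‖x‖},
        (if 0 < φ x then 1 - ζ x else ζ x) ≤ δ * (A + ε)) : VB φ A := by
  have hnt : Nontrivial E := Module.nontrivial_of_finrank_pos (R := ℝ) (by omega)
  intro ζ hζ
  rw [flux_eq_sphere hn h hζ, mul_comm A]
  refine mul_le_mul_of_nonneg_left ?_ (cV_pos E).le
  have hφm : Measurable φ := h.lip.continuous.measurable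
  have hζm : Measurable ζ := Test.measurable hζ
  have hwm := measurable_ww h
  obtain ⟨W, hW⟩ := ww_le h
  obtain ⟨K, hK0, hK⟩ := hζ.fderiv_le
  have hn' := NullCone.neg h
  set D : E → ℝ := fun x => fderiv ℝ ζ x (gradient φ x) with hD
  have hDm : Measurable D := measurable_fD φ ζ
  have hW0 : ∀ q : sphere (0 : E) 1, 0 ≤ ww φ q := fun q => ww_nonneg φ q
  have hq1 : ∀ q : sphere (0 : E) 1, ‖(q : E)‖ = 1 := fun q => mem_sphere_zero_iff_norm.1 q.2
  have hDb : ∀ q : sphere (0 : E) 1, |D q| ≤ K := by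
    intro q
    have hq0 : (q : E) ≠ 0 := by
      intro h0; have := hq1 q; rw [h0, norm_zero] at this; exact zero_ne_one this
    have h4 := ContinuousLinearMap.le_opNorm (fderiv ℝ ζ q) (gradient φ q)
    rw [Real.norm_eq_abs] at h4
    refine h4.trans ?_
    have h5 := hK q hq0
    rw [hq1 q, div_one] at h5
    calc ‖fderiv ℝ ζ q‖ * ‖gradient φ q‖ ≤ K * 1 :=
          mul_le_mul h5 (gradient_norm_le h.lip _) (norm_nonneg _) hK0
      _ = K := mul_one K
  have hWpos : 0 ≤ W := by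
    obtain ⟨q⟩ : Nonempty (sphere (0 : E) 1) := (NormedSpace.sphere_nonempty.2 zero_le_one).to_subtype
    exact (hW0 q).trans (hW q)
  -- reduction to `ε`
  suffices hmain : ∀ ε > 0, ∫ q : sphere (0 : E) 1, ww φ q * D q ∂(sig E) ≤ A + ε from
    le_of_forall_pos_le_add hmain
  intro ε hε
  -- choice of profiles
  have hprof : ∀ δ : ℝ, ∃ P p : ℝ → ℝ, 0 < δ → δ < 1 / 4 → (Continuous p ∧
    (∀ s, HasDerivAt P (p s) s) ∧ (∀ s, s ≤ δ ^ 2 → P s = 0) ∧ (∀ s, δ ≤ s → P s = 1) ∧
    (∀ s, 0 ≤ P s) ∧ (∀ s, P s ≤ 1) ∧ (∀ s, 0 ≤ p s) ∧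
    (∀ s, p s ≤ (δ * (1 - 3 * δ))⁻¹) ∧ (∀ s, s ≤ δ ^ 2 → p s = 0) ∧
    (∀ s, δ ≤ s → p s = 0)) := by
    intro δ
    by_cases h1 : 0 < δ ∧ δ < 1 / 4
    · obtain ⟨P, p, hPp⟩ := profile h1.1 h1.2
      exact ⟨P, p, fun _ _ => hPp⟩
    · exact ⟨fun _ => 0, fun _ => 0, fun a b => (h1 ⟨a, b⟩).elim⟩
  choose P p hPp using hprof
  have hev : ∀ᶠ δ in 𝓝[>] (0 : ℝ), 0 < δ ∧ δ < 1 / 4 := Ioo_mem_nhdsGT (by norm_num)
  -- the inequality at level `δ`
  have key : ∀ᶠ δ in 𝓝[>] (0 : ℝ),
      ∫ q : sphere (0 : E) 1, ww φ q * ((P δ (φ q) + P δ (-φ q)) * D q) ∂(sig E) ≤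
      (Real.sqrt (1 - δ ^ 2) ^ (Module.finrank ℝ E - 1))⁻¹ * (1 - 3 * δ)⁻¹ * (A + ε) := by
    filter_upwards [hev, hT ζ hζ ε hε] with δ hδ htube
    obtain ⟨hδ0, hδ1⟩ := hδ
    obtain ⟨hpc, hP, hPa, hPb, hP0, hP1, hp0, hpL, hpa, hpb⟩ := hPp δ hδ0 hδ1
    have hPc : Continuous (P δ) := continuous_iff_continuousAt.2 fun s => (hP s).continuousAt
    have hδ2 : δ ^ 2 < 1 := by nlinarith
    have I1 := sphere_one_side hn h hS1 (Test.one_sub hζ) (by positivity : 0 < δ ^ 2) hpc hP hPa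
      hP0 hP1
    have I2 := sphere_one_side hn hn' hS2 hζ (by positivity : 0 < δ ^ 2) hpc hP hPa hP0 hP1
    set L := (δ * (1 - 3 * δ))⁻¹ with hL
    have hL0 : 0 ≤ L := inv_nonneg.2 (mul_nonneg hδ0.le (by linarith))
    -- rewrite the two integrands
    set f1 : E → ℝ := fun q => ww φ q * (-(P δ (φ q) * D q) +
      (1 - ζ q) * (p δ (φ q) * (1 - φ q ^ 2))) with hf1
    set f2 : E → ℝ := fun q => ww φ q * (-(P δ (-φ q) * D q) +
      ζ q * (p δ (-φ q) * (1 - φ q ^ 2))) with hf2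
    have I1' : 0 ≤ ∫ q : sphere (0 : E) 1, f1 q ∂(sig E) := by
      refine I1.trans_eq (integral_congr_ae (Eventually.of_forall fun q => ?_))
      simp only [hf1, hD]
      have : fderiv ℝ (fun x => 1 - ζ x) (q : E) = -fderiv ℝ ζ (q : E) := by
        rw [fderiv_const_sub]
      rw [this, _root_.neg_apply]
      ring
    have I2' : 0 ≤ ∫ q : sphere (0 : E) 1, f2 q ∂(sig E) := by
      refine I2.trans_eq (integral_congr_ae (Eventually.of_forall fun q => ?_))
      simp only [hf2, hD, ww]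
      rw [gradient_neg', map_neg, neg_sq]
      ring
    have m1 : Measurable f1 := by
      refine hwm.mul ((((hPc.measurable.comp hφm).mul hDm).neg).add ?_)
      exact (measurable_const.sub hζm).mul ((hpc.measurable.comp hφm).mul
        (measurable_const.sub (hφm.pow_const 2)))
    have m2 : Measurable f2 := by
      refine hwm.mul ((((hPc.measurable.comp hφm.neg).mul hDm).neg).add ?_)
      exact hζm.mul ((hpc.measurable.comp hφm.neg).mul
        (measurable_const.sub (hφm.pow_const 2)))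
    have hφb : ∀ q : sphere (0 : E) 1, 0 ≤ 1 - φ q ^ 2 ∧ 1 - φ q ^ 2 ≤ 1 := by
      intro q
      have := sq_le_of_nullCone h (q : E)
      rw [hq1 q] at this
      exact ⟨by linarith, by nlinarith [sq_nonneg (φ q)]⟩
    have b1 : ∀ q : sphere (0 : E) 1, |f1 q| ≤ W * (K + L) := by
      intro q
      simp only [hf1]
      rw [abs_mul, abs_of_nonneg (hW0 q)]
      refine mul_le_mul (hW q) ?_ (abs_nonneg _) hWpos
      refine (abs_add_le _ _).trans (add_le_add ?_ ?_)
      · rw [abs_neg, abs_mul, abs_of_nonneg (hP0 _)]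
        calc P δ (φ q) * |D q| ≤ 1 * K := mul_le_mul (hP1 _) (hDb q) (abs_nonneg _) zero_le_one
          _ = K := one_mul K
      · have a1 : 0 ≤ 1 - ζ (q : E) := sub_nonneg.2 (hζ.le_one _)
        have a2 : 1 - ζ (q : E) ≤ 1 := by linarith [hζ.nonneg (q : E)]
        rw [abs_mul, abs_mul, abs_of_nonneg a1, abs_of_nonneg (hp0 _),
          abs_of_nonneg (hφb q).1]
        calc (1 - ζ (q : E)) * (p δ (φ q) * (1 - φ q ^ 2)) ≤ 1 * (L * 1) := by
              gcongr
              · exact mul_nonneg (hp0 _) (hφb q).1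
              · exact (hφb q).1
              · exact hpL _
              · exact (hφb q).2
          _ = L := by ring
    have b2 : ∀ q : sphere (0 : E) 1, |f2 q| ≤ W * (K + L) := by
      intro q
      simp only [hf2]
      rw [abs_mul, abs_of_nonneg (hW0 q)]
      refine mul_le_mul (hW q) ?_ (abs_nonneg _) hWpos
      refine (abs_add_le _ _).trans (add_le_add ?_ ?_)
      · rw [abs_neg, abs_mul, abs_of_nonneg (hP0 _)]
        calc P δ (-φ q) * |D q| ≤ 1 * K := mul_le_mul (hP1 _) (hDb q) (abs_nonneg _) zero_le_one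
          _ = K := one_mul K
      · rw [abs_mul, abs_mul, abs_of_nonneg (hζ.nonneg _), abs_of_nonneg (hp0 _),
          abs_of_nonneg (hφb q).1]
        calc ζ (q : E) * (p δ (-φ q) * (1 - φ q ^ 2)) ≤ 1 * (L * 1) := by
              gcongr
              · exact mul_nonneg (hp0 _) (hφb q).1
              · exact hζ.le_one _
              · exact (hφb q).1
              · exact hpL _
              · exact (hφb q).2
          _ = L := by ring
    have i1 := integrable_sphere m1 b1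
    have i2 := integrable_sphere m2 b2
    -- the main term
    set g : E → ℝ := fun q => ww φ q * ((P δ (φ q) + P δ (-φ q)) * D q) with hg
    set Θ : E → ℝ := fun q => {x : E | 0 < |φ x| ∧ |φ x| < δ * ‖x‖}.indicator
      (fun x => if 0 < φ x then 1 - ζ x else ζ x) q with hΘ
    have mset : MeasurableSet {x : E | 0 < |φ x| ∧ |φ x| < δ * ‖x‖} := by
      have hab : Measurable fun x => |φ x| := h.lip.continuous.abs.measurable
      exact (measurableSet_lt measurable_const hab).inter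
        (measurableSet_lt hab (measurable_const.mul measurable_norm))
    have mθ : Measurable (fun x : E => if 0 < φ x then 1 - ζ x else ζ x) :=
      Measurable.ite (measurableSet_lt measurable_const hφm) (measurable_const.sub hζm) hζm
    have mΘ : Measurable Θ := mθ.indicator mset
    have homΘ : ∀ t : ℝ, 0 < t → ∀ x, Θ (t • x) = Θ x := by
      intro t ht x
      have e1 : φ (t • x) = t * φ x := h.hom t ht.le x
      have e2 : ‖t • x‖ = t * ‖x‖ := by rw [norm_smul, Real.norm_of_nonneg ht.le]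
      have e3 : (t • x ∈ {x : E | 0 < |φ x| ∧ |φ x| < δ * ‖x‖}) ↔
          (x ∈ {x : E | 0 < |φ x| ∧ |φ x| < δ * ‖x‖}) := by
        show (0 < |φ (t • x)| ∧ |φ (t • x)| < δ * ‖t • x‖) ↔ (0 < |φ x| ∧ |φ x| < δ * ‖x‖)
        rw [e1, e2, abs_mul, abs_of_pos ht]
        constructor
        · rintro ⟨a1, a2⟩
          refine ⟨pos_of_mul_pos_right a1 ht.le, ?_⟩
          have : t * |φ x| < t * (δ * ‖x‖) := by linarith
          exact lt_of_mul_lt_mul_left this ht.le
        · rintro ⟨a1, a2⟩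
          refine ⟨mul_pos ht a1, ?_⟩
          have := mul_lt_mul_of_pos_left a2 ht
          linarith
      simp only [hΘ]
      by_cases hx : x ∈ {x : E | 0 < |φ x| ∧ |φ x| < δ * ‖x‖}
      · rw [indicator_of_mem hx, indicator_of_mem (e3.2 hx), hζ.hom t ht, e1]
        have : (0 < t * φ x) ↔ (0 < φ x) := by
          constructor
          · intro h5; exact pos_of_mul_pos_right h5 ht.le
          · intro h5; exact mul_pos ht h5
        simp only [this]
      · rw [indicator_of_notMem hx, indicator_of_notMem (fun h6 => hx (e3.1 h6))]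
    have hΘ01 : ∀ x, 0 ≤ Θ x ∧ Θ x ≤ 1 := by
      intro x
      simp only [hΘ]
      by_cases hx : x ∈ {x : E | 0 < |φ x| ∧ |φ x| < δ * ‖x‖}
      · rw [indicator_of_mem hx]
        split_ifs
        · exact ⟨sub_nonneg.2 (hζ.le_one x), by linarith [hζ.nonneg x]⟩
        · exact ⟨hζ.nonneg x, hζ.le_one x⟩
      · rw [indicator_of_notMem hx]
        exact ⟨le_rfl, zero_le_one⟩
    have tube : ∫ q : sphere (0 : E) 1, Θ q ∂(sig E) ≤ δ * (A + ε) := by
      rw [← sphere_ball (by omega) mΘ homΘ]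
      refine le_trans (le_of_eq ?_) htube
      congr 1
      have hms : MeasurableSet {x : E | ‖x‖ < 1} :=
        measurableSet_lt measurable_norm measurable_const
      simp only [hΘ]
      rw [setIntegral_indicator mset]
      congr 1
    set Cδ := (Real.sqrt (1 - δ ^ 2) ^ (Module.finrank ℝ E - 1))⁻¹ with hCδ
    have hCδ0 : 0 ≤ Cδ := inv_nonneg.2 (pow_nonneg (Real.sqrt_nonneg _) _)
    -- pointwise inequality
    have hpt : ∀ q : sphere (0 : E) 1, f1 q + f2 q + g q ≤ Cδ * L * Θ q := by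
      intro q
      have e : f1 q + f2 q + g q = ww φ q * ((1 - φ q ^ 2) *
          ((1 - ζ q) * p δ (φ q) + ζ q * p δ (-φ q))) := by
        simp only [hf1, hf2, hg]; ring
      rw [e]
      have hd2 : 0 < δ ^ 2 := by positivity
      by_cases hqs : |φ q| < δ
      · have hw := ww_le_of_small (E := E) hδ2 hqs
        rcases lt_trichotomy (φ q) 0 with h1 | h1 | h1
        · -- negative side
          have e1 : p δ (φ q) = 0 := hpa _ (by linarith)
          have e2 : Θ q = ζ q := by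
            simp only [hΘ]
            rw [indicator_of_mem]
            · rw [if_neg (not_lt.2 h1.le)]
            · exact ⟨abs_pos.2 h1.ne, by rw [hq1 q, mul_one]; exact hqs⟩
          rw [e1, e2, mul_zero, zero_add]
          have hz := hζ.nonneg (q : E)
          calc ww φ q * ((1 - φ q ^ 2) * (ζ q * p δ (-φ q)))
              ≤ Cδ * (1 * (ζ q * L)) := by
                gcongr
                · exact mul_nonneg (hφb q).1 (mul_nonneg hz (hp0 _))
                · exact mul_nonneg hz (hp0 _)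
                · exact (hφb q).2
                · exact hpL _
            _ = Cδ * L * ζ q := by ring
        · have e1 : p δ (φ q) = 0 := hpa _ (by rw [h1]; exact hd2.le)
          have e2 : p δ (-φ q) = 0 := hpa _ (by rw [h1, neg_zero]; exact hd2.le)
          rw [e1, e2, mul_zero, mul_zero, add_zero, mul_zero, mul_zero]
          exact mul_nonneg (mul_nonneg hCδ0 hL0) (hΘ01 _).1
        · have e1 : p δ (-φ q) = 0 := hpa _ (by linarith)
          have e2 : Θ q = 1 - ζ q := by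
            simp only [hΘ]
            rw [indicator_of_mem]
            · rw [if_pos h1]
            · exact ⟨abs_pos.2 h1.ne', by rw [hq1 q, mul_one]; exact hqs⟩
          rw [e1, e2, mul_zero, add_zero]
          have hz : 0 ≤ 1 - ζ (q : E) := sub_nonneg.2 (hζ.le_one _)
          calc ww φ q * ((1 - φ q ^ 2) * ((1 - ζ q) * p δ (φ q)))
              ≤ Cδ * (1 * ((1 - ζ q) * L)) := by
                gcongr
                · exact mul_nonneg (hφb q).1 (mul_nonneg hz (hp0 _))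
                · exact mul_nonneg hz (hp0 _)
                · exact (hφb q).2
                · exact hpL _
            _ = Cδ * L * (1 - ζ q) := by ring
      · push Not at hqs
        have e12 : p δ (φ q) = 0 ∧ p δ (-φ q) = 0 := by
          rcases le_abs.1 hqs with h1 | h1
          · exact ⟨hpb _ h1, hpa _ (by linarith)⟩
          · exact ⟨hpa _ (by linarith), hpb _ h1⟩
        rw [e12.1, e12.2, mul_zero, mul_zero, add_zero, mul_zero, mul_zero]
        exact mul_nonneg (mul_nonneg hCδ0 hL0) (hΘ01 _).1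
    have mg : Measurable g := hwm.mul (((hPc.measurable.comp hφm).add
      (hPc.measurable.comp hφm.neg)).mul hDm)
    have bg : ∀ q : sphere (0 : E) 1, |g q| ≤ W * (2 * K) := by
      intro q
      simp only [hg]
      rw [abs_mul, abs_of_nonneg (hW0 q)]
      refine mul_le_mul (hW q) ?_ (abs_nonneg _) hWpos
      rw [abs_mul, abs_of_nonneg (add_nonneg (hP0 _) (hP0 _))]
      refine mul_le_mul ?_ (hDb q) (abs_nonneg _) (by norm_num)
      linarith [hP1 (φ q), hP1 (-φ q)]
    have ig := integrable_sphere mg bg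
    have iΘ : Integrable (fun q : sphere (0 : E) 1 => Θ q) (sig E) :=
      integrable_sphere mΘ (C := 1) fun q => by
        rw [abs_of_nonneg (hΘ01 _).1]; exact (hΘ01 _).2
    have hsum : (∫ q : sphere (0 : E) 1, f1 q ∂(sig E)) +
        (∫ q : sphere (0 : E) 1, f2 q ∂(sig E)) + ∫ q : sphere (0 : E) 1, g q ∂(sig E) ≤
        Cδ * L * ∫ q : sphere (0 : E) 1, Θ q ∂(sig E) := by
      have i12 : Integrable (fun q : sphere (0 : E) 1 => f1 q + f2 q) (sig E) := i1.add i2
      have i123 : Integrable (fun q : sphere (0 : E) 1 => f1 q + f2 q + g q) (sig E) :=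
        i12.add ig
      rw [← integral_add i1 i2, ← integral_add i12 ig, ← integral_const_mul]
      exact integral_mono i123 (iΘ.const_mul _) hpt
    have hfin : Cδ * L * (δ * (A + ε)) = Cδ * (1 - 3 * δ)⁻¹ * (A + ε) := by
      rw [hL, mul_inv]
      have := hδ0.ne'
      field_simp
    calc ∫ q : sphere (0 : E) 1, g q ∂(sig E)
        ≤ Cδ * L * ∫ q : sphere (0 : E) 1, Θ q ∂(sig E) := by linarith
      _ ≤ Cδ * L * (δ * (A + ε)) := by
          refine mul_le_mul_of_nonneg_left tube (mul_nonneg hCδ0 hL0)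
      _ = Cδ * (1 - 3 * δ)⁻¹ * (A + ε) := hfin
  -- the limit
  have hZs : ∀ᵐ q : sphere (0 : E) 1 ∂(sig E), φ q ≠ 0 := by
    refine ae_sphere_of_ae (P := fun x => φ x ≠ 0) hZ ?_
    intro t ht x hx hx0
    apply hx
    rw [h.hom t ht.le, hx0, mul_zero]
  have hL1 : Tendsto (fun δ : ℝ => ∫ q : sphere (0 : E) 1,
      ww φ q * ((P δ (φ q) + P δ (-φ q)) * D q) ∂(sig E)) (𝓝[>] 0)
      (𝓝 (∫ q : sphere (0 : E) 1, ww φ q * D q ∂(sig E))) := by
    refine tendsto_integral_filter_of_dominated_convergence (fun _ => W * (2 * K)) ?_ ?_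
      (integrable_const _) ?_
    · filter_upwards [hev] with δ hδ
      obtain ⟨hpc, hP, -⟩ := hPp δ hδ.1 hδ.2
      have hPc : Continuous (P δ) := continuous_iff_continuousAt.2 fun s => (hP s).continuousAt
      have mg : Measurable fun q : E => ww φ q * ((P δ (φ q) + P δ (-φ q)) * D q) :=
        hwm.mul (((hPc.measurable.comp hφm).add (hPc.measurable.comp hφm.neg)).mul hDm)
      exact (mg.comp measurable_subtype_coe).aestronglyMeasurable
    · filter_upwards [hev] with δ hδ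
      obtain ⟨hpc, hP, hPa, hPb, hP0, hP1, -⟩ := hPp δ hδ.1 hδ.2
      refine Eventually.of_forall fun q => ?_
      rw [Real.norm_eq_abs, abs_mul, abs_of_nonneg (hW0 q)]
      refine mul_le_mul (hW q) ?_ (abs_nonneg _) hWpos
      rw [abs_mul, abs_of_nonneg (add_nonneg (hP0 _) (hP0 _))]
      refine mul_le_mul ?_ (hDb q) (abs_nonneg _) (by norm_num)
      linarith [hP1 (φ q), hP1 (-φ q)]
    · filter_upwards [hZs] with q hq
      refine tendsto_nhds_of_eventually_eq ?_
      have hpos : 0 < |φ q| := abs_pos.2 hq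
      have h2 : ∀ᶠ δ in 𝓝[>] (0 : ℝ), δ < |φ q| :=
        (nhdsWithin_le_nhds (gt_mem_nhds hpos))
      filter_upwards [hev, h2] with δ hδ hδ2
      obtain ⟨hpc, hP, hPa, hPb, hP0, hP1, -⟩ := hPp δ hδ.1 hδ.2
      have hd2 : 0 < δ ^ 2 := by have := hδ.1; positivity
      have : P δ (φ q) + P δ (-φ q) = 1 := by
        rcases lt_abs.1 hδ2 with h3 | h3
        · rw [hPb _ h3.le, hPa _ (by linarith [hδ.1]), add_zero]
        · rw [hPb _ h3.le, hPa _ (by linarith [hδ.1]), zero_add]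
      rw [this, one_mul]
  have hL2 : Tendsto (fun δ : ℝ => (Real.sqrt (1 - δ ^ 2) ^ (Module.finrank ℝ E - 1))⁻¹ *
      (1 - 3 * δ)⁻¹ * (A + ε)) (𝓝[>] 0) (𝓝 (A + ε)) := by
    have hc : ContinuousAt (fun δ : ℝ => (Real.sqrt (1 - δ ^ 2) ^ (Module.finrank ℝ E - 1))⁻¹ *
      (1 - 3 * δ)⁻¹ * (A + ε)) 0 := by
      refine ContinuousAt.mul (ContinuousAt.mul (ContinuousAt.inv₀ ?_ ?_)
        (ContinuousAt.inv₀ ?_ ?_)) continuousAt_const
      · fun_prop
      · simp
      · fun_prop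
      · simp
    have h3 := hc.tendsto
    simp only [ne_eq, OfNat.ofNat_ne_zero, not_false_eq_true, zero_pow, sub_zero, Real.sqrt_one,
      one_pow, inv_one, mul_zero, one_mul] at h3
    exact h3.mono_left nhdsWithin_le_nhds
  exact le_of_tendsto_of_tendsto hL1 hL2 key

end Crest.Agent.R246.JE364
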