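import Crest.Agent.R246.Skel_656
import Crest.Agent.R246.Br3_549
import Crest.Agent.R246.Expn_105
import Crest.Agent.R246.Mg3_295
import Crest.Agent.R246.Mg4_295
import Crest.Agent.R246.Slice2_990
import Crest.Agent.R246.SM0_436
import Crest.Agent.R246.SD_638
import Crest.Agent.R246.Num_688

/-!
# R246 (helper549): assembly of the regularity block `StReg`

`[StObj (538, 872)] + [StMS (852)] + [StG (873)] + [StH1 (105)] + [StH2a (295)] + [StH2c (622)]`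
`⟹ Skel656.StReg SmoothMin m`.
-/

set_option autoImplicit false
set_option linter.unusedSectionVars false
set_option linter.unusedVariables false

noncomputable section
open MeasureTheory Set Filter Topology Metric
open scoped RealInnerProductSpace ContDiff Gradient
open Crest.Agent.R246.G873 Crest.Agent.R246.MS852
open Crest.Agent.R246.H990 (NullCone VB cV)
open Crest.Agent.R246.ThetaK688 (WW Theta)
open Crest.Agent.R246.Skel656 (E Tm Real' Lim StReg)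
open Crest.Agent.R246.Br549 (ACData H1In)
open Crest.Agent.R246.Mg295 (Expn)

namespace Crest.Agent.R246.Reg549



section H2

variable (F : Type) [NormedAddCommGroup F] [InnerProductSpace ℝ F] [FiniteDimensional ℝ F]
  [MeasurableSpace F] [BorelSpace F]

/-- H2a (295): the weak minimal surface equation of the graph. -/
def StH2a : Prop :=
  ∀ (φ : F → ℝ) (p0 : F), φ p0 = 0 → G873.ClassD φ → (∀ x, |φ x| = infDist x {x | φ x = 0}) →
    ∀ (e : F), ‖e‖ = 1 → ∀ (r0 K α : ℝ) (w : (ℝ ∙ e)ᗮ → ℝ), 0 < r0 → 0 ≤ K → 1 / 2 < α → α ≤ 1 →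
      w 0 = 0 → fderiv ℝ w 0 = 0 →
      (∀ y ∈ ball (0 : (ℝ ∙ e)ᗮ) r0, DifferentiableAt ℝ w y ∧ ‖fderiv ℝ w y‖ ≤ 1 / 4) →
      (∀ y ∈ ball (0 : (ℝ ∙ e)ᗮ) r0, ∀ y' ∈ ball (0 : (ℝ ∙ e)ᗮ) r0,
        |w y - w y'| ≤ ‖y - y'‖ / 4) →
      (∀ y ∈ ball (0 : (ℝ ∙ e)ᗮ) r0, ∀ y' ∈ ball (0 : (ℝ ∙ e)ᗮ) r0,
        ‖fderiv ℝ w y - fderiv ℝ w y'‖ ≤ K * ‖y - y'‖ ^ α) →
      (∀ y ∈ ball (0 : (ℝ ∙ e)ᗮ) r0, ∀ t : ℝ, |t| < r0 →
        SignType.sign (φ (p0 + y + t • e)) = SignType.sign (t - w y)) →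
      ∃ r1 > 0, r1 ≤ r0 ∧ ∀ ψ : (ℝ ∙ e)ᗮ → ℝ, ContDiff ℝ 1 ψ → HasCompactSupport ψ →
        tsupport ψ ⊆ ball 0 r1 →
        ∫ y, (Real.sqrt (1 + ‖gradient w y‖ ^ 2))⁻¹ * ⟪gradient w y, gradient ψ y⟫ = 0

/-- H2c (622): `C^{1,α}` weak solutions of the minimal surface equation are smooth. -/
def StH2c : Prop :=
  ∀ (r K α : ℝ) (w : F → ℝ), 0 < r → 0 ≤ K → 1 / 2 < α → α ≤ 1 → fderiv ℝ w 0 = 0 →
    (∀ y ∈ ball (0 : F) r, DifferentiableAt ℝ w y ∧ ‖fderiv ℝ w y‖ ≤ 1 / 4) →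
    (∀ y ∈ ball (0 : F) r, ∀ y' ∈ ball (0 : F) r,
      ‖fderiv ℝ w y - fderiv ℝ w y'‖ ≤ K * ‖y - y'‖ ^ α) →
    (∀ ψ : F → ℝ, ContDiff ℝ 1 ψ → HasCompactSupport ψ → tsupport ψ ⊆ ball 0 r →
      ∫ y, (Real.sqrt (1 + ‖gradient w y‖ ^ 2))⁻¹ * ⟪gradient w y, gradient ψ y⟫ = 0) →
    ∃ r1 > 0, r1 ≤ r ∧ ContDiffOn ℝ ∞ w (ball 0 r1)

end H2

section core

variable {F : Type} [NormedAddCommGroup F] [InnerProductSpace ℝ F] [FiniteDimensional ℝ F]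
  [MeasurableSpace F] [BorelSpace F]

/-- the class `D` of 873 in 638's form -/
theorem classD_univ {φ : F → ℝ} (h : G873.ClassD φ) : SD638.ClassD univ φ where
  lip := h.lip
  grad := by filter_upwards [h.grad] with x hx _ using hx
  pos := by
    intro ζ hζ hs ht h0
    rw [univ_inter] at ht
    exact h.sup ζ hζ hs h0 ht
  neg := by
    intro ζ hζ hs ht h0
    rw [univ_inter] at ht
    have := h.sub ζ hζ hs h0 ht
    have e : ∀ x, ⟪gradient (fun y => - φ y) x, gradient ζ x⟫ = - gi φ ζ x := by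
      intro x
      rw [SD638.gradient_neg', inner_neg_left]; rfl
    simp only [e, integral_neg]
    linarith

/-- from the expansion at all zeros near `p0` to smoothness and minimality at `p0`. -/
theorem good_of_expn [Nontrivial F] (hH2a : StH2a F)
    (hH2c : ∀ e : F, ‖e‖ = 1 → StH2c (ℝ ∙ e)ᗮ) {φ : F → ℝ} (hφ : G873.ClassD φ) {p0 : F}
    (hp0 : φ p0 = 0) {ρ C α : ℝ} (hρ : 0 < ρ) (hα : 1 / 2 < α) (hα1 : α ≤ 1)
    (hE : Expn φ p0 ρ C α) :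
    SM436.Good φ p0 ∧ LinearMap.trace ℝ F (SM436.hs φ p0 : F →ₗ[ℝ] F) = 0 := by
  have hdist : ∀ x, |φ x| = infDist x {x | φ x = 0} := (classD_univ hφ).abs_eq_infDist_univ
  obtain ⟨e, he, r0, hr0, K, hK, w, hw0, hdw0, hwd, hwl, hwh, hsign⟩ :=
    Mg295.exists_graph (by linarith) hα1 hφ.lip.continuous hp0 hρ hE
  obtain ⟨r1, hr1, hr10, hweak⟩ := hH2a φ p0 hp0 hφ hdist e he r0 K α w hr0 hK hα hα1 hw0 hdw0 hwd
    hwl hwh hsign
  have hsub1 : ball (0 : (ℝ ∙ e)ᗮ) r1 ⊆ ball 0 r0 := ball_subset_ball hr10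
  obtain ⟨r2, hr2, hr21, hsm⟩ := hH2c e he r1 K α w hr1 hK hα hα1 hdw0
    (fun y hy => hwd y (hsub1 hy)) (fun y hy y' hy' => hwh y (hsub1 hy) y' (hsub1 hy')) hweak
  have hr20 : r2 ≤ r0 := hr21.trans hr10
  have hsub2 : ball (0 : (ℝ ∙ e)ᗮ) r2 ⊆ ball 0 r0 := ball_subset_ball hr20
  obtain ⟨U, hU, hpU, hUs, hUg⟩ := Mg295.good_of_graph (p0 := p0) he hφ.lip hr2 hw0 hdw0
    (fun y hy y' hy' => hwl y (hsub2 hy) y' (hsub2 hy')) (fun y hy => hwd y (hsub2 hy)) hsm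
    (fun y hy t ht => hsign y (hsub2 hy) t (ht.trans_le hr20)) one_pos (fun x _ => hdist x)
  refine ⟨⟨U, hU, hpU, hUs, hUg⟩, ?_⟩
  have h0b : (0 : (ℝ ∙ e)ᗮ) ∈ ball (0 : (ℝ ∙ e)ᗮ) r0 := mem_ball_self hr0
  refine Mg295.tr_eq_zero (e := e) hU hpU hUs hφ.lip.continuous (R := 1) one_pos hr0 ?_ ?_ ?_ ?_
  · intro t ht htr
    have h := hsign 0 h0b t (by rwa [abs_of_pos ht])
    rw [hw0, sub_zero, sign_pos ht] at h
    have h2 := sign_eq_one_iff.1 h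
    simpa using h2
  · intro t ht htr
    have h := hsign 0 h0b (-t) (by rwa [abs_neg, abs_of_pos ht])
    rw [hw0, sub_zero, sign_neg (neg_lt_zero.2 ht)] at h
    have h2 := sign_eq_neg_one_iff.1 h
    simpa [sub_eq_add_neg] using h2
  · intro ζ hζ hs ht h0
    obtain ⟨C', hC'⟩ := hζ.lipschitzWith_of_hasCompactSupport hs (by simp)
    exact hφ.sup ζ ⟨C', hC'⟩ hs h0 (ht.trans inter_subset_right)
  · intro ζ hζ hs ht h0
    obtain ⟨C', hC'⟩ := hζ.lipschitzWith_of_hasCompactSupport hs (by simp)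
    exact hφ.sub ζ ⟨C', hC'⟩ hs h0 (ht.trans inter_subset_right)

end core


end Crest.Agent.R246.Reg549
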