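import Mathlib.Analysis.InnerProductSpace.PiL2
import Mathlib.Analysis.InnerProductSpace.Calculus
import Mathlib.MeasureTheory.Integral.DominatedConvergence
import Mathlib.MeasureTheory.Constructions.BorelSpace.Basic
import Crest.Agent.Lib.BorsukUlam
import Mathlib.Analysis.Calculus.ParametricIntegral
import Mathlib.Analysis.Calculus.MeanValue
import Mathlib.Analysis.Calculus.Deriv.MeanValue
import Mathlib.Analysis.SpecialFunctions.Trigonometric.Deriv
import Mathlib.Analysis.Distribution.AEEqOfIntegralContDiff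
import Mathlib.Analysis.InnerProductSpace.Dual
import Mathlib.Analysis.Convex.SpecificFunctions.Basic
import Mathlib.Analysis.SpecialFunctions.Arsinh
import Mathlib.MeasureTheory.Function.LocallyIntegrable
import Crest.Agent.R246.SM0_436
import Mathlib.Analysis.InnerProductSpace.Trace

-- ▼ part R246/Hersch_900
section

/-!
R246, part I (II): Hersch balancing lemma.
-/

set_option autoImplicit false

open MeasureTheory Filter Topology
open scoped RealInnerProductSpace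

set_option linter.unusedSectionVars false
set_option linter.unusedVariables false

namespace Crest.Agent.R246.Hersch900

variable {E : Type*} [NormedAddCommGroup E] [InnerProductSpace ℝ E]

/-- the conformal maps of the unit sphere -/
noncomputable def F (v x : E) : E := ((1 - ‖v‖ ^ 2) / ‖x - v‖ ^ 2) • (x - v) - v

omit [InnerProductSpace ℝ E] in
theorem norm_sub_sq_pos {v x : E} (h : x ≠ v) : 0 < ‖x - v‖ ^ 2 := by
  have : 0 < ‖x - v‖ := norm_pos_iff.2 (sub_ne_zero.2 h)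
  positivity

/-- `F v` preserves the unit sphere. -/
theorem norm_F_sq {v x : E} (hx : ‖x‖ = 1) (h : x ≠ v) : ‖F v x‖ ^ 2 = 1 := by
  have h0 : (0:ℝ) < ‖x - v‖ ^ 2 := norm_sub_sq_pos h
  have e : ‖x - v‖ ^ 2 = 1 - 2 * ⟪x, v⟫ + ‖v‖ ^ 2 := by
    rw [norm_sub_sq_real, hx]; ring
  unfold F
  rw [norm_sub_sq_real, norm_smul, real_inner_smul_left, inner_sub_left,
    real_inner_self_eq_norm_sq, mul_pow, Real.norm_eq_abs, sq_abs]
  generalize ‖x - v‖ ^ 2 = d at *
  generalize ⟪x, v⟫ = p at *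
  field_simp
  rw [e]
  ring

theorem F_of_norm_one {v x : E} (hv : ‖v‖ = 1) : F v x = -v := by
  unfold F; rw [hv]; simp

theorem norm_F_le {v x : E} (hx : ‖x‖ = 1) (hv : ‖v‖ ≤ 1) : ‖F v x‖ ≤ 1 := by
  rcases eq_or_lt_of_le hv with h | h
  · rw [F_of_norm_one h, norm_neg, h]
  · have hne : x ≠ v := by rintro rfl; exact absurd hx h.ne
    have := norm_F_sq hx hne
    nlinarith [norm_nonneg (F v x)]

theorem continuousAt_F {v x : E} (h : x ≠ v) : ContinuousAt (fun v => F v x) v := by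
  unfold F
  have : ‖x - v‖ ^ 2 ≠ 0 := (norm_sub_sq_pos h).ne'
  fun_prop (disch := assumption)


section

variable [FiniteDimensional ℝ E]

/-- A continuous map of the closed unit ball equal to a negative multiple of the identity on the
boundary has a zero. -/
theorem exists_zero_of_ball (H : E → E) (hH : ContinuousOn H (Metric.closedBall 0 1))
    (c : ℝ) (hc : 0 < c) (hb : ∀ x, ‖x‖ = 1 → H x = -(c • x)) :
    ∃ x, ‖x‖ < 1 ∧ H x = 0 := by
  classical
  let ρ : E × ℝ → ℝ := fun p => √(‖p.1‖ ^ 2 + p.2 ^ 2)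
  have hρ : Continuous ρ := by fun_prop
  have hρpos : ∀ p : E × ℝ, p ≠ 0 → 0 < ρ p := by
    intro p hp
    refine Real.sqrt_pos.2 ?_
    rcases eq_or_ne p.1 0 with h | h
    · have h2 : p.2 ≠ 0 := fun h2 => hp (Prod.ext h h2)
      positivity
    · have : 0 < ‖p.1‖ := norm_pos_iff.2 h
      positivity
  have hρneg : ∀ p : E × ℝ, ρ (-p) = ρ p := by intro p; simp [ρ]
  have hle : ∀ p : E × ℝ, p ≠ 0 → ‖(ρ p)⁻¹ • p.1‖ ≤ 1 := by
    intro p hp
    have h0 := hρpos p hp
    rw [norm_smul, norm_inv, Real.norm_of_nonneg h0.le, inv_mul_le_iff₀ h0, mul_one]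
    exact Real.le_sqrt_of_sq_le (by nlinarith [sq_nonneg p.2])
  let G : E × ℝ → E := fun p => if 0 ≤ p.2 then H ((ρ p)⁻¹ • p.1) else -H (-((ρ p)⁻¹ • p.1))
  have hG1 : ContinuousOn (fun p : E × ℝ => H ((ρ p)⁻¹ • p.1)) {p | p ≠ 0} := by
    refine hH.comp (f := fun p : E × ℝ => (ρ p)⁻¹ • p.1) ?_ ?_
    · refine ContinuousOn.smul (hρ.continuousOn.inv₀ fun p hp => (hρpos p hp).ne') ?_
      exact continuous_fst.continuousOn
    · intro p hp
      simpa using hle p hp
  have hG2 : ContinuousOn (fun p : E × ℝ => -H (-((ρ p)⁻¹ • p.1))) {p | p ≠ 0} := by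
    refine (hH.comp (f := fun p : E × ℝ => -((ρ p)⁻¹ • p.1)) ?_ ?_).neg
    · refine (ContinuousOn.smul (hρ.continuousOn.inv₀ fun p hp => (hρpos p hp).ne') ?_).neg
      exact continuous_fst.continuousOn
    · intro p hp
      simpa using hle p hp
  have hglue : ∀ p : E × ℝ, p ≠ 0 → p.2 = 0 →
      H ((ρ p)⁻¹ • p.1) = -H (-((ρ p)⁻¹ • p.1)) := by
    intro p hp h2
    have h0 := hρpos p hp
    have h1 : ‖(ρ p)⁻¹ • p.1‖ = 1 := by
      have : ρ p = ‖p.1‖ := by
        simp [ρ, h2]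
      rw [norm_smul, norm_inv, Real.norm_of_nonneg h0.le, this]
      exact inv_mul_cancel₀ (by rw [← this]; exact h0.ne')
    rw [hb _ h1, hb _ (by rw [norm_neg, h1])]
    simp
  have hG : ContinuousOn G {p | p ≠ 0} := by
    intro p hp
    rcases lt_trichotomy p.2 0 with h | h | h
    · refine (hG2 p hp).congr_of_eventuallyEq ?_ ?_
      · have : ∀ᶠ q : E × ℝ in 𝓝 p, q.2 < 0 :=
          continuous_snd.continuousAt.eventually (gt_mem_nhds h)
        filter_upwards [mem_nhdsWithin_of_mem_nhds this] with q hq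
        simp [G, not_le.2 hq]
      · simp [G, not_le.2 h]
    · have e0 : G p = H ((ρ p)⁻¹ • p.1) := by simp [G, h]
      have e1 : G p = -H (-((ρ p)⁻¹ • p.1)) := by rw [e0, hglue p hp h]
      have t1 := hG1 p hp
      have t2 := hG2 p hp
      rw [ContinuousWithinAt] at t1 t2 ⊢
      change Tendsto _ _ (𝓝 (H ((ρ p)⁻¹ • p.1))) at t1
      change Tendsto _ _ (𝓝 (-H (-((ρ p)⁻¹ • p.1)))) at t2
      rw [← e0] at t1
      rw [← e1] at t2
      rw [tendsto_def] at t1 t2 ⊢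
      intro s hs
      filter_upwards [t1 s hs, t2 s hs] with q h1 h2
      change G q ∈ s
      change H ((ρ q)⁻¹ • q.1) ∈ s at h1
      change -H (-((ρ q)⁻¹ • q.1)) ∈ s at h2
      by_cases hq : 0 ≤ q.2
      · simpa [G, hq] using h1
      · simpa [G, hq] using h2
    · refine (hG1 p hp).congr_of_eventuallyEq ?_ ?_
      · have : ∀ᶠ q : E × ℝ in 𝓝 p, 0 < q.2 :=
          continuous_snd.continuousAt.eventually (lt_mem_nhds h)
        filter_upwards [mem_nhdsWithin_of_mem_nhds this] with q hq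
        simp [G, hq.le]
      · simp [G, h.le]
  have hodd : ∀ p, p ≠ 0 → G (-p) = -G p := by
    intro p hp
    simp only [G, hρneg, Prod.fst_neg, Prod.snd_neg, smul_neg, neg_neg, Left.nonneg_neg_iff]
    rcases lt_trichotomy p.2 0 with h | h | h
    · simp [h.le, not_le.2 h]
    · have := hglue p hp h
      simp [h, this]
    · simp [h.le, not_le.2 h]
  obtain ⟨p, hp, h0⟩ := Crest.Agent.Lib.BorsukUlam.exists_zero_of_odd
    (W := E × ℝ) (E := E) (by simp) G hG hodd
  obtain ⟨y, hy, hy0⟩ : ∃ y : E, ‖y‖ ≤ 1 ∧ H y = 0 := by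
    simp only [G] at h0
    split_ifs at h0
    · exact ⟨_, hle p hp, h0⟩
    · exact ⟨_, by rw [norm_neg]; exact hle p hp, neg_eq_zero.1 h0⟩
  refine ⟨y, lt_of_le_of_ne hy fun h1 => ?_, hy0⟩
  rw [hb y h1, neg_eq_zero] at hy0
  have := congrArg norm hy0
  rw [norm_smul, h1] at this
  simp [hc.ne'] at this

variable [MeasurableSpace E] [BorelSpace E]

theorem aestronglyMeasurable_F (v : E) (μ : Measure E) :
    AEStronglyMeasurable (fun x => F v x) μ := by
  unfold F
  refine Measurable.aestronglyMeasurable ?_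
  fun_prop

/-- **Hersch's balancing lemma.** -/
theorem exists_balanced (μ : Measure E) [IsFiniteMeasure μ] (hat : ∀ v : E, μ {v} = 0) (h0 : μ ≠ 0)
    (hS : ∀ᵐ x ∂μ, ‖x‖ = 1) :
    ∃ v : E, ‖v‖ < 1 ∧ ∫ x, F v x ∂μ = 0 := by
  have hne : ∀ v : E, ∀ᵐ x ∂μ, x ≠ v := fun v => by
    simpa [ae_iff] using hat v
  refine exists_zero_of_ball (fun v => ∫ x, F v x ∂μ) ?_ (μ.real Set.univ) ?_ ?_
  · intro v hv
    refine continuousWithinAt_of_dominated (bound := fun _ => 1) ?_ ?_ (integrable_const _) ?_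
    · exact Eventually.of_forall fun w => aestronglyMeasurable_F w μ
    · filter_upwards [self_mem_nhdsWithin] with w hw
      filter_upwards [hS] with x hx
      exact norm_F_le hx (by simpa using hw)
    · filter_upwards [hne v] with x hx
      exact (continuousAt_F hx).continuousWithinAt
  · rw [Measure.real, ENNReal.toReal_pos_iff]
    exact ⟨pos_iff_ne_zero.2 (by simpa using h0), measure_lt_top _ _⟩
  · intro v hv
    simp only [F_of_norm_one hv]
    simp

end

end Crest.Agent.R246.Hersch900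
end

-- ▼ part R246/Hersch2_900
section

/-!
R246, part I (II): conformal area of a minimal hypersurface of the sphere, weak form.
-/

set_option autoImplicit false

open MeasureTheory Filter Topology
open scoped RealInnerProductSpace ContDiff

set_option linter.unusedSectionVars false
set_option linter.unusedVariables false

namespace Crest.Agent.R246.Hersch900

variable {E : Type*} [NormedAddCommGroup E] [InnerProductSpace ℝ E] [FiniteDimensional ℝ E]
  [MeasurableSpace E] [BorelSpace E]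

/-- smooth near the unit sphere -/
def SmS (h : E → ℝ) : Prop := ∀ x, ‖x‖ = 1 → ContDiffAt ℝ ∞ h x

/-- weak minimal hypersurface of the unit sphere: measure `σ`, unit normal `ν`, first variation -/
structure MinSurf (m : ℕ) (σ : Measure E) (ν : E → E) : Prop where
  fin : IsFiniteMeasure σ
  sph : ∀ᵐ x ∂σ, ‖x‖ = 1
  atom : ∀ x, σ {x} = 0
  meas : AEStronglyMeasurable ν σ
  nu1 : ∀ᵐ x ∂σ, ‖ν x‖ = 1
  nux : ∀ᵐ x ∂σ, ⟪ν x, x⟫ = 0
  fv : ∀ h : E → ℝ, SmS h → ∀ e : E,
    ∫ x, (fderiv ℝ h x e - ⟪x, e⟫ * fderiv ℝ h x x - ⟪ν x, e⟫ * fderiv ℝ h x (ν x)) ∂σ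
      = m * ∫ x, ⟪x, e⟫ * h x ∂σ

/-- squared tangential gradient -/
noncomputable def T (ν : E → E) (h : E → ℝ) (x : E) : ℝ :=
  ‖fderiv ℝ h x‖ ^ 2 - (fderiv ℝ h x x) ^ 2 - (fderiv ℝ h x (ν x)) ^ 2

/-! ### positivity of the conformal factor -/

theorem ch_pos (t y : ℝ) (hy : |y| ≤ 1) : Real.exp (-|t|) ≤ Real.cosh t + Real.sinh t * y := by
  have h1 : Real.cosh t = Real.cosh |t| := (Real.cosh_abs t).symm
  have h2 : |Real.sinh t| = Real.sinh |t| := Real.abs_sinh t
  have h3 : -|Real.sinh t| ≤ Real.sinh t * y := by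
    have : |Real.sinh t * y| ≤ |Real.sinh t| := by
      rw [abs_mul]
      exact mul_le_of_le_one_right (abs_nonneg _) hy
    exact (abs_le.1 this).1
  have h4 : Real.exp (-|t|) = Real.cosh |t| - Real.sinh |t| := (Real.cosh_sub_sinh _).symm
  rw [h4, ← h2, ← h1]
  linarith

theorem ch_pos' (t y : ℝ) (hy : |y| ≤ 1) : 0 < Real.cosh t + Real.sinh t * y :=
  lt_of_lt_of_le (Real.exp_pos _) (ch_pos t y hy)

theorem abs_inner_le_one {x a : E} (hx : ‖x‖ = 1) (ha : ‖a‖ = 1) : |⟪x, a⟫| ≤ 1 := by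
  have := abs_real_inner_le_norm x a
  rwa [hx, ha, one_mul] at this

/-! ### the function of `t` -/

/-- `∫ (cosh t + sinh t ⟪x,a⟫)^{-m} dσ` -/
noncomputable def fA (m : ℕ) (σ : Measure E) (a : E) (t : ℝ) : ℝ :=
  ∫ x, ((Real.cosh t + Real.sinh t * ⟪x, a⟫) ^ m)⁻¹ ∂σ

theorem sms_h (m : ℕ) (a : E) (ha : ‖a‖ = 1) (t : ℝ) :
    SmS (fun x : E => ((Real.cosh t + Real.sinh t * ⟪x, a⟫) ^ m)⁻¹) := by
  intro x hx
  have h0 := ch_pos' t ⟪x, a⟫ (abs_inner_le_one hx ha)
  have h1 : ContDiffAt ℝ ∞ (fun x : E => ⟪x, a⟫) x := contDiffAt_id.inner ℝ contDiffAt_const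
  refine ContDiffAt.inv ?_ (pow_ne_zero _ h0.ne')
  fun_prop

theorem fderiv_h (m : ℕ) (a : E) (ha : ‖a‖ = 1) (t : ℝ) (x : E) (hx : ‖x‖ = 1) (e : E) :
    fderiv ℝ (fun x : E => ((Real.cosh t + Real.sinh t * ⟪x, a⟫) ^ m)⁻¹) x e =
      -(m * Real.sinh t * ⟪e, a⟫ * ((Real.cosh t + Real.sinh t * ⟪x, a⟫) ^ (m + 1))⁻¹) := by
  have h0 := ch_pos' t ⟪x, a⟫ (abs_inner_le_one hx ha)
  set s := Real.cosh t + Real.sinh t * ⟪x, a⟫ with hs
  have h1 : HasFDerivAt (fun x : E => ⟪x, a⟫) (innerSL ℝ a) x := by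
    have := (innerSL ℝ a).hasFDerivAt (x := x)
    refine this.congr_of_eventuallyEq (Eventually.of_forall fun y => ?_)
    simp [real_inner_comm]
  have h2 : HasFDerivAt (fun x : E => Real.cosh t + Real.sinh t * ⟪x, a⟫)
      (Real.sinh t • innerSL ℝ a) x := by
    simpa using (h1.const_mul (Real.sinh t)).const_add (Real.cosh t)
  have h3 : HasDerivAt (fun s : ℝ => (s ^ m)⁻¹) (-(m * s ^ (m - 1)) / (s ^ m) ^ 2) s :=
    (hasDerivAt_pow m s).inv (pow_ne_zero _ h0.ne')
  have h4 := h3.comp_hasFDerivAt x h2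
  have h5 : fderiv ℝ (fun x : E => ((Real.cosh t + Real.sinh t * ⟪x, a⟫) ^ m)⁻¹) x =
      (-(m * s ^ (m - 1)) / (s ^ m) ^ 2) • Real.sinh t • innerSL ℝ a := h4.fderiv
  rw [h5]
  simp only [smul_apply, innerSL_apply_apply, smul_eq_mul]
  rw [real_inner_comm e a]
  rcases Nat.eq_zero_or_pos m with h | h
  · subst h; simp
  · obtain ⟨k, rfl⟩ : ∃ k, m = k + 1 := ⟨m - 1, by omega⟩
    have : s ≠ 0 := h0.ne'
    simp only [Nat.add_sub_cancel]
    field_simp
    try ring

section deriv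

variable {m : ℕ} {σ : Measure E} {ν : E → E}

theorem hasDerivAt_fA (hM : MinSurf m σ ν) (a : E) (ha : ‖a‖ = 1) (t : ℝ) :
    HasDerivAt (fA m σ a) (∫ x, -(m * (Real.sinh t + Real.cosh t * ⟪x, a⟫) *
      ((Real.cosh t + Real.sinh t * ⟪x, a⟫) ^ (m + 1))⁻¹) ∂σ) t := by
  have := hM.fin
  have hm1 : ∀ (t : ℝ) (k : ℕ), AEStronglyMeasurable
      (fun x : E => ((Real.cosh t + Real.sinh t * ⟪x, a⟫) ^ k)⁻¹) σ := fun t k => by
    refine Measurable.aestronglyMeasurable ?_
    fun_prop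
  have hb : ∀ t k, ∀ᵐ x ∂σ, ‖((Real.cosh t + Real.sinh t * ⟪x, a⟫) ^ k)⁻¹‖ ≤
      Real.exp |t| ^ k := by
    intro t k
    filter_upwards [hM.sph] with x hx
    have h0 := ch_pos t ⟪x, a⟫ (abs_inner_le_one hx ha)
    have h1 := ch_pos' t ⟪x, a⟫ (abs_inner_le_one hx ha)
    rw [norm_inv, norm_pow, Real.norm_of_nonneg h1.le, ← inv_pow]
    refine pow_le_pow_left₀ (inv_nonneg.2 h1.le) ?_ _
    rw [inv_le_comm₀ h1 (Real.exp_pos _), ← Real.exp_neg]
    exact h0
  refine (hasDerivAt_integral_of_dominated_loc_of_deriv_le (F := fun t x =>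
    ((Real.cosh t + Real.sinh t * ⟪x, a⟫) ^ m)⁻¹)
    (F' := fun t x => -(m * (Real.sinh t + Real.cosh t * ⟪x, a⟫) *
      ((Real.cosh t + Real.sinh t * ⟪x, a⟫) ^ (m + 1))⁻¹)) (s := Metric.ball t 1)
    (bound := fun _ => m * (2 * Real.exp (|t| + 1)) * Real.exp (|t| + 1) ^ (m + 1))
    (Metric.ball_mem_nhds t one_pos) ?_ ?_ ?_ ?_ (integrable_const (μ := σ) _) ?_).2
  · exact Eventually.of_forall fun s => hm1 s m
  · exact Integrable.of_bound (hm1 t m) _ (hb t m)
  · refine Measurable.aestronglyMeasurable ?_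
    fun_prop
  · filter_upwards [hM.sph] with x hx s hs
    have hst : |s| ≤ |t| + 1 := by
      have : |s - t| < 1 := by simpa [Real.dist_eq] using hs
      have := abs_sub_abs_le_abs_sub s t
      linarith
    have h0 := ch_pos s ⟪x, a⟫ (abs_inner_le_one hx ha)
    have h1 := ch_pos' s ⟪x, a⟫ (abs_inner_le_one hx ha)
    have e1 : ‖((Real.cosh s + Real.sinh s * ⟪x, a⟫) ^ (m + 1))⁻¹‖ ≤
        Real.exp (|t| + 1) ^ (m + 1) := by
      rw [norm_inv, norm_pow, Real.norm_of_nonneg h1.le, ← inv_pow]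
      refine pow_le_pow_left₀ (inv_nonneg.2 h1.le) ?_ _
      rw [inv_le_comm₀ h1 (Real.exp_pos _), ← Real.exp_neg]
      exact le_trans (Real.exp_le_exp.2 (by linarith)) h0
    have e2 : |Real.sinh s + Real.cosh s * ⟪x, a⟫| ≤ 2 * Real.exp (|t| + 1) := by
      have g1 : |Real.sinh s| ≤ Real.exp |s| := by
        rw [Real.abs_sinh]
        have := Real.sinh_eq |s|
        have := Real.exp_pos (-|s|)
        have := Real.exp_pos |s|
        linarith
      have g2 : |Real.cosh s| ≤ Real.exp |s| := by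
        rw [abs_of_pos (Real.cosh_pos s), ← Real.cosh_abs]
        have := Real.cosh_eq |s|
        have : Real.exp (-|s|) ≤ Real.exp |s| := Real.exp_le_exp.2 (by linarith [abs_nonneg s])
        linarith
      have g3 : |Real.cosh s * ⟪x, a⟫| ≤ |Real.cosh s| := by
        rw [abs_mul]
        exact mul_le_of_le_one_right (abs_nonneg _) (abs_inner_le_one hx ha)
      have g4 : Real.exp |s| ≤ Real.exp (|t| + 1) := Real.exp_le_exp.2 hst
      calc |Real.sinh s + Real.cosh s * ⟪x, a⟫| ≤ |Real.sinh s| + |Real.cosh s * ⟪x, a⟫| :=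
            abs_add_le _ _
        _ ≤ _ := by linarith
    rw [norm_neg, norm_mul, norm_mul, Real.norm_natCast, Real.norm_eq_abs (_ + _)]
    gcongr
  · filter_upwards [hM.sph] with x hx s hs
    have h1 := ch_pos' s ⟪x, a⟫ (abs_inner_le_one hx ha)
    have h2 : HasDerivAt (fun s => Real.cosh s + Real.sinh s * ⟪x, a⟫)
        (Real.sinh s + Real.cosh s * ⟪x, a⟫) s :=
      (Real.hasDerivAt_cosh s).add ((Real.hasDerivAt_sinh s).mul_const _)
    have h3 := (h2.pow m).inv (pow_ne_zero _ h1.ne')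
    refine h3.congr_deriv ?_
    change -((m : ℝ) * (Real.cosh s + Real.sinh s * ⟪x, a⟫) ^ (m - 1) *
      (Real.sinh s + Real.cosh s * ⟪x, a⟫)) / ((Real.cosh s + Real.sinh s * ⟪x, a⟫) ^ m) ^ 2 = _
    clear h3 hb hm1 h2
    generalize Real.cosh s + Real.sinh s * ⟪x, a⟫ = z at *
    generalize Real.sinh s + Real.cosh s * ⟪x, a⟫ = w at *
    rcases Nat.eq_zero_or_pos m with h | h
    · subst h; simp
    · obtain ⟨k, rfl⟩ : ∃ k, m = k + 1 := ⟨m - 1, by omega⟩
      have : z ≠ 0 := h1.ne'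
      simp only [Nat.add_sub_cancel, Pi.pow_apply]
      field_simp
      try ring

/-- the derivative in terms of the normal -/
theorem deriv_fA_eq (hM : MinSurf m σ ν) (a : E) (ha : ‖a‖ = 1) (t : ℝ) :
    ∫ x, -(m * (Real.sinh t + Real.cosh t * ⟪x, a⟫) *
      ((Real.cosh t + Real.sinh t * ⟪x, a⟫) ^ (m + 1))⁻¹) ∂σ =
    -(m * Real.sinh t * ∫ x, ⟪ν x, a⟫ ^ 2 *
      ((Real.cosh t + Real.sinh t * ⟪x, a⟫) ^ (m + 1))⁻¹ ∂σ) := by
  have := hM.fin
  have hfv := hM.fv _ (sms_h m a ha t) a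
  have hb : ∀ᵐ x ∂σ, ‖((Real.cosh t + Real.sinh t * ⟪x, a⟫) ^ (m + 1))⁻¹‖ ≤
      Real.exp |t| ^ (m + 1) := by
    filter_upwards [hM.sph] with x hx
    have h0 := ch_pos t ⟪x, a⟫ (abs_inner_le_one hx ha)
    have h1 := ch_pos' t ⟪x, a⟫ (abs_inner_le_one hx ha)
    rw [norm_inv, norm_pow, Real.norm_of_nonneg h1.le, ← inv_pow]
    refine pow_le_pow_left₀ (inv_nonneg.2 h1.le) ?_ _
    rw [inv_le_comm₀ h1 (Real.exp_pos _), ← Real.exp_neg]
    exact h0
  have hmK : AEStronglyMeasurable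
      (fun x : E => ((Real.cosh t + Real.sinh t * ⟪x, a⟫) ^ (m + 1))⁻¹) σ := by
    refine Measurable.aestronglyMeasurable ?_
    fun_prop
  have hiK : Integrable (fun x : E => ((Real.cosh t + Real.sinh t * ⟪x, a⟫) ^ (m + 1))⁻¹) σ :=
    Integrable.of_bound hmK _ hb
  -- bounded times `K` is integrable
  have hbi : ∀ u : E → ℝ, AEStronglyMeasurable u σ → (∀ᵐ x ∂σ, ‖u x‖ ≤ 1) →
      Integrable (fun x => u x * ((Real.cosh t + Real.sinh t * ⟪x, a⟫) ^ (m + 1))⁻¹) σ :=
    fun u hu hu1 => hiK.bdd_mul hu hu1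
  have mν : AEStronglyMeasurable (fun x => ⟪ν x, a⟫ ^ 2) σ := by
    exact (hM.meas.inner aestronglyMeasurable_const).pow 2
  have my : AEStronglyMeasurable (fun x : E => ⟪x, a⟫) σ := by
    refine Measurable.aestronglyMeasurable ?_
    fun_prop
  have bν : ∀ᵐ x ∂σ, ‖⟪ν x, a⟫ ^ 2‖ ≤ 1 := by
    filter_upwards [hM.nu1] with x hx
    have := abs_inner_le_one hx ha
    rw [norm_pow, Real.norm_eq_abs]
    exact pow_le_one₀ (abs_nonneg _) this
  have byy : ∀ᵐ x ∂σ, ‖⟪x, a⟫‖ ≤ 1 := by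
    filter_upwards [hM.sph] with x hx
    exact abs_inner_le_one hx ha
  have iν := hbi _ mν bν
  have iy := hbi _ my byy
  -- rewrite the first variation
  have e1 : ∫ x, (fderiv ℝ (fun x : E => ((Real.cosh t + Real.sinh t * ⟪x, a⟫) ^ m)⁻¹) x a
      - ⟪x, a⟫ * fderiv ℝ (fun x : E => ((Real.cosh t + Real.sinh t * ⟪x, a⟫) ^ m)⁻¹) x x
      - ⟪ν x, a⟫ * fderiv ℝ (fun x : E => ((Real.cosh t + Real.sinh t * ⟪x, a⟫) ^ m)⁻¹) x (ν x)) ∂σ
      = ∫ x, -(m * Real.sinh t) * ((1 - ⟪x, a⟫ ^ 2 - ⟪ν x, a⟫ ^ 2) *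
        ((Real.cosh t + Real.sinh t * ⟪x, a⟫) ^ (m + 1))⁻¹) ∂σ := by
    refine integral_congr_ae ?_
    filter_upwards [hM.sph] with x hx
    rw [fderiv_h m a ha t x hx, fderiv_h m a ha t x hx, fderiv_h m a ha t x hx,
      real_inner_self_eq_norm_sq, ha]
    ring
  rw [e1] at hfv
  have e2 : ∫ x, ⟪x, a⟫ * ((Real.cosh t + Real.sinh t * ⟪x, a⟫) ^ m)⁻¹ ∂σ =
      ∫ x, (Real.cosh t * ⟪x, a⟫ + Real.sinh t * ⟪x, a⟫ ^ 2) *
        ((Real.cosh t + Real.sinh t * ⟪x, a⟫) ^ (m + 1))⁻¹ ∂σ := by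
    refine integral_congr_ae ?_
    filter_upwards [hM.sph] with x hx
    have h1 := (ch_pos' t ⟪x, a⟫ (abs_inner_le_one hx ha)).ne'
    have : Real.cosh t * ⟪x, a⟫ + Real.sinh t * ⟪x, a⟫ ^ 2 =
      ⟪x, a⟫ * (Real.cosh t + Real.sinh t * ⟪x, a⟫) := by ring
    rw [this]
    generalize Real.cosh t + Real.sinh t * ⟪x, a⟫ = z at *
    rw [pow_succ, mul_inv]
    field_simp
  rw [e2, ← integral_const_mul] at hfv
  have iy2 := hbi (fun x => ⟪x, a⟫ ^ 2) (my.pow 2) (by
    filter_upwards [byy] with x hx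
    rw [norm_pow]
    exact pow_le_one₀ (norm_nonneg _) hx)
  have h1 : ∫ x, (m * ((Real.cosh t * ⟪x, a⟫ + Real.sinh t * ⟪x, a⟫ ^ 2) *
        ((Real.cosh t + Real.sinh t * ⟪x, a⟫) ^ (m + 1))⁻¹) -
        -(m * Real.sinh t) * ((1 - ⟪x, a⟫ ^ 2 - ⟪ν x, a⟫ ^ 2) *
        ((Real.cosh t + Real.sinh t * ⟪x, a⟫) ^ (m + 1))⁻¹)) ∂σ = 0 := by
    rw [integral_sub, ← hfv, sub_self]
    · have := ((iy.const_mul (Real.cosh t)).add (iy2.const_mul (Real.sinh t))).const_mul (m : ℝ)
      refine this.congr (Eventually.of_forall fun x => ?_)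
      simp only [Pi.add_apply]
      ring
    · have := ((hiK.sub iy2).sub iν).const_mul (-(m * Real.sinh t))
      refine this.congr (Eventually.of_forall fun x => ?_)
      simp only [Pi.sub_apply]
      ring
  rw [← integral_const_mul, ← integral_neg, ← sub_eq_zero, ← integral_sub]
  · rw [← neg_eq_zero, ← integral_neg, ← h1]
    refine integral_congr_ae (Eventually.of_forall fun x => ?_)
    simp only
    ring
  · have := ((hiK.const_mul (Real.sinh t)).add (iy.const_mul (Real.cosh t))).const_mul (-(m : ℝ))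
    refine this.congr (Eventually.of_forall fun x => ?_)
    simp only [Pi.add_apply]
    ring
  · exact (iν.const_mul _).neg

theorem fA_zero (hM : MinSurf m σ ν) (a : E) : fA m σ a 0 = σ.real Set.univ := by
  have := hM.fin
  simp [fA]

/-- nonnegativity of the normal integral -/
theorem normal_int_nonneg (hM : MinSurf m σ ν) (a : E) (ha : ‖a‖ = 1) (t : ℝ) :
    0 ≤ ∫ x, ⟪ν x, a⟫ ^ 2 * ((Real.cosh t + Real.sinh t * ⟪x, a⟫) ^ (m + 1))⁻¹ ∂σ := by
  refine integral_nonneg_of_ae ?_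
  filter_upwards [hM.sph] with x hx
  have h1 := (ch_pos' t ⟪x, a⟫ (abs_inner_le_one hx ha))
  positivity

theorem antitoneOn_fA (hM : MinSurf m σ ν) (a : E) (ha : ‖a‖ = 1) :
    AntitoneOn (fA m σ a) (Set.Ici 0) := by
  refine antitoneOn_of_deriv_nonpos (convex_Ici 0) ?_ ?_ ?_
  · exact fun t _ => (hasDerivAt_fA hM a ha t).continuousAt.continuousWithinAt
  · exact fun t _ => (hasDerivAt_fA hM a ha t).differentiableAt.differentiableWithinAt
  · intro t ht
    rw [interior_Ici] at ht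
    rw [(hasDerivAt_fA hM a ha t).deriv, deriv_fA_eq hM a ha t]
    have h1 := normal_int_nonneg hM a ha t
    have h2 : 0 ≤ Real.sinh t := Real.sinh_nonneg_iff.2 (le_of_lt ht)
    have h3 : (0 : ℝ) ≤ m * Real.sinh t := by positivity
    nlinarith [mul_nonneg h3 h1]

/-- **Conformal area** -/
theorem fA_le (hM : MinSurf m σ ν) (a : E) (ha : ‖a‖ = 1) (t : ℝ) (ht : 0 ≤ t) :
    fA m σ a t ≤ σ.real Set.univ := by
  rw [← fA_zero hM a]
  exact antitoneOn_fA hM a ha (Set.mem_Ici.2 le_rfl) ht ht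

theorem fA_eq (hM : MinSurf m σ ν) (hm : 1 ≤ m) (a : E) (ha : ‖a‖ = 1) (t : ℝ) (ht : 0 < t)
    (h : fA m σ a t = σ.real Set.univ) : ∀ᵐ x ∂σ, ⟪ν x, a⟫ = 0 := by
  have := hM.fin
  have hanti := antitoneOn_fA hM a ha
  have hconst : ∀ s ∈ Set.Ioo 0 t, fA m σ a s = σ.real Set.univ := by
    intro s hs
    refine le_antisymm (fA_le hM a ha s hs.1.le) ?_
    rw [← h]
    exact hanti hs.1.le ht.le hs.2.le
  have hd : HasDerivAt (fA m σ a) 0 (t / 2) := by
    have : fA m σ a =ᶠ[𝓝 (t / 2)] fun _ => σ.real Set.univ := by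
      filter_upwards [Ioo_mem_nhds (show (0:ℝ) < t / 2 by linarith) (show t / 2 < t by linarith)]
        with s hs
      exact hconst s hs
    exact (hasDerivAt_const _ _).congr_of_eventuallyEq this
  have h0 := (hasDerivAt_fA hM a ha (t / 2)).unique hd
  rw [deriv_fA_eq hM a ha, neg_eq_zero] at h0
  have hsh : (m : ℝ) * Real.sinh (t / 2) ≠ 0 := by
    have h2 : 0 < Real.sinh (t / 2) := Real.sinh_pos_iff.2 (by linarith)
    have h1 : (0 : ℝ) < m := by exact_mod_cast hm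
    positivity
  have h1 := (mul_eq_zero.1 h0).resolve_left hsh
  rw [integral_eq_zero_iff_of_nonneg_ae] at h1
  · filter_upwards [h1, hM.sph] with x hx hx1
    have h2 := (ch_pos' (t / 2) ⟪x, a⟫ (abs_inner_le_one hx1 ha))
    have h3 : ((Real.cosh (t / 2) + Real.sinh (t / 2) * ⟪x, a⟫) ^ (m + 1))⁻¹ ≠ 0 := by positivity
    simp only [Pi.zero_apply, mul_eq_zero, h3, or_false] at hx
    exact pow_eq_zero_iff (two_ne_zero) |>.1 hx
  · filter_upwards [hM.sph] with x hx
    have h2 := (ch_pos' (t / 2) ⟪x, a⟫ (abs_inner_le_one hx ha))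
    simp only [Pi.zero_apply]
    positivity
  · have hmK : AEStronglyMeasurable
        (fun x : E => ((Real.cosh (t / 2) + Real.sinh (t / 2) * ⟪x, a⟫) ^ (m + 1))⁻¹) σ := by
      refine Measurable.aestronglyMeasurable ?_
      fun_prop
    have hb : ∀ᵐ x ∂σ, ‖((Real.cosh (t / 2) + Real.sinh (t / 2) * ⟪x, a⟫) ^ (m + 1))⁻¹‖ ≤
        Real.exp |t / 2| ^ (m + 1) := by
      filter_upwards [hM.sph] with x hx
      have h0 := ch_pos (t / 2) ⟪x, a⟫ (abs_inner_le_one hx ha)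
      have h1 := ch_pos' (t / 2) ⟪x, a⟫ (abs_inner_le_one hx ha)
      rw [norm_inv, norm_pow, Real.norm_of_nonneg h1.le, ← inv_pow]
      refine pow_le_pow_left₀ (inv_nonneg.2 h1.le) ?_ _
      rw [inv_le_comm₀ h1 (Real.exp_pos _), ← Real.exp_neg]
      exact h0
    refine (Integrable.of_bound hmK _ hb).bdd_mul (c := 1)
      ((hM.meas.inner aestronglyMeasurable_const).pow 2) ?_
    filter_upwards [hM.nu1] with x hx
    have := abs_inner_le_one hx ha
    rw [norm_pow, Real.norm_eq_abs]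
    exact pow_le_one₀ (abs_nonneg _) this

end deriv

end Crest.Agent.R246.Hersch900
end

-- ▼ part R246/Hersch3_900
section

/-!
R246, part I (II): Hersch's trick for weak minimal hypersurfaces of the sphere:
if `∫ A2 g = 0 ⇒ ∫ A2 g² ≤ ∫ |∇g|²` then `∫ A2 ≤ m σ`, with the equality case.
-/

set_option autoImplicit false

open MeasureTheory Filter Topology
open scoped RealInnerProductSpace ContDiff

set_option linter.unusedSectionVars false
set_option linter.unusedVariables false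

namespace Crest.Agent.R246.Hersch900

variable {E : Type*} [NormedAddCommGroup E] [InnerProductSpace ℝ E]

/-! ### gradient of the coordinates of `F` -/

/-- the gradient of `x ↦ ⟪F v x, b⟫` -/
noncomputable def G (v b x : E) : E :=
  ((1 - ‖v‖ ^ 2) / ‖x - v‖ ^ 2) • (b - (2 * ⟪x - v, b⟫ / ‖x - v‖ ^ 2) • (x - v))

theorem hasFDerivAt_F {v x : E} (h : x ≠ v) (b : E) :
    HasFDerivAt (fun x => ⟪F v x, b⟫) (innerSL ℝ (G v b x)) x := by
  have h0 : (0:ℝ) < ‖x - v‖ ^ 2 := norm_sub_sq_pos h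
  have h1 : HasFDerivAt (fun x : E => ⟪x - v, b⟫) (innerSL ℝ b) x := by
    have := (innerSL ℝ b).hasFDerivAt (x := x)
    have h2 : HasFDerivAt (fun x : E => innerSL ℝ b x - ⟪v, b⟫) (innerSL ℝ b) x :=
      this.sub_const _
    refine h2.congr_of_eventuallyEq (Eventually.of_forall fun y => ?_)
    simp [real_inner_comm, inner_sub_left]
  have h2 : HasFDerivAt (fun x : E => ‖x - v‖ ^ 2) (2 • innerSL ℝ (x - v)) x := by
    have := (hasStrictFDerivAt_norm_sq (x - v)).hasFDerivAt.comp x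
      ((hasFDerivAt_id x).sub_const v)
    exact this
  have h3 : HasFDerivAt (fun x : E => (‖x - v‖ ^ 2)⁻¹)
      ((-((‖x - v‖ ^ 2) ^ 2)⁻¹) • (2 • innerSL ℝ (x - v))) x :=
    (hasDerivAt_inv h0.ne').comp_hasFDerivAt x h2
  have h4 := ((h1.mul h3).const_mul (1 - ‖v‖ ^ 2)).sub_const ⟪v, b⟫
  refine (h4.congr_fderiv ?_).congr_of_eventuallyEq (Eventually.of_forall fun y => ?_)
  · ext e
    simp only [G, map_smul, smul_apply, add_apply, innerSL_apply_apply, smul_eq_mul,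
      nsmul_eq_mul, Nat.cast_ofNat]
    generalize x - v = w at *
    rw [inner_sub_left, real_inner_smul_left]
    generalize ‖w‖ ^ 2 = d at *
    field_simp
    ring
  · simp only [F, inner_sub_left, real_inner_smul_left, Pi.mul_apply]
    ring

theorem norm_refl_sq {w : E} (h0 : (0:ℝ) < ‖w‖ ^ 2) (b : E) :
    ‖b - (2 * ⟪w, b⟫ / ‖w‖ ^ 2) • w‖ ^ 2 = ‖b‖ ^ 2 := by
  rw [norm_sub_sq_real, norm_smul,
    real_inner_smul_right, mul_pow, Real.norm_eq_abs, sq_abs, real_inner_comm w b]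
  generalize ‖w‖ ^ 2 = d at *
  field_simp
  ring

theorem norm_G_sq {v x : E} (h : x ≠ v) (b : E) :
    ‖G v b x‖ ^ 2 = ((1 - ‖v‖ ^ 2) / ‖x - v‖ ^ 2) ^ 2 * ‖b‖ ^ 2 := by
  have h0 : (0:ℝ) < ‖x - v‖ ^ 2 := norm_sub_sq_pos h
  unfold G
  rw [norm_smul, mul_pow, Real.norm_eq_abs, sq_abs, norm_refl_sq h0]

/-- the reflection -/
noncomputable def Rf (v x y : E) : E := y - (2 * ⟪x - v, y⟫ / ‖x - v‖ ^ 2) • (x - v)

theorem norm_Rf_sq {v x : E} (h : x ≠ v) (y : E) : ‖Rf v x y‖ ^ 2 = ‖y‖ ^ 2 :=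
  norm_refl_sq (norm_sub_sq_pos h) y

theorem inner_G {v x : E} (b y : E) :
    ⟪G v b x, y⟫ = ((1 - ‖v‖ ^ 2) / ‖x - v‖ ^ 2) * ⟪b, Rf v x y⟫ := by
  unfold G Rf
  rw [real_inner_smul_left, inner_sub_left, inner_sub_right, real_inner_smul_left,
    real_inner_smul_right, real_inner_comm (x - v) b]
  ring

variable [FiniteDimensional ℝ E] [MeasurableSpace E] [BorelSpace E]

theorem sum_T_F {m : ℕ} (hdim : Module.finrank ℝ E = m + 2) {v x : E} (h : x ≠ v)
    (hx : ‖x‖ = 1) (ν : E → E) (hy : ‖ν x‖ = 1) :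
    ∑ i, T ν (fun x => ⟪F v x, stdOrthonormalBasis ℝ E i⟫) x =
      m * ((1 - ‖v‖ ^ 2) / ‖x - v‖ ^ 2) ^ 2 := by
  unfold T
  simp only [(hasFDerivAt_F h _).fderiv, innerSL_apply_norm, innerSL_apply_apply, norm_G_sq h,
    inner_G, OrthonormalBasis.norm_eq_one]
  rw [Finset.sum_sub_distrib, Finset.sum_sub_distrib]
  simp only [mul_pow, ← Finset.mul_sum]
  have e : ∀ z : E, ∑ i, ⟪stdOrthonormalBasis ℝ E i, z⟫ ^ 2 = ‖z‖ ^ 2 := fun z => by
    rw [← OrthonormalBasis.sum_sq_norm_inner_right (stdOrthonormalBasis ℝ E) z]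
    simp
  rw [e, e, norm_Rf_sq h, norm_Rf_sq h, hx, hy]
  simp [hdim]
  ring


/-! ### integrability -/

section main

variable {m : ℕ} {σ : Measure E} {ν : E → E}

theorem SmS.bound {h : E → ℝ} (hh : SmS h) :
    ∃ C : ℝ, ∀ x, ‖x‖ = 1 → |h x| ≤ C ∧ ‖fderiv ℝ h x‖ ≤ C := by
  have hc : IsCompact (Metric.sphere (0:E) 1) := isCompact_sphere 0 1
  have h1 : ContinuousOn h (Metric.sphere (0:E) 1) := fun x hx =>
    (hh x (by simpa using hx)).continuousAt.continuousWithinAt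
  have h2 : ContinuousOn (fderiv ℝ h) (Metric.sphere (0:E) 1) := fun x hx =>
    ((hh x (by simpa using hx)).fderiv_right (m := 0) (by norm_num)).continuousAt.continuousWithinAt
  obtain ⟨C1, hC1⟩ := hc.exists_bound_of_continuousOn h1
  obtain ⟨C2, hC2⟩ := hc.exists_bound_of_continuousOn h2
  refine ⟨max C1 C2, fun x hx => ⟨?_, ?_⟩⟩
  · exact le_trans (hC1 x (by simpa using hx)) (le_max_left _ _)
  · exact le_trans (hC2 x (by simpa using hx)) (le_max_right _ _)

theorem restrict_sphere (hM : MinSurf m σ ν) : σ.restrict (Metric.sphere (0:E) 1) = σ := by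
  refine Measure.restrict_eq_self_of_ae_mem ?_
  filter_upwards [hM.sph] with x hx
  simpa using hx

theorem SmS.meas {h : E → ℝ} (hh : SmS h) (hM : MinSurf m σ ν) : AEStronglyMeasurable h σ := by
  have h1 : ContinuousOn h (Metric.sphere (0:E) 1) := fun x hx =>
    (hh x (by simpa using hx)).continuousAt.continuousWithinAt
  have := h1.aestronglyMeasurable (μ := σ) Metric.isClosed_sphere.measurableSet
  rwa [restrict_sphere hM] at this

theorem SmS.meas_fderiv {h : E → ℝ} (hh : SmS h) (hM : MinSurf m σ ν) :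
    AEStronglyMeasurable (fderiv ℝ h) σ := by
  have h1 : ContinuousOn (fderiv ℝ h) (Metric.sphere (0:E) 1) := fun x hx =>
    ((hh x (by simpa using hx)).fderiv_right (m := 0) (by norm_num)).continuousAt.continuousWithinAt
  have := h1.aestronglyMeasurable (μ := σ) Metric.isClosed_sphere.measurableSet
  rwa [restrict_sphere hM] at this

theorem SmS.meas_fderiv_apply {h : E → ℝ} (hh : SmS h) (hM : MinSurf m σ ν) {w : E → E}
    (hw : AEStronglyMeasurable w σ) :
    AEStronglyMeasurable (fun x => fderiv ℝ h x (w x)) σ :=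
  (isBoundedBilinearMap_apply (𝕜 := ℝ) (E := E) (F := ℝ)).continuous.comp_aestronglyMeasurable
    ((hh.meas_fderiv hM).prodMk hw)

theorem SmS.integrable {h : E → ℝ} (hh : SmS h) (hM : MinSurf m σ ν) : Integrable h σ := by
  have := hM.fin
  obtain ⟨C, hC⟩ := hh.bound
  refine Integrable.of_bound (hh.meas hM) C ?_
  filter_upwards [hM.sph] with x hx
  exact (hC x hx).1

theorem SmS.integrable_T {h : E → ℝ} (hh : SmS h) (hM : MinSurf m σ ν) :
    Integrable (T ν h) σ := by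
  have := hM.fin
  obtain ⟨C, hC⟩ := hh.bound
  have m1 := hh.meas_fderiv hM
  have m2 := hh.meas_fderiv_apply hM (w := fun x => x) aestronglyMeasurable_id
  have m3 := hh.meas_fderiv_apply hM hM.meas
  have i1 : Integrable (fun x => ‖fderiv ℝ h x‖ ^ 2) σ := by
    refine Integrable.of_bound (m1.norm.pow 2) (C ^ 2) ?_
    filter_upwards [hM.sph] with x hx
    rw [norm_pow, norm_norm]
    exact pow_le_pow_left₀ (norm_nonneg _) (hC x hx).2 2
  have i2 : Integrable (fun x => (fderiv ℝ h x x) ^ 2) σ := by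
    refine Integrable.of_bound (m2.pow 2) (C ^ 2) ?_
    filter_upwards [hM.sph] with x hx
    rw [norm_pow]
    refine pow_le_pow_left₀ (norm_nonneg _) ?_ 2
    refine le_trans ((fderiv ℝ h x).le_opNorm x) ?_
    rw [hx, mul_one]
    exact (hC x hx).2
  have i3 : Integrable (fun x => (fderiv ℝ h x (ν x)) ^ 2) σ := by
    refine Integrable.of_bound (m3.pow 2) (C ^ 2) ?_
    filter_upwards [hM.sph, hM.nu1] with x hx hn
    rw [norm_pow]
    refine pow_le_pow_left₀ (norm_nonneg _) ?_ 2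
    refine le_trans ((fderiv ℝ h x).le_opNorm _) ?_
    rw [hn, mul_one]
    exact (hC x hx).2
  exact (i1.sub i2).sub i3

/-- the bilinear term with a linear function -/
noncomputable def Bl (ν : E → E) (h : E → ℝ) (e x : E) : ℝ :=
  fderiv ℝ h x e - ⟪x, e⟫ * fderiv ℝ h x x - ⟪ν x, e⟫ * fderiv ℝ h x (ν x)

theorem SmS.integrable_Bl {h : E → ℝ} (hh : SmS h) (hM : MinSurf m σ ν) (e : E) :
    Integrable (Bl ν h e) σ := by
  have := hM.fin
  obtain ⟨C, hC⟩ := hh.bound
  have m1 := hh.meas_fderiv_apply hM (w := fun _ => e) aestronglyMeasurable_const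
  have m2 := hh.meas_fderiv_apply hM (w := fun x => x) aestronglyMeasurable_id
  have m3 := hh.meas_fderiv_apply hM hM.meas
  have n2 : AEStronglyMeasurable (fun x : E => ⟪x, e⟫) σ :=
    aestronglyMeasurable_id.inner aestronglyMeasurable_const
  have n3 : AEStronglyMeasurable (fun x : E => ⟪ν x, e⟫) σ :=
    hM.meas.inner aestronglyMeasurable_const
  have i1 : Integrable (fun x => fderiv ℝ h x e) σ := by
    refine Integrable.of_bound m1 (C * ‖e‖) ?_
    filter_upwards [hM.sph] with x hx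
    refine le_trans ((fderiv ℝ h x).le_opNorm e) ?_
    gcongr
    exact (hC x hx).2
  have i2 : Integrable (fun x => ⟪x, e⟫ * fderiv ℝ h x x) σ := by
    refine Integrable.of_bound (n2.mul m2) (‖e‖ * C) ?_
    filter_upwards [hM.sph] with x hx
    rw [norm_mul]
    have a1 : ‖⟪x, e⟫‖ ≤ ‖e‖ := by
      have := norm_inner_le_norm (𝕜 := ℝ) x e
      rwa [hx, one_mul] at this
    have a2 : ‖fderiv ℝ h x x‖ ≤ C := by
      refine le_trans ((fderiv ℝ h x).le_opNorm x) ?_
      rw [hx, mul_one]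
      exact (hC x hx).2
    gcongr
  have i3 : Integrable (fun x => ⟪ν x, e⟫ * fderiv ℝ h x (ν x)) σ := by
    refine Integrable.of_bound (n3.mul m3) (‖e‖ * C) ?_
    filter_upwards [hM.sph, hM.nu1] with x hx hn
    rw [norm_mul]
    have a1 : ‖⟪ν x, e⟫‖ ≤ ‖e‖ := by
      have := norm_inner_le_norm (𝕜 := ℝ) (ν x) e
      rwa [hn, one_mul] at this
    have a2 : ‖fderiv ℝ h x (ν x)‖ ≤ C := by
      refine le_trans ((fderiv ℝ h x).le_opNorm _) ?_
      rw [hn, mul_one]
      exact (hC x hx).2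
    gcongr
  exact (i1.sub i2).sub i3

theorem T_expand (e : E) {h : E → ℝ} {x : E} (hd : DifferentiableAt ℝ h x) (t : ℝ) :
    T ν (fun y => ⟪y, e⟫ + t * h y) x =
      T ν (fun y => ⟪y, e⟫) x + 2 * t * Bl ν h e x + t ^ 2 * T ν h x := by
  have h1 : HasFDerivAt (fun x : E => ⟪x, e⟫) (innerSL ℝ e) x := by
    have := (innerSL ℝ e).hasFDerivAt (x := x)
    refine this.congr_of_eventuallyEq (Eventually.of_forall fun y => ?_)
    simp [real_inner_comm]
  have h2 : HasFDerivAt (fun y => ⟪y, e⟫ + t * h y) (innerSL ℝ e + t • fderiv ℝ h x) x :=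
    h1.add (hd.hasFDerivAt.const_mul t)
  unfold T Bl
  rw [h2.fderiv, h1.fderiv]
  simp only [add_apply, smul_apply, innerSL_apply_apply, smul_eq_mul]
  obtain ⟨w, hw⟩ : ∃ w, fderiv ℝ h x = innerSL ℝ w :=
    ⟨(InnerProductSpace.toDual ℝ E).symm (fderiv ℝ h x), by
      ext y; simp⟩
  rw [hw]
  have e1 : innerSL ℝ e + t • innerSL ℝ w = innerSL ℝ (e + t • w) := by simp
  rw [e1, innerSL_apply_norm, innerSL_apply_norm, innerSL_apply_norm, norm_add_sq_real,
    norm_smul, mul_pow, Real.norm_eq_abs, sq_abs, real_inner_smul_right]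
  simp only [innerSL_apply_apply]
  rw [real_inner_comm e w, real_inner_comm e x, real_inner_comm e (ν x)]
  ring

theorem sms_linear (e : E) : SmS (fun y : E => ⟪y, e⟫) := fun x _ =>
  contDiffAt_id.inner ℝ contDiffAt_const

theorem SmS.add_mul {h : E → ℝ} (hh : SmS h) (e : E) (t : ℝ) :
    SmS (fun y : E => ⟪y, e⟫ + t * h y) := fun x hx =>
  (sms_linear e x hx).add (contDiffAt_const.mul (hh x hx))

theorem bernoulli_aux (m : ℕ) (hm : 2 ≤ m) (l : ℝ) (hl : 0 ≤ l) :
    m * l ^ 2 ≤ 2 * l ^ m + (m - 2) := by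
  have h := one_add_mul_self_le_rpow_one_add (s := l ^ 2 - 1) (by nlinarith [sq_nonneg l])
    (p := (m : ℝ) / 2) (by
      rw [le_div_iff₀ two_pos]
      have : (2 : ℝ) ≤ m := by exact_mod_cast hm
      linarith)
  have e : (1 + (l ^ 2 - 1)) ^ ((m : ℝ) / 2) = l ^ m := by
    rw [show 1 + (l ^ 2 - 1) = l ^ (2 : ℝ) by norm_num, ← Real.rpow_mul hl,
      show (2 : ℝ) * (m / 2) = m by ring, Real.rpow_natCast]
  rw [e] at h
  linarith

/-- the conformal factor in hyperbolic coordinates -/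
theorem conf_eq {v : E} (hv : ‖v‖ < 1) (hv0 : v ≠ 0) :
    ∃ (a : E) (t : ℝ), ‖a‖ = 1 ∧ 0 < t ∧ ∀ x : E, ‖x‖ = 1 →
      (1 - ‖v‖ ^ 2) / ‖x - v‖ ^ 2 = (Real.cosh t + Real.sinh t * ⟪x, a⟫)⁻¹ := by
  have hn : 0 < ‖v‖ := norm_pos_iff.2 hv0
  have hd : 0 < 1 - ‖v‖ ^ 2 := by nlinarith
  refine ⟨-(‖v‖⁻¹ • v), Real.arsinh (2 * ‖v‖ / (1 - ‖v‖ ^ 2)), ?_, ?_, ?_⟩
  · rw [norm_neg, norm_smul, norm_inv, norm_norm, inv_mul_cancel₀ hn.ne']
  · rw [Real.arsinh_pos_iff]
    positivity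
  · intro x hx
    rw [Real.sinh_arsinh, Real.cosh_arsinh]
    have e1 : √(1 + (2 * ‖v‖ / (1 - ‖v‖ ^ 2)) ^ 2) = (1 + ‖v‖ ^ 2) / (1 - ‖v‖ ^ 2) := by
      rw [show 1 + (2 * ‖v‖ / (1 - ‖v‖ ^ 2)) ^ 2 = ((1 + ‖v‖ ^ 2) / (1 - ‖v‖ ^ 2)) ^ 2 by
        field_simp; ring]
      exact Real.sqrt_sq (by positivity)
    rw [e1, inner_neg_right, real_inner_smul_right, norm_sub_sq_real, hx]
    rw [show (1 + ‖v‖ ^ 2) / (1 - ‖v‖ ^ 2) + 2 * ‖v‖ / (1 - ‖v‖ ^ 2) * -(‖v‖⁻¹ * ⟪x, v⟫) =
      (1 ^ 2 - 2 * ⟪x, v⟫ + ‖v‖ ^ 2) / (1 - ‖v‖ ^ 2) by field_simp; ring]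
    rw [inv_div]

/-- `∫ m λ² ≤ m σ`, `λ` the conformal factor; with equality information -/
theorem conf_bound (hM : MinSurf m σ ν) (hm : 2 ≤ m) {v : E} (hv : ‖v‖ < 1) :
    Integrable (fun x => m * ((1 - ‖v‖ ^ 2) / ‖x - v‖ ^ 2) ^ 2) σ ∧
    ∫ x, m * ((1 - ‖v‖ ^ 2) / ‖x - v‖ ^ 2) ^ 2 ∂σ ≤ m * σ.real Set.univ ∧
    (v ≠ 0 → ∫ x, m * ((1 - ‖v‖ ^ 2) / ‖x - v‖ ^ 2) ^ 2 ∂σ = m * σ.real Set.univ →
      ∃ a : E, ‖a‖ = 1 ∧ ∀ᵐ x ∂σ, ⟪ν x, a⟫ = 0) := by
  have := hM.fin
  rcases eq_or_ne v 0 with h0 | h0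
  · subst h0
    have e : (fun x : E => (m : ℝ) * ((1 - ‖(0 : E)‖ ^ 2) / ‖x - 0‖ ^ 2) ^ 2) =ᵐ[σ]
        fun _ => (m : ℝ) := by
      filter_upwards [hM.sph] with x hx
      simp [hx]
    refine ⟨(integrable_const (m : ℝ)).congr e.symm, ?_, fun h => absurd rfl h⟩
    rw [integral_congr_ae e]
    simp [mul_comm]
  · obtain ⟨a, t, ha, ht, hc⟩ := conf_eq hv h0
    have e : (fun x : E => (m : ℝ) * ((1 - ‖v‖ ^ 2) / ‖x - v‖ ^ 2) ^ 2) =ᵐ[σ]
        fun x => (m : ℝ) * ((Real.cosh t + Real.sinh t * ⟪x, a⟫)⁻¹) ^ 2 := by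
      filter_upwards [hM.sph] with x hx
      rw [hc x hx]
    have i2 : Integrable (fun x : E => (m : ℝ) * ((Real.cosh t + Real.sinh t * ⟪x, a⟫)⁻¹) ^ 2) σ := by
      have := ((sms_h 2 a ha t).integrable hM).const_mul (m : ℝ)
      refine this.congr (Eventually.of_forall fun x => ?_)
      simp only [inv_pow]
    have im : Integrable (fun x : E => ((Real.cosh t + Real.sinh t * ⟪x, a⟫) ^ m)⁻¹) σ :=
      (sms_h m a ha t).integrable hM
    have hle : ∫ x, (m : ℝ) * ((Real.cosh t + Real.sinh t * ⟪x, a⟫)⁻¹) ^ 2 ∂σ ≤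
        2 * fA m σ a t + (m - 2) * σ.real Set.univ := by
      have h1 : ∫ x, (m : ℝ) * ((Real.cosh t + Real.sinh t * ⟪x, a⟫)⁻¹) ^ 2 ∂σ ≤
          ∫ x, (2 * ((Real.cosh t + Real.sinh t * ⟪x, a⟫) ^ m)⁻¹ + ((m : ℝ) - 2)) ∂σ := by
        refine integral_mono_ae i2 ((im.const_mul 2).add (integrable_const _)) ?_
        filter_upwards [hM.sph] with x hx
        have h0 := ch_pos' t ⟪x, a⟫ (abs_inner_le_one hx ha)
        have := bernoulli_aux m hm _ (inv_nonneg.2 h0.le)
        simpa [inv_pow] using this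
      refine h1.trans (le_of_eq ?_)
      rw [integral_add (im.const_mul 2) (integrable_const _), integral_const_mul]
      simp [fA, mul_comm]
    have hfA := fA_le hM a ha t ht.le
    refine ⟨i2.congr e.symm, ?_, fun _ heq => ⟨a, ha, ?_⟩⟩
    · rw [integral_congr_ae e]
      linarith
    · rw [integral_congr_ae e] at heq
      exact fA_eq hM (by omega) a ha t ht (by linarith)

/-- **Hersch's trick**, weak form. -/
theorem hersch_main (hM : MinSurf m σ ν) (hm : 2 ≤ m) (hdim : Module.finrank ℝ E = m + 2)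
    (A2 : E → ℝ) (hA : Integrable A2 σ) (hA0 : ∀ᵐ x ∂σ, 0 ≤ A2 x)
    (hidx : ∀ h : E → ℝ, SmS h → ∫ x, A2 x * h x ∂σ = 0 →
      ∫ x, A2 x * h x ^ 2 ∂σ ≤ ∫ x, T ν h x ∂σ) :
    ∫ x, A2 x ∂σ ≤ m * σ.real Set.univ ∧
    (∫ x, A2 x ∂σ = m * σ.real Set.univ →
      (∃ a : E, ‖a‖ = 1 ∧ ∀ᵐ x ∂σ, ⟪ν x, a⟫ = 0) ∨ ∀ᵐ x ∂σ, A2 x = m) := by
  classical
  have := hM.fin
  have hAm : AEMeasurable (fun x => ENNReal.ofReal (A2 x)) σ := hA.aemeasurable.ennreal_ofReal
  have hbA : ∀ {h : E → ℝ}, SmS h → Integrable (fun x => A2 x * h x) σ := by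
    intro h hh
    obtain ⟨C, hC⟩ := hh.bound
    have := hA.bdd_mul (c := C) (hh.meas hM) (by
      filter_upwards [hM.sph] with x hx
      exact (hC x hx).1)
    refine this.congr (Eventually.of_forall fun x => ?_)
    simp only [mul_comm]
  have hbA2 : ∀ {h : E → ℝ}, SmS h → Integrable (fun x => A2 x * h x ^ 2) σ := by
    intro h hh
    exact hbA (h := fun x => h x ^ 2) fun x hx => (hh x hx).pow 2
  by_cases hz : σ.withDensity (fun x => ENNReal.ofReal (A2 x)) = 0
  · -- `A2 = 0` a.e.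
    have h1 : ∀ᵐ x ∂σ, A2 x = 0 := by
      have := (withDensity_eq_zero_iff hAm).1 hz
      filter_upwards [this, hA0] with x hx h0
      have hx' : A2 x ≤ 0 := by simpa using hx
      exact le_antisymm hx' h0
    have h2 : ∫ x, A2 x ∂σ = 0 := by
      rw [integral_congr_ae h1]; simp
    rw [h2]
    refine ⟨by positivity, fun h => Or.inr ?_⟩
    have hσ : σ.real Set.univ = 0 := by
      have hm0 : (m : ℝ) ≠ 0 := by
        have : (2 : ℝ) ≤ m := by exact_mod_cast hm
        positivity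
      exact (mul_eq_zero.1 h.symm).resolve_left hm0
    have : σ = 0 := by
      rw [Measure.real, ENNReal.toReal_eq_zero_iff] at hσ
      rcases hσ with h | h
      · exact Measure.measure_univ_eq_zero.1 h
      · exact absurd h (measure_ne_top _ _)
    rw [this]
    simp
  -- balancing
  have hfin : IsFiniteMeasure (σ.withDensity fun x => ENNReal.ofReal (A2 x)) :=
    isFiniteMeasure_withDensity_ofReal hA.2
  have hac := withDensity_absolutelyContinuous σ (fun x => ENNReal.ofReal (A2 x))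
  obtain ⟨v, hv, hbal⟩ := exists_balanced (σ.withDensity fun x => ENNReal.ofReal (A2 x))
    (fun x => hac (hM.atom x)) hz (hac.ae_le hM.sph)
  rw [integral_withDensity_eq_integral_toReal_smul₀ hAm
    (Eventually.of_forall fun _ => ENNReal.ofReal_lt_top)] at hbal
  have hbal' : ∫ x, A2 x • F v x ∂σ = 0 := by
    rw [← hbal]
    refine integral_congr_ae ?_
    filter_upwards [hA0] with x hx
    rw [ENNReal.toReal_ofReal hx]
  have hIF : Integrable (fun x => A2 x • F v x) σ := by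
    refine hA.mono (hA.aestronglyMeasurable.smul (aestronglyMeasurable_F v σ)) ?_
    filter_upwards [hM.sph] with x hx
    rw [norm_smul]
    exact mul_le_of_le_one_right (norm_nonneg _) (norm_F_le hx hv.le)
  set b := stdOrthonormalBasis ℝ E with hb
  have hne : ∀ x : E, ‖x‖ = 1 → x ≠ v := by
    rintro x hx rfl
    exact absurd hx hv.ne
  have hsm : ∀ i, SmS (fun x => ⟪F v x, b i⟫) := by
    intro i x hx
    have h0 := (norm_sub_sq_pos (hne x hx)).ne'
    have h1 : ContDiffAt ℝ ∞ (fun x : E => F v x) x := by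
      unfold F
      refine ContDiffAt.sub (ContDiffAt.smul (ContDiffAt.div contDiffAt_const ?_ h0) ?_)
        contDiffAt_const
      · exact (contDiffAt_id.sub contDiffAt_const).norm_sq ℝ
      · exact contDiffAt_id.sub contDiffAt_const
    exact h1.inner ℝ contDiffAt_const
  have hbi : ∀ i, ∫ x, A2 x * ⟪F v x, b i⟫ ∂σ = 0 := by
    intro i
    have h1 := integral_inner (𝕜 := ℝ) hIF (b i)
    rw [hbal', inner_zero_right] at h1
    rw [← h1]
    refine integral_congr_ae (Eventually.of_forall fun x => ?_)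
    simp only
    rw [real_inner_comm, real_inner_smul_right]
    try rw [real_inner_comm]
  have hle : ∀ i, ∫ x, A2 x * ⟪F v x, b i⟫ ^ 2 ∂σ ≤
      ∫ x, T ν (fun x => ⟪F v x, b i⟫) x ∂σ := fun i => hidx _ (hsm i) (hbi i)
  have hsumA : ∫ x, A2 x ∂σ = ∑ i, ∫ x, A2 x * ⟪F v x, b i⟫ ^ 2 ∂σ := by
    rw [← integral_finsetSum _ fun i _ => hbA2 (hsm i)]
    refine integral_congr_ae ?_
    filter_upwards [hM.sph] with x hx
    rw [← Finset.mul_sum, b.sum_sq_inner_left, norm_F_sq hx (hne x hx), mul_one]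
  have hsumT : ∑ i, ∫ x, T ν (fun x => ⟪F v x, b i⟫) x ∂σ =
      ∫ x, m * ((1 - ‖v‖ ^ 2) / ‖x - v‖ ^ 2) ^ 2 ∂σ := by
    rw [← integral_finsetSum _ fun i _ => (hsm i).integrable_T hM]
    refine integral_congr_ae ?_
    filter_upwards [hM.sph, hM.nu1] with x hx hn
    exact sum_T_F hdim (hne x hx) hx ν hn
  obtain ⟨-, hc1, hc2⟩ := conf_bound hM hm hv
  have hmain : ∫ x, A2 x ∂σ ≤ ∫ x, m * ((1 - ‖v‖ ^ 2) / ‖x - v‖ ^ 2) ^ 2 ∂σ := by
    rw [hsumA, ← hsumT]
    exact Finset.sum_le_sum fun i _ => hle i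
  refine ⟨hmain.trans hc1, fun heq => ?_⟩
  rcases ne_or_eq v 0 with hv0 | hv0
  · exact Or.inl (hc2 hv0 (le_antisymm hc1 (heq ▸ hmain)))
  right
  -- the case `v = 0`
  subst hv0
  have hF0 : ∀ x : E, ‖x‖ = 1 → F 0 x = x := by
    intro x hx
    simp [F, hx]
  have hbl : ∀ i, ∫ x, A2 x * ⟪x, b i⟫ ∂σ = 0 := by
    intro i
    rw [← hbi i]
    refine integral_congr_ae ?_
    filter_upwards [hM.sph] with x hx
    rw [hF0 x hx]
  have hsumA' : ∫ x, A2 x ∂σ = ∑ i, ∫ x, A2 x * ⟪x, b i⟫ ^ 2 ∂σ := by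
    rw [← integral_finsetSum _ fun i _ => hbA2 (sms_linear (b i))]
    refine integral_congr_ae ?_
    filter_upwards [hM.sph] with x hx
    rw [← Finset.mul_sum, b.sum_sq_inner_left, hx, one_pow, mul_one]
  have hsumT' : ∑ i, ∫ x, T ν (fun x => ⟪x, b i⟫) x ∂σ = m * σ.real Set.univ := by
    rw [← integral_finsetSum _ fun i _ => (sms_linear (b i)).integrable_T hM]
    have : (fun x => ∑ i, T ν (fun x => ⟪x, b i⟫) x) =ᵐ[σ] fun _ => (m : ℝ) := by
      filter_upwards [hM.sph, hM.nu1] with x hx hn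
      have h1 : ∀ e : E, fderiv ℝ (fun x : E => ⟪x, e⟫) x = innerSL ℝ e := by
        intro e
        have := (innerSL ℝ e).hasFDerivAt (x := x)
        refine (this.congr_of_eventuallyEq (Eventually.of_forall fun y => ?_)).fderiv
        simp [real_inner_comm]
      unfold T
      simp only [h1, innerSL_apply_norm, innerSL_apply_apply, OrthonormalBasis.norm_eq_one]
      rw [Finset.sum_sub_distrib, Finset.sum_sub_distrib, b.sum_sq_inner_right,
        b.sum_sq_inner_right, hx, hn]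
      simp [hdim]
      ring
    rw [integral_congr_ae this]
    simp [mul_comm]
  have heqi : ∀ i, ∫ x, A2 x * ⟪x, b i⟫ ^ 2 ∂σ = ∫ x, T ν (fun x => ⟪x, b i⟫) x ∂σ := by
    have h1 : ∀ i ∈ Finset.univ, ∫ x, A2 x * ⟪x, b i⟫ ^ 2 ∂σ ≤
        ∫ x, T ν (fun x => ⟪x, b i⟫) x ∂σ := fun i _ => hidx _ (sms_linear (b i)) (hbl i)
    have h2 : ∑ i, ∫ x, A2 x * ⟪x, b i⟫ ^ 2 ∂σ = ∑ i, ∫ x, T ν (fun x => ⟪x, b i⟫) x ∂σ := by
      rw [← hsumA', hsumT', heq]
    exact fun i => (Finset.sum_eq_sum_iff_of_le h1).1 h2 i (Finset.mem_univ i)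
  -- Euler-Lagrange
  have hEL : ∀ i, ∀ h : E → ℝ, SmS h → ∫ x, A2 x * h x ∂σ = 0 →
      ∫ x, (m - A2 x) * (⟪x, b i⟫ * h x) ∂σ = 0 := by
    intro i h hh h0
    have hprod : SmS (fun x => ⟪x, b i⟫ * h x) := fun x hx => (sms_linear (b i) x hx).mul (hh x hx)
    have hfv : ∫ x, Bl ν h (b i) x ∂σ = m * ∫ x, ⟪x, b i⟫ * h x ∂σ := hM.fv h hh (b i)
    have hquad : ∀ t : ℝ, 0 ≤ 2 * t * ((∫ x, Bl ν h (b i) x ∂σ) -
        ∫ x, A2 x * (⟪x, b i⟫ * h x) ∂σ) + t ^ 2 * ((∫ x, T ν h x ∂σ) -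
        ∫ x, A2 x * h x ^ 2 ∂σ) := by
      intro t
      have hs := hh.add_mul (b i) t
      have hz : ∫ x, A2 x * (⟪x, b i⟫ + t * h x) ∂σ = 0 := by
        have : (fun x => A2 x * (⟪x, b i⟫ + t * h x)) =
            fun x => A2 x * ⟪x, b i⟫ + t * (A2 x * h x) := by
          funext x; ring
        rw [this, integral_add (hbA (sms_linear (b i))) ((hbA hh).const_mul t), hbl i,
          integral_const_mul, h0]
        simp
      have h1 := hidx _ hs hz
      have e1 : ∫ x, A2 x * (⟪x, b i⟫ + t * h x) ^ 2 ∂σ = (∫ x, A2 x * ⟪x, b i⟫ ^ 2 ∂σ) +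
          2 * t * (∫ x, A2 x * (⟪x, b i⟫ * h x) ∂σ) + t ^ 2 * ∫ x, A2 x * h x ^ 2 ∂σ := by
        have i1 := hbA2 (sms_linear (b i))
        have i2 := (hbA hprod).const_mul (2 * t)
        have i3 := (hbA2 hh).const_mul (t ^ 2)
        have i12 : Integrable (fun x => A2 x * ⟪x, b i⟫ ^ 2 +
          2 * t * (A2 x * (⟪x, b i⟫ * h x))) σ := i1.add i2
        have e : (fun x => A2 x * (⟪x, b i⟫ + t * h x) ^ 2) = fun x =>
            (A2 x * ⟪x, b i⟫ ^ 2 + 2 * t * (A2 x * (⟪x, b i⟫ * h x))) +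
              t ^ 2 * (A2 x * h x ^ 2) := by
          funext x; ring
        rw [e, integral_add i12 i3, integral_add i1 i2, integral_const_mul, integral_const_mul]
      have e2 : ∫ x, T ν (fun y => ⟪y, b i⟫ + t * h y) x ∂σ =
          (∫ x, T ν (fun x => ⟪x, b i⟫) x ∂σ) + 2 * t * (∫ x, Bl ν h (b i) x ∂σ) +
          t ^ 2 * ∫ x, T ν h x ∂σ := by
        have i1 := (sms_linear (b i)).integrable_T hM
        have i2 := (hh.integrable_Bl hM (b i)).const_mul (2 * t)
        have i3 := (hh.integrable_T hM).const_mul (t ^ 2)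
        have i12 : Integrable (fun x => T ν (fun x => ⟪x, b i⟫) x + 2 * t * Bl ν h (b i) x) σ :=
          i1.add i2
        have e : (fun x => T ν (fun y => ⟪y, b i⟫ + t * h y) x) =ᵐ[σ] fun x =>
            (T ν (fun x => ⟪x, b i⟫) x + 2 * t * Bl ν h (b i) x) + t ^ 2 * T ν h x := by
          filter_upwards [hM.sph] with x hx
          exact T_expand (b i) ((hh x hx).differentiableAt (by simp)) t
        rw [integral_congr_ae e, integral_add i12 i3, integral_add i1 i2, integral_const_mul,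
          integral_const_mul]
      rw [e1, e2, heqi i] at h1
      linarith
    have hlin : (∫ x, Bl ν h (b i) x ∂σ) - ∫ x, A2 x * (⟪x, b i⟫ * h x) ∂σ = 0 := by
      set p := (∫ x, Bl ν h (b i) x ∂σ) - ∫ x, A2 x * (⟪x, b i⟫ * h x) ∂σ with hp
      set q := (∫ x, T ν h x ∂σ) - ∫ x, A2 x * h x ^ 2 ∂σ with hq
      by_contra hne
      have hq1 : 0 < |q| + 1 := by positivity
      have := hquad (-p / (|q| + 1))
      have h2 : (-p / (|q| + 1)) ^ 2 * q ≤ p ^ 2 / (|q| + 1) := by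
        rw [div_pow, neg_sq, div_mul_eq_mul_div, div_le_div_iff₀ (by positivity) hq1]
        have h3 : q * (|q| + 1) ≤ (|q| + 1) ^ 2 := by nlinarith [le_abs_self q, abs_nonneg q]
        nlinarith [sq_nonneg p, mul_le_mul_of_nonneg_left h3 (sq_nonneg p)]
      have h4 : 2 * (-p / (|q| + 1)) * p = -(2 * (p ^ 2 / (|q| + 1))) := by ring
      have h5 : 0 < p ^ 2 / (|q| + 1) := by positivity
      linarith
    have e : (fun x => ((m : ℝ) - A2 x) * (⟪x, b i⟫ * h x)) =
        fun x => m * (⟪x, b i⟫ * h x) - A2 x * (⟪x, b i⟫ * h x) := by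
      funext x; ring
    rw [e, integral_sub ((hprod.integrable hM).const_mul _) (hbA hprod), integral_const_mul, ← hfv]
    exact hlin
  have hS : ∫ x, A2 x ∂σ ≠ 0 := by
    intro h0
    rw [h0] at heq
    have hm0 : (m : ℝ) ≠ 0 := by
      have : (2 : ℝ) ≤ m := by exact_mod_cast hm
      positivity
    have hσ := (mul_eq_zero.1 heq.symm).resolve_left hm0
    apply hz
    have : σ = 0 := by
      rw [Measure.real, ENNReal.toReal_eq_zero_iff] at hσ
      rcases hσ with h | h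
      · exact Measure.measure_univ_eq_zero.1 h
      · exact absurd h (measure_ne_top _ _)
    rw [this]
    simp
  have hone : ∀ i, ∫ x, (m - A2 x) * ⟪x, b i⟫ ∂σ = 0 := by
    intro i
    have hfv := hM.fv (fun _ => 1) (fun x _ => contDiffAt_const) (b i)
    simp only [fderiv_fun_const, Pi.zero_apply, zero_apply, mul_zero, sub_zero,
      integral_zero, mul_one] at hfv
    have e : (fun x => ((m : ℝ) - A2 x) * ⟪x, b i⟫) =
        fun x => m * ⟪x, b i⟫ - A2 x * ⟪x, b i⟫ := by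
      funext x; ring
    rw [e, integral_sub (((sms_linear (b i)).integrable hM).const_mul _)
      (hbA (sms_linear (b i))), integral_const_mul, ← hfv, hbl i, sub_self]
  have hall : ∀ i, ∀ h : E → ℝ, SmS h → ∫ x, (m - A2 x) * (⟪x, b i⟫ * h x) ∂σ = 0 := by
    intro i h hh
    set c := (∫ x, A2 x * h x ∂σ) / ∫ x, A2 x ∂σ with hc
    have h1 : SmS (fun x => h x - c) := fun x hx => (hh x hx).sub contDiffAt_const
    have h2 : ∫ x, A2 x * (h x - c) ∂σ = 0 := by
      have e : (fun x => A2 x * (h x - c)) = fun x => A2 x * h x - A2 x * c := by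
        funext x; ring
      rw [e, integral_sub (hbA hh) (hA.mul_const c), integral_mul_const, hc]
      field_simp
      ring
    have h3 := hEL i _ h1 h2
    have hprod : SmS (fun x => ⟪x, b i⟫ * h x) := fun x hx => (sms_linear (b i) x hx).mul (hh x hx)
    have e : (fun x => ((m : ℝ) - A2 x) * (⟪x, b i⟫ * (h x - c))) =
        fun x => (m - A2 x) * (⟪x, b i⟫ * h x) - (m - A2 x) * ⟪x, b i⟫ * c := by
      funext x; ring
    have i1 : Integrable (fun x => ((m : ℝ) - A2 x) * (⟪x, b i⟫ * h x)) σ := by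
      refine (((hprod.integrable hM).const_mul (m : ℝ)).sub (hbA hprod)).congr
        (Eventually.of_forall fun x => ?_)
      simp only [Pi.sub_apply]
      ring
    have i2 : Integrable (fun x => ((m : ℝ) - A2 x) * ⟪x, b i⟫) σ := by
      refine ((((sms_linear (b i)).integrable hM).const_mul (m : ℝ)).sub
        (hbA (sms_linear (b i)))).congr (Eventually.of_forall fun x => ?_)
      simp only [Pi.sub_apply]
      ring
    rw [e, integral_sub i1 (i2.mul_const c), integral_mul_const, hone i] at h3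
    simpa using h3
  have hae : ∀ i, ∀ᵐ x ∂σ, (m - A2 x) * ⟪x, b i⟫ = 0 := by
    intro i
    refine ae_eq_zero_of_integral_contDiff_smul_eq_zero (μ := σ) (f := fun x : E =>
      ((m : ℝ) - A2 x) * ⟪x, b i⟫) ?_ ?_
    · have i2 : Integrable (fun x => ((m : ℝ) - A2 x) * ⟪x, b i⟫) σ := by
        refine ((((sms_linear (b i)).integrable hM).const_mul (m : ℝ)).sub
          (hbA (sms_linear (b i)))).congr (Eventually.of_forall fun x => ?_)
        simp only [Pi.sub_apply]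
        ring
      exact i2.locallyIntegrable
    · intro g hg _
      have := hall i g fun x _ => hg.contDiffAt
      rw [← this]
      refine integral_congr_ae (Eventually.of_forall fun x => ?_)
      simp only [smul_eq_mul]
      ring
  have hae' : ∀ᵐ x ∂σ, ∀ i, (m - A2 x) * ⟪x, b i⟫ = 0 := ae_all_iff.2 hae
  filter_upwards [hae', hM.sph] with x hx h1
  by_contra hne
  have h2 : (m : ℝ) - A2 x ≠ 0 := sub_ne_zero.2 (Ne.symm hne)
  have h3 : ∀ i, ⟪x, b i⟫ = 0 := fun i => (mul_eq_zero.1 (hx i)).resolve_left h2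
  have h4 := b.sum_sq_inner_left x
  simp [h3, h1] at h4

end main

end Crest.Agent.R246.Hersch900
end

-- ▼ part R246/HerschSM_900

/-!
R246, part I (II): Hersch for smooth minimal hypercones (`SmoothMin` of helper436).
-/

set_option autoImplicit false
set_option linter.unusedSectionVars false
set_option linter.unusedVariables false
set_option linter.unusedSimpArgs false

open MeasureTheory Filter Topology Set
open scoped RealInnerProductSpace ContDiff

noncomputable section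

namespace Crest.Agent.R246.HerschSM900

open Crest.Agent.R246.H990 Crest.Agent.R246.SM436 Crest.Agent.R246.Hersch900

variable {E : Type*} [NormedAddCommGroup E] [InnerProductSpace ℝ E] [FiniteDimensional ℝ E]

/-! ### translation invariance -/

/-- if `⟨∇φ, a⟩ = 0` on the zero set then it vanishes near the zero set. -/
lemma nua_near {φ : E → ℝ} (lip : LipschitzWith 1 φ)
    (hg : ∀ x, x ≠ 0 → φ x = 0 → Good φ x) {a : E}
    (h0 : ∀ x, x ≠ 0 → φ x = 0 → ⟪gradient φ x, a⟫ = 0) {x : E} (hx : x ≠ 0) (hφ : φ x = 0) :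
    ∀ᶠ y in 𝓝 x, ⟪gradient φ y, a⟫ = 0 := by
  obtain ⟨r, hr, hball⟩ := Metric.isOpen_iff.1 (isOpen_good φ) x (hg x hx hφ)
  set r' := min (r / 2) (‖x‖ / 2) with hr'
  have hxn : 0 < ‖x‖ := norm_pos_iff.2 hx
  have hr'0 : 0 < r' := by positivity
  filter_upwards [Metric.ball_mem_nhds x hr'0] with y hy
  have hyx : ‖y - x‖ < r' := by simpa [dist_eq_norm] using hy
  have hφy : |φ y| ≤ ‖y - x‖ := by
    have := lip_abs lip y x
    rwa [hφ, sub_zero] at this
  have hgood : ∀ s : ℝ, |s| ≤ |φ y| → Good φ (y + s • gradient φ y) := by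
    intro s hs
    have hy1 : Good φ y := hball (by
      rw [Metric.mem_ball, dist_eq_norm]
      have : r' ≤ r / 2 := min_le_left _ _
      linarith)
    apply hball
    rw [Metric.mem_ball, dist_eq_norm]
    have h1 : y + s • gradient φ y - x = (y - x) + s • gradient φ y := by abel
    rw [h1]
    refine (norm_add_le _ _).trans_lt ?_
    rw [norm_smul, hy1.norm_gradient, mul_one, Real.norm_eq_abs]
    have : r' ≤ r / 2 := min_le_left _ _
    linarith
  obtain ⟨e1, e2⟩ := normal_line (abs_nonneg _) hgood (-φ y) (by rw [abs_neg])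
  rw [← e1]
  apply h0
  · intro hz
    have h1 : Good φ y := by simpa using hgood 0 (by simp)
    have h2 : ‖(y + -φ y • gradient φ y) - x‖ ≤ ‖y - x‖ + |φ y| := by
      have h3 : (y + -φ y • gradient φ y) - x = (y - x) + -φ y • gradient φ y := by abel
      rw [h3]
      refine (norm_add_le _ _).trans ?_
      rw [norm_smul, h1.norm_gradient, mul_one, Real.norm_eq_abs, abs_neg]
    rw [hz, zero_sub, norm_neg] at h2
    have : r' ≤ ‖x‖ / 2 := min_le_right _ _
    linarith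
  · rw [e2]; ring

/-- local invariance of `φ` and of its Hessian under translations by `a`. -/
lemma loc_const {φ : E → ℝ} (lip : LipschitzWith 1 φ)
    (hg : ∀ x, x ≠ 0 → φ x = 0 → Good φ x) {a : E}
    (h0 : ∀ x, x ≠ 0 → φ x = 0 → ⟪gradient φ x, a⟫ = 0) {x : E} (hx : x ≠ 0) (hφ : φ x = 0) :
    ∀ᶠ s in 𝓝 (0 : ℝ), φ (x + s • a) = 0 ∧ hs φ (x + s • a) = hs φ x := by
  obtain ⟨r, hr, hball⟩ := Metric.eventually_nhds_iff_ball.1 (nua_near lip hg h0 hx hφ)
  obtain ⟨r2, hr2, hball2⟩ := Metric.isOpen_iff.1 (isOpen_good φ) x (hg x hx hφ)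
  set r' := min r r2 / 2 with hr'
  have hr'0 : 0 < r' := by positivity
  -- `φ (y + s a) = φ y`
  have key : ∀ y ∈ Metric.ball x r', ∀ s : ℝ, |s| * ‖a‖ < r' → φ (y + s • a) = φ y := by
    intro y hy s hs
    have hin : ∀ t ∈ Icc (0 : ℝ) 1, y + (t * s) • a ∈ Metric.ball x (min r r2) := by
      intro t ht
      rw [Metric.mem_ball, dist_eq_norm] at hy ⊢
      have h1 : y + (t * s) • a - x = (y - x) + (t * s) • a := by abel
      rw [h1]
      refine (norm_add_le _ _).trans_lt ?_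
      rw [norm_smul, Real.norm_eq_abs, abs_mul, abs_of_nonneg ht.1]
      have h2 : t * |s| * ‖a‖ ≤ |s| * ‖a‖ := by
        rw [mul_assoc]
        exact mul_le_of_le_one_left (by positivity) ht.2
      have h3 : r' + r' = min r r2 := by rw [hr']; ring
      linarith
    have hd : ∀ t ∈ Icc (0 : ℝ) 1, HasDerivAt (fun t : ℝ => φ (y + (t * s) • a)) 0 t := by
      intro t ht
      have h1 := (hball2 (Metric.ball_subset_ball (min_le_right _ _) (hin t ht)) :
        Good φ (y + (t * s) • a)).hasFDerivAt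
      have h2 : HasDerivAt (fun t : ℝ => y + (t * s) • a) (s • a) t := by
        have h3 : HasDerivAt (fun t : ℝ => t * s) s t := by
          simpa using (hasDerivAt_id t).mul_const s
        exact (h3.smul_const a).const_add y
      have h3 := h1.comp_hasDerivAt t h2
      have h4 : (innerSL ℝ (gradient φ (y + (t * s) • a))) (s • a) = 0 := by
        rw [innerSL_apply_apply, real_inner_smul_right,
          hball _ (Metric.ball_subset_ball (min_le_left _ _) (hin t ht)), mul_zero]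
      rw [h4] at h3
      exact h3
    have := constant_of_has_deriv_right_zero (f := fun t : ℝ => φ (y + (t * s) • a)) (a := 0)
      (b := 1) (fun t ht => (hd t ht).continuousAt.continuousWithinAt)
      (fun t ht => (hd t ⟨ht.1, ht.2.le⟩).hasDerivWithinAt) 1 (right_mem_Icc.2 zero_le_one)
    simpa using this
  have hev : ∀ᶠ s in 𝓝 (0 : ℝ), |s| * ‖a‖ < r' := by
    have : Continuous fun s : ℝ => |s| * ‖a‖ := by fun_prop
    have h := this.tendsto 0
    simp only [abs_zero, zero_mul] at h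
    exact h.eventually (gt_mem_nhds hr'0)
  filter_upwards [hev] with s hs'
  refine ⟨by rw [key x (Metric.mem_ball_self hr'0) s hs', hφ], ?_⟩
  have h1 : (fun y => φ (y + s • a)) =ᶠ[𝓝 x] φ := by
    filter_upwards [Metric.ball_mem_nhds x hr'0] with y hy
    exact key y hy s hs'
  have h2 : (fun y => gradient φ (y + s • a)) =ᶠ[𝓝 x] gradient φ := by
    have h3 := h1.fderiv (𝕜 := ℝ)
    filter_upwards [h3] with y hy
    rw [gradient_eq_comp]
    simp only
    rw [← hy, fderiv_comp_add_right]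
  have h4 := h2.fderiv_eq (𝕜 := ℝ)
  rw [fderiv_comp_add_right] at h4
  exact h4

/-- **rigidity**: if `⟨∇φ, a⟩ = 0` on the zero cone then the Hessian vanishes on the zero cone. -/
theorem hs_eq_zero {φ : E → ℝ} (lip : LipschitzWith 1 φ)
    (hom : ∀ t : ℝ, 0 ≤ t → ∀ x, φ (t • x) = t * φ x)
    (hg : ∀ x, x ≠ 0 → φ x = 0 → Good φ x) {a : E} (ha : ‖a‖ = 1)
    (h0 : ∀ x, x ≠ 0 → φ x = 0 → ⟪gradient φ x, a⟫ = 0) {x : E} (hx : x ≠ 0) (hφ : φ x = 0) :
    hs φ x = 0 := by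
  wlog hxa : 0 ≤ ⟪x, a⟫ generalizing a
  · refine this (a := -a) (by rwa [norm_neg]) (fun y hy hy0 => ?_) ?_
    · rw [inner_neg_right, h0 y hy hy0, neg_zero]
    · rw [inner_neg_right]
      push Not at hxa
      linarith
  have hxn : 0 < ‖x‖ := norm_pos_iff.2 hx
  -- the ray does not meet the origin
  have hray : ∀ t : ℝ, 0 ≤ t → t ≤ ‖x + t • a‖ ∧ x + t • a ≠ 0 := by
    intro t ht
    have h1 : ‖x + t • a‖ ^ 2 = ‖x‖ ^ 2 + 2 * (t * ⟪x, a⟫) + t ^ 2 := by
      rw [norm_add_sq_real, real_inner_smul_right, norm_smul, ha, mul_one, Real.norm_eq_abs, sq_abs]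
    have h2 : 0 ≤ t * ⟪x, a⟫ := mul_nonneg ht hxa
    refine ⟨?_, ?_⟩
    · apply le_of_sq_le_sq _ (norm_nonneg _)
      rw [h1]; nlinarith [sq_nonneg ‖x‖]
    · intro h
      rw [h, norm_zero] at h1
      nlinarith [sq_nonneg t, pow_pos hxn 2]
  -- local constancy along the ray
  have hloc : ∀ t : ℝ, 0 ≤ t → φ (x + t • a) = 0 →
      ∀ᶠ s in 𝓝 t, φ (x + s • a) = 0 ∧ hs φ (x + s • a) = hs φ (x + t • a) := by
    intro t ht ht0
    have h1 := loc_const lip hg h0 (hray t ht).2 ht0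
    have h2 : Tendsto (fun s : ℝ => s - t) (𝓝 t) (𝓝 0) := by
      have : Continuous fun s : ℝ => s - t := by fun_prop
      have h := this.tendsto t
      simpa using h
    filter_upwards [h2.eventually h1] with s hs'
    have h3 : x + t • a + (s - t) • a = x + s • a := by
      rw [sub_smul]; abel
    rwa [h3] at hs'
  set P : ℝ → Prop := fun t => φ (x + t • a) = 0 ∧ hs φ (x + t • a) = hs φ x with hP
  have hsub : Ici (0 : ℝ) ⊆ {t | ∀ᶠ s in 𝓝 t, P s} := by
    refine isPreconnected_Ici.subset_of_closure_inter_subset ?_ ⟨0, self_mem_Ici, ?_⟩ ?_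
    · exact isOpen_setOfPred_eventually_nhds
    · have := hloc 0 le_rfl (by simpa using hφ)
      simpa [hP] using this
    · rintro t ⟨ht, ht0⟩
      have hc : Continuous fun s : ℝ => φ (x + s • a) := lip.continuous.comp (by fun_prop)
      have h1 : φ (x + t • a) = 0 := by
        have hcl : IsClosed {s : ℝ | φ (x + s • a) = 0} := isClosed_eq hc continuous_const
        have hsub' : {t | ∀ᶠ s in 𝓝 t, P s} ⊆ {s : ℝ | φ (x + s • a) = 0} := fun s hs' =>
          (Eventually.self_of_nhds (p := P) hs').1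
        exact closure_minimal hsub' hcl ht
      have h2 := hloc t ht0 h1
      have h3 : ∃ s, (φ (x + s • a) = 0 ∧ hs φ (x + s • a) = hs φ (x + t • a)) ∧ P s := by
        obtain ⟨s, hs1, hs2⟩ := mem_closure_iff_nhds.1 ht _ h2
        exact ⟨s, hs1, Eventually.self_of_nhds (p := P) hs2⟩
      obtain ⟨s, hs1, hs2⟩ := h3
      have h4 : hs φ (x + t • a) = hs φ x := by rw [← hs1.2, hs2.2]
      change ∀ᶠ s in 𝓝 t, P s
      filter_upwards [h2] with s' hs'
      exact ⟨hs'.1, by rw [hs'.2, h4]⟩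
  have hPt : ∀ t : ℝ, 0 ≤ t → P t := fun t ht => Eventually.self_of_nhds (p := P) (hsub ht)
  -- boundedness of the Hessian on the compact set
  obtain ⟨K, hK⟩ : ∃ K : ℝ, ∀ y : E, ‖y‖ = 1 → φ y = 0 → ‖hs φ y‖ ≤ K := by
    have hcomp : IsCompact (Metric.sphere (0 : E) 1 ∩ {y | φ y = 0}) :=
      (isCompact_sphere (0 : E) 1).inter_right (isClosed_eq lip.continuous continuous_const)
    have hcont : ContinuousOn (fun y => ‖hs φ y‖) (Metric.sphere (0 : E) 1 ∩ {y | φ y = 0}) := by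
      intro y hy
      have hy0 : y ≠ 0 := by
        rintro rfl
        simp at hy
      have h2 : ContDiffAt ℝ ∞ (hs φ) y :=
        (hg y hy0 hy.2).contDiffAt_gradient.fderiv_right (m := ∞) (by simp)
      exact h2.continuousAt.norm.continuousWithinAt
    obtain ⟨K, hK⟩ := hcomp.bddAbove_image hcont
    exact ⟨K, fun y hy1 hy2 => hK ⟨y, ⟨by simpa using hy1, hy2⟩, rfl⟩⟩
  have hbound : ∀ t : ℝ, 0 < t → ‖hs φ x‖ ≤ K / t := by
    intro t ht
    obtain ⟨h1, h2⟩ := hPt t ht.le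
    obtain ⟨h3, h4⟩ := hray t ht.le
    have hn : 0 < ‖x + t • a‖ := norm_pos_iff.2 h4
    set y := ‖x + t • a‖⁻¹ • (x + t • a) with hy
    have hy1 : ‖y‖ = 1 := by
      rw [hy, norm_smul, norm_inv, norm_norm, inv_mul_cancel₀ hn.ne']
    have hy2 : φ y = 0 := by rw [hy, hom _ (by positivity), h1, mul_zero]
    have hy3 : x + t • a = ‖x + t • a‖ • y := by
      rw [hy, smul_smul, mul_inv_cancel₀ hn.ne', one_smul]
    have hy0 : y ≠ 0 := by
      rintro h; rw [h, norm_zero] at hy1; exact zero_ne_one hy1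
    have h5 := (hg y hy0 hy2).hs_smul hom hn
    rw [← hy3] at h5
    rw [← h2, h5, norm_smul, norm_inv, norm_norm]
    have h6 := hK y hy1 hy2
    have hK0 : 0 ≤ K := (norm_nonneg _).trans h6
    calc ‖x + t • a‖⁻¹ * ‖hs φ y‖ ≤ t⁻¹ * K := by gcongr
      _ = K / t := by rw [div_eq_mul_inv, mul_comm]
  have hlim : Tendsto (fun t : ℝ => K / t) atTop (𝓝 0) := tendsto_const_nhds.div_atTop tendsto_id
  have : ‖hs φ x‖ ≤ 0 := by
    refine ge_of_tendsto hlim ?_
    filter_upwards [eventually_gt_atTop 0] with t ht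
    exact hbound t ht
  exact norm_le_zero_iff.1 this

/-! ### the second fundamental form -/

/-- `|A|² = trace (D²φ ∘ D²φ)` -/
def A2 (φ : E → ℝ) (x : E) : ℝ :=
  LinearMap.trace ℝ E ((hs φ x).comp (hs φ x) : E →L[ℝ] E)

lemma A2_eq_sum {φ : E → ℝ} {x : E} (h : Good φ x) {ι : Type*} [Fintype ι]
    (b : OrthonormalBasis ι ℝ E) : A2 φ x = ∑ i, ‖hs φ x (b i)‖ ^ 2 := by
  unfold A2
  rw [LinearMap.trace_eq_sum_inner _ b]
  refine Finset.sum_congr rfl fun i _ => ?_
  rw [← real_inner_self_eq_norm_sq, h.hs_symm]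
  rfl

lemma A2_nonneg {φ : E → ℝ} {x : E} (h : Good φ x) : 0 ≤ A2 φ x := by
  rw [A2_eq_sum h (stdOrthonormalBasis ℝ E)]
  positivity

lemma continuousAt_A2 {φ : E → ℝ} {x : E} (h : Good φ x) : ContinuousAt (A2 φ) x := by
  have h2 : ContDiffAt ℝ ∞ (hs φ) x := h.contDiffAt_gradient.fderiv_right (m := ∞) (by simp)
  have h3 : ContinuousAt (fun y => (hs φ y).comp (hs φ y)) x :=
    h2.continuousAt.clm_comp h2.continuousAt
  let L : (E →L[ℝ] E) →ₗ[ℝ] ℝ :=
    { toFun := fun B => LinearMap.trace ℝ E (B : E →ₗ[ℝ] E)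
      map_add' := fun B C => by simp
      map_smul' := fun c B => by simp }
  have hL : Continuous L := L.continuous_of_finiteDimensional
  exact hL.continuousAt.comp h3

/-! ### Hersch for smooth minimal hypercones -/

variable [MeasurableSpace E] [BorelSpace E]

/-- the area measure of `M' = {x | ‖x‖ = 1, φ x = 0}`: what is needed of it. -/
structure AreaMeas (m : ℕ) (φ : E → ℝ) (μ : Measure E) : Prop where
  fin : IsFiniteMeasure μ
  supp : ∀ᵐ x ∂μ, ‖x‖ = 1 ∧ φ x = 0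
  atom : ∀ x, μ {x} = 0
  pos : ∀ x, ‖x‖ = 1 → φ x = 0 → ∀ r : ℝ, 0 < r → 0 < μ (Metric.ball x r)
  fv : ∀ h : E → ℝ, SmS h → ∀ e : E,
    ∫ x, (fderiv ℝ h x e - ⟪x, e⟫ * fderiv ℝ h x x -
      ⟪gradient φ x, e⟫ * fderiv ℝ h x (gradient φ x)) ∂μ = m * ∫ x, ⟪x, e⟫ * h x ∂μ

/-- measurability from continuity on `M'`. -/
lemma aesm_of_cont {φ : E → ℝ} (S : SmoothMin φ) {μ : Measure E}
    (hμ : ∀ᵐ x ∂μ, ‖x‖ = 1 ∧ φ x = 0) {F : Type*} [TopologicalSpace F]
    [TopologicalSpace.PseudoMetrizableSpace F] [SecondCountableTopology F] {f : E → F}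
    (hf : ∀ x, Good φ x → ContinuousAt f x) : AEStronglyMeasurable f μ := by
  have h1 : AEStronglyMeasurable f (μ.restrict {x | Good φ x}) :=
    ContinuousOn.aestronglyMeasurable (fun x hx => (hf x hx).continuousWithinAt)
      (isOpen_good φ).measurableSet
  have h2 : μ.restrict {x | Good φ x} = μ := by
    refine Measure.restrict_eq_self_of_ae_mem ?_
    filter_upwards [hμ] with x hx
    exact S.good x (by rintro rfl; simp at hx) hx.2
  rwa [h2] at h1

/-- boundedness on `M'` of a function continuous at good points. -/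
lemma bdd_of_cont {φ : E → ℝ} (S : SmoothMin φ) {f : E → ℝ}
    (hf : ∀ x, Good φ x → ContinuousAt f x) :
    ∃ K : ℝ, ∀ x : E, ‖x‖ = 1 → φ x = 0 → |f x| ≤ K := by
  have hcomp : IsCompact (Metric.sphere (0 : E) 1 ∩ {y | φ y = 0}) :=
    (isCompact_sphere (0 : E) 1).inter_right (isClosed_eq S.nc.lip.continuous continuous_const)
  have hcont : ContinuousOn (fun y => |f y|) (Metric.sphere (0 : E) 1 ∩ {y | φ y = 0}) := by
    intro y hy
    have hy0 : y ≠ 0 := by
      rintro rfl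
      simp at hy
    exact (hf y (S.good y hy0 hy.2)).abs.continuousWithinAt
  obtain ⟨K, hK⟩ := hcomp.bddAbove_image hcont
  exact ⟨K, fun y hy1 hy2 => hK ⟨y, ⟨by simpa using hy1, hy2⟩, rfl⟩⟩

lemma integrable_of_cont {φ : E → ℝ} (S : SmoothMin φ) {μ : Measure E} [IsFiniteMeasure μ]
    (hμ : ∀ᵐ x ∂μ, ‖x‖ = 1 ∧ φ x = 0) {f : E → ℝ}
    (hf : ∀ x, Good φ x → ContinuousAt f x) : Integrable f μ := by
  obtain ⟨K, hK⟩ := bdd_of_cont S hf
  refine Integrable.of_bound (aesm_of_cont S hμ hf) K ?_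
  filter_upwards [hμ] with x hx
  exact hK x hx.1 hx.2

/-- a continuous identity valid a.e. is valid on all of `M'`. -/
lemma eq_of_ae {m : ℕ} {φ : E → ℝ} (S : SmoothMin φ) {μ : Measure E} (hμ : AreaMeas m φ μ)
    {f : E → ℝ} {c : ℝ} (hf : ∀ x, Good φ x → ContinuousAt f x) (hae : ∀ᵐ x ∂μ, f x = c) :
    ∀ x, ‖x‖ = 1 → φ x = 0 → f x = c := by
  intro x hx hx0
  have hxn : x ≠ 0 := by rintro rfl; simp at hx
  by_contra hne
  have h1 : ∀ᶠ y in 𝓝 x, f y ≠ c := (hf x (S.good x hxn hx0)).eventually_ne hne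
  obtain ⟨r, hr, hball⟩ := Metric.eventually_nhds_iff_ball.1 h1
  have h2 := hμ.pos x hx hx0 r hr
  have h3 : μ (Metric.ball x r) = 0 := by
    refine measure_mono_null (fun y hy => ?_) (ae_iff.1 hae)
    exact hball y hy
  exact h2.ne' h3

lemma minSurf {m : ℕ} {φ : E → ℝ} (S : SmoothMin φ) {μ : Measure E} (hμ : AreaMeas m φ μ) :
    MinSurf m μ (gradient φ) where
  fin := hμ.fin
  sph := hμ.supp.mono fun x hx => hx.1
  atom := hμ.atom
  meas := aesm_of_cont S hμ.supp fun x hx => hx.contDiffAt_gradient.continuousAt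
  nu1 := by
    filter_upwards [hμ.supp] with x hx
    exact (S.good x (by rintro rfl; simp at hx) hx.2).norm_gradient
  nux := by
    filter_upwards [hμ.supp] with x hx
    rw [(S.good x (by rintro rfl; simp at hx) hx.2).euler S.nc.hom, hx.2]
  fv := hμ.fv

/-- **Hersch's theorem** for smooth minimal hypercones. -/
theorem hersch_smooth {m : ℕ} {φ : E → ℝ} (S : SmoothMin φ) {μ : Measure E}
    (hμ : AreaMeas m φ μ) (hμ0 : μ ≠ 0) (hm : 2 ≤ m) (hdim : Module.finrank ℝ E = m + 2)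
    (hidx : ∀ h : E → ℝ, SmS h → ∫ x, A2 φ x * h x ∂μ = 0 →
      ∫ x, A2 φ x * h x ^ 2 ∂μ ≤ ∫ x, T (gradient φ) h x ∂μ) :
    ∫ x, A2 φ x ∂μ ≤ m * μ.real univ ∧
    (∫ x, A2 φ x ∂μ = m * μ.real univ → ∀ x, ‖x‖ = 1 → φ x = 0 → A2 φ x = m) := by
  have := hμ.fin
  have hcA : ∀ x, Good φ x → ContinuousAt (A2 φ) x := fun x hx => continuousAt_A2 hx
  have hA : Integrable (A2 φ) μ := integrable_of_cont S hμ.supp hcA
  have hA0 : ∀ᵐ x ∂μ, 0 ≤ A2 φ x := by
    filter_upwards [hμ.supp] with x hx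
    exact A2_nonneg (S.good x (by rintro rfl; simp at hx) hx.2)
  obtain ⟨h1, h2⟩ := hersch_main (minSurf S hμ) hm hdim (A2 φ) hA hA0 hidx
  refine ⟨h1, fun heq => ?_⟩
  rcases h2 heq with ⟨a, ha, hνa⟩ | h3
  · exfalso
    have h4 : ∀ x, ‖x‖ = 1 → φ x = 0 → ⟪gradient φ x, a⟫ = 0 :=
      eq_of_ae S hμ (f := fun x => ⟪gradient φ x, a⟫)
        (fun x hx => hx.contDiffAt_gradient.continuousAt.inner continuousAt_const) hνa
    have h5 : ∀ x, x ≠ 0 → φ x = 0 → ⟪gradient φ x, a⟫ = 0 := by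
      intro x hx hx0
      have hn : 0 < ‖x‖ := norm_pos_iff.2 hx
      have h6 := h4 (‖x‖⁻¹ • x) (by rw [norm_smul, norm_inv, norm_norm, inv_mul_cancel₀ hn.ne'])
        (by rw [S.nc.hom _ (by positivity), hx0, mul_zero])
      rwa [gradient_smul_of_hom S.nc.hom x (by positivity)] at h6
    have h7 : ∀ᵐ x ∂μ, A2 φ x = 0 := by
      filter_upwards [hμ.supp] with x hx
      have h8 := hs_eq_zero S.nc.lip S.nc.hom S.good ha h5 (x := x)
        (by rintro rfl; simp at hx) hx.2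
      simp [A2, h8]
    have h9 : ∫ x, A2 φ x ∂μ = 0 := by
      rw [integral_congr_ae h7]; simp
    rw [h9] at heq
    have hm0 : (m : ℝ) ≠ 0 := by
      have : (2 : ℝ) ≤ m := by exact_mod_cast hm
      positivity
    have hσ := (mul_eq_zero.1 heq.symm).resolve_left hm0
    rw [Measure.real, ENNReal.toReal_eq_zero_iff] at hσ
    rcases hσ with h | h
    · exact hμ0 (Measure.measure_univ_eq_zero.1 h)
    · exact absurd h (measure_ne_top _ _)
  · exact eq_of_ae S hμ hcA h3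

end Crest.Agent.R246.HerschSM900
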