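import Crest.Agent.R246.MSL5_579
import Crest.Agent.R246.MSFin_852
import Crest.Agent.R246.MSTail_125
import Crest.Agent.R246.MSLow_598_Mg
import Crest.Agent.R246.F4f_669
import Crest.Agent.R246.H1a_105
import Crest.Agent.R246.Expn_105
import Crest.Agent.R246.Skel2_656
import Crest.Agent.R246.H2c5_622
import Crest.Agent.R246.Reg_549
import Crest.Agent.R246.SM5_436
import Crest.Agent.R246.Num_688
import Crest.Agent.R246.JE4_364
import Crest.Agent.R246.G0_873

-- ▼ part R246/MSAff_579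
section

/-!
# R246-F (helper579): `StAff` = Lemma L5 at good points, by rescaling `R z = r (x0 + ε z) / ε`
-/

set_option autoImplicit false
set_option linter.unusedSectionVars false

namespace Crest.Agent.R246.L5x579

open MeasureTheory Metric Set InnerProductSpace Filter Topology
open scoped RealInnerProductSpace Gradient
open Crest.Agent.R246.MS852

section
variable {E : Type*} [NormedAddCommGroup E] [InnerProductSpace ℝ E] [FiniteDimensional ℝ E]
  [MeasurableSpace E] [BorelSpace E]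

theorem continuous_tanh : Continuous Real.tanh := by
  have h1 : Real.tanh = fun x => Real.sinh x / Real.cosh x :=
    funext fun x => Real.tanh_eq_sinh_div_cosh x
  rw [h1]
  exact Real.continuous_sinh.div Real.continuous_cosh fun x => (Real.cosh_pos x).ne'

theorem int_rescale (f : E → ℝ) (p : E) {ρ : ℝ} (hρ : 0 < ρ) :
    ρ ^ (Module.finrank ℝ E) * ∫ x, f (p + ρ • x) = ∫ y, f y := by
  rw [Measure.integral_comp_smul volume (fun y => f (p + y)) ρ,
    integral_add_left_eq_self (fun y => f y) p, smul_eq_mul, abs_of_pos (by positivity)]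
  field_simp

theorem int_ball_rescale (f : E → ℝ) (p : E) {ρ : ℝ} (hρ : 0 < ρ) (R : ℝ) :
    ρ ^ (Module.finrank ℝ E) * ∫ x in ball (0 : E) R, f (p + ρ • x) = ∫ y in ball p (ρ * R), f y := by
  rw [← integral_indicator measurableSet_ball, ← integral_indicator measurableSet_ball]
  have h1 : ∀ x : E, (ball (0 : E) R).indicator (fun x => f (p + ρ • x)) x =
      (ball p (ρ * R)).indicator f (p + ρ • x) := by
    intro x
    have h2 : x ∈ ball (0 : E) R ↔ p + ρ • x ∈ ball p (ρ * R) := by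
      rw [mem_ball_zero_iff, mem_ball, dist_eq_norm, add_sub_cancel_left, norm_smul,
        Real.norm_eq_abs, abs_of_pos hρ, mul_lt_mul_iff_right₀ hρ]
    by_cases hx : x ∈ ball (0 : E) R
    · rw [indicator_of_mem hx, indicator_of_mem (h2.1 hx)]
    · rw [indicator_of_notMem hx, indicator_of_notMem (fun h' => hx (h2.2 h'))]
  rw [integral_congr_ae (Eventually.of_forall h1)]
  exact int_rescale (fun y => (ball p (ρ * R)).indicator f y) p hρ

variable {a x0 : E} {ε η : ℝ} {h r : E → ℝ}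

/-- the rescaled function -/
noncomputable def rs (r : E → ℝ) (x0 : E) (ε : ℝ) (z : E) : ℝ := r (x0 + ε • z) / ε

theorem rs_fderiv (hr : ContDiff ℝ 1 r) (hε : 0 < ε) (x0 z : E) :
    fderiv ℝ (rs r x0 ε) z = fderiv ℝ r (x0 + ε • z) := by
  have h1 : HasFDerivAt (fun z : E => x0 + ε • z) (ε • ContinuousLinearMap.id ℝ E) z :=
    ((hasFDerivAt_id z).const_smul ε).const_add x0
  have h2 : HasFDerivAt r (fderiv ℝ r (x0 + ε • z)) (x0 + ε • z) :=
    (hr.differentiable one_ne_zero _).hasFDerivAt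
  have h3 := (h2.comp z h1).mul_const (ε⁻¹)
  have h4 : HasFDerivAt (rs r x0 ε) (fderiv ℝ r (x0 + ε • z)) z := by
    refine (h3.congr_fderiv ?_).congr_of_eventuallyEq (Eventually.of_forall fun y => ?_)
    · ext v
      simp only [smul_apply, ContinuousLinearMap.comp_apply,
        ContinuousLinearMap.id_apply, map_smul, smul_eq_mul]
      field_simp
    · show r (x0 + ε • y) / ε = r (x0 + ε • y) * ε⁻¹
      rw [div_eq_mul_inv]
  exact h4.fderiv

theorem rs_grad (hr : ContDiff ℝ 1 r) (hε : 0 < ε) (x0 z : E) :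
    ∇ (rs r x0 ε) z = ∇ r (x0 + ε • z) := by
  unfold gradient; rw [rs_fderiv hr hε]

theorem rs_cd (hr : ContDiff ℝ 1 r) (x0 : E) (ε : ℝ) : ContDiff ℝ 1 (rs r x0 ε) := by
  unfold rs
  exact (hr.comp (contDiff_const.add (contDiff_const.smul contDiff_id))).div_const ε

/-- rescaled defect density without the factor `sech⁴` -/
noncomputable def dd (a : E) (h r : E → ℝ) (x0 : E) (ε : ℝ) (z : E) : ℝ :=
  (h (x0 + ε • z) - ‖∇ r (x0 + ε • z)‖ ^ 2) / 2 +
    (‖∇ r (x0 + ε • z)‖ ^ 2 - (fderiv ℝ r (x0 + ε • z) a) ^ 2)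

theorem mem_two {L : ℝ} (hε : 0 < ε) (hx0 : x0 ∈ ball (0 : E) (3 / 5)) (hL : L * ε ≤ 1 / 100)
    {z : E} (hz : z ∈ ball (0 : E) L) : x0 + ε • z ∈ ball (0 : E) 2 := by
  rw [mem_ball_zero_iff] at *
  have h1 := norm_add_le x0 (ε • z)
  rw [norm_smul, Real.norm_eq_abs, abs_of_pos hε] at h1
  have h2 : ε * ‖z‖ ≤ ε * L := mul_le_mul_of_nonneg_left hz.le hε.le
  linarith

theorem dd_nonneg (H : Hyp a ε η h r) {z : E} (hz : x0 + ε • z ∈ ball (0 : E) 2) :
    0 ≤ dd a h r x0 ε z := by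
  unfold dd
  have h1 := H.modica _ hz
  have h2 := sq_fderiv_le H.ha r (x0 + ε • z)
  linarith

theorem dd_cont (H : Hyp a ε η h r) : Continuous (dd a h r x0 ε) := by
  unfold dd
  have hA : Continuous fun z : E => x0 + ε • z := by fun_prop
  have h1 := ((continuous_grad H.cr).comp hA).norm.pow 2
  have h2 := ((continuous_fderiv_apply' H.cr a).comp hA).pow 2
  exact (((H.ch.continuous.comp hA).sub h1).div_const 2).add (h1.sub h2)

/-- the rescaled function is `2`-Lipschitz on the ball -/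
theorem rs_lip (H : Hyp a ε η h r) {L : ℝ} (hx0 : x0 ∈ ball (0 : E) (3 / 5))
    (hL : L * ε ≤ 1 / 100) {z : E} (hz : z ∈ ball (0 : E) L) (hL0 : 0 < L) :
    |rs r x0 ε z| ≤ |r x0 / ε| + 2 * L := by
  have h1 := Convex.norm_image_sub_le_of_norm_fderiv_le (𝕜 := ℝ) (f := rs r x0 ε)
    (s := ball (0 : E) L) (C := 2)
    (fun y _ => (rs_cd H.cr x0 ε).differentiable one_ne_zero y) (fun y hy => ?_) (convex_ball _ _)
    (mem_ball_self hL0) hz
  · rw [sub_zero, Real.norm_eq_abs] at h1
    rw [mem_ball_zero_iff] at hz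
    have h2 : rs r x0 ε 0 = r x0 / ε := by unfold rs; rw [smul_zero, add_zero]
    rw [h2] at h1
    have h3 := abs_sub_abs_le_abs_sub (rs r x0 ε z) (r x0 / ε)
    linarith
  · rw [rs_fderiv H.cr H.hε, ← norm_grad]
    exact H.grad_le (mem_two H.hε hx0 hL hy)

/-- the integral of the rescaled defect -/
theorem int_dd_le (H : Hyp a ε η h r) {d : ℕ} (hd : Module.finrank ℝ E = d + 1) {L S lam : ℝ}
    (hL0 : 0 < L) (hL : L * ε ≤ 1 / 100) (hg : Good a ε h r d lam x0) (hS : |r x0 / ε| ≤ S) :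
    ∫ z in ball (0 : E) L, dd a h r x0 ε z ≤ Real.cosh (S + 2 * L) ^ 4 * (lam * L ^ d) := by
  have hε := H.hε
  have hS0 : 0 ≤ S := (abs_nonneg _).trans hS
  set c := Real.cosh (S + 2 * L) ^ 4 with hc
  have hc0 : 0 < c := by rw [hc]; exact pow_pos (Real.cosh_pos _) 4
  have hA : Continuous fun z : E => x0 + ε • z := by fun_prop
  have h1 : ∀ z ∈ ball (0 : E) L, dd a h r x0 ε z ≤ c * (ε * kap a ε h r (x0 + ε • z)) := by
    intro z hz
    have hz2 := mem_two hε hg.1 hL hz
    have hdd := dd_nonneg (x0 := x0) H hz2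
    have hk : kap a ε h r (x0 + ε • z) = S4 ε r (x0 + ε • z) / ε * dd a h r x0 ε z := rfl
    rw [hk]
    have h2 : 1 ≤ c * S4 ε r (x0 + ε • z) := by
      unfold S4
      rw [mul_one_div, le_div_iff₀ (pow_pos (Real.cosh_pos _) 4), one_mul, hc]
      refine pow_le_pow_left₀ (Real.cosh_pos _).le ?_ 4
      rw [Real.cosh_le_cosh]
      have h3 := rs_lip H hg.1 hL hz hL0
      rw [abs_of_nonneg (by positivity : (0 : ℝ) ≤ S + 2 * L)]
      unfold rs at h3
      linarith
    have h3 : c * (ε * (S4 ε r (x0 + ε • z) / ε * dd a h r x0 ε z))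
        = (c * S4 ε r (x0 + ε • z)) * dd a h r x0 ε z := by field_simp
    rw [h3]
    nlinarith
  have hkc : Continuous fun z => kap a ε h r (x0 + ε • z) := H.contkap.comp hA
  refine (setIntegral_mono_on (integrableOn_ball (dd_cont H) 0 L)
    (integrableOn_ball ((hkc.const_mul ε).const_mul c) 0 L) measurableSet_ball h1).trans ?_
  simp only [integral_const_mul]
  refine mul_le_mul_of_nonneg_left ?_ hc0.le
  have h4 := int_ball_rescale (kap a ε h r) x0 hε L
  rw [hd] at h4
  have h5 : ∫ y in ball x0 (ε * L), kap a ε h r y ≤ lam * (ε * L) ^ d := by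
    refine le_trans ?_ (hg.2 (ε * L) (by positivity) (by linarith))
    refine setIntegral_mono_set (integrableOn_closedBall H.contkap x0 (ε * L)) ?_
      (Eventually.of_forall ball_subset_closedBall)
    rw [EventuallyLE, ae_restrict_iff' measurableSet_closedBall]
    refine Eventually.of_forall fun y hy => H.kap_nonneg ?_
    have hx := hg.1
    rw [mem_ball_zero_iff] at hx ⊢
    rw [mem_closedBall, dist_eq_norm] at hy
    have h6 : ‖y‖ ≤ ‖y - x0‖ + ‖x0‖ := by
      have := norm_add_le (y - x0) x0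
      rwa [sub_add_cancel] at this
    linarith
  rw [← h4] at h5
  have h6 : 0 < ε ^ d := by positivity
  have h7 : ε ^ (d + 1) * (∫ x in ball (0 : E) L, kap a ε h r (x0 + ε • x))
      = ε ^ d * (ε * ∫ x in ball (0 : E) L, kap a ε h r (x0 + ε • x)) := by ring
  have h8 : lam * (ε * L) ^ d = ε ^ d * (lam * L ^ d) := by rw [mul_pow]; ring
  rw [h7, h8] at h5
  exact le_of_mul_le_mul_left h5 h6

/-- rescaled weak equation -/
theorem weak_rs (H : Hyp a ε η h r) {L : ℝ} (hx0 : x0 ∈ ball (0 : E) (3 / 5))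
    (hL : L * ε ≤ 1 / 100) {φ : E → ℝ} (hφ : ContDiff ℝ 1 φ) (hs : tsupport φ ⊆ ball (0 : E) L) :
    ∫ z, fderiv ℝ φ z (∇ (rs r x0 ε) z) =
      ∫ z, 2 * Real.tanh (rs r x0 ε z) * (h (x0 + ε • z) - ‖∇ r (x0 + ε • z)‖ ^ 2) * φ z := by
  have hε := H.hε
  set B : E → E := fun x => ε⁻¹ • (x - x0) with hB
  have hBA : ∀ z, B (x0 + ε • z) = z := by
    intro z
    rw [hB]
    simp only [add_sub_cancel_left, smul_smul]
    rw [inv_mul_cancel₀ hε.ne', one_smul]
  have hBc : Continuous B := by rw [hB]; fun_prop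
  have hBd : ContDiff ℝ 1 B := contDiff_const.smul (contDiff_id.sub contDiff_const)
  have hBf : ∀ x, HasFDerivAt B (ε⁻¹ • ContinuousLinearMap.id ℝ E) x := fun x =>
    ((hasFDerivAt_id x).sub_const x0).const_smul ε⁻¹
  have hψ : ContDiff ℝ 1 fun x => φ (B x) := hφ.comp hBd
  have hψs : tsupport (fun x => φ (B x)) ⊆ ball (0 : E) 2 := by
    have h1 : tsupport (fun x => φ (B x)) ⊆ B ⁻¹' tsupport φ := by
      refine closure_minimal (fun x hx => subset_tsupport φ hx) ?_
      exact (isClosed_tsupport φ).preimage hBc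
    intro x hx
    have h2 := hs (h1 hx)
    have h3 : x = x0 + ε • B x := by
      rw [hB]
      simp only [smul_smul]
      rw [mul_inv_cancel₀ hε.ne', one_smul, add_sub_cancel]
    rw [h3]
    exact mem_two hε hx0 hL h2
  have hw := H.weak (fun x => φ (B x)) hψ hψs
  have hfd : ∀ x v, fderiv ℝ (fun x => φ (B x)) x v = ε⁻¹ * fderiv ℝ φ (B x) v := by
    intro x v
    have h1 := ((hφ.differentiable one_ne_zero (B x)).hasFDerivAt.comp x (hBf x)).fderiv
    have h2 : (fun x => φ (B x)) = φ ∘ B := rfl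
    rw [h2, h1]
    simp
  rw [← int_rescale (fun x => fderiv ℝ (fun x => φ (B x)) x (∇ r x)) x0 hε,
    ← int_rescale (fun x => 2 / ε * Real.tanh (r x / ε) * (h x - ‖∇ r x‖ ^ 2) * φ (B x)) x0 hε] at hw
  have hp : (0 : ℝ) < ε ^ (Module.finrank ℝ E) := by positivity
  have hw2 := mul_left_cancel₀ hp.ne' hw
  have e1 : ∀ z, fderiv ℝ (fun x => φ (B x)) (x0 + ε • z) (∇ r (x0 + ε • z))
      = ε⁻¹ * fderiv ℝ φ z (∇ (rs r x0 ε) z) := by
    intro z
    rw [hfd, hBA, rs_grad H.cr hε]
  have e2 : ∀ z, 2 / ε * Real.tanh (r (x0 + ε • z) / ε) *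
      (h (x0 + ε • z) - ‖∇ r (x0 + ε • z)‖ ^ 2) * φ (B (x0 + ε • z)) =
      ε⁻¹ * (2 * Real.tanh (rs r x0 ε z) * (h (x0 + ε • z) - ‖∇ r (x0 + ε • z)‖ ^ 2) * φ z) := by
    intro z
    rw [hBA]
    unfold rs
    ring
  simp only [e1, e2, integral_const_mul] at hw2
  exact mul_left_cancel₀ (inv_ne_zero hε.ne') hw2

variable (E) in
/-- LEAF 6 -/
theorem stAff (d : ℕ) : StAff E d := by
  intro hd S L w hS hL hw
  obtain ⟨τ0, hτ0, hτ1, hL5⟩ := stL5' E L w hL hw
  set c := Real.cosh (S + 2 * L) ^ 4 with hc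
  have hc0 : 0 < c := by rw [hc]; exact pow_pos (Real.cosh_pos _) 4
  set V : ℝ := volume.real (ball (0 : E) L) with hV
  have hV0 : 0 ≤ V := measureReal_nonneg
  have hL0 : (0 : ℝ) < L := by linarith
  refine ⟨τ0 / (8 * c * L ^ d), by positivity, min (1 / (100 * L)) (min τ0 (τ0 / (2 * (V + 1)))),
    by positivity, ?_⟩
  intro a ε η h r hη H x0 hg hx0S
  have hε := H.hε
  have hη0 := H.hη0
  have hη1 : η ≤ 1 / (100 * L) := hη.trans (min_le_left _ _)
  have hη2 : η ≤ τ0 := hη.trans ((min_le_right _ _).trans (min_le_left _ _))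
  have hη3 : η ≤ τ0 / (2 * (V + 1)) := hη.trans ((min_le_right _ _).trans (min_le_right _ _))
  have hLε : L * ε ≤ 1 / 100 := by
    have h1 : ε ≤ 1 / (100 * L) := H.ε_le_η.trans hη1
    rw [le_div_iff₀ (by positivity)] at h1
    linarith
  refine ⟨hLε, ?_⟩
  have hI := int_dd_le H hd hL0 hLε hg hx0S
  rw [← hc] at hI
  have hI2 : ∫ z in ball (0 : E) L, dd a h r x0 ε z ≤ τ0 / 8 := by
    refine hI.trans (le_of_eq ?_)
    field_simp
  have hA : Continuous fun z : E => x0 + ε • z := by fun_prop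
  have hddc : Continuous (dd a h r x0 ε) := dd_cont H
  have hddi := integrableOn_ball hddc 0 L
  have hgr : ∀ z, ∇ (rs r x0 ε) z = ∇ r (x0 + ε • z) := rs_grad H.cr hε x0
  have hfr : ∀ z, fderiv ℝ (rs r x0 ε) z = fderiv ℝ r (x0 + ε • z) := rs_fderiv H.cr hε x0
  have hRc : ContDiff ℝ 1 (rs r x0 ε) := rs_cd H.cr x0 ε
  have hgc : Continuous fun z => ‖∇ r (x0 + ε • z)‖ ^ 2 :=
    ((continuous_grad H.cr).comp hA).norm.pow 2
  have hfc : Continuous fun z => (fderiv ℝ r (x0 + ε • z) a) ^ 2 :=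
    ((continuous_fderiv_apply' H.cr a).comp hA).pow 2
  have hhc : Continuous fun z => h (x0 + ε • z) := H.ch.continuous.comp hA
  have hyp : HypL5 a L τ0 (rs r x0 ε) := by
    refine ⟨H.ha, hτ0, hτ1, hRc, ?_, ?_, ?_, ?_⟩
    · intro z hz
      have hz2 := mem_two hε hg.1 hLε hz
      rw [hgr]
      have h1 := H.modica _ hz2
      have h2 := abs_le.1 (H.near _ hz2)
      linarith
    · simp only [hgr, hfr]
      refine (setIntegral_mono_on (integrableOn_ball (hgc.sub hfc) 0 L) hddi measurableSet_ball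
        fun z hz => ?_).trans (hI2.trans (by linarith))
      have hz2 := mem_two hε hg.1 hLε hz
      have h1 := H.modica _ hz2
      show ‖∇ r (x0 + ε • z)‖ ^ 2 - (fderiv ℝ r (x0 + ε • z) a) ^ 2 ≤ dd a h r x0 ε z
      unfold dd
      linarith
    · simp only [hgr]
      have h3 : ∀ z ∈ ball (0 : E) L, |1 - ‖∇ r (x0 + ε • z)‖ ^ 2| ≤ η + 2 * dd a h r x0 ε z := by
        intro z hz
        have hz2 := mem_two hε hg.1 hLε hz
        have h1 := H.modica _ hz2
        have h2 := abs_le.1 (H.near _ hz2)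
        have h4 := sq_fderiv_le H.ha r (x0 + ε • z)
        unfold dd
        rw [abs_le]
        constructor <;> linarith [h2.1, h2.2]
      have h5 := setIntegral_mono_on (μ := volume)
        (integrableOn_ball (continuous_const.sub hgc).abs 0 L)
        (integrableOn_ball (continuous_const.add (hddc.const_mul 2)) 0 L) measurableSet_ball h3
      refine h5.trans ?_
      simp only [Pi.add_apply]
      rw [integral_add (integrableOn_ball continuous_const 0 L)
        (integrableOn_ball (hddc.const_mul 2) 0 L), integral_const_mul, setIntegral_const,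
        smul_eq_mul, ← hV]
      have h6 : η * (2 * (V + 1)) ≤ τ0 := by
        rwa [le_div_iff₀ (by positivity)] at hη3
      nlinarith
    · intro φ hφ hs M hM
      have hM0 : 0 ≤ M := (abs_nonneg _).trans (hM 0)
      rw [weak_rs H hg.1 hLε hφ hs]
      have hz0 : ∀ z, z ∉ ball (0 : E) L → φ z = 0 := fun z hz =>
        image_eq_zero_of_notMem_tsupport fun h => hz (hs h)
      have h7 := abs_int_le (L := L) (C := 4 * M) (G := dd a h r x0 ε)
        (f := fun z => 2 * Real.tanh (rs r x0 ε z) *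
          (h (x0 + ε • z) - ‖∇ r (x0 + ε • z)‖ ^ 2) * φ z)
        (((continuous_const.mul (continuous_tanh.comp hRc.continuous)).mul
          (hhc.sub hgc)).mul hφ.continuous) hddc
        (fun z hz => by rw [hz0 z hz, mul_zero]) ?_
      · refine h7.trans ?_
        have h8 : 4 * M * ∫ z in ball (0 : E) L, dd a h r x0 ε z ≤ 4 * M * (τ0 / 8) :=
          mul_le_mul_of_nonneg_left hI2 (by positivity)
        nlinarith [mul_nonneg hτ0.le hM0]
      · intro z hz
        have hz2 := mem_two hε hg.1 hLε hz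
        have h1 := H.modica _ hz2
        have h4 := sq_fderiv_le H.ha r (x0 + ε • z)
        have hdd0 := dd_nonneg (x0 := x0) H hz2
        have h9 : 0 ≤ h (x0 + ε • z) - ‖∇ r (x0 + ε • z)‖ ^ 2 := by linarith
        have h10 : h (x0 + ε • z) - ‖∇ r (x0 + ε • z)‖ ^ 2 ≤ 2 * dd a h r x0 ε z := by
          unfold dd; linarith
        have ht : |Real.tanh (rs r x0 ε z)| ≤ 1 := (Real.abs_tanh_lt_one _).le
        rw [abs_mul, abs_mul, abs_mul, abs_of_nonneg h9, abs_two]
        calc 2 * |Real.tanh (rs r x0 ε z)| * (h (x0 + ε • z) - ‖∇ r (x0 + ε • z)‖ ^ 2) * |φ z|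
            ≤ 2 * 1 * (2 * dd a h r x0 ε z) * M := by
              refine mul_le_mul (mul_le_mul (by linarith) h10 h9 (by norm_num)) (hM z)
                (abs_nonneg _) (by positivity)
          _ = 4 * M * dd a h r x0 ε z := by ring
  obtain ⟨s, hs, hz⟩ := hL5 a (rs r x0 ε) hyp
  refine ⟨s, hs, fun z hzz => ?_⟩
  have h1 := hz z hzz
  have h2 : rs r x0 ε 0 = r x0 / ε := by unfold rs; rw [smul_zero, add_zero]
  rw [h2] at h1
  exact h1

end

end Crest.Agent.R246.L5x579
end

-- ▼ part R246/MSAll_852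
section

/-!
# R246-F (helper852): LEMMA MS, unconditional
-/

set_option autoImplicit false

namespace Crest.Agent.R246.MS852

open MeasureTheory

/-- LEMMA MS -/
theorem stMS (E : Type*) [NormedAddCommGroup E] [InnerProductSpace ℝ E]
    [FiniteDimensional ℝ E] [MeasurableSpace E] [BorelSpace E] (d : ℕ) : StMS E d :=
  stMS_of E d (MS125.stDefect E) (MS125.stTail E) MSVit598.stVit
    (MSLow598.stLow (L5x579.stAff E d)) (MSVert598.stVert (L5x579.stAff E d))
    (F4x669.stSlab E d) MSSlice598.stSlice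

end Crest.Agent.R246.MS852
end

-- ▼ part R246/H1_105
section

/-!
R246, helper105.  **H1** in the form of helper656's skeleton: `StH1 m`.
-/

set_option autoImplicit false

namespace Crest.Agent.R246.H1x105

open MeasureTheory Filter Topology Metric Set
open scoped NNReal Gradient RealInnerProductSpace
open Crest.Agent.R246.G873 Crest.Agent.R246.Flat105 Crest.Agent.R246.Iter105
open Crest.Agent.R246.MS852 (psi cpsi)
open Crest.Agent.R246.Skel656 Crest.Agent.R246.Skel2

theorem stH1 (m : ℕ) : StH1 m := by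
  intro φ μ _ hD hV _ p hp hp0 hfl hct
  have hfin : Module.finrank ℝ (E m) = (m + 1) + 1 := by simp [E]
  obtain ⟨θ, C, η₀, κ, hθ0, hθ1, hC, hη₀, hκ, hone⟩ := oneStep (E m) hfin
  obtain ⟨r₁, hr₁, hcon⟩ := hct κ hκ
  obtain ⟨r₀, hr₀, hflat⟩ := hfl (η₀ / 2) (by positivity)
  have hpn : 0 < ‖p‖ := norm_pos_iff.mpr hp
  set r : ℝ := min (r₀ / 2) (min (r₁ / 4) (‖p‖ / 4)) with hr
  have hr0 : 0 < r := by positivity
  have h1 : r < r₀ := (min_le_left _ _).trans_lt (by linarith)
  have h2 : r ≤ r₁ / 4 := (min_le_right _ _).trans (min_le_left _ _)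
  have h3 : r ≤ ‖p‖ / 4 := (min_le_right _ _).trans (min_le_right _ _)
  obtain ⟨e, he, hfe⟩ := hflat r hr0 h1
  have hF : Flat φ p (2 * r) e (η₀ / 4) := by
    intro x hx
    refine (hfe x hx).trans (le_of_eq ?_)
    ring
  have hO : OneStep φ {q | φ q = 0 ∧ ‖q - p‖ ≤ 2 * r / 2} (2 * r / 2) θ (3 / 4) C η₀ := by
    refine hone φ μ _ {0}ᶜ _ hD hV (fun q hq => hq.1) ?_ ?_
    · intro q hq y hy
      rw [mem_closedBall, dist_eq_norm] at hy
      rw [mem_compl_iff, mem_singleton_iff]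
      intro hy0
      have h4 := hq.2
      rw [hy0, zero_sub, norm_neg] at hy
      have h5 : ‖p‖ ≤ ‖q - p‖ + ‖q‖ := by
        calc ‖p‖ = ‖q - (q - p)‖ := by rw [sub_sub_cancel]
          _ ≤ ‖q‖ + ‖q - p‖ := norm_sub_le _ _
          _ = _ := add_comm _ _
      linarith
    · intro q hq s hs hsr
      have h4 := hcon q hq.1 (by
        have := hq.2
        linarith) s hs (by linarith)
      exact h4
  obtain ⟨C', hC'⟩ := expn_of_oneStep hO (by positivity) hθ0 hθ1 (by norm_num) hC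
    (by positivity : 0 < η₀ / 4) (by linarith) he hF
  exact ⟨2 * r / 2, by positivity, C', hC'⟩

end Crest.Agent.R246.H1x105
end

-- ▼ part R246/H2c6_622
section

/-!
R246, block H2c (helper622).  Part 6: the interface form (literally `Reg549.StH2c F`).
-/

open MeasureTheory Metric Set Filter Topology
open scoped ContDiff

namespace Crest.Agent.R246.H2x622

noncomputable section

variable {F : Type} [NormedAddCommGroup F] [InnerProductSpace ℝ F] [FiniteDimensional ℝ F]
  [MeasurableSpace F] [BorelSpace F]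

/-- `C^{1,α}` weak solutions of the minimal surface equation with `∇w(0) = 0` are smooth near `0`. -/
theorem smooth_of_weak_mse (r K α : ℝ) (w : F → ℝ) (hr : 0 < r) (hK : 0 ≤ K) (hα : 1 / 2 < α)
    (_hα1 : α ≤ 1) (h0 : fderiv ℝ w 0 = 0)
    (hd : ∀ y ∈ ball (0 : F) r, DifferentiableAt ℝ w y ∧ ‖fderiv ℝ w y‖ ≤ 1 / 4)
    (hh : ∀ y ∈ ball (0 : F) r, ∀ y' ∈ ball (0 : F) r,
      ‖fderiv ℝ w y - fderiv ℝ w y'‖ ≤ K * ‖y - y'‖ ^ α)
    (hweak : ∀ ψ : F → ℝ, ContDiff ℝ 1 ψ → HasCompactSupport ψ → tsupport ψ ⊆ ball 0 r →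
      ∫ y, (Real.sqrt (1 + ‖gradient w y‖ ^ 2))⁻¹ * inner ℝ (gradient w y) (gradient ψ y) = 0) :
    ∃ r1 > 0, r1 ≤ r ∧ ContDiffOn ℝ ∞ w (ball 0 r1) := by
  obtain ⟨p₀, hp, hmain⟩ := mse_smooth F (α := 1 / 2) (by norm_num) (by norm_num)
  have hc : ContinuousAt (fun y => ‖fderiv ℝ w y‖) 0 := by
    have h1 : ContinuousAt (fderiv ℝ w) 0 :=
      continuousAt_of_hol (by linarith : 0 < α) hr hh
    exact h1.norm
  have hz : ‖fderiv ℝ w 0‖ < p₀ := by rw [h0, norm_zero]; exact hp
  obtain ⟨δ, hδ, hδ2⟩ := Metric.eventually_nhds_iff.1 (hc.eventually (gt_mem_nhds hz))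
  set r1 : ℝ := min (min r δ) (1 / 2) with hr1
  have hr10 : 0 < r1 := by positivity
  have hr1r : r1 ≤ r := (min_le_left _ _).trans (min_le_left _ _)
  have hr1δ : r1 ≤ δ := (min_le_left _ _).trans (min_le_right _ _)
  have hr12 : r1 ≤ 1 / 2 := min_le_right _ _
  refine ⟨r1, hr10, hr1r, ?_⟩
  have hsub : ball (0 : F) r1 ⊆ ball 0 r := ball_subset_ball hr1r
  refine hmain (ball 0 r1) w (fderiv ℝ w) isOpen_ball
    (fun z hz => (hd z (hsub hz)).1.hasFDerivAt) ?_ ?_ ?_
  · intro x hx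
    obtain ⟨ρ, hρ, hρ2⟩ := Metric.isOpen_iff.1 isOpen_ball x hx
    refine ⟨ρ, hρ, K, fun z hz z' hz' => ?_⟩
    have hz1 := hρ2 hz
    have hz1' := hρ2 hz'
    refine (hh z (hsub hz1) z' (hsub hz1')).trans (mul_le_mul_of_nonneg_left ?_ hK)
    have h1 : ‖z - z'‖ ≤ 1 := by
      rw [mem_ball, dist_zero_right] at hz1 hz1'
      exact (norm_sub_le _ _).trans (by linarith)
    exact Real.rpow_le_rpow_of_exponent_ge' (norm_nonneg _) h1 (by norm_num) hα.le
  · intro z hz
    exact hδ2 (lt_of_lt_of_le (mem_ball.1 hz) hr1δ)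
  · intro ζ h1 h2 h3
    rw [← hweak ζ (h1.of_le (by norm_cast)) h2 (h3.trans hsub)]
    congr 1
    ext z
    have e1 : ‖gradient w z‖ = ‖fderiv ℝ w z‖ := by
      rw [gradient, LinearIsometryEquiv.norm_map]
    have e2 : inner ℝ (gradient w z) (gradient ζ z) = fderiv ℝ w z (gradient ζ z) := by
      rw [gradient, InnerProductSpace.toDual_symm_apply]
    rw [e1, e2]

end

end Crest.Agent.R246.H2x622
end

-- ▼ part R246/StH2c_622
section

/-!
R246, block H2c (helper622): `Reg549.StH2c`.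
-/

namespace Crest.Agent.R246.H2x622

open MeasureTheory

theorem stH2c (F : Type) [NormedAddCommGroup F] [InnerProductSpace ℝ F] [FiniteDimensional ℝ F]
    [MeasurableSpace F] [BorelSpace F] : Reg549.StH2c F :=
  fun r K α w h1 h2 h3 h4 h5 h6 h7 h8 => smooth_of_weak_mse r K α w h1 h2 h3 h4 h5 h6 h7 h8

end Crest.Agent.R246.H2x622
end

-- ▼ part R246/SM7_436
section

/-!
# `V(φ) ≥ μ(M')` for smooth minimal hypercones (helper436)
-/

set_option autoImplicit false
set_option linter.unusedSectionVars false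
set_option linter.unusedSimpArgs false
noncomputable section
open MeasureTheory Set Filter Topology Module
open scoped RealInnerProductSpace ContDiff

namespace Crest.Agent.R246.SM436

open Crest.Agent.R246.H990

variable {E : Type*} [NormedAddCommGroup E] [InnerProductSpace ℝ E] [FiniteDimensional ℝ E]
  [MeasurableSpace E] [BorelSpace E]

/-- clamp to `[0,1]` -/
def cl (t : ℝ) : ℝ := max 0 (min 1 t)

lemma cl_nonneg (t : ℝ) : 0 ≤ cl t := le_max_left _ _

lemma cl_le_one (t : ℝ) : cl t ≤ 1 := max_le zero_le_one (min_le_left _ _)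

lemma cl_lip : LipschitzWith 1 cl := by
  have h1 : LipschitzWith 1 (fun t : ℝ => min 1 t) := by
    simpa using (LipschitzWith.const (1 : ℝ)).min (LipschitzWith.id)
  have h2 := (LipschitzWith.const (0 : ℝ)).max h1
  have h3 : cl = fun x => max 0 (min 1 x) := rfl
  rw [h3]
  simpa using h2

lemma cl_eq_of_mem {t : ℝ} (h0 : 0 ≤ t) (h1 : t ≤ 1) : cl t = t := by
  rw [cl, min_eq_right h1, max_eq_right h0]

/-- the test function -/
def tz (φ : E → ℝ) (a : ℝ) (x : E) : ℝ := cl (φ x / (a * ‖x‖))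

namespace Tube

variable {φ : E → ℝ} {b : ℝ} (hT : Tube φ b)
include hT

lemma tz_test {a : ℝ} (ha : 0 < a) : Test (tz φ a) where
  hom := by
    intro t ht x
    simp only [tz]
    rw [hT.hom t ht.le, norm_smul, Real.norm_eq_abs, abs_of_pos ht]
    congr 1
    rw [show a * (t * ‖x‖) = t * (a * ‖x‖) by ring, mul_div_mul_left _ _ ht.ne']
  nonneg := fun x => cl_nonneg _
  le_one := fun x => cl_le_one _
  lip := by
    refine ⟨Real.toNNReal a⁻¹, ?_⟩
    apply LipschitzOnWith.of_dist_le_mul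
    intro x hx y hy
    rw [mem_sphere_zero_iff_norm] at hx hy
    rw [Real.coe_toNNReal _ (by positivity)]
    simp only [tz, hx, hy, mul_one]
    have h1 := cl_lip.dist_le_mul (φ x / a) (φ y / a)
    rw [NNReal.coe_one, one_mul] at h1
    refine h1.trans ?_
    rw [Real.dist_eq, ← sub_div, abs_div, abs_of_pos ha, div_eq_inv_mul]
    have h2 := lip_abs hT.lip x y
    rw [dist_eq_norm]
    gcongr

/-- derivative of the test function along `∇φ`. -/
lemma fderiv_tz {a : ℝ} (ha : 0 < a) {x : E} (hx : x ∈ TT φ b) (h0 : 0 < φ x)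
    (h1 : φ x < a * ‖x‖) :
    fderiv ℝ (tz φ a) x (gradient φ x) = a⁻¹ * (rr φ x ^ 2 / ‖x‖ ^ 3) := by
  have hx0 := hT.ne_zero hx
  have hn : 0 < ‖x‖ := norm_pos_iff.2 hx0
  have hG := hT.good hx
  have he : tz φ a =ᶠ[𝓝 x] fun y => φ y / (a * ‖y‖) := by
    have c1 : ContinuousAt φ x := hT.lip.continuous.continuousAt
    have e1 : ∀ᶠ y in 𝓝 x, 0 < φ y := c1.eventually (lt_mem_nhds h0)
    have e2 : ∀ᶠ y in 𝓝 x, φ y < a * ‖y‖ := by
      have hc : ContinuousAt (fun y => a * ‖y‖ - φ y) x := by fun_prop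
      have := hc.eventually (lt_mem_nhds (sub_pos.2 h1))
      filter_upwards [this] with y hy
      linarith
    filter_upwards [e1, e2] with y h3 h4
    have h5 : 0 < a * ‖y‖ := h3.trans h4
    exact cl_eq_of_mem (by positivity) ((div_le_one h5).2 h4.le)
  rw [he.fderiv_eq]
  have d1 := hG.hasFDerivAt
  have d2 : HasFDerivAt (fun y : E => ‖y‖) (‖x‖⁻¹ • innerSL ℝ x) x := by
    have h3 : HasFDerivAt (fun y : E => ‖y‖ ^ 2) (2 • innerSL ℝ x) x :=
      (hasStrictFDerivAt_norm_sq x).hasFDerivAt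
    have h4 := h3.sqrt (by positivity)
    have h5 : (fun y : E => Real.sqrt (‖y‖ ^ 2)) = fun y => ‖y‖ := by
      funext y; exact Real.sqrt_sq (norm_nonneg y)
    rw [h5, Real.sqrt_sq hn.le] at h4
    convert h4 using 1
    ext v
    simp only [smul_apply, innerSL_apply_apply, smul_eq_mul, nsmul_eq_mul, Nat.cast_ofNat]
    field_simp
  have d4 : HasFDerivAt (fun y : E => (a * ‖y‖)⁻¹)
      ((-((a * ‖x‖) ^ 2)⁻¹) • (a • (‖x‖⁻¹ • innerSL ℝ x))) x :=
    (hasDerivAt_inv (by positivity : a * ‖x‖ ≠ 0)).comp_hasFDerivAt x (d2.const_mul a)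
  have d3 := d1.mul d4
  have e3 : (fun y => φ y / (a * ‖y‖)) = fun y => φ y * (a * ‖y‖)⁻¹ := by
    funext y; rw [div_eq_mul_inv]
  rw [e3]
  change fderiv ℝ (φ * fun y : E => (a * ‖y‖)⁻¹) x (gradient φ x) = _
  rw [d3.fderiv]
  have h6 := hT.rr_sq x
  have h7 := hT.euler hx
  have h8 := hG.norm_gradient
  have h9 : ⟪x, gradient φ x⟫ = φ x := by rw [real_inner_comm]; exact h7
  simp only [smul_apply, add_apply, innerSL_apply_apply, smul_eq_mul, real_inner_self_eq_norm_sq,
    h8, h9]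
  rw [h6]
  field_simp
  ring

lemma fderiv_tz_of_nonpos {a : ℝ} (ha : 0 < a) {x : E} (h0 : φ x ≤ 0) :
    fderiv ℝ (tz φ a) x = 0 := by
  have h1 : tz φ a x = 0 := by
    simp only [tz, cl]
    have : φ x / (a * ‖x‖) ≤ 0 := div_nonpos_of_nonpos_of_nonneg h0 (by positivity)
    rw [max_eq_left]
    exact (min_le_right _ _).trans this
  have h2 : IsLocalMin (tz φ a) x := Eventually.of_forall fun y => by
    rw [h1]; exact cl_nonneg _
  exact h2.fderiv_eq_zero

lemma fderiv_tz_of_le {a : ℝ} (ha : 0 < a) {x : E} (hx : x ≠ 0) (h0 : a * ‖x‖ ≤ φ x) :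
    fderiv ℝ (tz φ a) x = 0 := by
  have hn : 0 < ‖x‖ := norm_pos_iff.2 hx
  have h1 : tz φ a x = 1 := by
    simp only [tz, cl]
    have : 1 ≤ φ x / (a * ‖x‖) := (one_le_div (by positivity)).2 h0
    rw [min_eq_left this]; simp
  have h2 : IsLocalMax (tz φ a) x := Eventually.of_forall fun y => by
    rw [h1]; exact cl_le_one _
  exact h2.fderiv_eq_zero

end Tube

/-- the profile of `flux`. -/
def chi01 (s : ℝ) : ℝ := if 0 < s ∧ s < 1 then 1 else 0

lemma integral_chi01 : ∫ s, chi01 s = 1 := by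
  have h1 : chi01 = (Ioo (0 : ℝ) 1).indicator (fun _ => (1 : ℝ)) := by
    funext s
    simp only [chi01, indicator, mem_Ioo]
  rw [h1, integral_indicator measurableSet_Ioo]
  simp

namespace Tube

variable {φ : E → ℝ} {b : ℝ} (hT : Tube φ b)
include hT

/-- the angle condition in terms of `ta`. -/
lemma lt_iff_ta {c : ℝ} (hc : 0 < c) {x : E} (hx : x ≠ 0) (h0 : 0 < φ x) :
    φ x < (c / Real.sqrt (1 + c ^ 2)) * ‖x‖ ↔ ta φ x < c := by
  have hr : 0 < rr φ x := hT.rr_pos hx
  have hn : 0 < ‖x‖ := norm_pos_iff.2 hx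
  have hs : 0 < Real.sqrt (1 + c ^ 2) := Real.sqrt_pos.2 (by positivity)
  have hss : Real.sqrt (1 + c ^ 2) ^ 2 = 1 + c ^ 2 := Real.sq_sqrt (by positivity)
  have h1 := hT.rr_sq x
  rw [ta, div_lt_iff₀ hr, div_mul_eq_mul_div, lt_div_iff₀ hs]
  constructor
  · intro h
    have h2 : (φ x * Real.sqrt (1 + c ^ 2)) ^ 2 < (c * ‖x‖) ^ 2 := by
      apply pow_lt_pow_left₀ h (by positivity) (by norm_num)
    have h3 : φ x ^ 2 < (c * rr φ x) ^ 2 := by
      rw [mul_pow, hss] at h2
      nlinarith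
    exact lt_of_pow_lt_pow_left₀ 2 (by positivity) h3
  · intro h
    have h2 : φ x ^ 2 < (c * rr φ x) ^ 2 := pow_lt_pow_left₀ h h0.le (by norm_num)
    have h3 : (φ x * Real.sqrt (1 + c ^ 2)) ^ 2 < (c * ‖x‖) ^ 2 := by
      rw [mul_pow, hss]
      nlinarith
    exact lt_of_pow_lt_pow_left₀ 2 (by positivity) h3

/-- the flux of the test function. -/
lemma flux_tz [Nontrivial E] {c : ℝ} (hc : 0 < c) (hcb : c ≤ b) :
    flux φ (tz φ (c / Real.sqrt (1 + c ^ 2)))
      = (c / Real.sqrt (1 + c ^ 2))⁻¹ * ∫ y in TT φ b, (Real.exp (-rr φ y ^ 2) / rr φ y) *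
        (chi01 (ta φ y / c) * (rr φ y ^ 3 / ‖y‖ ^ 3)) := by
  have hs : 0 < Real.sqrt (1 + c ^ 2) := Real.sqrt_pos.2 (by positivity)
  have ha : 0 < c / Real.sqrt (1 + c ^ 2) := by positivity
  rw [flux, ← integral_indicator hT.measurableSet_TT, ← integral_const_mul]
  refine integral_congr_ae ?_
  have h0 : ∀ᵐ x ∂(volume : Measure E), x ≠ 0 := by
    rw [ae_iff]
    simp
  filter_upwards [h0] with x hx
  have hr : 0 < rr φ x := hT.rr_pos hx
  have hn : 0 < ‖x‖ := norm_pos_iff.2 hx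
  have h1 := hT.rr_sq x
  rw [← h1]
  rcases le_or_gt (φ x) 0 with h2 | h2
  · rw [hT.fderiv_tz_of_nonpos ha h2]
    have h3 : chi01 (ta φ x / c) = 0 := by
      rw [chi01, if_neg]
      rintro ⟨h4, -⟩
      have : ta φ x ≤ 0 := div_nonpos_of_nonpos_of_nonneg h2 hr.le
      have : ta φ x / c ≤ 0 := div_nonpos_of_nonpos_of_nonneg this hc.le
      linarith
    simp only [indicator]
    split_ifs <;> simp [h3]
  · rcases lt_or_ge (φ x) (c / Real.sqrt (1 + c ^ 2) * ‖x‖) with h3 | h3
    · have h4 : ta φ x < c := (hT.lt_iff_ta hc hx h2).1 h3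
      have h5 : 0 < ta φ x := div_pos h2 hr
      have hxT : x ∈ TT φ b := by
        refine ⟨hr, ?_⟩
        rw [abs_of_pos h2]
        have : φ x < c * rr φ x := by
          rw [ta, div_lt_iff₀ hr] at h4; exact h4
        nlinarith
      rw [hT.fderiv_tz ha hxT h2 h3, indicator_of_mem hxT]
      have h6 : chi01 (ta φ x / c) = 1 := by
        rw [chi01, if_pos ⟨by positivity, (div_lt_one hc).2 h4⟩]
      rw [h6]
      field_simp
    · rw [hT.fderiv_tz_of_le ha hx h3]
      have h4 : chi01 (ta φ x / c) = 0 := by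
        rw [chi01, if_neg]
        rintro ⟨-, h5⟩
        have h6 : ta φ x < c := (div_lt_one hc).1 h5
        have := (hT.lt_iff_ta hc hx h2).2 h6
        linarith
      simp only [indicator]
      split_ifs <;> simp [h4]

/-- the radial constant. -/
lemma kap_cV [Nontrivial E] (hn : 2 ≤ finrank ℝ E) :
    ∫ ρ, Real.exp (-ρ ^ 2) / ρ ∂(kap (finrank ℝ E)) = cV E := by
  have hm : Measurable (fun ρ : ℝ => ENNReal.ofReal (ρ ^ (finrank ℝ E - 1))) := by fun_prop
  rw [kap, integral_withDensity_eq_integral_toReal_smul hm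
    (Eventually.of_forall fun _ => ENNReal.ofReal_lt_top), cV]
  refine setIntegral_congr_fun measurableSet_Ioi fun ρ hρ => ?_
  have hρ' : 0 < ρ := hρ
  simp only [smul_eq_mul]
  rw [ENNReal.toReal_ofReal (by positivity)]
  have : finrank ℝ E - 1 = (finrank ℝ E - 2) + 1 := by omega
  rw [this, pow_succ]
  field_simp

/-- **`V(φ) ≥ μ(M')`**. -/
theorem mu_le_of_VB (hn : 2 ≤ finrank ℝ E) {A : ℝ} (hV : VB φ A) :
    (mu φ b univ).toReal ≤ A := by
  have hNt : Nontrivial E := by
    apply Module.nontrivial_of_finrank_pos (R := ℝ)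
    omega
  have hb := hT.hb
  have hcV : 0 < cV E := by
    obtain ⟨m, hm⟩ : ∃ m, finrank ℝ E = m + 2 := ⟨finrank ℝ E - 2, by omega⟩
    exact Crest.Agent.R246.ThetaK688.cV_pos hm
  set F : E → ℝ := fun y => rr φ y ^ 3 / ‖y‖ ^ 3 with hF
  have hFm : Measurable F := (hT.measurable_rr.pow_const 3).div (measurable_norm.pow_const 3)
  have hFc : ContinuousOn F (TT φ b) := by
    intro y hy
    have hn' : ‖y‖ ≠ 0 := norm_ne_zero_iff.2 (hT.ne_zero hy)
    have h1 : ContinuousAt (fun y => rr φ y ^ 3) y := (hT.continuous_rr.continuousAt).pow 3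
    exact (h1.div (by fun_prop) (by positivity)).continuousWithinAt
  have hF0 : ∀ t : ℝ, 0 < t → ∀ y ∈ TT φ b, F (t • y) = F y := by
    intro t ht y hy
    simp only [hF]
    rw [hT.rr_smul y ht.le, norm_smul, Real.norm_eq_abs, abs_of_pos ht, mul_pow, mul_pow,
      mul_div_mul_left _ _ (by positivity)]
  have hgm : Measurable (fun ρ : ℝ => Real.exp (-ρ ^ 2) / ρ) := by fun_prop
  have hχm : Measurable chi01 := by
    apply Measurable.ite _ measurable_const measurable_const
    exact measurableSet_Ioo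
  have hlim := hT.tube_limit hFm hFc hF0 hgm hχm (M := 1) (fun s => by
    simp only [chi01]; split_ifs <;> simp) (fun s hs => by
    rw [chi01, if_neg]
    rintro ⟨h1, h2⟩
    rw [abs_of_pos h1] at hs
    linarith)
  have hF1 : ∫ p, F p ∂(mu φ b) = (mu φ b univ).toReal := by
    have : ∫ p, F p ∂(mu φ b) = ∫ p, (1 : ℝ) ∂(mu φ b) := by
      refine integral_congr_ae ?_
      filter_upwards [hT.ae_mem_Lk] with p hp
      simp only [hF]
      rw [hT.rr_Lk hp, hp.1]
      norm_num
    rw [this]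
    simp [Measure.real]
  rw [kap_cV hT hn, integral_chi01, one_mul, hF1] at hlim
  have hsq : Tendsto (fun c : ℝ => Real.sqrt (1 + c ^ 2)) (𝓝[>] 0) (𝓝 1) := by
    have hc : Continuous fun c : ℝ => Real.sqrt (1 + c ^ 2) := by fun_prop
    have := hc.tendsto 0
    simp only [ne_eq, OfNat.ofNat_ne_zero, not_false_eq_true, zero_pow, add_zero,
      Real.sqrt_one] at this
    exact this.mono_left nhdsWithin_le_nhds
  have hlim2 := hsq.mul hlim
  rw [one_mul] at hlim2
  have hle : cV E * (mu φ b univ).toReal ≤ A * cV E := by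
    refine le_of_tendsto hlim2 ?_
    filter_upwards [Ioc_mem_nhdsGT hb] with c hc
    have hs : 0 < Real.sqrt (1 + c ^ 2) := Real.sqrt_pos.2 (by positivity)
    have hc0 : 0 < c := hc.1
    have h1 := hV _ (hT.tz_test (a := c / Real.sqrt (1 + c ^ 2)) (by positivity))
    rw [hT.flux_tz hc.1 hc.2] at h1
    refine le_trans (le_of_eq ?_) h1
    rw [← mul_assoc, inv_div, div_eq_mul_inv]
  rw [mul_comm] at hle
  exact le_of_mul_le_mul_right hle hcV

end Tube


end Crest.Agent.R246.SM436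
end
end

-- ▼ part R246/VbMu_196
section

/-!
# Row 246: `VB φ (μ(M'))` for a smooth minimal cone of class D (helper196)
-/

set_option autoImplicit false
set_option linter.unusedSectionVars false
set_option linter.unusedSimpArgs false
noncomputable section
open MeasureTheory Set Filter Topology Module
open scoped RealInnerProductSpace ContDiff

namespace Crest.Agent.R246.VbMu196

open Crest.Agent.R246.H990 Crest.Agent.R246.SM436

variable {E : Type*} [NormedAddCommGroup E] [InnerProductSpace ℝ E] [FiniteDimensional ℝ E]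
  [MeasurableSpace E] [BorelSpace E]

variable {φ : E → ℝ} {b : ℝ}

/-- the zero set is null. -/
lemma ae_ne_zero [Nontrivial E] (hT : Tube φ b) : ∀ᵐ x : E, φ x ≠ 0 := by
  have hφm : Measurable φ := hT.lip.continuous.measurable
  have hms : MeasurableSet {x : E | φ x = 0} := hφm (measurableSet_singleton 0)
  have h1 : volume ({x : E | φ x = 0} ∩ TT φ b) = 0 := by
    have hG : Measurable ({x : E | φ x = 0}.indicator (fun _ => (1 : ENNReal))) :=
      measurable_const.indicator hms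
    have h2 := hT.lintegral_tube hG
    have h3 : ∫⁻ y in TT φ b, {x : E | φ x = 0}.indicator (fun _ => (1 : ENNReal)) y
        = volume ({x : E | φ x = 0} ∩ TT φ b) := by
      rw [lintegral_indicator_const hms, one_mul, Measure.restrict_apply hms]
    rw [← h3, h2]
    refine (lintegral_congr_ae (g := fun _ => 0) ?_).trans (lintegral_zero)
    filter_upwards [hT.ae_mem_Lk] with p hp
    refine (setLIntegral_congr_fun (g := fun _ => 0) measurableSet_Ioi fun ρ hρ => ?_).trans
      (by simp)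
    have hρ' : 0 < ρ := hρ
    have h4 : ∫⁻ τ : ℝ in Ioo (-b) b, ENNReal.ofReal |jt φ p τ| *
        {x : E | φ x = 0}.indicator (fun _ => (1 : ENNReal)) (ρ • (p + τ • gradient φ p)) = 0 := by
      rw [lintegral_eq_zero_iff' ?_]
      · have h5 : ∀ᵐ τ : ℝ ∂(volume.restrict (Ioo (-b) b)), τ ≠ 0 ∧ τ ∈ Ioo (-b) b := by
          have h6 : ∀ᵐ τ : ℝ ∂(volume.restrict (Ioo (-b) b)), τ ≠ 0 :=
            ae_restrict_of_ae (by simp [ae_iff])
          filter_upwards [h6, ae_restrict_mem measurableSet_Ioo] with τ h7 h8 using ⟨h7, h8⟩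
        filter_upwards [h5] with τ hτ
        have h6 : |τ| < b := _root_.abs_lt.2 hτ.2
        obtain ⟨g1, g2, g3, g4⟩ := hT.seg' hp.1 hp.2 hρ' h6
        rw [indicator_of_notMem, mul_zero]
        · rfl
        · intro h7
          have h8 : φ (ρ • (p + τ • gradient φ p)) = 0 := h7
          have h9 : ta φ (ρ • (p + τ • gradient φ p)) = 0 := by
            rw [ta, h8, zero_div]
          rw [hT.ta_smul _ hρ', (hT.seg_one hp h6).2.2.2] at h9
          exact hτ.1 h9
      · have hjt := measurable_jt φ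
        have e1 : Measurable fun τ : ℝ => jt φ p τ := hjt.comp (measurable_const.prodMk measurable_id)
        have e2 : Measurable fun τ : ℝ => ρ • (p + τ • gradient φ p) := by fun_prop
        exact ((ENNReal.measurable_ofReal.comp (continuous_abs.measurable.comp e1)).mul
          (hG.comp e2)).aemeasurable
    show ENNReal.ofReal (ρ ^ (finrank ℝ E - 1)) * _ = 0
    rw [h4, mul_zero]
  have h2 : volume ({0} : Set E) = 0 := measure_singleton 0
  rw [ae_iff]
  refine measure_mono_null (t := ({x : E | φ x = 0} ∩ TT φ b) ∪ {0}) ?_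
    (measure_union_null h1 h2)
  intro x hx
  have hx0 : φ x = 0 := not_not.1 hx
  by_cases h : x = 0
  · right; exact h
  · left; exact ⟨hx0, hT.mem_TT_of_ZZ ⟨h, hx0⟩⟩

/-- radial profile -/
def gi1 (ρ : ℝ) : ℝ := (Iio (1 : ℝ)).indicator (fun _ => (1 : ℝ)) ρ

lemma gi1_int {n : ℕ} (hn : 0 < n) : ∫ ρ, gi1 ρ ∂(kap n) = (n : ℝ)⁻¹ := by
  have h : gi1 = (Iio (1 : ℝ)).indicator (fun _ => (1 : ℝ)) := rfl
  rw [h, integral_indicator_const _ measurableSet_Iio, Measure.real, kap_Iio hn, max_eq_left zero_le_one,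
    one_pow, ENNReal.toReal_ofReal (by positivity)]
  simp

/-- the radius `a(δ) = δ / √(1-δ²)` -/
def ad (δ : ℝ) : ℝ := δ / Real.sqrt (1 - δ ^ 2)

lemma tendsto_ad_div : Tendsto (fun δ : ℝ => (Real.sqrt (1 - δ ^ 2))⁻¹) (𝓝[>] 0) (𝓝 1) := by
  have h1 : ContinuousAt (fun δ : ℝ => (Real.sqrt (1 - δ ^ 2))⁻¹) 0 := by
    refine ContinuousAt.inv₀ (by fun_prop) (by simp)
  have h2 := h1.tendsto
  simp only [ne_eq, OfNat.ofNat_ne_zero, not_false_eq_true, zero_pow, sub_zero, Real.sqrt_one,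
    inv_one] at h2
  exact h2.mono_left nhdsWithin_le_nhds

lemma tendsto_ad : Tendsto ad (𝓝[>] 0) (𝓝[>] 0) := by
  refine tendsto_nhdsWithin_iff.2 ⟨?_, ?_⟩
  · have h1 : Tendsto (fun δ : ℝ => δ) (𝓝[>] 0) (𝓝 0) := tendsto_id.mono_left nhdsWithin_le_nhds
    have h2 := h1.mul tendsto_ad_div
    rw [zero_mul] at h2
    exact h2
  · have h1 : ∀ᶠ δ : ℝ in 𝓝[>] 0, δ ∈ Ioo (0 : ℝ) 1 := Ioo_mem_nhdsGT one_pos
    filter_upwards [h1] with δ hδ
    have : 0 < 1 - δ ^ 2 := by nlinarith [hδ.1, hδ.2]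
    exact div_pos hδ.1 (Real.sqrt_pos.2 this)

/-- the angle condition. -/
lemma lt_iff_ad (hT : Tube φ b) {δ : ℝ} (h0 : 0 < δ) (h1 : δ < 1) {x : E} (hx : x ≠ 0) :
    |φ x| < δ * ‖x‖ ↔ |ta φ x| < ad δ := by
  have hr : 0 < rr φ x := hT.rr_pos hx
  have hn : 0 < ‖x‖ := norm_pos_iff.2 hx
  have h2 : 0 < 1 - δ ^ 2 := by nlinarith
  have hs : 0 < Real.sqrt (1 - δ ^ 2) := Real.sqrt_pos.2 h2
  have hss : Real.sqrt (1 - δ ^ 2) ^ 2 = 1 - δ ^ 2 := Real.sq_sqrt h2.le
  have h3 := hT.rr_sq x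
  rw [ta, ad, abs_div, abs_of_pos hr, div_lt_div_iff₀ hr hs]
  have h4 : |φ x| ^ 2 = φ x ^ 2 := sq_abs _
  constructor
  · intro h
    have h5 : |φ x| ^ 2 < (δ * ‖x‖) ^ 2 := pow_lt_pow_left₀ h (abs_nonneg _) (by norm_num)
    have h6 : (|φ x| * Real.sqrt (1 - δ ^ 2)) ^ 2 < (δ * rr φ x) ^ 2 := by
      rw [mul_pow, hss, mul_pow, h3]
      rw [mul_pow] at h5
      nlinarith
    exact lt_of_pow_lt_pow_left₀ 2 (by positivity) h6
  · intro h
    have h5 : (|φ x| * Real.sqrt (1 - δ ^ 2)) ^ 2 < (δ * rr φ x) ^ 2 :=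
      pow_lt_pow_left₀ h (by positivity) (by norm_num)
    have h6 : |φ x| ^ 2 < (δ * ‖x‖) ^ 2 := by
      rw [mul_pow, hss, mul_pow, h3] at h5
      rw [mul_pow]
      nlinarith
    exact lt_of_pow_lt_pow_left₀ 2 (by positivity) h6

/-- **Tube bound.** -/
theorem tube_bound [Nontrivial E] (hT : Tube φ b) (ζ : E → ℝ) (hζ : Test ζ) (ε : ℝ) (hε : 0 < ε) :
    ∀ᶠ δ in 𝓝[>] (0 : ℝ),
      (finrank ℝ E : ℝ) * ∫ x in {x : E | ‖x‖ < 1 ∧ 0 < |φ x| ∧ |φ x| < δ * ‖x‖},
        (if 0 < φ x then 1 - ζ x else ζ x) ≤ δ * ((mu φ b).real univ + ε) := by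
  have hn : 0 < finrank ℝ E := finrank_pos
  have hn' : (0 : ℝ) < (finrank ℝ E : ℝ) := by exact_mod_cast hn
  have hfin := hT.isFiniteMeasure_mu
  have hφm : Measurable φ := hT.lip.continuous.measurable
  have hζm : Measurable ζ := JE364.Test.measurable hζ
  have hζc := JE364.Test.continuousOn hζ
  have hζc' : ContinuousOn ζ (TT φ b) := hζc.mono fun y hy => by
    simpa using hT.ne_zero hy
  have hgm : Measurable gi1 := measurable_const.indicator measurableSet_Iio
  have hχm : Measurable chi01 := Measurable.ite measurableSet_Ioo measurable_const measurable_const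
  have hχb : ∀ s, |chi01 s| ≤ 1 := fun s => by simp only [chi01]; split_ifs <;> simp
  have hχ0 : ∀ s, 1 < |s| → chi01 s = 0 := fun s hs => by
    rw [chi01, if_neg]
    rintro ⟨h1, h2⟩
    rw [abs_of_pos h1] at hs
    linarith
  have lim1 := hT.tube_limit (F := fun y => 1 - ζ y) (measurable_const.sub hζm)
    (continuousOn_const.sub hζc') (fun t ht y _ => by simp only [hζ.hom t ht]) hgm hχm hχb hχ0
  have lim2 := hT.tube_limit (F := ζ) hζm hζc' (fun t ht y _ => hζ.hom t ht y) hgm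
    (hχm.comp measurable_neg) (fun s => hχb (-s)) (fun s hs => hχ0 (-s) (by rwa [abs_neg]))
  have hc2 : ∫ s, (chi01 ∘ fun s : ℝ => -s) s = 1 := by
    have := integral_neg_eq_self (fun s => chi01 s) (volume : Measure ℝ)
    simp only [Function.comp]
    rw [this, integral_chi01]
  rw [integral_chi01, one_mul, gi1_int hn] at lim1
  rw [hc2, one_mul, gi1_int hn] at lim2
  have hint : Integrable ζ (mu φ b) := by
    refine Integrable.mono' (integrable_const 1) hζm.aestronglyMeasurable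
      (Eventually.of_forall fun x => ?_)
    rw [Real.norm_eq_abs, abs_of_nonneg (hζ.nonneg x)]
    exact hζ.le_one x
  have hsum := (lim1.add lim2).const_mul (finrank ℝ E : ℝ)
  have hval : (finrank ℝ E : ℝ) * ((finrank ℝ E : ℝ)⁻¹ * ∫ p, (1 - ζ p) ∂(mu φ b) +
      (finrank ℝ E : ℝ)⁻¹ * ∫ p, ζ p ∂(mu φ b)) = (mu φ b).real univ := by
    rw [integral_sub (integrable_const 1) hint, integral_const, smul_eq_mul, mul_one]
    field_simp
    ring
  rw [hval] at hsum
  have hsum2 := hsum.comp tendsto_ad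
  have hprod := tendsto_ad_div.mul hsum2
  rw [one_mul] at hprod
  have hev := hprod.eventually (gt_mem_nhds (show (mu φ b).real univ <
    (mu φ b).real univ + ε by linarith))
  have hb := hT.hb
  have hadb : ∀ᶠ δ : ℝ in 𝓝[>] 0, ad δ ∈ Ioo (0 : ℝ) (min b 1) :=
    tendsto_ad.eventually (Ioo_mem_nhdsGT (lt_min hb one_pos))
  filter_upwards [hev, hadb, Ioo_mem_nhdsGT (show (0 : ℝ) < 1 from one_pos)] with δ h1 h2 h3
  set a := ad δ with ha
  have ha0 : 0 < a := h2.1
  have hab : a < b := lt_of_lt_of_le h2.2 (min_le_left _ _)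
  have ha1 : a < 1 := lt_of_lt_of_le h2.2 (min_le_right _ _)
  set S : Set E := {x : E | ‖x‖ < 1 ∧ 0 < |φ x| ∧ |φ x| < δ * ‖x‖} with hS
  have hSm : MeasurableSet S := by
    have hab' : Measurable fun x => |φ x| := hT.lip.continuous.abs.measurable
    exact (measurableSet_lt measurable_norm measurable_const).inter
      ((measurableSet_lt measurable_const hab').inter
        (measurableSet_lt hab' (measurable_const.mul measurable_norm)))
  -- the comparison function
  set f1 : E → ℝ := fun y => gi1 (rr φ y) * (chi01 (ta φ y / a) * (1 - ζ y)) with hf1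
  set f2 : E → ℝ := fun y => gi1 (rr φ y) * (chi01 (-(ta φ y / a)) * ζ y) with hf2
  have hgi0 : ∀ ρ, 0 ≤ gi1 ρ := fun ρ => indicator_nonneg (fun _ _ => zero_le_one) _
  have hgi1 : ∀ ρ, gi1 ρ ≤ 1 := fun ρ => by
    unfold gi1; by_cases h : ρ ∈ Iio (1 : ℝ)
    · rw [indicator_of_mem h]
    · rw [indicator_of_notMem h]; exact zero_le_one
  have hch0 : ∀ s, 0 ≤ chi01 s := fun s => by simp only [chi01]; split_ifs <;> simp
  have hch1 : ∀ s, chi01 s ≤ 1 := fun s => by simp only [chi01]; split_ifs <;> simp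
  have hf10 : ∀ y, 0 ≤ f1 y := fun y =>
    mul_nonneg (hgi0 _) (mul_nonneg (hch0 _) (sub_nonneg.2 (hζ.le_one y)))
  have hf20 : ∀ y, 0 ≤ f2 y := fun y => mul_nonneg (hgi0 _) (mul_nonneg (hch0 _) (hζ.nonneg y))
  have hf1m : Measurable f1 := (hgm.comp hT.measurable_rr).mul
    ((hχm.comp (hT.measurable_ta.div_const a)).mul (measurable_const.sub hζm))
  have hf2m : Measurable f2 := (hgm.comp hT.measurable_rr).mul
    ((hχm.comp (hT.measurable_ta.div_const a).neg).mul hζm)
  -- bounded support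
  have hsupp : ∀ y ∈ TT φ b, |ta φ y / a| < 1 → rr φ y < 1 → ‖y‖ < 2 := by
    intro y hy h4 h5
    have h6 : |ta φ y| < a := by rwa [abs_div, abs_of_pos ha0, div_lt_one ha0] at h4
    have h7 := hT.rr_sq y
    have h8 := hT.ta_mul_rr hy
    have h9 : φ y ^ 2 = ta φ y ^ 2 * rr φ y ^ 2 := by rw [← h8]; ring
    have h10 : ta φ y ^ 2 < 1 := by
      rw [← sq_abs]
      nlinarith [abs_nonneg (ta φ y)]
    have h11 : rr φ y ^ 2 < 1 := by
      have := hy.1
      nlinarith
    have h12 : ‖y‖ ^ 2 < 4 := by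
      have h13 : ta φ y ^ 2 * rr φ y ^ 2 ≤ 1 := by
        nlinarith [sq_nonneg (ta φ y), sq_nonneg (rr φ y)]
      nlinarith
    nlinarith [norm_nonneg y]
  have hint12 : ∀ f : E → ℝ, Measurable f → (∀ y, 0 ≤ f y) →
      (∀ y, f y ≤ gi1 (rr φ y) * (chi01 (ta φ y / a) + chi01 (-(ta φ y / a)))) →
      IntegrableOn f (TT φ b) := by
    intro f hfm hf0 hfb
    have hball : IntegrableOn (fun _ : E => (2 : ℝ)) (Metric.ball 0 2) :=
      integrableOn_const (measure_ball_lt_top).ne
    have h4 : Integrable ((Metric.ball (0 : E) 2).indicator fun _ : E => (2 : ℝ)) :=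
      (integrable_indicator_iff measurableSet_ball).2 hball
    refine Integrable.mono' h4.integrableOn hfm.aestronglyMeasurable ?_
    filter_upwards [ae_restrict_mem hT.measurableSet_TT] with y hy
    rw [Real.norm_eq_abs, abs_of_nonneg (hf0 y)]
    by_cases h5 : y ∈ Metric.ball (0 : E) 2
    · rw [indicator_of_mem h5]
      refine (hfb y).trans ?_
      calc gi1 (rr φ y) * (chi01 (ta φ y / a) + chi01 (-(ta φ y / a))) ≤ 1 * (1 + 1) := by
            gcongr
            · exact add_nonneg (hch0 _) (hch0 _)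
            · exact hgi1 _
            · exact hch1 _
            · exact hch1 _
        _ = 2 := by norm_num
    · rw [indicator_of_notMem h5]
      refine (hfb y).trans ?_
      by_contra hcon
      push Not at hcon
      apply h5
      rw [mem_ball_zero_iff]
      have h6 : 0 < gi1 (rr φ y) := by
        by_contra h7
        have : gi1 (rr φ y) = 0 := le_antisymm (not_lt.1 h7) (hgi0 _)
        rw [this, zero_mul] at hcon
        exact lt_irrefl _ hcon
      have h7 : rr φ y < 1 := by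
        by_contra h8
        rw [gi1, indicator_of_notMem (by simpa using not_lt.1 h8)] at h6
        exact lt_irrefl _ h6
      refine hsupp y hy ?_ h7
      by_contra h8
      rw [not_lt] at h8
      have h9 : chi01 (ta φ y / a) = 0 := by
        rw [chi01, if_neg]
        rintro ⟨h10, h11⟩
        rw [abs_of_pos h10] at h8
        linarith
      have h10 : chi01 (-(ta φ y / a)) = 0 := by
        rw [chi01, if_neg]
        rintro ⟨h11, h12⟩
        rw [← abs_neg, abs_of_pos h11] at h8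
        linarith
      rw [h9, h10, add_zero, mul_zero] at hcon
      exact lt_irrefl _ hcon
  have i1 : IntegrableOn f1 (TT φ b) := hint12 f1 hf1m hf10 fun y => by
    simp only [hf1]
    refine mul_le_mul_of_nonneg_left ?_ (hgi0 _)
    have : chi01 (ta φ y / a) * (1 - ζ y) ≤ chi01 (ta φ y / a) * 1 :=
      mul_le_mul_of_nonneg_left (by linarith [hζ.nonneg y]) (hch0 _)
    linarith [hch0 (-(ta φ y / a))]
  have i2 : IntegrableOn f2 (TT φ b) := hint12 f2 hf2m hf20 fun y => by
    simp only [hf2]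
    refine mul_le_mul_of_nonneg_left ?_ (hgi0 _)
    have : chi01 (-(ta φ y / a)) * ζ y ≤ chi01 (-(ta φ y / a)) * 1 :=
      mul_le_mul_of_nonneg_left (hζ.le_one y) (hch0 _)
    linarith [hch0 (ta φ y / a)]
  -- comparison
  have hST : S ⊆ TT φ b := by
    rintro x ⟨hx1, hx2, hx3⟩
    have hx0 : x ≠ 0 := by
      rintro rfl
      rw [hT.phi_zero, abs_zero] at hx2
      exact lt_irrefl _ hx2
    have h4 : |ta φ x| < a := (lt_iff_ad hT h3.1 h3.2 hx0).1 hx3
    have hr := hT.rr_pos hx0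
    refine ⟨hr, ?_⟩
    rw [ta, abs_div, abs_of_pos hr, div_lt_iff₀ hr] at h4
    nlinarith
  have hcomp : ∫ x in S, (if 0 < φ x then 1 - ζ x else ζ x) ≤
      (∫ y in TT φ b, f1 y) + ∫ y in TT φ b, f2 y := by
    rw [← integral_add i1 i2]
    have h5 : ∫ x in S, (if 0 < φ x then 1 - ζ x else ζ x) = ∫ x in S, (f1 x + f2 x) := by
      refine setIntegral_congr_fun hSm fun x hx => ?_
      obtain ⟨hx1, hx2, hx3⟩ := hx
      have hx0 : x ≠ 0 := by
        rintro rfl
        rw [hT.phi_zero, abs_zero] at hx2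
        exact lt_irrefl _ hx2
      have h4 : |ta φ x| < a := (lt_iff_ad hT h3.1 h3.2 hx0).1 hx3
      have hr := hT.rr_pos hx0
      have hr1 : rr φ x < 1 := lt_of_le_of_lt (hT.rr_le x) hx1
      have hg : gi1 (rr φ x) = 1 := by
        rw [gi1, indicator_of_mem]
        exact hr1
      simp only [hf1, hf2]
      rw [hg, one_mul, one_mul]
      rcases lt_or_ge 0 (φ x) with h6 | h6
      · rw [if_pos h6]
        have h7 : 0 < ta φ x := div_pos h6 hr
        rw [abs_of_pos h7] at h4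
        have e1 : chi01 (ta φ x / a) = 1 := by
          rw [chi01, if_pos ⟨by positivity, (div_lt_one ha0).2 h4⟩]
        have e2 : chi01 (-(ta φ x / a)) = 0 := by
          rw [chi01, if_neg]
          rintro ⟨h8, -⟩
          have : 0 < ta φ x / a := by positivity
          linarith
        rw [e1, e2, one_mul, zero_mul, add_zero]
      · rw [if_neg (not_lt.2 h6)]
        have h6' : φ x < 0 := by
          rcases h6.lt_or_eq with h | h
          · exact h
          · rw [h, abs_zero] at hx2; exact (lt_irrefl _ hx2).elim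
        have h7 : ta φ x < 0 := div_neg_of_neg_of_pos h6' hr
        rw [abs_of_neg h7] at h4
        have e0 : ta φ x / a < 0 := div_neg_of_neg_of_pos h7 ha0
        have e1 : chi01 (ta φ x / a) = 0 := by
          rw [chi01, if_neg]
          rintro ⟨h8, -⟩
          linarith
        have e2 : chi01 (-(ta φ x / a)) = 1 := by
          have hh : 0 < -(ta φ x / a) ∧ -(ta φ x / a) < 1 := by
            refine ⟨by linarith, ?_⟩
            rw [← neg_div, div_lt_one ha0]
            exact h4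
          rw [chi01, if_pos hh]
        rw [e1, e2, one_mul, zero_mul, zero_add]
    rw [h5]
    refine setIntegral_mono_set (i1.add i2) ?_ hST.eventuallyLE
    exact Eventually.of_forall fun x => add_nonneg (hf10 x) (hf20 x)
  have h6 : (Real.sqrt (1 - δ ^ 2))⁻¹ * ((finrank ℝ E : ℝ) * (a⁻¹ * (∫ y in TT φ b, f1 y) +
      a⁻¹ * ∫ y in TT φ b, f2 y)) < (mu φ b).real univ + ε := h1
  have h7 : a = δ * (Real.sqrt (1 - δ ^ 2))⁻¹ := rfl
  have h8 : δ⁻¹ = (Real.sqrt (1 - δ ^ 2))⁻¹ * a⁻¹ := by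
    rw [h7]
    have := h3.1.ne'
    have h9 : Real.sqrt (1 - δ ^ 2) ≠ 0 := by
      have : 0 < 1 - δ ^ 2 := by nlinarith [h3.1, h3.2]
      exact (Real.sqrt_pos.2 this).ne'
    field_simp
  have h9 : δ⁻¹ * ((finrank ℝ E : ℝ) * ((∫ y in TT φ b, f1 y) + ∫ y in TT φ b, f2 y)) <
      (mu φ b).real univ + ε := by
    rw [h8]
    refine lt_of_eq_of_lt ?_ h6
    ring
  rw [inv_mul_lt_iff₀ h3.1] at h9
  exact (mul_le_mul_of_nonneg_left hcomp hn'.le).trans h9.le

open Crest.Agent.R246.G873 in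
/-- **`V(φ) ≤ μ(M')`.** -/
theorem vb_mu (hn : 2 ≤ finrank ℝ E) (hN : NullCone φ) (hD : ClassD φ) (hT : Tube φ b) :
    VB φ ((mu φ b).real univ) := by
  have hNt : Nontrivial E := by
    apply Module.nontrivial_of_finrank_pos (R := ℝ)
    omega
  refine JE364.VB_of_tube hn hN ?_ ?_ (ae_ne_zero hT) (fun ζ hζ ε hε => tube_bound hT ζ hζ ε hε)
  · intro ψ h1 h2 h3 h4
    exact hD.sup ψ h1 h2 h4 h3
  · intro ψ h1 h2 h3 h4
    have h5 := hD.sub ψ h1 h2 h4 (h3.trans fun x hx => by
      have : 0 < -φ x := hx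
      show φ x < 0
      linarith)
    have h6 : ∀ x, ⟪gradient (fun x => -φ x) x, gradient ψ x⟫ = -gi φ ψ x := by
      intro x
      have : gradient (fun x => -φ x) x = -gradient φ x := by
        rw [gradient, gradient]
        have h7 : fderiv ℝ (fun x => -φ x) x = -fderiv ℝ φ x := fderiv_neg
        rw [h7, map_neg]
      rw [this, inner_neg_left]
      rfl
    simp only [h6]
    rw [integral_neg]
    linarith

end Crest.Agent.R246.VbMu196
end
end

-- ▼ part R246/GlueEnd_196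

/-!
# Row 246: glue of the end block onto `Skel2` (helper196) : `StSM`
-/

set_option autoImplicit false
noncomputable section
open MeasureTheory Set Filter Topology Module
open scoped RealInnerProductSpace

namespace Crest.Agent.R246.GlueEnd196

open Crest.Agent.R246.H990 Crest.Agent.R246.SM436 Crest.Agent.R246.Skel656
open Crest.Agent.R246.G873 (ClassD)

/-- a null cone of class `D` has a unit zero. -/
theorem exists_zero {m : ℕ} {φ : E m → ℝ} (hN : NullCone φ) (hD : ClassD φ) :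
    ∃ p : E m, ‖p‖ = 1 ∧ φ p = 0 := by
  have hNt : Nontrivial (E m) := by
    apply Module.nontrivial_of_finrank_pos (R := ℝ)
    simp [E]
  obtain ⟨c, hc0, hc1, hc⟩ := hN.bd
  obtain ⟨x, hx⟩ := exists_ne (0 : E m)
  by_contra hcon
  push Not at hcon
  have hz : {y : E m | φ y = 0} ⊆ {0} := by
    intro y hy
    by_contra hy0
    have hy0' : y ≠ 0 := hy0
    have hn : 0 < ‖y‖ := norm_pos_iff.2 hy0'
    refine hcon (‖y‖⁻¹ • y) ?_ ?_
    · rw [norm_smul, norm_inv, norm_norm, inv_mul_cancel₀ hn.ne']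
    · rw [hN.hom _ (inv_pos.2 hn).le]
      have : φ y = 0 := hy
      rw [this, mul_zero]
  have h0 : φ (0 : E m) = 0 := by
    have := hN.hom 0 le_rfl (0 : E m)
    simpa using this
  have hz' : {y : E m | φ y = 0} = {0} := Subset.antisymm hz (by
    rintro y rfl
    exact h0)
  have h1 := Skel2.signedDist hD x
  rw [hz', Metric.infDist_singleton, dist_zero_right] at h1
  have h2 := hc x
  rw [h1] at h2
  have hn : 0 < ‖x‖ := norm_pos_iff.2 hx
  nlinarith

/-- **SM** -/
theorem stSM {m : ℕ} (hm : 1 ≤ m) : Skel2.StSM m := by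
  intro φ b hS hD hT
  have hf : finrank ℝ (E m) = m + 2 := by simp [E]
  have hA := areaMeas hS hT hm hf
  have hfin := hA.fin
  refine ⟨?_, hA, VbMu196.vb_mu (by omega) hS.nc hD hT, fun A hV =>
    hT.mu_le_of_VB (by omega) hV⟩
  obtain ⟨p, hp, hp0⟩ := exists_zero hS.nc hD
  intro h0
  have := hA.pos p hp hp0 1 one_pos
  rw [h0] at this
  simp at this

end Crest.Agent.R246.GlueEnd196
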