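import Crest.Agent.R246.Skel2_656
import Crest.Agent.R246.Br3_549
import Crest.Agent.R246.Lim4_538
import Crest.Agent.R246.NC1_718
import Mathlib.Analysis.InnerProductSpace.Spectrum
import Crest.Agent.R246.ThetaK_688
import Mathlib.Analysis.SpecialFunctions.Integrals.Basic
import Mathlib.Analysis.SpecialFunctions.Trigonometric.Arctan
import Crest.Agent.R246.HK2_149
import Crest.Agent.R246.HerschSM_900
import Mathlib.Analysis.InnerProductSpace.Trace
import Mathlib.MeasureTheory.Measure.Lebesgue.VolumeOfBalls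

-- ▼ part R246/GlueReg_549
section

/-!
# R246 (helper549): glue onto `Skel2_656`

`stBr : StMS (E m) (m+1) → StBr m` and `stH1_of : H1X m → StH1 m` (`H1X` = 105's final theorem).
-/

set_option autoImplicit false
set_option linter.unusedSectionVars false
set_option linter.unusedVariables false

noncomputable section
open MeasureTheory Set Filter Topology Metric
open scoped RealInnerProductSpace ContDiff Gradient
open Crest.Agent.R246.G873 Crest.Agent.R246.MS852
open Crest.Agent.R246.H990 (NullCone VB cV)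
open Crest.Agent.R246.ThetaK688 (WW Theta)
open Crest.Agent.R246.Skel656 (E Tm ACsol)
open Crest.Agent.R246.Skel2 (ACLim eDen FlatAt ContAt DensAt StBr StH1)
open Crest.Agent.R246.Br549
open Crest.Agent.R246.Mg295 (Expn)
open Crest.GeometryTopology.SphereImmersion

namespace Crest.Agent.R246.GlueReg549

theorem hw_fun {n : ℕ} :
    (MSP782.hw : EuclideanSpace ℝ (Fin n) → ℝ) = fun x => (‖x‖ ^ 2)⁻¹ := by
  rw [hw_eq]; rfl

/-- 656's limits are my Allen–Cahn data. -/
theorem acData {m : ℕ} (hm : 1 ≤ m) {U : Filter ℕ} {ε : ℕ → ℝ} {R : ℕ → E m → ℝ} {r φ : E m → ℝ}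
    {μ : Measure (E m)} {a : ℝ} (h : ACLim m U ε R r φ μ a) : ACData U φ μ ε R where
  sol k := by
    rw [hw_fun]
    exact Lim538.acsol_of_ac (by omega) (h.sol k).sm (h.sol k).pos (h.sol k).eq
  hom k t ht x := (h.sol k).sm.hom t x ht
  eps := h.eps
  conv := by
    intro δ hδ
    have h1 := Metric.tendstoUniformlyOn_iff.1 h.conv δ hδ
    filter_upwards [h1] with k hk x hx
    have hx0 : x ≠ 0 := by
      intro h0
      rw [h0, norm_zero] at hx
      norm_num at hx
    have h2 := hk x hx0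
    rw [dist_comm, Real.dist_eq] at h2
    have h3 := abs_le.1 (h.rpi x hx0)
    rw [h.phi x, hx, one_mul, Real.arcsin_sin (by linarith) h3.2]
    exact h2.le
  energy := by
    intro f hf hfs _
    refine (h.loc f hf hfs).congr fun k => ?_
    rw [← integral_const_mul]
    refine integral_congr_ae (Eventually.of_forall fun x => ?_)
    simp only [eDen]
    ring

theorem flatAt_smul {m : ℕ} {φ : E m → ℝ} (hom : ∀ t : ℝ, 0 ≤ t → ∀ x, φ (t • x) = t * φ x)
    {p : E m} {t : ℝ} (ht : 0 < t) (h : FlatAt φ p) : FlatAt φ (t⁻¹ • p) := by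
  intro δ hδ
  obtain ⟨r₀, hr₀, h1⟩ := h δ hδ
  refine ⟨t⁻¹ * r₀, by positivity, fun r hr hrr => ?_⟩
  obtain ⟨e, he, h2⟩ := h1 (t * r) (by positivity) (by
    rw [inv_mul_eq_div, lt_div_iff₀ ht] at hrr; linarith)
  refine ⟨e, he, fun x hx => ?_⟩
  have e1 : t • x - p = t • (x - t⁻¹ • p) := by
    rw [smul_sub, smul_smul, mul_inv_cancel₀ ht.ne', one_smul]
  have h3 := h2 (t • x) (by
    rw [e1, norm_smul, Real.norm_eq_abs, abs_of_pos ht]
    nlinarith)
  rw [e1, hom t ht.le, real_inner_smul_right, ← mul_sub, abs_mul, abs_of_pos ht] at h3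
  have h4 : t * |φ x - ⟪e, x - t⁻¹ • p⟫| ≤ t * (δ * r) := by linarith
  exact le_of_mul_le_mul_left h4 ht

/-- **BRIDGE**, 656's form. -/
theorem stBr {m : ℕ} (hm : 1 ≤ m) (hMS : StMS (E m) (m + 1)) : StBr m := by
  intro U ε R r φ G a hL hO ha2 hdens p hp hp0 hfl κ hκ
  have := hL.neBot
  have := G.fin
  have hfin : Module.finrank ℝ (E m) = (m + 1) + 1 := by simp [E]
  have hd : 1 ≤ m + 1 := by omega
  have D := acData hm hL
  have hHom : Br549.HomM G.μ (m + 1) := by
    intro t ht f hf hfs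
    have := hO.homμ t ht f hf hfs
    rwa [hfin, Nat.add_sub_cancel] at this
  have hA : a * cV (E m) < 2 * Real.pi ^ (((m + 1 : ℕ) : ℝ) / 2) := by
    have h := ThetaK688.mass_lt_two (E := E m) (m := m) (by simp [E]) ha2
    have e : ((Module.finrank ℝ (E m) : ℝ) - 1) / 2 = ((m + 1 : ℕ) : ℝ) / 2 := by
      rw [hfin]; push_cast; ring
    rwa [e] at h
  have hΘ := Thinf_lt_two hHom hd hO.mass hA
  have hmono : ∀ q : E m, q ≠ 0 → φ q = 0 → ∀ s s' : ℝ, 0 < s → s ≤ s' →
      Dp G.μ q s / s ^ (m + 1) ≤ Dp G.μ q s' / s' ^ (m + 1) := by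
    intro q hq hq1 s s' hs hss
    have := Dp_mono_ratio (hdens q hq hq1).1 hs hss
    rwa [hfin, Nat.add_sub_cancel] at this
  set t : ℝ := ‖p‖ with ht
  have ht0 : 0 < t := norm_pos_iff.2 hp
  set q : E m := t⁻¹ • p with hq
  have hq1 : ‖q‖ = 1 := by rw [hq, norm_smul, norm_inv, norm_norm, inv_mul_cancel₀ ht0.ne']
  have hqz : φ q = 0 := by rw [hq, hO.hom _ (by positivity), hp0, mul_zero]
  have hq0 : q ≠ 0 := by
    intro h; rw [h, norm_zero] at hq1; norm_num at hq1
  obtain ⟨r, hr, -, -, hT⟩ := bridge_unit (n := m + 2) rfl hd hMS D hO.cD.lip hO.hom hq1 hqz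
    (flatAt_smul hO.hom ht0 hfl) ENNReal.toReal_nonneg hΘ
    (fun s hs => Dp_le hd hfin hHom (hdens q hq0 hqz).2 hs) hmono hκ one_pos one_pos
  refine ⟨t * r, by positivity, fun x hx hxp s hs hsr => ?_⟩
  have h1 : φ (t⁻¹ • x) = 0 := by rw [hO.hom _ (by positivity), hx, mul_zero]
  have h2 : ‖t⁻¹ • x - q‖ ≤ r := by
    have e1 : t⁻¹ • x - q = t⁻¹ • (x - p) := by rw [hq, smul_sub]
    rw [e1, norm_smul, norm_inv, Real.norm_eq_abs, abs_of_pos ht0, inv_mul_le_iff₀ ht0]
    exact hxp.le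
  have h3 := hT (t⁻¹ • x) h1 h2 (t⁻¹ * s) (by positivity) (by
    rw [inv_mul_le_iff₀ ht0]; nlinarith)
  have h4 := Dp_scale hHom ht0 (by positivity : 0 < t⁻¹ * s) (t⁻¹ • x)
  rw [smul_smul, mul_inv_cancel₀ ht0.ne', one_smul, ← mul_assoc, mul_inv_cancel₀ ht0.ne',
    one_mul] at h4
  have h5 : Dp G.μ x s ≤ (1 + κ) * cpsi (m + 1) * s ^ (m + 1) := by
    rw [h4]
    calc t ^ (m + 1) * Dp G.μ (t⁻¹ • x) (t⁻¹ * s)
        ≤ t ^ (m + 1) * ((1 + κ) * cpsi (m + 1) * (t⁻¹ * s) ^ (m + 1)) := by gcongr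
      _ = _ := by rw [mul_pow, inv_pow]; field_simp
  exact h5



end Crest.Agent.R246.GlueReg549
end
end

-- ▼ part R246/NC2_718
section

/-!
R246, part I (B), equality block (helper718): Simons' identity in ambient form and `∇A = 0`.
-/

set_option autoImplicit false
set_option linter.unusedSectionVars false
set_option linter.unusedVariables false
set_option linter.unusedSimpArgs false

open MeasureTheory Filter Topology Set
open scoped RealInnerProductSpace ContDiff

noncomputable section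

namespace Crest.Agent.R246.NC718

open Crest.Agent.R246.H990 Crest.Agent.R246.SM436 Crest.Agent.R246.HerschSM900

variable {E : Type*} [NormedAddCommGroup E] [InnerProductSpace ℝ E] [FiniteDimensional ℝ E]
variable {F : Type*} [NormedAddCommGroup F] [NormedSpace ℝ F]

/-- principal frame at a point of `M'` -/
structure Frame (m : ℕ) (φ : E → ℝ) (x : E) (e : Fin m → E) (k : Fin m → ℝ)
    (b : OrthonormalBasis (Fin m ⊕ Fin 2) ℝ E) : Prop where
  bl : ∀ i, b (Sum.inl i) = e i
  b0 : b (Sum.inr 0) = x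
  b1 : b (Sum.inr 1) = gradient φ x
  eig : ∀ i, hs φ x (e i) = k i • e i

lemma exists_frame {m : ℕ} {φ : E → ℝ} (hom : ∀ t : ℝ, 0 ≤ t → ∀ x, φ (t • x) = t * φ x)
    (hfin : Module.finrank ℝ E = m + 2) {x : E} (h : Good φ x) (hx : ‖x‖ = 1) (h0 : φ x = 0) :
    ∃ e k b, Frame m φ x e k b := by
  set N := gradient φ x with hN
  have hNx : ⟪N, x⟫ = 0 := by rw [h.euler hom, h0]
  have hN1 : ‖N‖ = 1 := h.norm_gradient
  have hon2 : Orthonormal ℝ ![x, N] := by
    constructor
    · intro i; fin_cases i <;> simp [hx, hN1]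
    · intro i j hij
      fin_cases i <;> fin_cases j <;> simp at hij ⊢ <;> first | exact hNx | (rw [real_inner_comm]; exact hNx)
  set K : Submodule ℝ E := Submodule.span ℝ (Set.range ![x, N]) with hK
  have hKfin : Module.finrank ℝ K = 2 := by
    have := finrank_span_eq_card hon2.linearIndependent
    simpa using this
  have hTfin : Module.finrank ℝ Kᗮ = m := by
    have := K.finrank_add_finrank_orthogonal
    omega
  have hmem : ∀ v : E, v ∈ Kᗮ ↔ ⟪x, v⟫ = 0 ∧ ⟪N, v⟫ = 0 := by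
    intro v
    constructor
    · intro hv
      rw [Submodule.mem_orthogonal] at hv
      exact ⟨hv x (Submodule.subset_span ⟨0, rfl⟩), hv N (Submodule.subset_span ⟨1, rfl⟩)⟩
    · rintro ⟨h1, h2⟩
      rw [Submodule.mem_orthogonal]
      intro u hu
      induction hu using Submodule.span_induction with
      | mem u hu =>
        obtain ⟨i, rfl⟩ := hu
        fin_cases i
        · exact h1
        · exact h2
      | zero => simp
      | add a b _ _ ha hb => rw [inner_add_left, ha, hb, add_zero]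
      | smul c a _ ha => rw [real_inner_smul_left, ha, mul_zero]
  have hsymm : (hs φ x : E →ₗ[ℝ] E).IsSymmetric := fun v w => h.hs_symm v w
  have hinv : ∀ v ∈ Kᗮ, (hs φ x : E →ₗ[ℝ] E) v ∈ Kᗮ := by
    intro v hv
    rw [hmem] at hv ⊢
    constructor
    · change ⟪x, hs φ x v⟫ = 0
      rw [← h.hs_symm, h.hs_self hom, inner_zero_left]
    · change ⟪N, hs φ x v⟫ = 0
      rw [← h.hs_symm, h.hs_gradient, inner_zero_left]
  have hs2 := hsymm.restrict_invariant hinv
  set eb := hs2.eigenvectorBasis hTfin with heb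
  set e : Fin m → E := fun i => (eb i : E) with he
  set k : Fin m → ℝ := hs2.eigenvalues hTfin with hk
  have heig : ∀ i, hs φ x (e i) = k i • e i := by
    intro i
    have h1 := hs2.apply_eigenvectorBasis hTfin i
    exact congrArg (fun v : Kᗮ => (v : E)) h1
  have hmemE : ∀ i, ⟪x, e i⟫ = 0 ∧ ⟪N, e i⟫ = 0 := fun i => (hmem _).1 (eb i).2
  have hone : Orthonormal ℝ e := by
    constructor
    · intro i
      exact eb.orthonormal.1 i
    · intro i j hij
      exact eb.orthonormal.2 hij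
  set v : Fin m ⊕ Fin 2 → E := Sum.elim e ![x, N] with hv
  have honv : Orthonormal ℝ v := by
    constructor
    · rintro (i | i)
      · exact hone.1 i
      · exact hon2.1 i
    · rintro (i | i) (j | j) hij
      · exact hone.2 (fun hh => hij (by rw [hh]))
      · change ⟪e i, ![x, N] j⟫ = 0
        rw [real_inner_comm]
        fin_cases j
        · exact (hmemE i).1
        · exact (hmemE i).2
      · change ⟪![x, N] i, e j⟫ = 0
        fin_cases i
        · exact (hmemE j).1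
        · exact (hmemE j).2
      · exact hon2.2 (fun hh => hij (by rw [hh]))
  have hcard : Fintype.card (Fin m ⊕ Fin 2) = Module.finrank ℝ E := by
    rw [hfin]; simp
  let B := basisOfOrthonormalOfCardEqFinrank honv hcard
  have hB : (B : Fin m ⊕ Fin 2 → E) = v := coe_basisOfOrthonormalOfCardEqFinrank honv hcard
  have hBon : Orthonormal ℝ B := by rw [hB]; exact honv
  refine ⟨e, k, B.toOrthonormalBasis hBon, ?_, ?_, ?_, heig⟩
  · intro i
    rw [Module.Basis.coe_toOrthonormalBasis, hB]; rfl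
  · rw [Module.Basis.coe_toOrthonormalBasis, hB]; rfl
  · rw [Module.Basis.coe_toOrthonormalBasis, hB]; rfl

namespace Frame

variable {m : ℕ} {φ : E → ℝ} {x : E} {e : Fin m → E} {k : Fin m → ℝ}
  {b : OrthonormalBasis (Fin m ⊕ Fin 2) ℝ E} (W : Frame m φ x e k b)
include W

lemma hx : ‖x‖ = 1 := by rw [← W.b0]; exact b.orthonormal.1 _
lemma hN : ‖gradient φ x‖ = 1 := by rw [← W.b1]; exact b.orthonormal.1 _
lemma ee (i j : Fin m) : ⟪e i, e j⟫ = if i = j then 1 else 0 := by
  rw [← W.bl, ← W.bl, b.inner_eq_ite]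
  simp
lemma ex (i : Fin m) : ⟪x, e i⟫ = 0 := by
  rw [← W.bl, ← W.b0, b.inner_eq_ite]; simp
lemma eN (i : Fin m) : ⟪gradient φ x, e i⟫ = 0 := by
  rw [← W.bl, ← W.b1, b.inner_eq_ite]; simp
lemma xN : ⟪gradient φ x, x⟫ = 0 := by
  rw [← W.b0]
  conv_lhs => rw [W.b0, ← W.b1]
  rw [← W.b0, b.inner_eq_ite]; simp

/-- trace in the frame -/
lemma trace_eq (B : E →ₗ[ℝ] E) : LinearMap.trace ℝ E B =
    (∑ i, ⟪e i, B (e i)⟫) + ⟪x, B x⟫ + ⟪gradient φ x, B (gradient φ x)⟫ := by
  rw [LinearMap.trace_eq_sum_inner _ b, Fintype.sum_sum_type, Fin.sum_univ_two, W.b0, W.b1,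
    ← add_assoc]
  simp only [W.bl]

/-- Parseval in the frame -/
lemma parseval (v : E) : ‖v‖ ^ 2 = (∑ i, ⟪e i, v⟫ ^ 2) + ⟪x, v⟫ ^ 2 + ⟪gradient φ x, v⟫ ^ 2 := by
  have h := b.sum_sq_norm_inner_right v
  rw [Fintype.sum_sum_type, Fin.sum_univ_two, W.b0, W.b1, ← add_assoc] at h
  simp only [W.bl, Real.norm_eq_abs, sq_abs] at h
  exact h.symm

/-- expansion in the frame -/
lemma expand (v : E) : v = (∑ i, ⟪e i, v⟫ • e i) + ⟪x, v⟫ • x +
    ⟪gradient φ x, v⟫ • gradient φ x := by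
  have h := b.sum_repr' v
  rw [Fintype.sum_sum_type, Fin.sum_univ_two, W.b0, W.b1, ← add_assoc] at h
  simp only [W.bl] at h
  exact h.symm

lemma hs_trace (h : Good φ x) (hom : ∀ t : ℝ, 0 ≤ t → ∀ x, φ (t • x) = t * φ x) :
    LinearMap.trace ℝ E (hs φ x : E →ₗ[ℝ] E) = ∑ i, k i := by
  rw [W.trace_eq]
  simp only [ContinuousLinearMap.coe_coe, W.eig, h.hs_self hom, h.hs_gradient, inner_zero_right,
    add_zero, real_inner_smul_right, W.ee, if_true, mul_one]

lemma A2_frame (h : Good φ x) (hom : ∀ t : ℝ, 0 ≤ t → ∀ x, φ (t • x) = t * φ x) :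
    A2 φ x = ∑ i, k i ^ 2 := by
  unfold A2
  rw [W.trace_eq]
  simp only [ContinuousLinearMap.coe_coe, ContinuousLinearMap.comp_apply, W.eig,
    h.hs_self hom, h.hs_gradient, inner_zero_right, map_smul,
    add_zero, real_inner_smul_right, W.ee, if_true, mul_one, map_zero, pow_two]

end Frame

/-- the trace as a continuous linear map -/
def trL : (E →L[ℝ] E) →L[ℝ] ℝ :=
  LinearMap.toContinuousLinearMap
    { toFun := fun B => LinearMap.trace ℝ E (B : E →ₗ[ℝ] E)
      map_add' := fun B C => by simp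
      map_smul' := fun c B => by simp }

lemma trL_apply (B : E →L[ℝ] E) : trL B = LinearMap.trace ℝ E (B : E →ₗ[ℝ] E) := rfl

/-- (T2) -/
lemma trace_d4 {φ : E → ℝ} {x v : E} (h : Good φ x) (h0 : φ x = 0)
    (hv : ⟪gradient φ x, v⟫ = 0)
    (hmin : ∀ᶠ y in 𝓝 x, φ y = 0 → LinearMap.trace ℝ E (hs φ y : E →ₗ[ℝ] E) = 0) :
    trL (d4 φ x v v) = - ⟪hs φ x v, v⟫ * A2 φ x := by
  have h1 : ∀ᶠ y in 𝓝 x, HasFDerivAt (fun y => trL (hs φ y)) ((trL (E := E)).comp (d3 φ y)) y := by
    filter_upwards [good_nhds h] with y hy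
    exact (trL (E := E)).hasFDerivAt.comp y (fd_hs hy)
  have h2 : HasFDerivAt (fun y => (trL (E := E)).comp (d3 φ y))
      (((ContinuousLinearMap.compL ℝ E (E →L[ℝ] E) ℝ) trL).comp (d4 φ x)) x :=
    HasFDerivAt.comp (G := E →L[ℝ] ℝ) (F := E →L[ℝ] E →L[ℝ] E) (f := d3 φ) x
      ((ContinuousLinearMap.compL ℝ E (E →L[ℝ] E) ℝ) trL).hasFDerivAt (fd_d3 h)
  obtain ⟨-, h3⟩ := second_cone h h0 hv h1 h2 hmin
  have h4 : trL (d4 φ x v v) = ⟪hs φ x v, v⟫ • trL (d3 φ x (gradient φ x)) := h3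
  rw [h4]
  have h5 : d3 φ x (gradient φ x) = - (hs φ x).comp (hs φ x) := by
    ext w
    rw [d3_symm h, d3_gradient h]
    rfl
  rw [h5, map_neg, smul_eq_mul]
  change ⟪hs φ x v, v⟫ * (- A2 φ x) = _
  ring

/-- second derivative along the cone of `|A|² |y|² = m` -/
lemma A2_second {m : ℕ} {φ : E → ℝ} {x v : E} (h : Good φ x) (hx : ‖x‖ = 1) (h0 : φ x = 0)
    (hxN : ⟪gradient φ x, x⟫ = 0)
    (hv : ⟪gradient φ x, v⟫ = 0) (hxv : ⟪x, v⟫ = 0)
    (hA : ∀ᶠ y in 𝓝 x, φ y = 0 → A2 φ y * ⟪y, y⟫ = m) :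
    trL ((d3 φ x v).comp (d3 φ x v)) + trL ((hs φ x).comp (d4 φ x v v)) -
      ⟪hs φ x v, v⟫ * trL ((hs φ x).comp (d3 φ x (gradient φ x))) + m * ‖v‖ ^ 2 = 0 := by
  have hgl : ∀ᶠ t in 𝓝 (0 : ℝ), Good φ (ln x v t) :=
    curve_eventually (v := v) (good_nhds h) (ln_deriv x v 0).continuousAt (ln_zero x v)
  have hcd : ∀ᶠ t in 𝓝 (0 : ℝ), HasDerivAt (cv φ x v) (cv' φ x v t) t := by
    filter_upwards [hgl] with t ht
    exact cv_deriv ht
  have hc0 : HasDerivAt (cv φ x v) v 0 := by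
    have := hcd.self_of_nhds
    rwa [cv'_zero h0 hv] at this
  have hc1 := cv'_deriv h h0 hv
  have hgc : ∀ᶠ t in 𝓝 (0 : ℝ), Good φ (cv φ x v t) :=
    curve_eventually (v := v) (good_nhds h) hc0.continuousAt (cv_zero h0 v)
  -- the operator along the curve
  have hH1 : ∀ᶠ t in 𝓝 (0 : ℝ), HasDerivAt (fun t => hs φ (cv φ x v t))
      (d3 φ (cv φ x v t) (cv' φ x v t)) t := by
    filter_upwards [hcd, hgc] with t h1 h2
    exact (fd_hs h2).comp_hasDerivAt t h1
  have hH2 : HasDerivAt (fun t => d3 φ (cv φ x v t) (cv' φ x v t))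
      (d4 φ x v v + d3 φ x (-(⟪hs φ x v, v⟫ • gradient φ x))) 0 := by
    have := (along (F := E →L[ℝ] E →L[ℝ] E) (fd_d3 h) hc0 (cv_zero h0 v)).clm_apply hc1
    rwa [cv_zero h0, cv'_zero h0 hv] at this
  have hH10 : HasDerivAt (fun t => hs φ (cv φ x v t)) (d3 φ x v) 0 := by
    have := hH1.self_of_nhds
    rwa [cv_zero h0, cv'_zero h0 hv] at this
  -- f = trace
  have hf1 : ∀ᶠ t in 𝓝 (0 : ℝ), HasDerivAt
      (fun t => trL ((hs φ (cv φ x v t)).comp (hs φ (cv φ x v t))))
      (trL ((d3 φ (cv φ x v t) (cv' φ x v t)).comp (hs φ (cv φ x v t)) +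
        (hs φ (cv φ x v t)).comp (d3 φ (cv φ x v t) (cv' φ x v t)))) t := by
    filter_upwards [hH1] with t h1
    exact (trL (E := E)).hasFDerivAt.comp_hasDerivAt t (h1.clm_comp h1)
  have hf2 : HasDerivAt (fun t => trL ((d3 φ (cv φ x v t) (cv' φ x v t)).comp
      (hs φ (cv φ x v t)) + (hs φ (cv φ x v t)).comp (d3 φ (cv φ x v t) (cv' φ x v t)))) _ 0 :=
    (trL (E := E)).hasFDerivAt.comp_hasDerivAt 0 ((hH2.clm_comp hH10).add (hH10.clm_comp hH2))
  -- q = norm squared
  have hq1 : ∀ᶠ t in 𝓝 (0 : ℝ), HasDerivAt (fun t => ⟪cv φ x v t, cv φ x v t⟫)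
      (⟪cv φ x v t, cv' φ x v t⟫ + ⟪cv' φ x v t, cv φ x v t⟫) t := by
    filter_upwards [hcd] with t h1
    exact h1.inner ℝ h1
  have hq2 := (hc0.inner ℝ hc1).add (hc1.inner ℝ hc0)
  -- product
  have hp1 : ∀ᶠ t in 𝓝 (0 : ℝ), HasDerivAt (fun t =>
      trL ((hs φ (cv φ x v t)).comp (hs φ (cv φ x v t))) * ⟪cv φ x v t, cv φ x v t⟫)
      (trL ((d3 φ (cv φ x v t) (cv' φ x v t)).comp (hs φ (cv φ x v t)) +
        (hs φ (cv φ x v t)).comp (d3 φ (cv φ x v t) (cv' φ x v t))) *
          ⟪cv φ x v t, cv φ x v t⟫ + trL ((hs φ (cv φ x v t)).comp (hs φ (cv φ x v t))) *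
          (⟪cv φ x v t, cv' φ x v t⟫ + ⟪cv' φ x v t, cv φ x v t⟫)) t := by
    filter_upwards [hf1, hq1] with t h1 h2
    exact h1.mul h2
  have hconst : ∀ᶠ t in 𝓝 (0 : ℝ),
      trL ((hs φ (cv φ x v t)).comp (hs φ (cv φ x v t))) * ⟪cv φ x v t, cv φ x v t⟫ = m := by
    filter_upwards [cv_mem (v := v) h h0,
      curve_eventually (v := v) hA hc0.continuousAt (cv_zero h0 v)] with t h1 h2
    exact h2 h1
  have hd2 : ∀ᶠ t in 𝓝 (0 : ℝ),
      trL ((d3 φ (cv φ x v t) (cv' φ x v t)).comp (hs φ (cv φ x v t)) +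
        (hs φ (cv φ x v t)).comp (d3 φ (cv φ x v t) (cv' φ x v t))) *
          ⟪cv φ x v t, cv φ x v t⟫ + trL ((hs φ (cv φ x v t)).comp (hs φ (cv φ x v t))) *
          (⟪cv φ x v t, cv' φ x v t⟫ + ⟪cv' φ x v t, cv φ x v t⟫) = 0 := by
    filter_upwards [hp1, hconst.eventually_nhds] with t h1 h2
    exact h1.unique ((hasDerivAt_const t (m : ℝ)).congr_of_eventuallyEq h2)
  have hf10 := hf1.self_of_nhds
  have hq10 := hq1.self_of_nhds
  have hlast := zero_deriv ((hf2.mul hq10).add (hf10.mul hq2)) hd2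
  have hconst0 := hconst.self_of_nhds
  have hx2 : ⟪x, x⟫ = 1 := by rw [real_inner_self_eq_norm_sq, hx]; norm_num
  have hvx : ⟪v, x⟫ = 0 := by rw [real_inner_comm]; exact hxv
  have hxN' : ⟪x, gradient φ x⟫ = 0 := by rw [real_inner_comm]; exact hxN
  have hvv : ⟪v, v⟫ = ‖v‖ ^ 2 := real_inner_self_eq_norm_sq v
  have htr : ∀ B C : E →L[ℝ] E, trL (B.comp C) = trL (C.comp B) := by
    intro B C
    exact LinearMap.trace_mul_comm ℝ (B : E →ₗ[ℝ] E) (C : E →ₗ[ℝ] E)
  rw [cv_zero h0, hx2, mul_one] at hconst0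
  simp only [Pi.add_apply, cv_zero h0, cv'_zero h0 hv, hx2, hxv, hvx, hxN, hxN', hvv, inner_neg_right,
    inner_neg_left, real_inner_smul_left, real_inner_smul_right, mul_zero, mul_one, neg_zero,
    add_zero, zero_add, map_neg, map_smul, hconst0] at hlast
  have e1 : ∀ B C : E →L[ℝ] E, trL (B + C) = trL B + trL C := fun B C => map_add _ _ _
  simp only [ContinuousLinearMap.add_comp, ContinuousLinearMap.comp_add,
    ContinuousLinearMap.neg_comp, ContinuousLinearMap.comp_neg, ContinuousLinearMap.smul_comp,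
    ContinuousLinearMap.comp_smul, map_add, map_neg, map_smul, smul_eq_mul] at hlast
  rw [htr (d4 φ x v v) (hs φ x), htr (d3 φ x (gradient φ x)) (hs φ x)] at hlast
  linarith

end Crest.Agent.R246.NC718
end
end

-- ▼ part R246/NC3_718
section

/-!
R246, part I (B), equality block (helper718): if `|A|² = m` on `M'` then `∇A = 0` and `M'` has
exactly two principal curvatures `λ, -1/λ` at each point (Chern–do Carmo–Kobayashi / Lawson, the
local part).
-/

set_option autoImplicit false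
set_option linter.unusedSectionVars false
set_option linter.unusedVariables false
set_option linter.unusedSimpArgs false

open MeasureTheory Filter Topology Set
open scoped RealInnerProductSpace ContDiff

noncomputable section

namespace Crest.Agent.R246.NC718

open Crest.Agent.R246.H990 Crest.Agent.R246.SM436 Crest.Agent.R246.HerschSM900

variable {E : Type*} [NormedAddCommGroup E] [InnerProductSpace ℝ E] [FiniteDimensional ℝ E]
variable {F : Type*} [NormedAddCommGroup F] [NormedSpace ℝ F]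

/-- the hypotheses of the equality case -/
structure EqC (m : ℕ) (φ : E → ℝ) : Prop where
  hom : ∀ t : ℝ, 0 ≤ t → ∀ x, φ (t • x) = t * φ x
  good : ∀ x, x ≠ 0 → φ x = 0 → Good φ x
  min : ∀ x, x ≠ 0 → φ x = 0 → LinearMap.trace ℝ E (hs φ x : E →ₗ[ℝ] E) = 0
  fin : Module.finrank ℝ E = m + 2
  A : ∀ x, ‖x‖ = 1 → φ x = 0 → A2 φ x = m

namespace EqC

variable {m : ℕ} {φ : E → ℝ} (C : EqC m φ)
include C

lemma A2_cone {y : E} (hy : y ≠ 0) (h0 : φ y = 0) : A2 φ y * ⟪y, y⟫ = m := by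
  have hn : 0 < ‖y‖ := norm_pos_iff.2 hy
  set z := ‖y‖⁻¹ • y with hz
  have hz1 : ‖z‖ = 1 := by rw [hz, norm_smul, norm_inv, norm_norm, inv_mul_cancel₀ hn.ne']
  have hzφ : φ z = 0 := by rw [hz, C.hom _ (by positivity), h0, mul_zero]
  have hz0 : z ≠ 0 := by intro hh; rw [hh, norm_zero] at hz1; exact zero_ne_one hz1
  have hgz := C.good z hz0 hzφ
  have hyz : y = ‖y‖ • z := by rw [hz, smul_smul, mul_inv_cancel₀ hn.ne', one_smul]
  have e1 : hs φ y = ‖y‖⁻¹ • hs φ z := by
    conv_lhs => rw [hyz]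
    exact hgz.hs_smul C.hom hn
  have e2 : A2 φ y = (‖y‖⁻¹) ^ 2 * A2 φ z := by
    change trL ((hs φ y).comp (hs φ y)) = _ * trL ((hs φ z).comp (hs φ z))
    rw [e1, ContinuousLinearMap.smul_comp, ContinuousLinearMap.comp_smul, smul_smul, map_smul,
      smul_eq_mul, pow_two]
  rw [e2, C.A z hz1 hzφ, real_inner_self_eq_norm_sq]
  field_simp

variable {x : E} {e : Fin m → E} {k : Fin m → ℝ} {b : OrthonormalBasis (Fin m ⊕ Fin 2) ℝ E}

lemma gx (hx : ‖x‖ = 1) (h0 : φ x = 0) : Good φ x :=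
  C.good x (by rintro rfl; simp at hx) h0

lemma evA (hx : ‖x‖ = 1) : ∀ᶠ y in 𝓝 x, φ y = 0 → A2 φ y * ⟪y, y⟫ = m := by
  have hx0 : x ≠ 0 := by rintro rfl; simp at hx
  filter_upwards [isOpen_ne.mem_nhds hx0] with y hy h0
  exact C.A2_cone hy h0

lemma evM (hx : ‖x‖ = 1) :
    ∀ᶠ y in 𝓝 x, φ y = 0 → LinearMap.trace ℝ E (hs φ y : E →ₗ[ℝ] E) = 0 := by
  have hx0 : x ≠ 0 := by rintro rfl; simp at hx
  filter_upwards [isOpen_ne.mem_nhds hx0] with y hy h0
  exact C.min y hy h0

lemma sum_k (W : Frame m φ x e k b) (h0 : φ x = 0) : ∑ i, k i = 0 := by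
  have h := C.gx W.hx h0
  rw [← W.hs_trace h C.hom]
  exact C.min x (by have := W.hx; rintro rfl; simp at this) h0

lemma sum_k2 (W : Frame m φ x e k b) (h0 : φ x = 0) : ∑ i, k i ^ 2 = m := by
  have h := C.gx W.hx h0
  rw [← W.A2_frame h C.hom]
  exact C.A x W.hx h0

/-- `∑_i D⁴(e_j,e_j,e_i,e_i) = -m k_j - 2 k_j - 2 k_j³` -/
lemma sum_d4 (W : Frame m φ x e k b) (h0 : φ x = 0) (j : Fin m) :
    ∑ i, ⟪e i, d4 φ x (e j) (e j) (e i)⟫ = - m * k j - 2 * k j - 2 * k j ^ 3 := by
  have h := C.gx W.hx h0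
  have h1 := trace_d4 h h0 (W.eN j) (C.evM W.hx)
  rw [trL_apply, W.trace_eq, C.A x W.hx h0] at h1
  simp only [ContinuousLinearMap.coe_coe] at h1
  have h2 : ⟪x, d4 φ x (e j) (e j) x⟫ = 2 * k j := by
    rw [d4_self h C.hom, real_inner_smul_right, real_inner_comm, d3_inner h, d3_self h C.hom,
      inner_neg_right, W.eig, real_inner_smul_right, W.ee, if_pos rfl]
    ring
  have h3 : ⟪gradient φ x, d4 φ x (e j) (e j) (gradient φ x)⟫ = 2 * k j ^ 3 := by
    rw [d4_gradient h, inner_sub_right, inner_sub_right, inner_neg_right, ← h.hs_symm,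
      h.hs_gradient, inner_zero_left, W.eig, map_smul, real_inner_smul_right, real_inner_comm,
      d3_inner h, d3_gradient h, W.eig, map_smul, W.eig, inner_neg_right, real_inner_smul_right,
      real_inner_smul_right, W.ee, if_pos rfl]
    ring
  have h4 : ⟪hs φ x (e j), e j⟫ = k j := by
    rw [W.eig, real_inner_smul_left, W.ee, if_pos rfl, mul_one]
  rw [h2, h3, h4] at h1
  linarith

lemma Q_swap (h : Good φ x) (a c : E) : ⟪c, d4 φ x a a c⟫ = ⟪a, d4 φ x c c a⟫ := by
  rw [d4_symm' h a a c, d4_symm h a c, ← d4_inner h c a c a, d4_symm' h c a c, real_inner_comm]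

/-- `|DH[e_i]|²` -/
lemma tr_d3 (W : Frame m φ x e k b) (h0 : φ x = 0) (i : Fin m) :
    trL ((d3 φ x (e i)).comp (d3 φ x (e i))) =
      (∑ j, ∑ l, ⟪e l, d3 φ x (e i) (e j)⟫ ^ 2) + 2 * k i ^ 2 + 2 * k i ^ 4 := by
  have h := C.gx W.hx h0
  have e1 : ∀ v : E, ⟪v, ((d3 φ x (e i)).comp (d3 φ x (e i))) v⟫ = ‖d3 φ x (e i) v‖ ^ 2 := by
    intro v
    rw [ContinuousLinearMap.comp_apply, ← d3_inner h, real_inner_self_eq_norm_sq]
  rw [trL_apply, W.trace_eq]
  simp only [ContinuousLinearMap.coe_coe, e1]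
  have e2 : ‖d3 φ x (e i) x‖ ^ 2 = k i ^ 2 := by
    rw [d3_self h C.hom, norm_neg, ← real_inner_self_eq_norm_sq, W.eig, real_inner_smul_left,
      real_inner_smul_right, W.ee, if_pos rfl]
    ring
  have e3 : ‖d3 φ x (e i) (gradient φ x)‖ ^ 2 = k i ^ 4 := by
    rw [d3_gradient h, norm_neg, ← real_inner_self_eq_norm_sq, W.eig, map_smul, W.eig,
      real_inner_smul_left, real_inner_smul_right, real_inner_smul_left, real_inner_smul_right,
      W.ee, if_pos rfl]
    ring
  have e4 : ∀ j, ‖d3 φ x (e i) (e j)‖ ^ 2 = (∑ l, ⟪e l, d3 φ x (e i) (e j)⟫ ^ 2) +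
      (if i = j then k i ^ 2 else 0) + (if i = j then k i ^ 4 else 0) := by
    intro j
    rw [W.parseval]
    have f1 : ⟪x, d3 φ x (e i) (e j)⟫ = if i = j then - k i else 0 := by
      rw [← d3_inner h, d3_self h C.hom, inner_neg_left, W.eig, real_inner_smul_left, W.ee]
      split_ifs <;> ring
    have f2 : ⟪gradient φ x, d3 φ x (e i) (e j)⟫ = if i = j then - k i ^ 2 else 0 := by
      rw [← d3_inner h, d3_gradient h, inner_neg_left, W.eig, map_smul, W.eig,
        real_inner_smul_left, real_inner_smul_left, W.ee]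
      split_ifs <;> ring
    rw [f1, f2]
    split_ifs <;> ring
  rw [e2, e3]
  simp only [e4, Finset.sum_add_distrib, Finset.sum_ite_eq, Finset.mem_univ, if_true]
  ring

/-- **Simons**: `∇A = 0` -/
lemma parallel_frame (W : Frame m φ x e k b) (h0 : φ x = 0) (i j l : Fin m) :
    ⟪e l, d3 φ x (e i) (e j)⟫ = 0 := by
  have h := C.gx W.hx h0
  have h1 : ∀ i, trL ((d3 φ x (e i)).comp (d3 φ x (e i))) +
      (∑ j, k j * ⟪e i, d4 φ x (e j) (e j) (e i)⟫) -
      k i * trL ((hs φ x).comp (d3 φ x (gradient φ x))) + m = 0 := by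
    intro i
    have h2 := A2_second (v := e i) h W.hx h0 W.xN (W.eN i) (W.ex i) (C.evA W.hx)
    have h3 : ⟪hs φ x (e i), e i⟫ = k i := by
      rw [W.eig, real_inner_smul_left, W.ee, if_pos rfl, mul_one]
    have h4 : ‖e i‖ ^ 2 = 1 := by rw [← real_inner_self_eq_norm_sq, W.ee, if_pos rfl]
    have h5 : trL ((hs φ x).comp (d4 φ x (e i) (e i))) =
        ∑ j, k j * ⟪e i, d4 φ x (e j) (e j) (e i)⟫ := by
      rw [trL_apply, W.trace_eq]
      simp only [ContinuousLinearMap.coe_coe, ContinuousLinearMap.comp_apply]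
      rw [← h.hs_symm x, ← h.hs_symm (gradient φ x), h.hs_self C.hom, h.hs_gradient,
        inner_zero_left, inner_zero_left, add_zero, add_zero]
      refine Finset.sum_congr rfl fun j _ => ?_
      rw [← h.hs_symm, W.eig, real_inner_smul_left, C.Q_swap h]
    rw [h3, h4, h5, mul_one] at h2
    exact h2
  have h2 : ∑ i, (trL ((d3 φ x (e i)).comp (d3 φ x (e i))) +
      (∑ j, k j * ⟪e i, d4 φ x (e j) (e j) (e i)⟫) -
      k i * trL ((hs φ x).comp (d3 φ x (gradient φ x))) + m) = 0 :=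
    Finset.sum_eq_zero fun i _ => h1 i
  rw [Finset.sum_add_distrib, Finset.sum_sub_distrib, Finset.sum_add_distrib,
    ← Finset.sum_mul, C.sum_k W h0, zero_mul, Finset.sum_comm (f := fun i j =>
      k j * ⟪e i, d4 φ x (e j) (e j) (e i)⟫)] at h2
  simp only [← Finset.mul_sum, C.sum_d4 W h0, C.tr_d3 W h0, Finset.sum_add_distrib,
    Finset.sum_const, Finset.card_univ, Fintype.card_fin, nsmul_eq_mul] at h2
  have h3 : ∑ j, k j * (- (m : ℝ) * k j - 2 * k j - 2 * k j ^ 3) =
      - (m : ℝ) * (∑ j, k j ^ 2) - 2 * (∑ j, k j ^ 2) - 2 * ∑ j, k j ^ 4 := by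
    rw [Finset.mul_sum, Finset.mul_sum, Finset.mul_sum, ← Finset.sum_sub_distrib,
      ← Finset.sum_sub_distrib]
    refine Finset.sum_congr rfl fun j _ => ?_
    ring
  rw [h3, C.sum_k2 W h0] at h2
  have h4 : ∑ i, ∑ j, ∑ l, ⟪e l, d3 φ x (e i) (e j)⟫ ^ 2 = 0 := by
    linarith
  have h5 := (Finset.sum_eq_zero_iff_of_nonneg (fun i _ => Finset.sum_nonneg fun j _ =>
    Finset.sum_nonneg fun l _ => sq_nonneg _)).1 h4 i (Finset.mem_univ _)
  have h6 := (Finset.sum_eq_zero_iff_of_nonneg (fun j _ =>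
    Finset.sum_nonneg fun l _ => sq_nonneg _)).1 h5 j (Finset.mem_univ _)
  have h7 := (Finset.sum_eq_zero_iff_of_nonneg (fun l _ => sq_nonneg _)).1 h6 l
    (Finset.mem_univ _)
  exact pow_eq_zero_iff two_ne_zero |>.1 h7

/-- **`∇A = 0`**: the tangential part of the third derivative vanishes. -/
theorem parallel (hx : ‖x‖ = 1) (h0 : φ x = 0) {a c d : E} (ha : ⟪x, a⟫ = 0)
    (ha' : ⟪gradient φ x, a⟫ = 0) (hc : ⟪x, c⟫ = 0) (hc' : ⟪gradient φ x, c⟫ = 0)
    (hd : ⟪x, d⟫ = 0) (hd' : ⟪gradient φ x, d⟫ = 0) : ⟪d, d3 φ x a c⟫ = 0 := by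
  obtain ⟨e, k, b, W⟩ := exists_frame C.hom C.fin (C.gx hx h0) hx h0
  have ea := W.expand a
  have ec := W.expand c
  have ed := W.expand d
  rw [ha, ha', zero_smul, zero_smul, add_zero, add_zero] at ea
  rw [hc, hc', zero_smul, zero_smul, add_zero, add_zero] at ec
  rw [hd, hd', zero_smul, zero_smul, add_zero, add_zero] at ed
  rw [ea, ec, ed]
  simp only [map_sum, map_smul, sum_apply, smul_apply,
    inner_sum, sum_inner, real_inner_smul_left, real_inner_smul_right, C.parallel_frame W h0,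
    mul_zero, Finset.sum_const_zero]

/-- the third derivative at points of `M'` -/
theorem d3_formula (hx : ‖x‖ = 1) (h0 : φ x = 0) (a c : E) :
    d3 φ x a c + ⟪x, a⟫ • hs φ x c + ⟪x, c⟫ • hs φ x a + ⟪hs φ x a, c⟫ • x +
      ⟪gradient φ x, a⟫ • hs φ x (hs φ x c) + ⟪gradient φ x, c⟫ • hs φ x (hs φ x a) +
      ⟪hs φ x a, hs φ x c⟫ • gradient φ x = 0 := by
  have h := C.gx hx h0
  set N := gradient φ x with hN
  have hxx : ⟪x, x⟫ = 1 := by rw [real_inner_self_eq_norm_sq, hx]; norm_num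
  have hNN : ⟪N, N⟫ = 1 := by rw [real_inner_self_eq_norm_sq, h.norm_gradient]; norm_num
  have hNx : ⟪N, x⟫ = 0 := by rw [h.euler C.hom, h0]
  have hxN : ⟪x, N⟫ = 0 := by rw [real_inner_comm]; exact hNx
  -- tangential parts
  set a' := a - ⟪x, a⟫ • x - ⟪N, a⟫ • N with ha'
  set c' := c - ⟪x, c⟫ • x - ⟪N, c⟫ • N with hc'
  have Hx : hs φ x x = 0 := h.hs_self C.hom
  have HN : hs φ x N = 0 := h.hs_gradient
  have Ha : hs φ x a' = hs φ x a := by
    rw [ha', map_sub, map_sub, map_smul, map_smul, Hx, HN]; simp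
  have Hc : hs φ x c' = hs φ x c := by
    rw [hc', map_sub, map_sub, map_smul, map_smul, Hx, HN]; simp
  have xa : ⟪x, a'⟫ = 0 := by
    rw [ha', inner_sub_right, inner_sub_right, real_inner_smul_right, real_inner_smul_right, hxx,
      hxN]; ring
  have Na : ⟪N, a'⟫ = 0 := by
    rw [ha', inner_sub_right, inner_sub_right, real_inner_smul_right, real_inner_smul_right, hNN,
      hNx]; ring
  have xc : ⟪x, c'⟫ = 0 := by
    rw [hc', inner_sub_right, inner_sub_right, real_inner_smul_right, real_inner_smul_right, hxx,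
      hxN]; ring
  have Nc : ⟪N, c'⟫ = 0 := by
    rw [hc', inner_sub_right, inner_sub_right, real_inner_smul_right, real_inner_smul_right, hNN,
      hNx]; ring
  -- `d3 a' c'`
  have key : d3 φ x a' c' + ⟪hs φ x a', c'⟫ • x + ⟪hs φ x a', hs φ x c'⟫ • N = 0 := by
    set w := d3 φ x a' c' + ⟪hs φ x a', c'⟫ • x + ⟪hs φ x a', hs φ x c'⟫ • N with hw
    have wx : ⟪x, w⟫ = 0 := by
      rw [hw, inner_add_right, inner_add_right, real_inner_smul_right, real_inner_smul_right, hxx,
        hxN, ← d3_inner h, d3_self h C.hom, inner_neg_left]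
      ring
    have wN : ⟪N, w⟫ = 0 := by
      rw [hw, inner_add_right, inner_add_right, real_inner_smul_right, real_inner_smul_right, hNN,
        hNx, ← d3_inner h, d3_gradient h, inner_neg_left, h.hs_symm (hs φ x a')]
      ring
    have ww : ⟪w, w⟫ = 0 := by
      conv_lhs => rw [hw]
      rw [inner_add_left, inner_add_left, real_inner_smul_left, real_inner_smul_left, wx, wN,
        mul_zero, mul_zero, add_zero, add_zero, real_inner_comm]
      exact C.parallel hx h0 xa Na xc Nc wx wN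
    exact inner_self_eq_zero.1 ww
  have ea : a = a' + ⟪x, a⟫ • x + ⟪N, a⟫ • N := by rw [ha']; abel
  have ec : c = c' + ⟪x, c⟫ • x + ⟪N, c⟫ • N := by rw [hc']; abel
  have hac : ⟪hs φ x a', c'⟫ = ⟪hs φ x a, c⟫ := by
    rw [h.hs_symm, Hc, ← h.hs_symm, Ha]
  rw [hac, Ha, Hc] at key
  have e1 : d3 φ x a c = d3 φ x a' c' - ⟪x, c⟫ • hs φ x a - ⟪N, c⟫ • hs φ x (hs φ x a) -
      ⟪x, a⟫ • hs φ x c - ⟪N, a⟫ • hs φ x (hs φ x c) := by
    have f1 : d3 φ x a c = d3 φ x a' c + ⟪x, a⟫ • d3 φ x c x + ⟪N, a⟫ • d3 φ x c N := by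
      conv_lhs => rw [ea]
      rw [map_add, map_add, map_smul, map_smul, add_apply,
        add_apply, smul_apply,
        smul_apply, d3_symm h x c, d3_symm h N c]
    have f2 : d3 φ x a' c = d3 φ x a' c' + ⟪x, c⟫ • d3 φ x a' x + ⟪N, c⟫ • d3 φ x a' N := by
      conv_lhs => rw [ec]
      rw [map_add, map_add, map_smul, map_smul]
    rw [f1, f2, d3_self h C.hom, d3_self h C.hom, d3_gradient h, d3_gradient h, Ha, smul_neg,
      smul_neg, smul_neg, smul_neg]
    abel
  rw [e1, ← key]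
  abel

end EqC

/-! ### curves in `M'` -/

/-- the normalized curve -/
def uc (φ : E → ℝ) (x v : E) : ℝ → E := fun t => ‖cv φ x v t‖⁻¹ • cv φ x v t

lemma uc_zero {φ : E → ℝ} {x : E} (hx : ‖x‖ = 1) (h0 : φ x = 0) (v : E) : uc φ x v 0 = x := by
  simp [uc, cv_zero h0, hx]

lemma uc_deriv {φ : E → ℝ} {x v : E} (h : Good φ x) (hx : ‖x‖ = 1) (h0 : φ x = 0)
    (hv : ⟪gradient φ x, v⟫ = 0) (hxv : ⟪x, v⟫ = 0) : HasDerivAt (uc φ x v) v 0 := by
  have h1 : HasDerivAt (cv φ x v) v 0 := by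
    have := cv_deriv (φ := φ) (x := x) (v := v) (t := 0) (by rw [ln_zero]; exact h)
    rwa [cv'_zero h0 hv] at this
  have h2 := h1.norm_sq
  have h3 := h2.sqrt (by rw [cv_zero h0, hx]; norm_num)
  have h4 : (fun t => √(‖cv φ x v t‖ ^ 2)) = fun t => ‖cv φ x v t‖ := by
    funext t; exact Real.sqrt_sq (norm_nonneg _)
  rw [h4, cv_zero h0, hxv, mul_zero, zero_div] at h3
  have h5 := h3.inv (by rw [cv_zero h0, hx]; norm_num)
  have h6 := h5.smul h1
  refine HasDerivAt.congr_deriv (f := uc φ x v) h6 ?_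
  simp [cv_zero h0, hx]

lemma uc_mem {φ : E → ℝ} {x v : E} (hom : ∀ t : ℝ, 0 ≤ t → ∀ x, φ (t • x) = t * φ x)
    (h : Good φ x) (hx : ‖x‖ = 1) (h0 : φ x = 0) (hv : ⟪gradient φ x, v⟫ = 0) :
    ∀ᶠ t in 𝓝 (0 : ℝ), ‖uc φ x v t‖ = 1 ∧ φ (uc φ x v t) = 0 := by
  have h1 : HasDerivAt (cv φ x v) v 0 := by
    have := cv_deriv (φ := φ) (x := x) (v := v) (t := 0) (by rw [ln_zero]; exact h)
    rwa [cv'_zero h0 hv] at this
  have hx0 : x ≠ 0 := by rintro rfl; simp at hx
  filter_upwards [cv_mem (v := v) h h0, curve_eventually (v := v) (isOpen_ne.mem_nhds hx0)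
    h1.continuousAt (cv_zero h0 v)] with t h2 h3
  have h4 : 0 < ‖cv φ x v t‖ := norm_pos_iff.2 h3
  constructor
  · rw [uc, norm_smul, norm_inv, norm_norm, inv_mul_cancel₀ h4.ne']
  · rw [uc, hom _ (by positivity), h2, mul_zero]

namespace EqC

variable {m : ℕ} {φ : E → ℝ} (C : EqC m φ)
include C

variable {x : E} {e : Fin m → E} {k : Fin m → ℝ} {b : OrthonormalBasis (Fin m ⊕ Fin 2) ℝ E}

/-- differentiating `d3_formula` along `M'` -/
lemma d4_formula (W : Frame m φ x e k b) (h0 : φ x = 0) (i j : Fin m) (hij : i ≠ j) :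
    ⟪d4 φ x (e i) (e j) (e i), e j⟫ = - (k j + k i * k j ^ 2) := by
  have hx := W.hx
  have h := C.gx hx h0
  have hu := uc_deriv h hx h0 (W.eN i) (W.ex i)
  have hu0 := uc_zero hx h0 (e i)
  set u := uc φ x (e i) with hudef
  have D3 := along (F := E →L[ℝ] E →L[ℝ] E) (fd_d3 h) hu hu0
  have DH := along (fd_hs h) hu hu0
  have DN := along h.hasFDerivAt_gradient hu hu0
  have ca := hasDerivAt_const (0 : ℝ) (e j)
  have cc := hasDerivAt_const (0 : ℝ) (e i)
  have Ha := DH.clm_apply ca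
  have Hc := DH.clm_apply cc
  have t1 := (D3.clm_apply ca).clm_apply cc
  have t2 := (hu.inner ℝ ca).smul Hc
  have t3 := (hu.inner ℝ cc).smul Ha
  have t4 := (Ha.inner ℝ cc).smul hu
  have t5 := (DN.inner ℝ ca).smul (DH.clm_apply Hc)
  have t6 := (DN.inner ℝ cc).smul (DH.clm_apply Ha)
  have t7 := (Ha.inner ℝ Hc).smul DN
  have T := ((((((t1.add t2).add t3).add t4).add t5).add t6).add t7)
  have Z := zero_deriv T (by
    filter_upwards [uc_mem C.hom h hx h0 (W.eN i)] with t ht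
    have hh := C.d3_formula ht.1 ht.2 (e j) (e i)
    exact hh)
  have Z2 := congrArg (fun v : E => ⟪v, e j⟫) Z
  simp only [hu0, map_zero, add_zero, inner_zero_right, zero_add, W.ex, W.eN, zero_smul, W.eig,
    inner_add_left, real_inner_smul_left, real_inner_smul_right, inner_zero_left, W.ee, if_true,
    hij, hij.symm, if_false, mul_zero, mul_one, map_smul, zero_mul] at Z2
  linarith

/-- **the commutation identity** -/
theorem comm (W : Frame m φ x e k b) (h0 : φ x = 0) (i j : Fin m) (hij : k i ≠ k j) :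
    k i * k j = -1 := by
  have h := C.gx W.hx h0
  have hne : i ≠ j := fun hh => hij (by rw [hh])
  have h1 := C.d4_formula W h0 i j hne
  have h2 := C.d4_formula W h0 j i hne.symm
  have h3 : ⟪d4 φ x (e i) (e j) (e i), e j⟫ = ⟪d4 φ x (e j) (e i) (e j), e i⟫ := by
    rw [d4_symm h (e i) (e j), d4_inner h, real_inner_comm]
  rw [h1, h2] at h3
  have h4 : (k i - k j) * (1 + k i * k j) = 0 := by linarith
  rcases mul_eq_zero.1 h4 with h5 | h5
  · exact absurd (sub_eq_zero.1 h5) hij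
  · linarith

end EqC




end Crest.Agent.R246.NC718
end
namespace Crest.Agent.R246.NC718.Frame
end Crest.Agent.R246.NC718.Frame
end

-- ▼ part R246/NC8_718
section

/-!
R246, part I (B), equality block (helper718), final form for `SmoothMin`.
-/

set_option autoImplicit false
set_option linter.unusedSectionVars false
set_option linter.unusedVariables false
set_option linter.unusedSimpArgs false

open MeasureTheory Filter Topology Set
open scoped RealInnerProductSpace ContDiff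

noncomputable section

namespace Crest.Agent.R246.NC718

open Crest.Agent.R246.H990 Crest.Agent.R246.SM436 Crest.Agent.R246.HerschSM900

variable {E : Type*} [NormedAddCommGroup E] [InnerProductSpace ℝ E] [FiniteDimensional ℝ E]
  [MeasurableSpace E] [BorelSpace E]

/-- `SmoothMin` with `|A|² = m` on `M'` -/
lemma EqC.of_smoothMin {m : ℕ} {φ : E → ℝ} (S : SmoothMin φ)
    (hfin : Module.finrank ℝ E = m + 2) (hA : ∀ x, ‖x‖ = 1 → φ x = 0 → A2 φ x = m) : EqC m φ :=
  ⟨S.nc.hom, S.good, S.min, hfin, hA⟩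


/-- eigenvalue form: principal curvatures `a ≠ c` of `M'` at `x` satisfy `a c = -1`. -/
theorem eigen_rel {m : ℕ} {φ : E → ℝ} (S : SmoothMin φ)
    (hfin : Module.finrank ℝ E = m + 2) (hA : ∀ x, ‖x‖ = 1 → φ x = 0 → A2 φ x = m)
    {x : E} (hx : ‖x‖ = 1) (h0 : φ x = 0) {v w : E} {a c : ℝ}
    (hv : v ≠ 0) (hw : w ≠ 0) (hxv : ⟪x, v⟫ = 0) (hNv : ⟪gradient φ x, v⟫ = 0)
    (hxw : ⟪x, w⟫ = 0) (hNw : ⟪gradient φ x, w⟫ = 0)
    (ha : hs φ x v = a • v) (hc : hs φ x w = c • w) : a = c ∨ a * c = -1 := by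
  have C := EqC.of_smoothMin S hfin hA
  obtain ⟨e, k, b, W⟩ := exists_frame C.hom C.fin (C.gx hx h0) hx h0
  have key : ∀ (v : E) (a : ℝ), v ≠ 0 → ⟪x, v⟫ = 0 → ⟪gradient φ x, v⟫ = 0 →
      hs φ x v = a • v → ∃ i, k i = a := by
    intro v a hv h1 h2 h3
    by_contra hcon
    simp only [not_exists] at hcon
    apply hv
    have h4 : ∀ i, ⟪e i, v⟫ = 0 := by
      intro i
      have h5 : ⟪hs φ x (e i), v⟫ = ⟪e i, hs φ x v⟫ := (C.gx hx h0).hs_symm _ _
      rw [W.eig, h3, real_inner_smul_left, real_inner_smul_right] at h5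
      have h6 : (k i - a) * ⟪e i, v⟫ = 0 := by rw [sub_mul, h5, sub_self]
      exact (mul_eq_zero.1 h6).resolve_left (sub_ne_zero.2 (hcon i))
    rw [W.expand v, h1, h2]
    simp [h4]
  obtain ⟨i, hi⟩ := key v a hv hxv hNv ha
  obtain ⟨j, hj⟩ := key w c hw hxw hNw hc
  by_cases hac : a = c
  · exact Or.inl hac
  · right
    rw [← hi, ← hj]
    exact C.comm W h0 i j (by rw [hi, hj]; exact hac)


end Crest.Agent.R246.NC718
end
end

-- ▼ part R246/Eqb_718
section

/-! R246: `StEqb` of the skeleton (helper718). -/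

set_option autoImplicit false

namespace Crest.Agent.R246.NC718

open Crest.Agent.R246.H990 Crest.Agent.R246.SM436 Crest.Agent.R246.HerschSM900
open Crest.Agent.R246.Skel656 Crest.Agent.R246.Skel2

theorem stEqb (m : ℕ) : StEqb m := by
  intro φ S _ hA x hx h0 v w α β hv hw hvx hwx hvN hwN hα hβ
  have hfin : Module.finrank ℝ (E m) = m + 2 := by simp
  refine eigen_rel S hfin hA hx h0 (v := v) (w := w) ?_ ?_ ?_ ?_ ?_ ?_ hα hβ
  · rintro rfl; simp at hv
  · rintro rfl; simp at hw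
  · rw [real_inner_comm]; exact hvx
  · rw [real_inner_comm]; exact hvN
  · rw [real_inner_comm]; exact hwx
  · rw [real_inner_comm]; exact hwN

end Crest.Agent.R246.NC718
end

-- ▼ part R246/HKscalar_688
section

/-!
# Scalar identity of the Heintze-Karcher step (R246, module K; helper688)

`∫_0^{π/2} cos^k sin^l = |S^(k+l+1)| / (|S^k| |S^l|)` and
`∫_{-arctan lam}^{π/2 - arctan lam} (cos t - lam sin t)^k (cos t + sin t / lam)^(m-k) dt
  = |S^(m+1)| / cliffordVolume m k` for `lam > 0`, `k lam^2 = m - k`.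
-/

set_option autoImplicit false

open Real Set MeasureTheory intervalIntegral
open Crest.GeometryTopology.SphereImmersion

namespace Crest.Agent.R246.ThetaK688

/-- `∫_0^{π/2} cos^k sin^l` -/
noncomputable def JJ (k l : ℕ) : ℝ := ∫ t in (0 : ℝ)..(π / 2), cos t ^ k * sin t ^ l

theorem JJ_symm (k l : ℕ) : JJ k l = JJ l k := by
  unfold JJ
  have h := intervalIntegral.integral_comp_sub_left (a := 0) (b := π / 2)
    (fun t : ℝ => cos t ^ k * sin t ^ l) (π / 2)
  simp only [sub_self, sub_zero] at h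
  rw [← h]
  refine intervalIntegral.integral_congr fun t _ => ?_
  simp only [Real.cos_pi_div_two_sub, Real.sin_pi_div_two_sub]
  ring

theorem JJ_rec (k l : ℕ) : ((k : ℝ) + l + 2) * JJ k (l + 2) = (l + 1) * JJ k l := by
  have hd : ∀ t : ℝ, HasDerivAt (fun t : ℝ => cos t ^ (k + 1) * sin t ^ (l + 1))
      ((l + 1) * (cos t ^ k * sin t ^ l) - ((k : ℝ) + l + 2) * (cos t ^ k * sin t ^ (l + 2))) t := by
    intro t
    have h1 := ((hasDerivAt_cos t).pow (k + 1)).mul ((hasDerivAt_sin t).pow (l + 1))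
    refine h1.congr_deriv ?_
    simp only [Nat.add_sub_cancel, Nat.cast_add, Nat.cast_one, Pi.pow_apply]
    have hs : cos t ^ 2 = 1 - sin t ^ 2 := by rw [← sin_sq_add_cos_sq t]; ring
    have : cos t ^ (k + 1) * (((l : ℝ) + 1) * sin t ^ l * cos t) =
      ((l : ℝ) + 1) * (cos t ^ k * sin t ^ l) * cos t ^ 2 := by ring
    rw [this, hs]
    ring
  have hc : Continuous fun t : ℝ =>
      (l + 1) * (cos t ^ k * sin t ^ l) - ((k : ℝ) + l + 2) * (cos t ^ k * sin t ^ (l + 2)) := by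
    fun_prop
  have h := intervalIntegral.integral_eq_sub_of_hasDerivAt (a := 0) (b := π / 2)
    (fun t _ => hd t) (hc.intervalIntegrable _ _)
  simp only [cos_pi_div_two, sin_zero, ne_eq, Nat.add_eq_zero_iff, one_ne_zero, and_false,
    not_false_eq_true, zero_pow, zero_mul, mul_zero, sub_zero] at h
  rw [intervalIntegral.integral_sub, intervalIntegral.integral_const_mul,
    intervalIntegral.integral_const_mul] at h
  · unfold JJ
    linarith
  · exact Continuous.intervalIntegrable (by fun_prop) _ _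
  · exact Continuous.intervalIntegrable (by fun_prop) _ _

/-- the value -/
noncomputable def FF (k l : ℕ) : ℝ := unitSphereArea (k + l + 1) / (unitSphereArea k * unitSphereArea l)

theorem FF_symm (k l : ℕ) : FF k l = FF l k := by
  unfold FF
  rw [show k + l + 1 = l + k + 1 by ring, mul_comm (unitSphereArea k)]

theorem FF_eq (k l : ℕ) :
    FF k l = Gamma (((k : ℝ) + 1) / 2) * Gamma (((l : ℝ) + 1) / 2) /
      (2 * Gamma (((k : ℝ) + l) / 2 + 1)) := by
  have h1 := Real.Gamma_pos_of_pos (show (0 : ℝ) < ((k : ℝ) + 1) / 2 by positivity)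
  have h2 := Real.Gamma_pos_of_pos (show (0 : ℝ) < ((l : ℝ) + 1) / 2 by positivity)
  have h3 := Real.Gamma_pos_of_pos (show (0 : ℝ) < ((k : ℝ) + l) / 2 + 1 by positivity)
  unfold FF unitSphereArea
  push_cast
  rw [show ((k : ℝ) + l + 1 + 1) / 2 = ((k : ℝ) + l) / 2 + 1 by ring]
  have hp : π ^ (((k : ℝ) + l) / 2 + 1) = π ^ (((k : ℝ) + 1) / 2) * π ^ (((l : ℝ) + 1) / 2) := by
    rw [← Real.rpow_add pi_pos]
    congr 1
    ring
  rw [hp]
  have h4 : (0 : ℝ) < π ^ (((k : ℝ) + 1) / 2) := by positivity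
  have h5 : (0 : ℝ) < π ^ (((l : ℝ) + 1) / 2) := by positivity
  field_simp

theorem FF_rec (k l : ℕ) : ((k : ℝ) + l + 2) * FF k (l + 2) = (l + 1) * FF k l := by
  have h3 := Real.Gamma_pos_of_pos (show (0 : ℝ) < ((k : ℝ) + l) / 2 + 1 by positivity)
  rw [FF_eq, FF_eq]
  push_cast
  rw [show ((l : ℝ) + 2 + 1) / 2 = (l + 1) / 2 + 1 by ring,
    show ((k : ℝ) + (l + 2)) / 2 + 1 = ((k + l) / 2 + 1) + 1 by ring,
    Real.Gamma_add_one (s := ((l : ℝ) + 1) / 2) (by positivity),
    Real.Gamma_add_one (s := ((k : ℝ) + l) / 2 + 1) (by positivity)]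
  field_simp

theorem FF_00 : FF 0 0 = π / 2 := by
  rw [FF_eq]
  norm_num [Real.Gamma_one_half_eq, Real.mul_self_sqrt pi_pos.le]

theorem FF_10 : FF 1 0 = 1 := by
  rw [FF_eq]
  have hG32 : Gamma (3 / 2) = √π / 2 := by
    rw [show (3 : ℝ) / 2 = 1 / 2 + 1 by norm_num, Real.Gamma_add_one (by norm_num),
      Real.Gamma_one_half_eq]
    ring
  have : (0 : ℝ) < √π := Real.sqrt_pos.2 pi_pos
  norm_num [Real.Gamma_one_half_eq, hG32]
  field_simp

theorem FF_11 : FF 1 1 = 1 / 2 := by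
  rw [FF_eq]
  norm_num

theorem JJ_00 : JJ 0 0 = π / 2 := by
  simp [JJ]

theorem JJ_10 : JJ 1 0 = 1 := by
  simp [JJ]

theorem JJ_11 : JJ 1 1 = 1 / 2 := by
  have h := intervalIntegral.integral_eq_sub_of_hasDerivAt (a := 0) (b := π / 2)
    (f := fun t => sin t ^ 2 / 2) (f' := fun t => cos t ^ 1 * sin t ^ 1)
    (fun t _ => by
      have := ((hasDerivAt_sin t).pow 2).div_const 2
      refine this.congr_deriv ?_
      simp
      ring)
    (Continuous.intervalIntegrable (by fun_prop) _ _)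
  unfold JJ
  rw [h]
  simp

theorem JJ_eq_FF (k l : ℕ) : JJ k l = FF k l := by
  have step : ∀ k : ℕ, JJ k 0 = FF k 0 → JJ k 1 = FF k 1 → ∀ l, JJ k l = FF k l := by
    intro k h0 h1 l
    induction l using Nat.twoStepInduction with
    | zero => exact h0
    | one => exact h1
    | more l ih _ =>
      have e1 := JJ_rec k l
      have e2 := FF_rec k l
      rw [ih] at e1
      have hpos : ((k : ℝ) + l + 2) ≠ 0 := by positivity
      exact mul_left_cancel₀ hpos (e1.trans e2.symm)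
  have s0 : ∀ l, JJ 0 l = FF 0 l := step 0 (by rw [JJ_00, FF_00])
    (by rw [JJ_symm, FF_symm, JJ_10, FF_10])
  have s1 : ∀ l, JJ 1 l = FF 1 l := step 1 (by rw [JJ_10, FF_10]) (by rw [JJ_11, FF_11])
  refine step k ?_ ?_ l
  · rw [JJ_symm, FF_symm, s0]
  · rw [JJ_symm, FF_symm, s1]

/-- `∫_0^{π/2} cos^k sin^l = |S^(k+l+1)| / (|S^k| |S^l|)` -/
theorem integral_cos_pow_mul_sin_pow (k l : ℕ) :
    ∫ t in (0 : ℝ)..(π / 2), cos t ^ k * sin t ^ l =
      unitSphereArea (k + l + 1) / (unitSphereArea k * unitSphereArea l) :=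
  JJ_eq_FF k l

/-- the scalar Heintze-Karcher identity -/
theorem hk_scalar {m k : ℕ} (hk : 1 ≤ k) (hkm : k < m) {lam : ℝ} (hlam : 0 < lam)
    (hl : (k : ℝ) * lam ^ 2 = (m : ℝ) - k) :
    ∫ t in (-arctan lam)..(π / 2 - arctan lam),
      (cos t - lam * sin t) ^ k * (cos t + sin t / lam) ^ (m - k) =
        unitSphereArea (m + 1) / cliffordVolume m k := by
  have hk' : (0 : ℝ) < k := by exact_mod_cast hk
  have hm' : (0 : ℝ) < m := by exact_mod_cast (by omega : 0 < m)
  have hl' : (0 : ℝ) < ((m - k : ℕ) : ℝ) := by exact_mod_cast (by omega : 0 < m - k)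
  have hml : ((m : ℝ) - k) = ((m - k : ℕ) : ℝ) := by
    rw [Nat.cast_sub hkm.le]
  set θ := arctan lam with hθ
  have hcos : cos θ = 1 / √(1 + lam ^ 2) := cos_arctan lam
  have hsin : sin θ = lam / √(1 + lam ^ 2) := sin_arctan lam
  have hsq : (0 : ℝ) < √(1 + lam ^ 2) := Real.sqrt_pos.2 (by positivity)
  have hc0 : 0 < cos θ := by rw [hcos]; positivity
  have hs0 : 0 < sin θ := by rw [hsin]; positivity
  have hlc : lam = sin θ / cos θ := by rw [hcos, hsin]; field_simp
  -- squares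
  have hm1 : 1 + lam ^ 2 = (m : ℝ) / k := by
    field_simp
    linarith
  have hc2 : cos θ ^ 2 = (k : ℝ) / m := by
    rw [hcos, div_pow, Real.sq_sqrt (by positivity), hm1]
    field_simp
  have hs2 : sin θ ^ 2 = ((m - k : ℕ) : ℝ) / m := by
    have := sin_sq_add_cos_sq θ
    rw [hc2] at this
    rw [← hml]
    field_simp
    field_simp at this
    linarith
  have hck : cos θ ^ k = ((k : ℝ) / m) ^ ((k : ℝ) / 2) := by
    rw [← hc2, ← Real.rpow_natCast (cos θ) 2, ← Real.rpow_mul hc0.le, ← Real.rpow_natCast]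
    congr 1
    push_cast
    ring
  have hsl : sin θ ^ (m - k) = (((m : ℝ) - k) / m) ^ (((m : ℝ) - k) / 2) := by
    rw [hml, ← hs2, ← Real.rpow_natCast (sin θ) 2, ← Real.rpow_mul hs0.le, ← Real.rpow_natCast]
    congr 1
    push_cast
    ring
  have hint : ∀ t : ℝ, (cos t - lam * sin t) ^ k * (cos t + sin t / lam) ^ (m - k) =
      (cos θ ^ k * sin θ ^ (m - k))⁻¹ * (cos (t + θ) ^ k * sin (t + θ) ^ (m - k)) := by
    intro t
    have e1 : cos t - lam * sin t = cos (t + θ) / cos θ := by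
      rw [cos_add, hlc]; field_simp
    have e2 : cos t + sin t / lam = sin (t + θ) / sin θ := by
      rw [sin_add, hlc]; field_simp; ring
    rw [e1, e2, div_pow, div_pow]
    field_simp
  simp only [hint]
  rw [intervalIntegral.integral_const_mul,
    intervalIntegral.integral_comp_add_right (fun t => cos t ^ k * sin t ^ (m - k)) θ]
  rw [show -θ + θ = 0 by ring, show π / 2 - θ + θ = π / 2 by ring,
    integral_cos_pow_mul_sin_pow, show k + (m - k) + 1 = m + 1 by omega, hck, hsl]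
  have h1 := unitSphereArea_pos k
  have h2 := unitSphereArea_pos (m - k)
  have h3 := unitSphereArea_pos (m + 1)
  have h4 : 0 < ((k : ℝ) / m) ^ ((k : ℝ) / 2) := by positivity
  have h5 : 0 < (((m : ℝ) - k) / m) ^ (((m : ℝ) - k) / 2) := by
    rw [hml]; positivity
  unfold cliffordVolume
  field_simp

end Crest.Agent.R246.ThetaK688
end

-- ▼ part R246/HK3_149
section

/-!
# Heintze-Karcher step, part 3: two principal curvatures

`TwoCurv φ m p`: `det (1 + s A_p) = (1 - λ s)^k (1 + s/λ)^(m-k)`, `k λ² = m - k`.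
`hk_two`: if all points of the link are `TwoCurv` then `WW m ≤ μ(univ)`.
-/

set_option autoImplicit false
noncomputable section
open MeasureTheory Set Filter Topology Module
open scoped RealInnerProductSpace ContDiff
open Crest.GeometryTopology.SphereImmersion

namespace Crest.Agent.R246.HK149

open Crest.Agent.R246.H990 Crest.Agent.R246.SM436 Crest.Agent.R246.ThetaK688

/-- the scalar integral in the variable `s = tan t` -/
theorem scal_int {m k : ℕ} (hk : 1 ≤ k) (hkm : k < m) {lam : ℝ} (hlam : 0 < lam)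
    (hl : (k : ℝ) * lam ^ 2 = (m : ℝ) - k) :
    ∫ s in (-lam)..(1 / lam), (1 - lam * s) ^ k * (1 + s / lam) ^ (m - k) * ww s ^ (m + 2) =
      unitSphereArea (m + 1) / cliffordVolume m k := by
  rw [← hk_scalar hk hkm hlam hl]
  have h := intervalIntegral.integral_comp_mul_deriv (a := -lam) (b := 1 / lam)
    (f := Real.arctan) (f' := fun x => 1 / (1 + x ^ 2))
    (g := fun t => (Real.cos t - lam * Real.sin t) ^ k * (Real.cos t + Real.sin t / lam) ^ (m - k))
    (fun x _ => Real.hasDerivAt_arctan x)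
    (Continuous.continuousOn (Continuous.div continuous_const (by fun_prop)
      (fun x => by positivity)))
    (by fun_prop)
  rw [Real.arctan_neg, show Real.arctan (1 / lam) = Real.pi / 2 - Real.arctan lam by
    rw [one_div]; exact Real.arctan_inv_of_pos hlam] at h
  rw [← h]
  refine intervalIntegral.integral_congr fun s _ => ?_
  have hs0 : 0 < Real.sqrt (1 + s ^ 2) := Real.sqrt_pos.2 (by positivity)
  have hc : Real.cos (Real.arctan s) = ww s := by
    rw [Real.cos_arctan, ww, one_div]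
  have hsn : Real.sin (Real.arctan s) = s * ww s := by
    rw [Real.sin_arctan, ww]; rfl
  have hw : 1 / (1 + s ^ 2) = ww s ^ 2 := by
    rw [ww, inv_pow, Real.sq_sqrt (by positivity), one_div]
  simp only [Function.comp, hc, hsn, hw]
  have e1 : ww s - lam * (s * ww s) = (1 - lam * s) * ww s := by ring
  have e2 : ww s + s * ww s / lam = (1 + s / lam) * ww s := by ring
  rw [e1, e2, mul_pow, mul_pow]
  have e3 : ww s ^ (m + 2) = ww s ^ k * ww s ^ (m - k) * ww s ^ 2 := by
    rw [← pow_add, ← pow_add]; congr 1; omega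
  rw [e3]
  ring

variable {E : Type*} [NormedAddCommGroup E] [InnerProductSpace ℝ E] [FiniteDimensional ℝ E]

/-- two principal curvatures `-λ` (`k` times) and `1/λ` (`m-k` times), in determinant form -/
def TwoCurv (φ : E → ℝ) (m : ℕ) (p : E) : Prop :=
  ∃ (k : ℕ) (lam : ℝ), 1 ≤ k ∧ k < m ∧ 0 < lam ∧ (k : ℝ) * lam ^ 2 = (m : ℝ) - k ∧
    (∀ s, (ContinuousLinearMap.id ℝ E + s • hs φ p).det
      = (1 - lam * s) ^ k * (1 + s / lam) ^ (m - k)) ∧
    (∃ v, v ≠ 0 ∧ hs φ p v = (-lam) • v) ∧ (∃ w, w ≠ 0 ∧ hs φ p w = (1 / lam) • w)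

theorem PS_bound {φ : E → ℝ} {p : E} {s a : ℝ} (h : PS φ p s) {v : E} (hv : v ≠ 0)
    (hva : hs φ p v = a • v) : 0 ≤ 1 + s * a := by
  have h1 := h v
  rw [hva, real_inner_smul_left, real_inner_self_eq_norm_sq] at h1
  have h2 : 0 < ‖v‖ ^ 2 := pow_pos (norm_pos_iff.2 hv) 2
  by_contra hneg
  push Not at hneg
  nlinarith

variable [MeasurableSpace E] [BorelSpace E]

omit [MeasurableSpace E] [BorelSpace E] in
/-- the pointwise bound -/
theorem lint_le {φ : E → ℝ} {m : ℕ} {p : E} (h : TwoCurv φ m p) :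
    ∫⁻ s, HH φ p s * ENNReal.ofReal (ww s ^ (m + 2) / ((m + 2 : ℕ) : ℝ)) ≤
      ENNReal.ofReal (unitSphereArea (m + 1) / WW m / ((m + 2 : ℕ) : ℝ)) := by
  obtain ⟨k, lam, hk, hkm, hlam, hl, hdet, ⟨v, hv, hvl⟩, ⟨w, hw, hwl⟩⟩ := h
  have hm2 : 2 ≤ m := by omega
  set F : ℝ → ℝ := fun s => (1 - lam * s) ^ k * (1 + s / lam) ^ (m - k) * ww s ^ (m + 2) with hF
  have hFc : Continuous F := by
    have := continuous_ww
    fun_prop
  have hnn : (0 : ℝ) < ((m + 2 : ℕ) : ℝ) := by positivity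
  have hle : -lam ≤ 1 / lam := by
    have : 0 < 1 / lam := by positivity
    linarith
  have hFnn : ∀ s ∈ Ioc (-lam) (1 / lam), 0 ≤ F s := by
    intro s hs
    have h1 : 0 ≤ 1 - lam * s := by
      have := mul_le_mul_of_nonneg_left hs.2 hlam.le
      rw [mul_one_div_cancel hlam.ne'] at this
      linarith
    have h2 : 0 ≤ 1 + s / lam := by
      have : -1 ≤ s / lam := by rw [le_div_iff₀ hlam]; linarith [hs.1]
      linarith
    have := (ww_pos s).le
    simp only [hF]
    positivity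
  calc ∫⁻ s, HH φ p s * ENNReal.ofReal (ww s ^ (m + 2) / ((m + 2 : ℕ) : ℝ))
      ≤ ∫⁻ s, (Icc (-lam) (1 / lam)).indicator
          (fun s => ENNReal.ofReal (F s / ((m + 2 : ℕ) : ℝ))) s := by
        refine lintegral_mono fun s => ?_
        by_cases hs : PS φ p s
        · have b1 := PS_bound hs hv hvl
          have b2 := PS_bound hs hw hwl
          have hs1 : s ∈ Icc (-lam) (1 / lam) := by
            constructor
            · have : -1 ≤ s * (1 / lam) := by linarith
              rw [mul_one_div, le_div_iff₀ hlam] at this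
              linarith
            · rw [le_div_iff₀ hlam]; linarith
          simp only [HH]
          rw [indicator_of_mem hs1, indicator_of_mem (show s ∈ {s | PS φ p s} from hs),
            jt, hdet, abs_of_nonneg, ← ENNReal.ofReal_mul]
          · refine ENNReal.ofReal_le_ofReal (le_of_eq ?_)
            simp only [hF]; ring
          · have h1 : 0 ≤ 1 - lam * s := by linarith
            have h2 : 0 ≤ 1 + s / lam := by rw [div_eq_mul_one_div]; exact b2
            positivity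
          · have h1 : 0 ≤ 1 - lam * s := by linarith
            have h2 : 0 ≤ 1 + s / lam := by rw [div_eq_mul_one_div]; exact b2
            positivity
        · simp only [HH]
          rw [indicator_of_notMem (show s ∉ {s | PS φ p s} from hs), zero_mul]
          exact bot_le
    _ = ENNReal.ofReal (∫ s in (-lam)..(1 / lam), F s / ((m + 2 : ℕ) : ℝ)) := by
        rw [lintegral_indicator measurableSet_Icc,
          Measure.restrict_congr_set (Ioc_ae_eq_Icc (a := -lam) (b := 1 / lam)).symm,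
          intervalIntegral.integral_of_le hle, ofReal_integral_eq_lintegral_ofReal]
        · exact ((hFc.div_const _).intervalIntegrable _ _).1
        · filter_upwards [ae_restrict_mem measurableSet_Ioc] with s hs
          exact div_nonneg (hFnn s hs) hnn.le
    _ = ENNReal.ofReal (unitSphereArea (m + 1) / cliffordVolume m k / ((m + 2 : ℕ) : ℝ)) := by
        rw [intervalIntegral.integral_div, scal_int hk hkm hlam hl]
    _ ≤ _ := by
        refine ENNReal.ofReal_le_ofReal ?_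
        have h1 := WW_le_cliffordVolume hk hkm
        have h2 := unitSphereArea_pos (m + 1)
        have h3 : 0 < WW m := by
          obtain ⟨j, hj, hjm, he⟩ := exists_WW_eq hm2
          rw [← he, cliffordVolume_eq hj hjm]
          exact mul_pos (th_pos hj (by omega)) (unitSphereArea_pos m)
        gcongr

/-- volume of the unit ball -/
theorem vol_ball {m : ℕ} (hdim : finrank ℝ E = m + 2) [Nontrivial E] :
    volume (Metric.ball (0 : E) 1) =
      ENNReal.ofReal (unitSphereArea (m + 1) / ((m + 2 : ℕ) : ℝ)) := by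
  rw [InnerProductSpace.volume_ball, hdim, ENNReal.ofReal_one, one_pow, one_mul]
  congr 1
  have hG : Real.Gamma (((m + 2 : ℕ) : ℝ) / 2 + 1) =
      (((m + 2 : ℕ) : ℝ) / 2) * Real.Gamma (((m + 2 : ℕ) : ℝ) / 2) :=
    Real.Gamma_add_one (by positivity)
  have hGp : 0 < Real.Gamma (((m + 2 : ℕ) : ℝ) / 2) := Real.Gamma_pos_of_pos (by positivity)
  rw [hG, unitSphereArea]
  have e1 : (((m + 1 : ℕ) : ℝ) + 1) / 2 = ((m + 2 : ℕ) : ℝ) / 2 := by push_cast; ring
  rw [e1]
  have e2 : Real.sqrt Real.pi ^ (m + 2) = Real.pi ^ (((m + 2 : ℕ) : ℝ) / 2) := by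
    rw [Real.sqrt_eq_rpow, ← Real.rpow_natCast, ← Real.rpow_mul Real.pi_pos.le]
    congr 1
    ring
  rw [e2]
  have hn : (0 : ℝ) < ((m + 2 : ℕ) : ℝ) := by positivity
  field_simp

/-- **Heintze-Karcher with two principal curvatures.** -/
theorem hk_two {m : ℕ} (hm : 2 ≤ m) (hdim : finrank ℝ E = m + 2) {φ : E → ℝ} {b : ℝ}
    (hT : Tube φ b) {c : ℝ} (hc0 : 0 ≤ c) (hc1 : c < 1)
    (hd : ∀ x, Metric.infDist x {y | φ y = 0} ≤ c * ‖x‖)
    (h2 : ∀ p ∈ Lk φ, TwoCurv φ m p) :
    ENNReal.ofReal (WW m) ≤ mu φ b univ := by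
  have : Nontrivial E := Module.nontrivial_of_finrank_pos (R := ℝ) (by omega)
  have h := hk_ineq hT hc0 hc1 hd
  rw [vol_ball hdim, hdim] at h
  have h3 : 0 < WW m := by
    obtain ⟨j, hj, hjm, he⟩ := exists_WW_eq hm
    rw [← he, cliffordVolume_eq hj hjm]
    exact mul_pos (th_pos hj (by omega)) (unitSphereArea_pos m)
  have h4 := unitSphereArea_pos (m + 1)
  have hn : (0 : ℝ) < ((m + 2 : ℕ) : ℝ) := by positivity
  have h5 : ∫⁻ p, (∫⁻ s, HH φ p s * ENNReal.ofReal (ww s ^ (m + 2) / ((m + 2 : ℕ) : ℝ)))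
      ∂(mu φ b) ≤ ENNReal.ofReal (unitSphereArea (m + 1) / WW m / ((m + 2 : ℕ) : ℝ)) *
        mu φ b univ := by
    rw [← lintegral_const]
    refine lintegral_mono_ae ?_
    filter_upwards [hT.ae_mem_Lk] with p hp
    exact lint_le (h2 p hp)
  have h6 := h.trans h5
  have h7 : ENNReal.ofReal (unitSphereArea (m + 1) / ((m + 2 : ℕ) : ℝ)) =
      ENNReal.ofReal (unitSphereArea (m + 1) / WW m / ((m + 2 : ℕ) : ℝ)) *
        ENNReal.ofReal (WW m) := by
    rw [← ENNReal.ofReal_mul (by positivity)]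
    congr 1
    field_simp
  rw [h7] at h6
  refine (ENNReal.mul_le_mul_iff_right ?_ ENNReal.ofReal_ne_top).1 h6
  rw [ne_eq, ENNReal.ofReal_eq_zero, not_le]
  positivity

end Crest.Agent.R246.HK149
end
end

-- ▼ part R246/HK4_149
section

/-!
# Heintze-Karcher step, part 4: from the pairwise relation of principal curvatures to `TwoCurv`
-/

set_option autoImplicit false
noncomputable section
open MeasureTheory Set Filter Topology Module
open scoped RealInnerProductSpace ContDiff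
open Crest.GeometryTopology.SphereImmersion

namespace Crest.Agent.R246.HK149

open Crest.Agent.R246.H990 Crest.Agent.R246.SM436 Crest.Agent.R246.ThetaK688
open Crest.Agent.R246.HerschSM900 (A2 A2_eq_sum)

variable {E : Type*} [NormedAddCommGroup E] [InnerProductSpace ℝ E] [FiniteDimensional ℝ E]

omit [FiniteDimensional ℝ E] in
/-- determinant in an eigenbasis -/
theorem det_eigen {n : ℕ} (B : OrthonormalBasis (Fin n) ℝ E) (T : E →L[ℝ] E) (κ : Fin n → ℝ)
    (h : ∀ i, T (B i) = κ i • B i) (s : ℝ) :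
    (ContinuousLinearMap.id ℝ E + s • T).det = ∏ i, (1 + s * κ i) := by
  rw [ContinuousLinearMap.det, ← LinearMap.det_toMatrix B.toBasis]
  have e : LinearMap.toMatrix B.toBasis B.toBasis
      ((ContinuousLinearMap.id ℝ E + s • T : E →L[ℝ] E) : E →ₗ[ℝ] E) =
      Matrix.diagonal (fun i => 1 + s * κ i) := by
    ext i j
    rw [LinearMap.toMatrix_apply, Matrix.diagonal_apply]
    have h1 : (((ContinuousLinearMap.id ℝ E + s • T : E →L[ℝ] E) : E →ₗ[ℝ] E)) (B.toBasis j) =
        (1 + s * κ j) • B.toBasis j := by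
      simp only [OrthonormalBasis.coe_toBasis, ContinuousLinearMap.coe_coe, add_apply,
        ContinuousLinearMap.id_apply, smul_apply, h j]
      module
    rw [h1, map_smul, Finsupp.smul_apply, Basis.repr_self, Finsupp.single_apply, smul_eq_mul]
    by_cases hij : i = j
    · subst hij; simp
    · rw [if_neg (fun h => hij h.symm), if_neg hij, mul_zero]
  rw [e, Matrix.det_diagonal]

theorem twoCurv_of_pair {φ : E → ℝ} {m : ℕ} (hm : 1 ≤ m) (hdim : finrank ℝ E = m + 2) {p : E}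
    (hg : Good φ p) (htr : LinearMap.trace ℝ E (hs φ p : E →ₗ[ℝ] E) = 0) (hA2 : A2 φ p = m)
    (hpair : ∀ (v w : E) (a b : ℝ), v ≠ 0 → w ≠ 0 → a ≠ 0 → b ≠ 0 → hs φ p v = a • v →
      hs φ p w = b • w → a = b ∨ a * b = -1) : TwoCurv φ m p := by
  classical
  have hsym : ((hs φ p : E →L[ℝ] E) : E →ₗ[ℝ] E).IsSymmetric := fun v w => hg.hs_symm v w
  set B := hsym.eigenvectorBasis hdim with hB
  set κ : Fin (m + 2) → ℝ := hsym.eigenvalues hdim with hκ
  have hBκ : ∀ i, hs φ p (B i) = κ i • B i := fun i => by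
    exact hsym.apply_eigenvectorBasis hdim i
  have hB0 : ∀ i, B i ≠ 0 := fun i h => by
    have := B.orthonormal.1 i
    rw [h, norm_zero] at this
    exact zero_ne_one this
  have hsum : ∑ i, κ i = 0 := by
    rw [← htr, LinearMap.trace_eq_sum_inner _ B]
    refine Finset.sum_congr rfl fun i _ => ?_
    rw [ContinuousLinearMap.coe_coe, hBκ, inner_smul_right, real_inner_self_eq_norm_sq,
      B.orthonormal.1 i]
    simp
  have hsq : ∑ i, κ i ^ 2 = m := by
    rw [← hA2, A2_eq_sum hg B]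
    refine Finset.sum_congr rfl fun i _ => ?_
    rw [hBκ, norm_smul, B.orthonormal.1 i, mul_one, Real.norm_eq_abs, sq_abs]
  have hmp : (0 : ℝ) < m := by exact_mod_cast hm
  have hne : ∃ i ∈ Finset.univ, κ i ≠ 0 := by
    by_contra hcon
    push Not at hcon
    have : ∑ i, κ i ^ 2 = 0 := Finset.sum_eq_zero fun i _ => by rw [hcon i (Finset.mem_univ i)]; ring
    linarith
  obtain ⟨j₀, -, hj₀⟩ := Finset.exists_pos_of_sum_zero_of_exists_nonzero κ hsum hne
  obtain ⟨i₀, -, hi₀⟩ := Finset.exists_pos_of_sum_zero_of_exists_nonzero (fun i => - κ i)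
    (by rw [Finset.sum_neg_distrib, hsum, neg_zero]) (by simpa using hne)
  set lam : ℝ := - κ i₀ with hlam
  have hlam0 : 0 < lam := hi₀
  have hall : ∀ i, κ i ≠ 0 → κ i = -lam ∨ κ i = 1 / lam := by
    intro i hi
    rcases hpair (B i) (B i₀) (κ i) (κ i₀) (hB0 i) (hB0 i₀) hi (by linarith) (hBκ i) (hBκ i₀)
      with h | h
    · left; rw [h, hlam, neg_neg]
    · right
      rw [eq_div_iff hlam0.ne', hlam]; linarith
  have hne1 : -lam ≠ 1 / lam := by
    have : 0 < 1 / lam := by positivity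
    linarith
  set S1 := Finset.univ.filter (fun i => κ i = -lam) with hS1
  set S2 := Finset.univ.filter (fun i => κ i = 1 / lam) with hS2
  set k := S1.card with hk
  set l := S2.card with hl
  have hi₀1 : i₀ ∈ S1 := by simp [hS1, hlam]
  have hj₀2 : j₀ ∈ S2 := by
    rcases hall j₀ hj₀.ne' with h | h
    · rw [h] at hj₀; linarith
    · simp [hS2, h]
  have hk1 : 1 ≤ k := Finset.card_pos.2 ⟨i₀, hi₀1⟩
  have hl1 : 1 ≤ l := Finset.card_pos.2 ⟨j₀, hj₀2⟩
  have hlr : (1 : ℝ) ≤ l := by exact_mod_cast hl1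
  -- general sums
  have hprod : ∀ f : ℝ → ℝ, f 0 = 1 → ∏ i, f (κ i) = f (-lam) ^ k * f (1 / lam) ^ l := by
    intro f hf
    have h1 := Finset.prod_filter_mul_prod_filter_not Finset.univ (fun i => κ i = -lam)
      (fun i => f (κ i))
    have h2 := Finset.prod_filter_mul_prod_filter_not
      (Finset.univ.filter (fun i => ¬ κ i = -lam)) (fun i => κ i = 1 / lam) (fun i => f (κ i))
    have h3 : ((Finset.univ.filter (fun i => ¬ κ i = -lam)).filter (fun i => κ i = 1 / lam)) =
        S2 := by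
      ext i
      simp only [hS2, Finset.mem_filter, Finset.mem_univ, true_and]
      constructor
      · rintro ⟨-, h⟩; exact h
      · intro h; exact ⟨by rw [h]; exact hne1.symm, h⟩
    have h4 : ∏ i ∈ (Finset.univ.filter (fun i => ¬ κ i = -lam)).filter
        (fun i => ¬ κ i = 1 / lam), f (κ i) = 1 := by
      refine Finset.prod_eq_one fun i hi => ?_
      simp only [Finset.mem_filter, Finset.mem_univ, true_and] at hi
      by_cases h0 : κ i = 0
      · rw [h0, hf]
      · rcases hall i h0 with h | h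
        · exact absurd h hi.1
        · exact absurd h hi.2
    have h5 : ∏ i ∈ S1, f (κ i) = f (-lam) ^ k := by
      rw [hk, ← Finset.prod_const]
      refine Finset.prod_congr rfl fun i hi => ?_
      rw [(Finset.mem_filter.1 hi).2]
    have h6 : ∏ i ∈ S2, f (κ i) = f (1 / lam) ^ l := by
      rw [hl, ← Finset.prod_const]
      refine Finset.prod_congr rfl fun i hi => ?_
      rw [(Finset.mem_filter.1 hi).2]
    rw [h3, h4, mul_one, h6] at h2
    rw [← h2, h5] at h1
    exact h1.symm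
  have hsumg : ∀ f : ℝ → ℝ, f 0 = 0 → ∑ i, f (κ i) = k * f (-lam) + l * f (1 / lam) := by
    intro f hf
    have h1 := Finset.sum_filter_add_sum_filter_not Finset.univ (fun i => κ i = -lam)
      (fun i => f (κ i))
    have h2 := Finset.sum_filter_add_sum_filter_not
      (Finset.univ.filter (fun i => ¬ κ i = -lam)) (fun i => κ i = 1 / lam) (fun i => f (κ i))
    have h3 : ((Finset.univ.filter (fun i => ¬ κ i = -lam)).filter (fun i => κ i = 1 / lam)) =
        S2 := by
      ext i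
      simp only [hS2, Finset.mem_filter, Finset.mem_univ, true_and]
      constructor
      · rintro ⟨-, h⟩; exact h
      · intro h; exact ⟨by rw [h]; exact hne1.symm, h⟩
    have h4 : ∑ i ∈ (Finset.univ.filter (fun i => ¬ κ i = -lam)).filter
        (fun i => ¬ κ i = 1 / lam), f (κ i) = 0 := by
      refine Finset.sum_eq_zero fun i hi => ?_
      simp only [Finset.mem_filter, Finset.mem_univ, true_and] at hi
      by_cases h0 : κ i = 0
      · rw [h0, hf]
      · rcases hall i h0 with h | h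
        · exact absurd h hi.1
        · exact absurd h hi.2
    have h5 : ∑ i ∈ S1, f (κ i) = k * f (-lam) := by
      rw [hk, ← nsmul_eq_mul, ← Finset.sum_const]
      refine Finset.sum_congr rfl fun i hi => ?_
      rw [(Finset.mem_filter.1 hi).2]
    have h6 : ∑ i ∈ S2, f (κ i) = l * f (1 / lam) := by
      rw [hl, ← nsmul_eq_mul, ← Finset.sum_const]
      refine Finset.sum_congr rfl fun i hi => ?_
      rw [(Finset.mem_filter.1 hi).2]
    rw [h3, h4, add_zero, h6] at h2
    rw [← h2, h5] at h1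
    exact h1.symm
  have e1 := hsumg (fun x => x) rfl
  have e2 := hsumg (fun x => x ^ 2) (by simp)
  rw [hsum] at e1
  rw [hsq] at e2
  have e3 : (l : ℝ) = k * lam ^ 2 := by
    field_simp at e1
    linarith
  have e4 : (m : ℝ) = k + l := by
    rw [e2]
    have : (l : ℝ) * (1 / lam) ^ 2 = k := by
      rw [e3]; field_simp
    rw [this, neg_sq, ← e3]; ring
  have e4' : m = k + l := by exact_mod_cast e4
  refine ⟨k, lam, hk1, by omega, hlam0, by rw [← e3, e4]; ring, fun s => ?_,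
    ⟨B i₀, hB0 i₀, by rw [hBκ, hlam, neg_neg]⟩, ⟨B j₀, hB0 j₀, ?_⟩⟩
  · rw [det_eigen B (hs φ p) κ hBκ s, hprod (fun x => 1 + s * x) (by simp)]
    have : m - k = l := by omega
    rw [this]
    congr 2 <;> ring
  · rw [hBκ, (Finset.mem_filter.1 hj₀2).2]

end Crest.Agent.R246.HK149
end
end

-- ▼ part R246/HK5_149

/-!
# Heintze-Karcher step, part 5: the input `StHK` of the skeleton
-/

set_option autoImplicit false
noncomputable section
open MeasureTheory Set Filter Topology Module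
open scoped RealInnerProductSpace ContDiff
open Crest.GeometryTopology.SphereImmersion

namespace Crest.Agent.R246.HK149

open Crest.Agent.R246.H990 Crest.Agent.R246.SM436 Crest.Agent.R246.ThetaK688
open Crest.Agent.R246.HerschSM900 (A2 A2_eq_sum)

theorem perp_of_eigen {E : Type*} [NormedAddCommGroup E] [InnerProductSpace ℝ E]
    [FiniteDimensional ℝ E] {φ : E → ℝ} (hom : ∀ t : ℝ, 0 ≤ t → ∀ x, φ (t • x) = t * φ x)
    {p : E} (hg : Good φ p) {v : E} {a : ℝ} (ha : a ≠ 0) (hv : hs φ p v = a • v) :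
    ⟪v, p⟫ = 0 ∧ ⟪v, gradient φ p⟫ = 0 := by
  constructor
  · have h := hg.hs_symm v p
    rw [hg.hs_self hom, inner_zero_right, hv, real_inner_smul_left] at h
    exact (mul_eq_zero.1 h).resolve_left ha
  · have h := hg.hs_symm v (gradient φ p)
    rw [hg.hs_gradient, inner_zero_right, hv, real_inner_smul_left] at h
    exact (mul_eq_zero.1 h).resolve_left ha

theorem stHK {m : ℕ} (hm : 2 ≤ m) : Skel2.StHK m := by
  intro φ b S hD hT hA h2 htc
  obtain ⟨c, hc0, hc1, hc⟩ := S.nc.bd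
  have hfin := hA.fin
  have hd : ∀ x, Metric.infDist x {y | φ y = 0} ≤ c * ‖x‖ := fun x => by
    rw [← Skel2.signedDist hD x]; exact hc x
  have hE : finrank ℝ (Skel656.E m) = m + 2 := by simp [Skel656.E]
  have h := hk_two hm hE hT hc0 hc1 hd (fun p hp => ?_)
  · rwa [ENNReal.ofReal_le_iff_le_toReal (measure_ne_top _ _)] at h
  · have hp0 : p ≠ 0 := by rintro rfl; simpa using hp.1
    have hg := S.good p hp0 hp.2
    refine twoCurv_of_pair (by omega) hE hg (S.min p hp0 hp.2) (h2 p hp.1 hp.2) ?_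
    intro v w a b' hv hw ha hb hva hwb
    obtain ⟨v1, v2⟩ := perp_of_eigen S.nc.hom hg ha hva
    obtain ⟨w1, w2⟩ := perp_of_eigen S.nc.hom hg hb hwb
    have hvn : 0 < ‖v‖ := norm_pos_iff.2 hv
    have hwn : 0 < ‖w‖ := norm_pos_iff.2 hw
    refine htc p hp.1 hp.2 (‖v‖⁻¹ • v) (‖w‖⁻¹ • w) a b' ?_ ?_ ?_ ?_ ?_ ?_ ?_ ?_
    · rw [norm_smul, norm_inv, norm_norm, inv_mul_cancel₀ hvn.ne']
    · rw [norm_smul, norm_inv, norm_norm, inv_mul_cancel₀ hwn.ne']
    · rw [real_inner_smul_left, v1, mul_zero]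
    · rw [real_inner_smul_left, w1, mul_zero]
    · rw [real_inner_smul_left, v2, mul_zero]
    · rw [real_inner_smul_left, w2, mul_zero]
    · rw [map_smul, hva, smul_comm]
    · rw [map_smul, hwb, smul_comm]

end Crest.Agent.R246.HK149
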