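import Crest.Agent.R246.IN4_200
import Crest.Agent.R246.SM5_436
import Mathlib.Analysis.SpecialFunctions.Trigonometric.ArctanDeriv
import Mathlib.Analysis.Calculus.BumpFunction.Basic

-- ▼ part R246/IN5_200
section

/-!
Row 246, block I(I) (helper200), part 5: LEMMA N (energy expansion), integrated form.
-/

set_option autoImplicit false

open MeasureTheory Filter Topology Metric Set
open scoped ContDiff
open Crest.GeometryTopology.CoordMetric Crest.GeometryTopology.AffineMaximal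
open Crest.Agent.R236.Jet Crest.Agent.R202.SphDiv Crest.Agent.R246.D2x782

noncomputable section

namespace Crest.Agent.R246.IN200

variable {n : ℕ}

local notation "EE" => EuclideanSpace ℝ (Fin n)

variable {r η q : EuclideanSpace ℝ (Fin n) → ℝ} {T : Set (EuclideanSpace ℝ (Fin n))} {t1 K : ℝ}

/-- LEMMA N: second order expansion of the energy -/
theorem Tube.energy_expand (h : Tube r η q T t1 K) (hn : 0 < n) :
    ∃ C δ0 : ℝ, 0 ≤ C ∧ 0 < δ0 ∧ δ0 ≤ 1 / 2 ∧ δ0 ≤ t1 / 4 ∧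
      ∀ (ε δ : ℝ) (f hh : EuclideanSpace ℝ (Fin n) → ℝ),
      0 < ε → ε ≤ 1 → 0 ≤ δ → δ ≤ δ0 → Small T δ r f hh →
      |(∫ z : Sph n, η z * eden ε (rhoF r f hh) z ∂(sig n))
        - (∫ z : Sph n, η z * eden ε r z ∂(sig n))
        + 1 / 2 * ∫ z : Sph n, η z * GG ε (r z) * (q z * f z ^ 2 + f z * slap f z) ∂(sig n)|
        ≤ C * (δ ^ 3 + ε) := by
  -- the constants
  obtain ⟨k1, k1n, hk1⟩ := exists_bound (f := q) fun x hx => h.q_sm.cont hx
  obtain ⟨k2, k2n, hk2⟩ := exists_bound (f := sdot q r) fun x hx =>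
    h.q_sm.cont_sdot h.r_sm.c1 hx
  obtain ⟨k3, k3n, hk3⟩ := exists_bound (f := slap r) fun x hx => h.r_sm.c1_slap.cont hx
  obtain ⟨k4, k4n, hk4⟩ := exists_bound (f := r) fun x hx => h.r_sm.c1.cont hx
  obtain ⟨k5, k5n, hk5⟩ := exists_bound (f := sdot η r) fun x hx =>
    h.η_sm.c1.cont_sdot h.r_sm.c1 hx
  obtain ⟨k6, k6n, hk6⟩ := exists_bound (f := sgsq η) fun x hx =>
    h.η_sm.c1.cont_sdot h.η_sm.c1 hx
  obtain ⟨Kq, hK1, g1, g2, g3, g4, g5, g6⟩ : ∃ Kq : ℝ, 1 ≤ Kq ∧ k1 ≤ Kq ∧ k2 ≤ Kq ∧ k3 ≤ Kq ∧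
      k4 ≤ Kq ∧ k5 ≤ Kq ∧ k6 ≤ Kq :=
    ⟨1 + k1 + k2 + k3 + k4 + k5 + k6, by linarith, by linarith, by linarith, by linarith,
      by linarith, by linarith, by linarith⟩
  have hTB := TBc_nonneg r η
  have hK0 := h.K_nonneg
  have ht1 := h.t1_pos
  set MS : ℝ := (sig n).real univ with hMS
  have hMS0 : 0 ≤ MS := measureReal_nonneg
  refine ⟨(4 * Kq + 2) * (4 * TBc r η) + Kq * (4 * TBc r η)
    + (K + 5 * Kq ^ 2 + 2) * (160 * TBc r η) + 12 * Kq ^ 4 / t1 * MS,
    min (1 / 2) (t1 / 4), by positivity, by positivity, min_le_left _ _, min_le_right _ _, ?_⟩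
  intro ε δ f hh hε hε1 hδ hδ0 hS
  have hδ2 : δ ≤ 1 / 2 := hδ0.trans (min_le_left _ _)
  have hδ1 : δ ≤ 1 := by linarith
  have hδt : δ ≤ t1 / 4 := hδ0.trans (min_le_right _ _)
  have hd2 : δ ^ 2 ≤ 1 / 2 := by nlinarith
  have hd3 : 0 ≤ δ ^ 3 := by positivity
  have rc := h.r_sm.c1
  have fc := hS.f_sm.c1
  have hc := hS.h_c1
  have ηc := h.η_sm.c1
  have Lc := hS.f_sm.c1_slap
  have qc := h.q_sm
  have ρc := c1_rhoF rc fc hc
  have Dc := c1_DF (ε := ε) rc fc hc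
  have bc := c1_bF qc rc fc Lc
  have ζ1c : C1 (fun x => η x * (DF ε r f hh x * bF q r f x)) := ηc.mul (Dc.mul bc)
  have ζ2c : C1 (fun x => η x * DF ε r f hh x) := ηc.mul Dc
  have ibp1 : ∫ z : Sph n, I1 ε η q r f hh z ∂(sig n) = 0 := sphere_ibp hn h.r_sm ζ1c
  have ibp2 : ∫ z : Sph n, I2 ε η r f hh z ∂(sig n) = 0 := sphere_ibp hn hS.f_sm ζ2c
  -- continuity
  have cG : ∀ g : EE → ℝ, C1 g → ∀ x : EE, x ≠ 0 → ContinuousAt (fun x => GG ε (g x)) x :=
    fun g gc x hx => ((continuous_GG ε).continuousAt).comp (gc.cont hx)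
  have cE : ∀ g : EE → ℝ, C1 g → ∀ x : EE, x ≠ 0 →
      ContinuousAt (fun x => η x * eden ε g x) x := by
    intro g gc x hx
    have h1 : (fun x => η x * eden ε g x) = fun x => η x * (GG ε (g x) * ((1 + sgsq g x) / 2)) := by
      funext x; rw [eden_eq]
    rw [h1]
    exact (ηc.cont hx).mul ((cG g gc x hx).mul
      ((continuousAt_const.add (gc.cont_sdot gc hx)).div_const 2))
  have iJ1 : Integrable (fun z : Sph n => η z * eden ε (rhoF r f hh) z) (sig n) :=
    integrable_sph (f := fun x => η x * eden ε (rhoF r f hh) x) (cE _ ρc)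
  have iJ2 : Integrable (fun z : Sph n => η z * eden ε r z) (sig n) :=
    integrable_sph (f := fun x => η x * eden ε r x) (cE _ rc)
  have iJ3 : Integrable (fun z : Sph n => J3 ε η q r f z) (sig n) :=
    integrable_sph (f := J3 ε η q r f) fun x hx =>
      ((ηc.cont hx).mul (cG r rc x hx)).mul
        (((qc.cont hx).mul ((fc.cont hx).pow 2)).add ((fc.cont hx).mul (Lc.cont hx)))
  have iI1 : Integrable (fun z : Sph n => I1 ε η q r f hh z) (sig n) :=
    integrable_sph (f := I1 ε η q r f hh) fun x hx =>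
      ((ζ1c.cont hx).mul (h.r_sm.c1_slap.cont hx)).add (ζ1c.cont_sdot rc hx)
  have iI2 : Integrable (fun z : Sph n => I2 ε η r f hh z) (sig n) :=
    integrable_sph (f := I2 ε η r f hh) fun x hx =>
      ((ζ2c.cont hx).mul (Lc.cont hx)).add (ζ2c.cont_sdot fc hx)
  have iM1 : Integrable (fun z : Sph n => η z * GG ε (rhoF r f hh z)
      * (rhoF r f hh z ^ 2 + |rhoF r f hh z| + δ ^ 3)) (sig n) :=
    integrable_sph (f := fun x => η x * GG ε (rhoF r f hh x)
      * (rhoF r f hh x ^ 2 + |rhoF r f hh x| + δ ^ 3)) fun x hx =>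
      ((ηc.cont hx).mul (cG _ ρc x hx)).mul
        ((((ρc.cont hx).pow 2).add (ρc.cont hx).abs).add continuousAt_const)
  have iM2 : Integrable (fun z : Sph n => η z * GG ε (r z) * (r z ^ 2 + |r z| + 0)) (sig n) :=
    integrable_sph (f := fun x => η x * GG ε (r x) * (r x ^ 2 + |r x| + 0)) fun x hx =>
      ((ηc.cont hx).mul (cG _ rc x hx)).mul
        ((((rc.cont hx).pow 2).add (rc.cont hx).abs).add continuousAt_const)
  have cW : Continuous (WW ε (2 * δ)) := by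
    unfold WW
    have := continuous_XX ε
    fun_prop
  have iM3 : Integrable (fun z : Sph n => η z * (WW ε (2 * δ) (r z) * (r z ^ 2 + δ ^ 2))) (sig n) :=
    integrable_sph (f := fun x => η x * (WW ε (2 * δ) (r x) * (r x ^ 2 + δ ^ 2))) fun x hx =>
      (ηc.cont hx).mul (((cW.continuousAt).comp (rc.cont hx)).mul
        (((rc.cont hx).pow 2).add continuousAt_const))
  -- tube conditions
  have hρr2 : ∀ z : Sph n, (z : EE) ∈ T → 1 / 2 ≤ sdot (rhoF r f hh) r z := by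
    intro z hz
    have hz0 := sph_ne z
    rw [sdot_rhoF rc fc hc hz0, hS.perp z hz, ← sgsq_eq r, h.eik z hz]
    have h1 := sdot_abs_le (a := hh) (b := r) (x := z) (α := δ ^ 2) (β := 1) (sq_nonneg _)
      zero_le_one (by rw [← pow_mul]; exact hS.h1 z hz) (by rw [h.eik z hz]; norm_num)
    have h2 := (abs_le.1 h1).1
    linarith
  have hrr2 : ∀ z : Sph n, (z : EE) ∈ T → 1 / 2 ≤ sdot r r z := fun z hz => by
    rw [← sgsq_eq, h.eik z hz]; norm_num
  have B1 := h.moment hn ρc hρr2 hε hε1 hd3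
  have B2 := h.moment hn rc hrr2 hε hε1 (le_refl (0 : ℝ))
  have B3 := h.window hn hε hε1 hδ hδ1
  -- the pointwise bound
  have htail : 0 ≤ 12 * Kq ^ 4 / t1 * ε := by positivity
  have hpt : ∀ z : Sph n, |η z * eden ε (rhoF r f hh) z - η z * eden ε r z
        + 1 / 2 * J3 ε η q r f z - I1 ε η q r f hh z + 1 / 2 * I2 ε η r f hh z|
      ≤ (4 * Kq + 2) * (η z * GG ε (rhoF r f hh z)
          * (rhoF r f hh z ^ 2 + |rhoF r f hh z| + δ ^ 3))
        + Kq * (η z * GG ε (r z) * (r z ^ 2 + |r z| + 0))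
        + (K + 5 * Kq ^ 2 + 2) * (η z * (WW ε (2 * δ) (r z) * (r z ^ 2 + δ ^ 2)))
        + 12 * Kq ^ 4 / t1 * ε := by
    intro z
    by_cases hz : (z : EE) ∈ T
    · exact h.err_in hK1 hε hδ hδ1 hδt hS hz ((hk1 z).trans g1) ((hk2 z).trans g2)
        ((hk3 z).trans g3) ((hk4 z).trans g4) ((hk5 z).trans g5)
        (((le_abs_self _).trans (hk6 z)).trans g6)
    · rw [h.err_out fc Lc hc hz, abs_zero]
      have hG1 := GG_nonneg hε (rhoF r f hh z)
      have hG0 := GG_nonneg hε (r z)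
      have hη := h.η_nonneg z
      have hWW := WW_nonneg hε (by linarith : (0 : ℝ) ≤ 2 * δ) (r z)
      positivity
  -- integrate
  have iL1 := (iJ1.sub iJ2).add (iJ3.const_mul (1 / 2))
  have iL2 := (iL1.sub iI1).add (iI2.const_mul (1 / 2))
  have iR1 := ((iM1.const_mul (4 * Kq + 2)).add (iM2.const_mul Kq)).add
    (iM3.const_mul (K + 5 * Kq ^ 2 + 2))
  have iR2 := iR1.add (integrable_const (μ := sig n) (12 * Kq ^ 4 / t1 * ε))
  have e1 : |∫ z : Sph n, (η z * eden ε (rhoF r f hh) z - η z * eden ε r z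
        + 1 / 2 * J3 ε η q r f z - I1 ε η q r f hh z + 1 / 2 * I2 ε η r f hh z) ∂(sig n)|
      ≤ ∫ z : Sph n, ((4 * Kq + 2) * (η z * GG ε (rhoF r f hh z)
          * (rhoF r f hh z ^ 2 + |rhoF r f hh z| + δ ^ 3))
        + Kq * (η z * GG ε (r z) * (r z ^ 2 + |r z| + 0))
        + (K + 5 * Kq ^ 2 + 2) * (η z * (WW ε (2 * δ) (r z) * (r z ^ 2 + δ ^ 2)))
        + 12 * Kq ^ 4 / t1 * ε) ∂(sig n) :=
    abs_integral_le_integral_abs.trans (integral_mono iL2.abs iR2 hpt)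
  have e2 : ∫ z : Sph n, (η z * eden ε (rhoF r f hh) z - η z * eden ε r z
        + 1 / 2 * J3 ε η q r f z - I1 ε η q r f hh z + 1 / 2 * I2 ε η r f hh z) ∂(sig n)
      = (∫ z : Sph n, η z * eden ε (rhoF r f hh) z ∂(sig n))
        - (∫ z : Sph n, η z * eden ε r z ∂(sig n))
        + 1 / 2 * ∫ z : Sph n, J3 ε η q r f z ∂(sig n) := by
    have f1 := integral_add' (iL1.sub iI1) (iI2.const_mul (1 / 2))
    have f2 := integral_sub' iL1 iI1
    have f3 := integral_add' (iJ1.sub iJ2) (iJ3.const_mul (1 / 2))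
    have f4 := integral_sub' iJ1 iJ2
    rw [integral_const_mul, ibp2] at f1
    rw [ibp1] at f2
    rw [integral_const_mul] at f3
    have f5 : ∫ z : Sph n, (η z * eden ε (rhoF r f hh) z - η z * eden ε r z
        + 1 / 2 * J3 ε η q r f z - I1 ε η q r f hh z + 1 / 2 * I2 ε η r f hh z) ∂(sig n)
        = ∫ a : Sph n, ((((fun z : Sph n => η z * eden ε (rhoF r f hh) z)
          - fun z : Sph n => η z * eden ε r z)
          + fun z : Sph n => 1 / 2 * J3 ε η q r f z) - (fun z : Sph n => I1 ε η q r f hh z)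
          + fun z : Sph n => 1 / 2 * I2 ε η r f hh z) a ∂(sig n) := rfl
    rw [f5, f1, f2, f3, f4]
    ring
  have e3 : ∫ z : Sph n, ((4 * Kq + 2) * (η z * GG ε (rhoF r f hh z)
          * (rhoF r f hh z ^ 2 + |rhoF r f hh z| + δ ^ 3))
        + Kq * (η z * GG ε (r z) * (r z ^ 2 + |r z| + 0))
        + (K + 5 * Kq ^ 2 + 2) * (η z * (WW ε (2 * δ) (r z) * (r z ^ 2 + δ ^ 2)))
        + 12 * Kq ^ 4 / t1 * ε) ∂(sig n)
      = (4 * Kq + 2) * (∫ z : Sph n, η z * GG ε (rhoF r f hh z)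
          * (rhoF r f hh z ^ 2 + |rhoF r f hh z| + δ ^ 3) ∂(sig n))
        + Kq * (∫ z : Sph n, η z * GG ε (r z) * (r z ^ 2 + |r z| + 0) ∂(sig n))
        + (K + 5 * Kq ^ 2 + 2) * (∫ z : Sph n, η z * (WW ε (2 * δ) (r z)
            * (r z ^ 2 + δ ^ 2)) ∂(sig n))
        + 12 * Kq ^ 4 / t1 * ε * MS := by
    have f1 := integral_add' iR1 (integrable_const (μ := sig n) (12 * Kq ^ 4 / t1 * ε))
    have f2 := integral_add' ((iM1.const_mul (4 * Kq + 2)).add (iM2.const_mul Kq))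
      (iM3.const_mul (K + 5 * Kq ^ 2 + 2))
    have f3 := integral_add' (iM1.const_mul (4 * Kq + 2)) (iM2.const_mul Kq)
    rw [integral_const_mul, integral_const_mul] at f3
    rw [integral_const_mul] at f2
    rw [integral_const] at f1
    refine Eq.trans ?_ (f1.trans ?_)
    · rfl
    · rw [f2, f3, smul_eq_mul]
      ring
  rw [e2] at e1
  rw [e3] at e1
  have e4 : (∫ z : Sph n, J3 ε η q r f z ∂(sig n))
      = ∫ z : Sph n, η z * GG ε (r z) * (q z * f z ^ 2 + f z * slap f z) ∂(sig n) := rfl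
  rw [e4] at e1
  refine e1.trans ?_
  have g1' : (4 * Kq + 2) * (∫ z : Sph n, η z * GG ε (rhoF r f hh z)
          * (rhoF r f hh z ^ 2 + |rhoF r f hh z| + δ ^ 3) ∂(sig n))
      ≤ (4 * Kq + 2) * (4 * TBc r η * (ε + δ ^ 3)) := by gcongr
  have g2' : Kq * (∫ z : Sph n, η z * GG ε (r z) * (r z ^ 2 + |r z| + 0) ∂(sig n))
      ≤ Kq * (4 * TBc r η * (ε + 0)) := by gcongr
  have g3' : (K + 5 * Kq ^ 2 + 2) * (∫ z : Sph n, η z * (WW ε (2 * δ) (r z)
            * (r z ^ 2 + δ ^ 2)) ∂(sig n))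
      ≤ (K + 5 * Kq ^ 2 + 2) * (160 * TBc r η * (δ ^ 3 + ε)) := by gcongr
  have g4' : Kq * (4 * TBc r η * (ε + 0)) ≤ Kq * (4 * TBc r η * (δ ^ 3 + ε)) := by
    have : ε + 0 ≤ δ ^ 3 + ε := by linarith
    gcongr
  have g5' : 12 * Kq ^ 4 / t1 * ε * MS ≤ 12 * Kq ^ 4 / t1 * MS * (δ ^ 3 + ε) := by
    have : 0 ≤ 12 * Kq ^ 4 / t1 * MS * δ ^ 3 := by positivity
    nlinarith
  have g6' := add_le_add (add_le_add (add_le_add g1' (g2'.trans g4')) g3') g5'
  refine g6'.trans (le_of_eq ?_)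
  ring

end Crest.Agent.R246.IN200
end
end

-- ▼ part R246/IN6_200
section

/-!
Row 246, block I(I) (helper200), part 6: the angular distance function of a smooth hypercone.
-/

set_option autoImplicit false

open MeasureTheory Filter Topology Metric Set
open scoped ContDiff RealInnerProductSpace
open Crest.GeometryTopology.CoordMetric Crest.GeometryTopology.AffineMaximal
open Crest.Agent.R236.Jet Crest.Agent.R202.SphDiv Crest.Agent.R246.D2x782

noncomputable section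

namespace Crest.Agent.R246.IN200

variable {n : ℕ}

local notation "EE" => EuclideanSpace ℝ (Fin n)

/-! ### coordinates and gradients -/

theorem pderiv_eq_gradient (a : EE → ℝ) (x : EE) (j : Fin n) : pderiv j a x = gradient a x j := by
  have h : ⟪gradient a x, EuclideanSpace.single j (1 : ℝ)⟫
      = fderiv ℝ a x (EuclideanSpace.single j 1) := SM436.inner_gradient a x _
  rw [EuclideanSpace.inner_single_right] at h
  unfold pderiv
  rw [← h]
  simp

theorem sdot_eq_inner (a b : EE → ℝ) (x : EE) :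
    sdot a b x = ‖x‖ ^ 2 * ⟪gradient a x, gradient b x⟫ := by
  unfold sdot
  rw [nsq_eq]
  congr 1
  simp only [PiLp.inner_apply, pderiv_eq_gradient]
  exact Finset.sum_congr rfl fun j _ => by simp [mul_comm]

theorem sdot_sph (a b : EE → ℝ) (z : Sph n) :
    sdot a b z = ⟪gradient a z, gradient b z⟫ := by
  rw [sdot_eq_inner, ← nsq_eq, nsq_sph, one_mul]

theorem hess_eq_inner {R : EE → ℝ} {x : EE} {L : EE →L[ℝ] EE} (h : HasFDerivAt (gradient R) L x)
    (i j : Fin n) :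
    hessianMat R x i j = ⟪L (EuclideanSpace.single i 1), EuclideanSpace.single j (1 : ℝ)⟫ := by
  unfold hessianMat
  have h1 : (fun y => pderiv j R y)
      = fun y => ⟪gradient R y, EuclideanSpace.single j (1 : ℝ)⟫ := by
    funext y
    rw [SM436.inner_gradient]; rfl
  rw [h1]
  unfold pderiv
  have h2 := h.inner ℝ (hasFDerivAt_const (EuclideanSpace.single j (1 : ℝ)) x)
  rw [h2.fderiv]
  simp

theorem lapl_eq_tr {R : EE → ℝ} {x : EE} {L : EE →L[ℝ] EE} (h : HasFDerivAt (gradient R) L x) :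
    lapl R x = SM436.tr L := by
  unfold lapl
  rw [SM436.tr_eq_sum L (EuclideanSpace.basisFun (Fin n) ℝ)]
  refine Finset.sum_congr rfl fun i _ => ?_
  rw [hess_eq_inner h, real_inner_comm]
  simp

theorem hess_sq_eq {R : EE → ℝ} {x : EE} {L : EE →L[ℝ] EE} (h : HasFDerivAt (gradient R) L x) :
    ∑ i, ∑ j, hessianMat R x i j ^ 2 = ∑ i, ‖L (EuclideanSpace.basisFun (Fin n) ℝ i)‖ ^ 2 := by
  refine Finset.sum_congr rfl fun i _ => ?_
  rw [EuclideanSpace.real_norm_sq_eq]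
  refine Finset.sum_congr rfl fun j _ => ?_
  rw [hess_eq_inner h, EuclideanSpace.inner_single_right]
  simp

theorem gradient_congr {a b : EE → ℝ} {x : EE} (h : a =ᶠ[𝓝 x] b) : gradient a x = gradient b x := by
  simp only [SM436.gradient_eq_comp, h.fderiv_eq]

theorem sdot_congr_left {a b c : EE → ℝ} {x : EE} (h : a =ᶠ[𝓝 x] b) : sdot a c x = sdot b c x := by
  rw [sdot_eq_inner, sdot_eq_inner, gradient_congr h]

theorem sdot_congr_right {a b c : EE → ℝ} {x : EE} (h : a =ᶠ[𝓝 x] b) : sdot c a x = sdot c b x := by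
  rw [sdot_eq_inner, sdot_eq_inner, gradient_congr h]

theorem hasFDerivAt_gradient_eq {a : EE → ℝ} {x g : EE} (h : HasFDerivAt a (innerSL ℝ g) x) :
    gradient a x = g := by
  rw [SM436.gradient_eq_comp]
  apply (InnerProductSpace.toDual ℝ EE).injective
  show (InnerProductSpace.toDual ℝ EE) ((InnerProductSpace.toDual ℝ EE).symm (fderiv ℝ a x)) = _
  rw [LinearIsometryEquiv.apply_symm_apply, h.fderiv]
  ext v
  simp

/-! ### cut-offs in the tube -/

/-- cut-off function on the line -/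
def bmp (c1 c2 : ℝ) (h1 : 0 < c1) (h2 : c1 < c2) : ContDiffBump (0 : ℝ) := ⟨c1, c2, h1, h2⟩

section tube

variable {φ : EuclideanSpace ℝ (Fin n) → ℝ} {b : ℝ}

theorem continuousAt_ta (hT : SM436.Tube φ b) {x : EE} (hx : x ≠ 0) :
    ContinuousAt (SM436.ta φ) x :=
  (hT.lip.continuous.continuousAt).div (hT.continuous_rr.continuousAt) (hT.rr_pos hx).ne'

theorem mem_TT_iff (hT : SM436.Tube φ b) {x : EE} (hx : x ≠ 0) :
    x ∈ SM436.TT φ b ↔ |SM436.ta φ x| < b := by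
  have h := hT.rr_pos hx
  constructor
  · exact fun h => hT.abs_ta_lt h
  · intro h1
    refine ⟨h, ?_⟩
    rwa [SM436.ta, abs_div, abs_of_pos h, div_lt_iff₀ h] at h1

/-- smoothness of cut-off functions -/
theorem contDiffAt_cut (hT : SM436.Tube φ b) {χ : ℝ → ℝ} (hχ : ContDiff ℝ ∞ χ) {c : ℝ} (hc : c < b)
    (hχ0 : ∀ t, c ≤ |t| → χ t = 0) {k : WithTop ℕ∞} (hk : k ≤ ∞) {F : EE → ℝ} {x : EE} (hx : x ≠ 0)
    (hF : |SM436.ta φ x| ≤ c → ContDiffAt ℝ k F x) :
    ContDiffAt ℝ k (fun x => χ (SM436.ta φ x) * F x) x := by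
  by_cases h : |SM436.ta φ x| ≤ c
  · have hxT := (mem_TT_iff hT hx).2 (h.trans_lt hc)
    exact ((hχ.contDiffAt.comp x (hT.contDiffAt_ta hxT)).of_le hk).mul (hF h)
  · have h1 : c < |SM436.ta φ x| := not_le.1 h
    have h2 : ∀ᶠ y in 𝓝 x, c < |SM436.ta φ y| :=
      (continuousAt_ta hT hx).abs.eventually (lt_mem_nhds h1)
    have h3 : (fun x => χ (SM436.ta φ x) * F x) =ᶠ[𝓝 x] fun _ => 0 := by
      filter_upwards [h2] with y hy
      rw [hχ0 _ hy.le, zero_mul]
    exact contDiffAt_const.congr_of_eventuallyEq h3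

theorem smHom0_cut (hT : SM436.Tube φ b) {χ : ℝ → ℝ} (hχ : ContDiff ℝ ∞ χ) {c : ℝ} (hc : c < b)
    (hχ0 : ∀ t, c ≤ |t| → χ t = 0) {F : EE → ℝ}
    (hF : ∀ x ∈ SM436.TT φ b, ContDiffAt ℝ ∞ F x)
    (hh : ∀ x ∈ SM436.TT φ b, ∀ t : ℝ, 0 < t → F (t • x) = F x) :
    SmHom0 (fun x => χ (SM436.ta φ x) * F x) where
  smooth := fun x hx => contDiffAt_cut hT hχ hc hχ0 le_rfl hx fun h =>
    hF x ((mem_TT_iff hT hx).2 (h.trans_lt hc))
  hom := by
    intro t x ht
    show χ (SM436.ta φ (t • x)) * F (t • x) = χ (SM436.ta φ x) * F x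
    rw [hT.ta_smul x ht]
    rcases eq_or_ne x 0 with rfl | hx
    · rw [smul_zero]
    · by_cases h : |SM436.ta φ x| < b
      · rw [hh x ((mem_TT_iff hT hx).2 h) t ht]
      · rw [hχ0 _ (hc.le.trans (not_lt.1 h)), zero_mul, zero_mul]

/-! ### the angular distance -/

/-- angular distance (in the tube) -/
def r0 (φ : EuclideanSpace ℝ (Fin n) → ℝ) (x : EuclideanSpace ℝ (Fin n)) : ℝ :=
  Real.arctan (SM436.ta φ x)

/-- its gradient -/
def gr (φ : EuclideanSpace ℝ (Fin n) → ℝ) (y : EuclideanSpace ℝ (Fin n)) :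
    EuclideanSpace ℝ (Fin n) :=
  (‖y‖ ^ 2)⁻¹ • (SM436.rr φ y • gradient φ y - SM436.ta φ y • SM436.ft φ y)

theorem hasFDerivAt_r0 (hT : SM436.Tube φ b) {y : EE} (hy : y ∈ SM436.TT φ b) :
    HasFDerivAt (r0 φ) (innerSL ℝ (gr φ y)) y := by
  have h1 := (hT.good hy).hasFDerivAt
  have h2 := hT.hasFDerivAt_rr hy
  have hr := hy.1
  have hr0 := hy.1.ne'
  have h3 : HasFDerivAt (fun y => (SM436.rr φ y)⁻¹)
      ((-(SM436.rr φ y ^ 2)⁻¹) • ((SM436.rr φ y)⁻¹ • innerSL ℝ (SM436.ft φ y))) y :=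
    (hasDerivAt_inv hr0).comp_hasFDerivAt y h2
  have h4 := h1.mul h3
  have h5 : HasFDerivAt (SM436.ta φ) (φ y • ((-(SM436.rr φ y ^ 2)⁻¹) •
      ((SM436.rr φ y)⁻¹ • innerSL ℝ (SM436.ft φ y)))
      + (SM436.rr φ y)⁻¹ • innerSL ℝ (gradient φ y)) y := by
    refine h4.congr_of_eventuallyEq (Eventually.of_forall fun x => ?_)
    show φ x / SM436.rr φ x = φ x * (SM436.rr φ x)⁻¹
    rw [div_eq_mul_inv]
  have h6 : HasFDerivAt (r0 φ) _ y := h5.arctan
  refine h6.congr_fderiv ?_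
  have hy2 : ‖y‖ ^ 2 = SM436.rr φ y ^ 2 + φ y ^ 2 := by rw [hT.rr_sq]; ring
  have hpos : 0 < ‖y‖ ^ 2 := by rw [hy2]; positivity
  have ht : 1 + SM436.ta φ y ^ 2 = ‖y‖ ^ 2 / SM436.rr φ y ^ 2 := by
    rw [hy2, SM436.ta]; field_simp
  ext v
  simp only [smul_apply, add_apply, innerSL_apply_apply,
    smul_eq_mul, gr, inner_sub_left, real_inner_smul_left, ht]
  rw [SM436.ta]
  field_simp
  ring

theorem gradient_r0 (hT : SM436.Tube φ b) {y : EE} (hy : y ∈ SM436.TT φ b) :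
    gradient (r0 φ) y = gr φ y := hasFDerivAt_gradient_eq (hasFDerivAt_r0 hT hy)

theorem norm_gr_sq (hT : SM436.Tube φ b) {y : EE} (hy : y ∈ SM436.TT φ b) :
    ‖gr φ y‖ ^ 2 = (‖y‖ ^ 2)⁻¹ := by
  have hr := hy.1
  have hy2 : ‖y‖ ^ 2 = SM436.rr φ y ^ 2 + φ y ^ 2 := by rw [hT.rr_sq]; ring
  have hpos : 0 < ‖y‖ ^ 2 := by rw [hy2]; positivity
  have h1 : ‖SM436.rr φ y • gradient φ y - SM436.ta φ y • SM436.ft φ y‖ ^ 2 = ‖y‖ ^ 2 := by
    rw [norm_sub_sq_real, norm_smul, norm_smul, (hT.good hy).norm_gradient, hT.norm_ft hy,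
      inner_smul_left, inner_smul_right, hT.inner_gradient_ft hy, Real.norm_eq_abs,
      Real.norm_eq_abs, mul_one, mul_pow, sq_abs, sq_abs, hy2, SM436.ta]
    field_simp
    simp
    ring
  unfold gr
  rw [norm_smul, mul_pow, h1, Real.norm_eq_abs, abs_inv, abs_of_pos hpos]
  field_simp

/-- derivative of the gradient at the link -/
theorem hasFDerivAt_gr_Lk (hT : SM436.Tube φ b) {p : EE} (hp : p ∈ SM436.Lk φ) :
    HasFDerivAt (gr φ) (SM436.hs φ p - (innerSL ℝ p).smulRight (gradient φ p)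
      - (innerSL ℝ (gradient φ p)).smulRight p) p := by
  have hpT := hT.TT_of_Lk hp
  have h1 := (hT.good hpT).hasFDerivAt_gradient
  have h2 := hT.hasFDerivAt_rr_Lk hp
  have hr := hT.rr_Lk hp
  have hf := hT.ft_Lk hp
  have hta : SM436.ta φ p = 0 := by rw [SM436.ta, hp.2, zero_div]
  have h3 : HasFDerivAt (SM436.ta φ) (innerSL ℝ (gradient φ p)) p := by
    have h4 : HasFDerivAt (fun y => (SM436.rr φ y)⁻¹)
        ((-(SM436.rr φ p ^ 2)⁻¹) • innerSL ℝ p) p :=
      (hasDerivAt_inv (x := SM436.rr φ p) (by rw [hr]; norm_num)).comp_hasFDerivAt p h2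
    have h5 := ((hT.good hpT).hasFDerivAt).mul h4
    have h6 : φ p • ((-(SM436.rr φ p ^ 2)⁻¹) • innerSL ℝ p)
        + (SM436.rr φ p)⁻¹ • innerSL ℝ (gradient φ p) = innerSL ℝ (gradient φ p) := by
      rw [hp.2, hr]; simp
    rw [h6] at h5
    refine h5.congr_of_eventuallyEq (Eventually.of_forall fun x => ?_)
    show φ x / SM436.rr φ x = φ x * (SM436.rr φ x)⁻¹
    rw [div_eq_mul_inv]
  have h7 := hT.hasFDerivAt_ft hpT
  have h8 : HasFDerivAt (fun y : EE => (‖y‖ ^ 2)⁻¹) ((-2 : ℝ) • innerSL ℝ p) p := by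
    have h9 : HasFDerivAt (fun y : EE => ‖y‖ ^ 2) ((2 : ℝ) • innerSL ℝ p) p := by
      refine ((hasStrictFDerivAt_norm_sq p).hasFDerivAt).congr_fderiv ?_
      ext v; simp
    have h10 := (hasDerivAt_inv (x := ‖p‖ ^ 2) (by rw [hp.1]; norm_num)).comp_hasFDerivAt p h9
    rw [hp.1] at h10
    refine h10.congr_fderiv ?_
    ext v; simp
  have h11 := h8.smul ((h2.smul h1).sub (h3.smul h7))
  refine h11.congr_fderiv ?_
  ext1 v
  simp only [Pi.sub_apply, Pi.smul_apply', hr, hf, hta, hp.1, hp.2, smul_apply, add_apply, sub_apply,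
    ContinuousLinearMap.smulRight_apply, innerSL_apply_apply, smul_eq_mul, one_smul, zero_smul,
    one_pow, inv_one, zero_apply]
  module

end tube

end Crest.Agent.R246.IN200
end
end

-- ▼ part R246/IN7_200
section

/-!
Row 246, block I(I) (helper200), part 7: the tube of a smooth minimal hypercone.
-/

set_option autoImplicit false

open MeasureTheory Filter Topology Metric Set
open scoped ContDiff RealInnerProductSpace
open Crest.GeometryTopology.CoordMetric Crest.GeometryTopology.AffineMaximal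
open Crest.Agent.R236.Jet Crest.Agent.R202.SphDiv Crest.Agent.R246.D2x782

noncomputable section

namespace Crest.Agent.R246.IN200

variable {n : ℕ}

local notation "EE" => EuclideanSpace ℝ (Fin n)

/-! ### cut-off functions -/

/-- outer cut-off -/
def chR {b : ℝ} (hb : 0 < b) : ContDiffBump (0 : ℝ) :=
  bmp (b / 2) (3 * b / 4) (by linarith) (by linarith)

/-- inner cut-off -/
def chE {b : ℝ} (hb : 0 < b) : ContDiffBump (0 : ℝ) :=
  bmp (b / 8) (b / 4) (by linarith) (by linarith)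

section cutoffs

variable {b : ℝ} (hb : 0 < b)

theorem chR_one {t : ℝ} (ht : |t| ≤ b / 2) : chR hb t = 1 :=
  (chR hb).one_of_mem_closedBall (by simpa [chR, bmp] using ht)

theorem chR_zero {t : ℝ} (ht : 3 * b / 4 ≤ |t|) : chR hb t = 0 :=
  (chR hb).zero_of_le_dist (by simpa [chR, bmp] using ht)

theorem chE_one {t : ℝ} (ht : |t| ≤ b / 8) : chE hb t = 1 :=
  (chE hb).one_of_mem_closedBall (by simpa [chE, bmp] using ht)

theorem chE_zero {t : ℝ} (ht : b / 4 ≤ |t|) : chE hb t = 0 :=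
  (chE hb).zero_of_le_dist (by simpa [chE, bmp] using ht)

theorem chR_sm : ContDiff ℝ ∞ (chR hb) := (chR hb).contDiff

theorem chE_sm : ContDiff ℝ ∞ (chE hb) := (chE hb).contDiff

theorem chE_nonneg (t : ℝ) : 0 ≤ chE hb t := (chE hb).nonneg

theorem chE_le (t : ℝ) : chE hb t ≤ 1 := (chE hb).le_one

end cutoffs

section tube

variable {φ : EuclideanSpace ℝ (Fin n) → ℝ} {b : ℝ}

/-- the region where the cut-off is one -/
def TR (φ : EuclideanSpace ℝ (Fin n) → ℝ) (b : ℝ) : Set (EuclideanSpace ℝ (Fin n)) :=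
  {x | x ∈ SM436.TT φ b ∧ |SM436.ta φ x| < b / 2}

theorem isOpen_TR (hT : SM436.Tube φ b) : IsOpen (TR φ b) := by
  rw [isOpen_iff_mem_nhds]
  rintro x ⟨hx, hx2⟩
  filter_upwards [hT.isOpen_TT.mem_nhds hx,
    (continuousAt_ta hT (hT.ne_zero hx)).abs.eventually (gt_mem_nhds hx2)] with y h1 h2
  exact ⟨h1, h2⟩

theorem mem_TR_iff (hT : SM436.Tube φ b) {x : EE} (hx : x ≠ 0) :
    x ∈ TR φ b ↔ |SM436.ta φ x| < b / 2 := by
  have hb := hT.hb
  refine ⟨fun h => h.2, fun h => ⟨(mem_TT_iff hT hx).2 (by linarith), h⟩⟩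

theorem Lk_TR (hT : SM436.Tube φ b) {p : EE} (hp : p ∈ SM436.Lk φ) : p ∈ TR φ b := by
  refine ⟨hT.TT_of_Lk hp, ?_⟩
  have hb := hT.hb
  rw [SM436.ta, hp.2, zero_div, abs_zero]
  linarith

/-- the (cut off) angular distance -/
def rF (φ : EuclideanSpace ℝ (Fin n) → ℝ) {b : ℝ} (hb : 0 < b) (x : EuclideanSpace ℝ (Fin n)) : ℝ :=
  chR hb (SM436.ta φ x) * r0 φ x

/-- the cut-off function -/
def eF (φ : EuclideanSpace ℝ (Fin n) → ℝ) {b : ℝ} (hb : 0 < b) (x : EuclideanSpace ℝ (Fin n)) : ℝ :=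
  chE hb (SM436.ta φ x) * 1

theorem rF_sm (hT : SM436.Tube φ b) : SmHom0 (rF φ hT.hb) := by
  refine smHom0_cut hT (chR_sm hT.hb) (c := 3 * b / 4) (by have := hT.hb; linarith)
    (fun t ht => chR_zero hT.hb ht) (F := r0 φ) ?_ ?_
  · intro x hx
    exact Real.contDiff_arctan.contDiffAt.comp x (hT.contDiffAt_ta hx)
  · intro x _ t ht
    show Real.arctan _ = Real.arctan _
    rw [hT.ta_smul x ht]

theorem eF_sm (hT : SM436.Tube φ b) : SmHom0 (eF φ hT.hb) := by
  refine smHom0_cut hT (chE_sm hT.hb) (c := b / 4) (by have := hT.hb; linarith)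
    (fun t ht => chE_zero hT.hb ht) (F := fun _ => 1) ?_ ?_
  · intro x hx
    exact contDiffAt_const
  · intro x _ t ht
    rfl

theorem rF_eq (hT : SM436.Tube φ b) {x : EE} (hx : x ∈ TR φ b) : rF φ hT.hb x = r0 φ x := by
  unfold rF
  rw [chR_one hT.hb hx.2.le, one_mul]

theorem rF_ev (hT : SM436.Tube φ b) {x : EE} (hx : x ∈ TR φ b) : rF φ hT.hb =ᶠ[𝓝 x] r0 φ := by
  filter_upwards [(isOpen_TR hT).mem_nhds hx] with y hy using rF_eq hT hy

theorem gradient_rF (hT : SM436.Tube φ b) {x : EE} (hx : x ∈ TR φ b) :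
    gradient (rF φ hT.hb) x = gr φ x := by
  rw [gradient_congr (rF_ev hT hx), gradient_r0 hT hx.1]

theorem sgsq_rF (hT : SM436.Tube φ b) {x : EE} (hx : x ∈ TR φ b) : sgsq (rF φ hT.hb) x = 1 := by
  rw [sgsq_eq, sdot_eq_inner, gradient_rF hT hx, real_inner_self_eq_norm_sq, norm_gr_sq hT hx.1]
  have := norm_pos_iff.2 (hT.ne_zero hx.1)
  field_simp

theorem hasFDerivAt_gradient_rF_Lk (hT : SM436.Tube φ b) {p : EE} (hp : p ∈ SM436.Lk φ) :
    HasFDerivAt (gradient (rF φ hT.hb)) (SM436.hs φ p - (innerSL ℝ p).smulRight (gradient φ p)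
      - (innerSL ℝ (gradient φ p)).smulRight p) p := by
  refine (hasFDerivAt_gr_Lk hT hp).congr_of_eventuallyEq ?_
  filter_upwards [(isOpen_TR hT).mem_nhds (Lk_TR hT hp)] with y hy using gradient_rF hT hy

theorem nsq_Lk {p : EE} (hp : p ∈ SM436.Lk φ) : nsq p = 1 := by
  rw [nsq_eq, hp.1]; norm_num

theorem slap_rF_Lk (hT : SM436.Tube φ b) {p : EE} (hp : p ∈ SM436.Lk φ)
    (hmin : LinearMap.trace ℝ EE (SM436.hs φ p : EE →ₗ[ℝ] EE) = 0) :
    slap (rF φ hT.hb) p = 0 := by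
  unfold slap
  rw [nsq_Lk hp, one_mul, lapl_eq_tr (hasFDerivAt_gradient_rF_Lk hT hp), SM436.tr_sub,
    SM436.tr_sub, SM436.tr_smulRight, SM436.tr_smulRight]
  have h1 : SM436.tr (SM436.hs φ p) = 0 := hmin
  rw [h1, innerSL_apply_apply, innerSL_apply_apply, real_inner_comm, hT.inner_gradient_Lk hp]
  ring

/-- the potential -/
def qF (φ : EuclideanSpace ℝ (Fin n) → ℝ) {b : ℝ} (hb : 0 < b) (x : EuclideanSpace ℝ (Fin n)) : ℝ :=
  - sdot (slap (rF φ hb)) (rF φ hb) x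

theorem slap_sm {R : EE → ℝ} (h : SmHom0 R) {x : EE} (hx : x ≠ 0) : ContDiffAt ℝ ∞ (slap R) x :=
  h.smooth_slap hx

theorem sdot_smooth {a c : EE → ℝ} {x : EE} (ha : ContDiffAt ℝ ∞ a x) (hc : ContDiffAt ℝ ∞ c x) :
    ContDiffAt ℝ ∞ (sdot a c) x := by
  unfold sdot
  exact (smooth_nsq x).mul (ContDiffAt.sum fun j _ => (sm_pderiv ha j).mul (sm_pderiv hc j))

theorem qF_sm (hT : SM436.Tube φ b) : C1 (qF φ hT.hb) := fun x hx =>
  ((sdot_smooth (slap_sm (rF_sm hT) hx) ((rF_sm hT).smooth x hx)).neg).of_le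
    (by exact_mod_cast le_top)

theorem sum_norm_L (hT : SM436.Tube φ b) {p : EE} (hp : p ∈ SM436.Lk φ) :
    ∑ i, ‖(SM436.hs φ p - (innerSL ℝ p).smulRight (gradient φ p)
      - (innerSL ℝ (gradient φ p)).smulRight p) (EuclideanSpace.basisFun (Fin n) ℝ i)‖ ^ 2
      = HerschSM900.A2 φ p + 2 := by
  set e := EuclideanSpace.basisFun (Fin n) ℝ with he
  have hg := hT.good (hT.TT_of_Lk hp)
  have h1 : ∀ v : EE, ‖(SM436.hs φ p - (innerSL ℝ p).smulRight (gradient φ p)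
      - (innerSL ℝ (gradient φ p)).smulRight p) v‖ ^ 2
      = ‖SM436.hs φ p v‖ ^ 2 + ⟪p, v⟫ ^ 2 + ⟪gradient φ p, v⟫ ^ 2 := by
    intro v
    have a1 : ⟪SM436.hs φ p v, gradient φ p⟫ = 0 := by
      rw [hg.hs_symm, hT.hs_gradient_Lk hp, inner_zero_right]
    have a2 : ⟪SM436.hs φ p v, p⟫ = 0 := by
      rw [hg.hs_symm, hT.hs_self_Lk hp, inner_zero_right]
    have a3 : ⟪gradient φ p, p⟫ = 0 := hT.inner_gradient_Lk hp
    have a4 : ⟪gradient φ p, gradient φ p⟫ = 1 := by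
      rw [real_inner_self_eq_norm_sq, hT.norm_gradient_Lk hp]; norm_num
    have a5 : ⟪p, p⟫ = (1 : ℝ) := by rw [real_inner_self_eq_norm_sq, hp.1]; norm_num
    have a6 : ⟪p, gradient φ p⟫ = 0 := by rw [real_inner_comm]; exact a3
    have a7 : ⟪gradient φ p, SM436.hs φ p v⟫ = 0 := by rw [real_inner_comm]; exact a1
    have a8 : ⟪p, SM436.hs φ p v⟫ = 0 := by rw [real_inner_comm]; exact a2
    rw [← real_inner_self_eq_norm_sq, ← real_inner_self_eq_norm_sq]
    simp only [sub_apply, ContinuousLinearMap.smulRight_apply, innerSL_apply_apply,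
      inner_sub_left, inner_sub_right, real_inner_smul_left, real_inner_smul_right, a1, a2, a3, a4,
      a5, a6, a7, a8]
    ring
  have h2 : ∀ w : EE, ∑ i, ⟪w, e i⟫ ^ 2 = ‖w‖ ^ 2 := by
    intro w
    have := e.sum_sq_norm_inner_left w
    rw [← this]
    refine Finset.sum_congr rfl fun i _ => ?_
    rw [Real.norm_eq_abs, sq_abs]
  rw [Finset.sum_congr rfl fun i _ => h1 (e i), Finset.sum_add_distrib, Finset.sum_add_distrib,
    h2, h2, hp.1, hT.norm_gradient_Lk hp, HerschSM900.A2_eq_sum hg e]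
  norm_num
  ring

theorem qF_Lk (hT : SM436.Tube φ b) {p : EE} (hp : p ∈ SM436.Lk φ) :
    qF φ hT.hb p = HerschSM900.A2 φ p + ((n : ℝ) - 2) := by
  set r := rF φ hT.hb with hr
  have hsm := rF_sm hT
  have hp0 : p ≠ 0 := hT.ne_zero_of_Lk hp
  have h1 := hsm.lapl_sgsq hp0
  have h2 : lapl (sgsq r) p = 0 := by
    have h3 : sgsq r =ᶠ[𝓝 p] fun _ => 1 := by
      filter_upwards [(isOpen_TR hT).mem_nhds (Lk_TR hT hp)] with y hy using sgsq_rF hT hy
    unfold lapl
    refine Finset.sum_eq_zero fun i _ => ?_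
    have h4 := hess_congr h3 i i
    rw [h4]
    exact hess_const _ _ _ _
  have h5 : gsq r p = 1 := by
    have := sgsq_rF hT (Lk_TR hT hp)
    unfold sgsq at this
    rw [nsq_Lk hp, one_mul] at this
    exact this
  rw [h2, h5, nsq_Lk hp, hess_sq_eq (hasFDerivAt_gradient_rF_Lk hT hp), sum_norm_L hT hp] at h1
  have h6 : sdot (slap r) r p = ∑ j, pderiv j r p * pderiv j (lapl r) p := by
    unfold sdot
    rw [nsq_Lk hp, one_mul]
    have h7 : ∀ j, pderiv j (slap r) p = pderiv j (lapl r) p + 2 * p j * lapl r p := by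
      intro j
      have : pderiv j (slap r) p = pderiv j (fun y => nsq y * lapl r y) p := rfl
      rw [this, pderiv_mul (sm_diff (smooth_nsq p)) (sm_diff (hsm.smooth_lapl hp0)), nsq_Lk hp,
        SmHom0.pderiv_nsq]
      ring
    have h8 : ∑ j, p j * pderiv j r p = 0 := hsm.euler hp0
    have h9 : ∑ j, pderiv j (slap r) p * pderiv j r p
        = ∑ j, pderiv j r p * pderiv j (lapl r) p + 2 * lapl r p * ∑ j, p j * pderiv j r p := by
      rw [Finset.mul_sum, ← Finset.sum_add_distrib]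
      refine Finset.sum_congr rfl fun j _ => ?_
      rw [h7]; ring
    rw [h9, h8]; ring
  show - sdot (slap r) r p = _
  rw [h6]
  linarith

/-! ### the normal geodesics -/

/-- normal geodesic -/
def geo (φ : EuclideanSpace ℝ (Fin n) → ℝ) (p : EuclideanSpace ℝ (Fin n)) (s : ℝ) :
    EuclideanSpace ℝ (Fin n) := Real.cos s • p + Real.sin s • gradient φ p

theorem hasDerivAt_geo (φ : EE → ℝ) (p : EE) (s : ℝ) :
    HasDerivAt (geo φ p) (Real.cos s • gradient φ p - Real.sin s • p) s := by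
  have h := ((Real.hasDerivAt_cos s).smul_const p).add
    ((Real.hasDerivAt_sin s).smul_const (gradient φ p))
  refine h.congr_deriv ?_
  module

theorem tan_lt {c s : ℝ} (hs : |s| < Real.arctan c) : |Real.tan s| < c ∧ 0 < Real.cos s := by
  have h1 := abs_lt.1 hs
  have h2 := Real.arctan_lt_pi_div_two c
  have h3 : 0 < Real.cos s := Real.cos_pos_of_mem_Ioo ⟨by linarith, by linarith⟩
  refine ⟨?_, h3⟩
  rw [abs_lt]
  constructor
  · have h4 := Real.tan_lt_tan_of_lt_of_lt_pi_div_two (x := -s) (y := Real.arctan c)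
      (by linarith) h2 (by linarith)
    rw [Real.tan_neg, Real.tan_arctan] at h4
    linarith
  · have h4 := Real.tan_lt_tan_of_lt_of_lt_pi_div_two (x := s) (y := Real.arctan c)
      (by linarith) h2 (by linarith)
    rwa [Real.tan_arctan] at h4

theorem geo_props (hT : SM436.Tube φ b) {p : EE} (hp : p ∈ SM436.Lk φ) {s : ℝ}
    (hs : |s| < Real.arctan (b / 2)) :
    geo φ p s ∈ TR φ b ∧ ‖geo φ p s‖ = 1 ∧ r0 φ (geo φ p s) = s ∧ SM436.pp φ (geo φ p s) = p ∧
      gr φ (geo φ p s) = Real.cos s • gradient φ p - Real.sin s • p := by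
  have hb := hT.hb
  obtain ⟨h1, h2⟩ := tan_lt hs
  have h3 : geo φ p s = Real.cos s • (p + Real.tan s • gradient φ p) := by
    unfold geo
    rw [smul_add, smul_smul, mul_comm (Real.cos s) (Real.tan s), Real.tan_mul_cos h2.ne']
  obtain ⟨g1, g2, g3, g4⟩ := hT.seg' hp.1 hp.2 h2 (τ := Real.tan s) (by linarith)
  rw [← h3] at g1 g2 g3 g4
  have hmem : geo φ p s ∈ TR φ b := ⟨g1, by rw [g4]; exact h1⟩
  have hgrad : gradient φ (geo φ p s) = gradient φ p := by
    rw [← hT.gradient_pp g1, g2]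
  have hn : ‖geo φ p s‖ = 1 := by
    have h4 : ‖geo φ p s‖ ^ 2 = 1 := by
      unfold geo
      rw [norm_add_sq_real, norm_smul, norm_smul, hp.1, hT.norm_gradient_Lk hp,
        real_inner_smul_left, real_inner_smul_right, real_inner_comm, hT.inner_gradient_Lk hp]
      simp
    exact (pow_left_inj₀ (norm_nonneg _) zero_le_one two_ne_zero).1 (by rw [h4]; norm_num)
  refine ⟨hmem, hn, ?_, g2, ?_⟩
  · unfold r0
    rw [g4]
    have h5 := abs_lt.1 hs
    have h6 := Real.arctan_lt_pi_div_two (b / 2)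
    exact Real.arctan_tan (by linarith) (by linarith)
  · have hft : SM436.ft φ (geo φ p s) = Real.cos s • p := by
      have : SM436.ft φ (geo φ p s)
          = SM436.rr φ (geo φ p s) • SM436.pp φ (geo φ p s) := by
        unfold SM436.pp
        rw [smul_smul, mul_inv_cancel₀ g1.1.ne', one_smul]
      rw [this, g2, g3]
    unfold gr
    rw [hn, hft, g3, g4, hgrad, one_pow, inv_one, one_smul, smul_smul, Real.tan_mul_cos h2.ne']

theorem geo_surj (hT : SM436.Tube φ b) {z : EE} (hz : z ∈ TR φ b) (hz1 : ‖z‖ = 1) :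
    SM436.pp φ z ∈ SM436.Lk φ ∧ |r0 φ z| < Real.arctan (b / 2) ∧
      geo φ (SM436.pp φ z) (r0 φ z) = z := by
  refine ⟨hT.mem_Lk_pp hz.1, ?_, ?_⟩
  · unfold r0
    have h := abs_lt.1 hz.2
    rw [abs_lt, ← Real.arctan_neg]
    exact ⟨Real.arctan_strictMono h.1, Real.arctan_strictMono h.2⟩
  · have h1 := hT.recon_pp hz.1
    have h2 : SM436.rr φ z = Real.cos (r0 φ z) := by
      unfold r0
      rw [Real.cos_arctan]
      have h3 : 1 + SM436.ta φ z ^ 2 = (SM436.rr φ z ^ 2)⁻¹ := by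
        have h4 := hT.rr_sq z
        rw [hz1] at h4
        have h5 := hz.1.1
        rw [SM436.ta]
        field_simp
        linarith
      rw [h3, Real.sqrt_inv, Real.sqrt_sq hz.1.1.le]
      simp
    have h3 : SM436.rr φ z * SM436.ta φ z = Real.sin (r0 φ z) := by
      have h4 : SM436.ta φ z = Real.tan (r0 φ z) := by
        unfold r0; rw [Real.tan_arctan]
      have h5 : 0 < Real.cos (r0 φ z) := by rw [← h2]; exact hz.1.1
      rw [h2, h4, mul_comm, Real.tan_mul_cos h5.ne']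
    unfold geo
    rw [← h3, ← h2]
    conv_rhs => rw [← h1]
    rw [smul_add, smul_smul]

end tube

end Crest.Agent.R246.IN200
end
end

-- ▼ part R246/IN8_200
section

/-!
Row 246, block I(I) (helper200), part 8: the tube structure and finite dimensional families.
-/

set_option autoImplicit false

open MeasureTheory Filter Topology Metric Set
open scoped ContDiff RealInnerProductSpace
open Crest.GeometryTopology.CoordMetric Crest.GeometryTopology.AffineMaximal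
open Crest.Agent.R236.Jet Crest.Agent.R202.SphDiv Crest.Agent.R246.D2x782

noncomputable section

namespace Crest.Agent.R246.IN200

variable {n : ℕ}

local notation "EE" => EuclideanSpace ℝ (Fin n)

section tube

variable {φ : EuclideanSpace ℝ (Fin n) → ℝ} {b : ℝ}

/-- derivative along the normal geodesics -/
theorem hasDerivAt_along (hT : SM436.Tube φ b) {u : EE → ℝ} (hu : C1 u) {p : EE}
    (hp : p ∈ SM436.Lk φ) {s : ℝ} (hs : |s| < Real.arctan (b / 2)) :
    HasDerivAt (fun s => u (geo φ p s)) (sdot u (rF φ hT.hb) (geo φ p s)) s := by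
  obtain ⟨h1, h2, h3, h4, h5⟩ := geo_props hT hp hs
  have h0 : geo φ p s ≠ 0 := by
    intro h; rw [h, norm_zero] at h2; exact zero_ne_one h2
  have h6 := ((hu.diff h0).hasFDerivAt).comp_hasDerivAt s (hasDerivAt_geo φ p s)
  refine h6.congr_deriv ?_
  rw [sdot_eq_inner, h2, gradient_rF hT h1, h5, SM436.inner_gradient]
  ring

/-- the Riccati-type bound -/
theorem ric_bound (hT : SM436.Tube φ b)
    (hmin : ∀ p ∈ SM436.Lk φ, LinearMap.trace ℝ EE (SM436.hs φ p : EE →ₗ[ℝ] EE) = 0) :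
    ∃ K : ℝ, 0 ≤ K ∧ ∀ z : Sph n, (z : EE) ∈ TR φ b →
      |slap (rF φ hT.hb) z + qF φ hT.hb z * rF φ hT.hb z| ≤ K * rF φ hT.hb z ^ 2 := by
  set r := rF φ hT.hb with hr
  set q := qF φ hT.hb with hq
  have rc : C1 r := (rF_sm hT).c1
  have qc : C1 q := qF_sm hT
  have sc : C1 (slap r) := (rF_sm hT).c1_slap
  obtain ⟨K, hK0, hK⟩ := exists_bound (f := sdot q r) fun x hx => qc.cont_sdot rc hx
  refine ⟨K, hK0, fun z hz => ?_⟩
  have hz1 : ‖(z : EE)‖ = 1 := by simpa using z.2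
  obtain ⟨hp, hs, hg⟩ := geo_surj hT hz hz1
  set p := SM436.pp φ (z : EE) with hpdef
  set s0 := r0 φ (z : EE) with hs0
  set u : EE → ℝ := fun x => slap r x + q x * r x with hu
  have uc : C1 u := sc.add (qc.mul rc)
  have hle : ∀ σ ∈ uIcc 0 s0, |σ| ≤ |s0| := by
    intro σ hσ
    have := abs_sub_left_of_mem_uIcc hσ
    simpa using this
  have hd : ∀ σ ∈ uIcc 0 s0, HasDerivWithinAt (fun s => u (geo φ p s))
      (sdot u r (geo φ p σ)) (uIcc 0 s0) σ := fun σ hσ =>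
    (hasDerivAt_along hT uc hp ((hle σ hσ).trans_lt hs)).hasDerivWithinAt
  have hb : ∀ σ ∈ uIcc 0 s0, ‖sdot u r (geo φ p σ)‖ ≤ K * |s0| := by
    intro σ hσ
    obtain ⟨h1, h2, h3, h4, h5⟩ := geo_props hT hp ((hle σ hσ).trans_lt hs)
    have h0 : geo φ p σ ≠ 0 := by
      intro h; rw [h, norm_zero] at h2; exact zero_ne_one h2
    have h6 : sdot u r (geo φ p σ) = σ * sdot q r (geo φ p σ) := by
      have e1 : sdot u r (geo φ p σ)
          = sdot (slap r) r (geo φ p σ) + sdot (fun x => q x * r x) r (geo φ p σ) :=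
        sdot_add (sc.diff h0) ((qc.mul rc).diff h0)
      have e3 : r (geo φ p σ) = σ := (rF_eq hT h1).trans h3
      rw [e1, sdot_mul (qc.diff h0) (rc.diff h0), ← sgsq_eq, sgsq_rF hT h1, e3]
      have e2 : q (geo φ p σ) = - sdot (slap r) r (geo φ p σ) := rfl
      rw [e2]; ring
    rw [h6, Real.norm_eq_abs, abs_mul, mul_comm]
    have h7 := hK ⟨geo φ p σ, by simpa using h2⟩
    exact mul_le_mul h7 (hle σ hσ) (abs_nonneg _) hK0
  have h8 := (convex_uIcc (0 : ℝ) s0).norm_image_sub_le_of_norm_hasDerivWithin_le hd hb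
    left_mem_uIcc right_mem_uIcc
  have h9 : geo φ p 0 = p := by simp [geo]
  have h10 : u p = 0 := by
    have e1 : r p = 0 := by
      rw [hr, rF_eq hT (Lk_TR hT hp)]
      unfold r0
      rw [SM436.ta, hp.2, zero_div, Real.arctan_zero]
    show slap r p + q p * r p = 0
    rw [slap_rF_Lk hT hp (hmin p hp), e1, mul_zero, add_zero]
  simp only [h9, h10, hg, sub_zero, Real.norm_eq_abs] at h8
  have h11 : r z = s0 := rF_eq hT hz
  rw [h11]
  calc |slap r z + q z * s0| = |u z| := by rw [hu]; simp only [h11]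
    _ ≤ K * |s0| * |s0| := h8
    _ = K * s0 ^ 2 := by rw [mul_assoc, abs_mul_abs_self, sq]

/-- the tube structure -/
theorem exists_tube (hT : SM436.Tube φ b)
    (hmin : ∀ p ∈ SM436.Lk φ, LinearMap.trace ℝ EE (SM436.hs φ p : EE →ₗ[ℝ] EE) = 0) :
    ∃ K : ℝ, Tube (rF φ hT.hb) (eF φ hT.hb) (qF φ hT.hb) (TR φ b) (Real.arctan (b / 8)) K := by
  obtain ⟨K, hK0, hK⟩ := ric_bound hT hmin
  have hb := hT.hb
  have hη : ∀ x : EE, x ≠ 0 → x ∉ TR φ b → eF φ hT.hb =ᶠ[𝓝 x] fun _ => 0 := by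
    intro x hx hxT
    have h1 : b / 4 < |SM436.ta φ x| := by
      by_contra h
      exact hxT ((mem_TR_iff hT hx).2 (by linarith))
    have h2 : ∀ᶠ y in 𝓝 x, b / 4 < |SM436.ta φ y| :=
      (continuousAt_ta hT hx).abs.eventually (lt_mem_nhds h1)
    filter_upwards [h2] with y hy
    unfold eF
    rw [chE_zero hT.hb hy.le, zero_mul]
  refine ⟨K, rF_sm hT, eF_sm hT, qF_sm hT, Real.arctan_pos.2 (by linarith), hK0, ?_, ?_, ?_, ?_, ?_,
    ?_, hK⟩
  · intro z
    unfold eF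
    rw [mul_one]
    exact chE_nonneg _ _
  · intro z
    unfold eF
    rw [mul_one]
    exact chE_le _ _
  · intro z hz
    exact (hη z (sph_ne z) hz).eq_of_nhds
  · intro z hz j
    rw [pderiv_congr (hη z (sph_ne z) hz) j, pderiv_const]
  · intro z hz
    exact sgsq_rF hT hz
  · intro z hz hr j
    rw [rF_eq hT hz] at hr
    have h1 : |SM436.ta φ (z : EE)| < b / 8 := by
      unfold r0 at hr
      rw [abs_lt] at hr ⊢
      have h2 : Real.arctan (-(b / 8)) < Real.arctan (SM436.ta φ (z : EE)) := by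
        rw [Real.arctan_neg]; exact hr.1
      exact ⟨Real.arctan_strictMono.lt_iff_lt.1 h2, Real.arctan_strictMono.lt_iff_lt.1 hr.2⟩
    have h2 : ∀ᶠ y in 𝓝 (z : EE), |SM436.ta φ y| < b / 8 :=
      (continuousAt_ta hT (sph_ne z)).abs.eventually (gt_mem_nhds h1)
    have h3 : eF φ hT.hb =ᶠ[𝓝 (z : EE)] fun _ => 1 := by
      filter_upwards [h2] with y hy
      unfold eF
      rw [chE_one hT.hb hy.le, one_mul]
    rw [pderiv_congr h3 j, pderiv_const]

/-- functions constant along the normal geodesics -/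
def NC (φ : EuclideanSpace ℝ (Fin n) → ℝ) (b : ℝ) (F : EuclideanSpace ℝ (Fin n) → ℝ) : Prop :=
  ∀ p ∈ SM436.Lk φ, ∀ s : ℝ, |s| < Real.arctan (b / 2) → F (geo φ p s) = F p

theorem sdot_NC (hT : SM436.Tube φ b) {F : EE → ℝ} (hF : C1 F) (hN : NC φ b F) {z : EE}
    (hz : z ∈ TR φ b) (hz1 : ‖z‖ = 1) : sdot F (rF φ hT.hb) z = 0 := by
  obtain ⟨hp, hs, hg⟩ := geo_surj hT hz hz1
  have h1 := hasDerivAt_along hT hF hp hs
  have h2 : (fun s => F (geo φ (SM436.pp φ z) s)) =ᶠ[𝓝 (r0 φ z)] fun _ => F (SM436.pp φ z) := by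
    have h3 : ∀ᶠ s in 𝓝 (r0 φ z), |s| < Real.arctan (b / 2) :=
      (continuous_abs.continuousAt).eventually (gt_mem_nhds hs)
    filter_upwards [h3] with s hs' using hN _ hp s hs'
  have h3 := (h1.congr_of_eventuallyEq h2.symm).unique (hasDerivAt_const _ _)
  rwa [hg] at h3

/-- normal extension of a function on the link -/
def ext (φ : EuclideanSpace ℝ (Fin n) → ℝ) {b : ℝ} (hb : 0 < b) (G : EuclideanSpace ℝ (Fin n) → ℝ)
    (x : EuclideanSpace ℝ (Fin n)) : ℝ := chR hb (SM436.ta φ x) * G (SM436.pp φ x)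

theorem ext_sm (hT : SM436.Tube φ b) {G : EE → ℝ} (hG : ∀ p ∈ SM436.Lk φ, ContDiffAt ℝ ∞ G p) :
    SmHom0 (ext φ hT.hb G) := by
  refine smHom0_cut hT (chR_sm hT.hb) (c := 3 * b / 4) (by have := hT.hb; linarith)
    (fun t ht => chR_zero hT.hb ht) (F := fun x => G (SM436.pp φ x)) ?_ ?_
  · intro x hx
    exact (hG _ (hT.mem_Lk_pp hx)).comp x (hT.contDiffAt_pp hx)
  · intro x _ t ht
    show G _ = G _
    rw [hT.pp_smul x ht]

theorem ext_eq (hT : SM436.Tube φ b) (G : EE → ℝ) {x : EE} (hx : x ∈ TR φ b) :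
    ext φ hT.hb G x = G (SM436.pp φ x) := by
  unfold ext
  rw [chR_one hT.hb hx.2.le, one_mul]

theorem ext_NC (hT : SM436.Tube φ b) (G : EE → ℝ) : NC φ b (ext φ hT.hb G) := by
  intro p hp s hs
  obtain ⟨h1, h2, h3, h4, h5⟩ := geo_props hT hp hs
  rw [ext_eq hT G h1, h4, ext_eq hT G (Lk_TR hT hp), hT.pp_Lk hp]

end tube

/-! ### finite families -/

section fam

variable {ι : Type} [Fintype ι] {F : ι → EuclideanSpace ℝ (Fin n) → ℝ}

/-- linear combination -/
def comb (F : ι → EuclideanSpace ℝ (Fin n) → ℝ) (c : ι → ℝ) (x : EuclideanSpace ℝ (Fin n)) : ℝ :=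
  ∑ i, c i * F i x

theorem comb_sm (hF : ∀ i, SmHom0 (F i)) (c : ι → ℝ) : SmHom0 (comb F c) where
  smooth := by
    intro x hx
    unfold comb
    exact ContDiffAt.sum fun i _ => contDiffAt_const.mul ((hF i).smooth x hx)
  hom := by
    intro t x ht
    unfold comb
    exact Finset.sum_congr rfl fun i _ => by rw [(hF i).hom t x ht]

theorem pderiv_comb (hF : ∀ i, SmHom0 (F i)) (c : ι → ℝ) {x : EE} (hx : x ≠ 0) (j : Fin n) :
    pderiv j (comb F c) x = ∑ i, c i * pderiv j (F i) x := by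
  have h1 : comb F c = fun x => ∑ i ∈ Finset.univ, c i * F i x := rfl
  rw [h1, pderiv_sum (f := fun (i : ι) (x : EE) => c i * F i x)
    (fun i _ => (sm_diff ((hF i).smooth x hx)).const_mul _)]
  refine Finset.sum_congr rfl fun i _ => ?_
  rw [pderiv_cmul (sm_diff ((hF i).smooth x hx))]

theorem slap_comb (hF : ∀ i, SmHom0 (F i)) (c : ι → ℝ) {x : EE} (hx : x ≠ 0) :
    slap (comb F c) x = ∑ i, c i * slap (F i) x := by
  have h1 : ∀ j, hessianMat (comb F c) x j j = ∑ i, c i * hessianMat (F i) x j j := by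
    intro j
    have h2 : comb F c = fun x => ∑ i ∈ Finset.univ, c i * F i x := rfl
    rw [h2, hess_sum (f := fun (i : ι) (x : EE) => c i * F i x)
      (fun i _ => contDiffAt_const.mul ((hF i).smooth x hx))]
    refine Finset.sum_congr rfl fun i _ => ?_
    rw [hess_cmul ((hF i).smooth x hx)]
  unfold slap lapl
  rw [Finset.sum_congr rfl fun j _ => h1 j, Finset.sum_comm, Finset.mul_sum]
  refine Finset.sum_congr rfl fun i _ => ?_
  rw [← Finset.mul_sum]
  ring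

theorem pderiv_slap_comb (hF : ∀ i, SmHom0 (F i)) (c : ι → ℝ) {x : EE} (hx : x ≠ 0) (j : Fin n) :
    pderiv j (slap (comb F c)) x = ∑ i, c i * pderiv j (slap (F i)) x := by
  have h1 : slap (comb F c) =ᶠ[𝓝 x] fun x => ∑ i ∈ Finset.univ, c i * slap (F i) x := by
    filter_upwards [ev_ne hx] with y hy using slap_comb hF c hy
  rw [pderiv_congr h1, pderiv_sum (f := fun (i : ι) (x : EE) => c i * slap (F i) x)
    (fun i _ => (sm_diff ((hF i).smooth_slap hx)).const_mul _)]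
  refine Finset.sum_congr rfl fun i _ => ?_
  rw [pderiv_cmul (sm_diff ((hF i).smooth_slap hx))]

theorem sum_abs_le {c : ι → ℝ} {δ : ℝ} (hc : ∀ i, |c i| ≤ δ) {a K : ι → ℝ}
    (ha : ∀ i, |a i| ≤ K i) : |∑ i, c i * a i| ≤ (∑ i, K i) * δ := by
  rw [Finset.sum_mul]
  refine (Finset.abs_sum_le_sum_abs _ _).trans (Finset.sum_le_sum fun i _ => ?_)
  rw [abs_mul, mul_comm]
  exact mul_le_mul (ha i) (hc i) (abs_nonneg _) ((abs_nonneg _).trans (ha i))

theorem sgsq_le_of_pderiv {f : EE → ℝ} {z : Sph n} {B : ℝ} (hB : ∀ j, |pderiv j f z| ≤ B) :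
    sgsq f z ≤ (((n : ℝ) + 1) * B) ^ 2 := by
  rcases Nat.eq_zero_or_pos n with hn | hn
  · subst hn
    have : sgsq f z = 0 := by unfold sgsq gsq; simp
    rw [this]; positivity
  have hB0 : 0 ≤ B := (abs_nonneg _).trans (hB ⟨0, hn⟩)
  unfold sgsq gsq
  rw [nsq_sph, one_mul]
  have h1 : ∑ j, pderiv j f z * pderiv j f z ≤ ∑ _j : Fin n, B ^ 2 := by
    refine Finset.sum_le_sum fun j _ => ?_
    rw [← sq, ← sq_abs]
    exact pow_le_pow_left₀ (abs_nonneg _) (hB j) 2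
  rw [Finset.sum_const, Finset.card_univ, Fintype.card_fin, nsmul_eq_mul] at h1
  have h2 : (n : ℝ) * B ^ 2 ≤ (((n : ℝ) + 1) * B) ^ 2 := by
    have : 0 ≤ (n : ℝ) := Nat.cast_nonneg n
    have h3 : (n : ℝ) ≤ ((n : ℝ) + 1) ^ 2 := by nlinarith
    rw [mul_pow]
    exact mul_le_mul_of_nonneg_right h3 (sq_nonneg B)
  exact h1.trans h2

/-- uniform bounds for linear combinations -/
theorem comb_bounds (hF : ∀ i, SmHom0 (F i)) : ∃ K : ℝ, 0 ≤ K ∧ ∀ (c : ι → ℝ) (δ : ℝ),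
    (∀ i, |c i| ≤ δ) → ∀ z : Sph n, |comb F c z| ≤ K * δ ∧ sgsq (comb F c) z ≤ (K * δ) ^ 2 ∧
      |slap (comb F c) z| ≤ K * δ ∧ sgsq (slap (comb F c)) z ≤ (K * δ) ^ 2 := by
  have h1 : ∀ i, ∃ K : ℝ, 0 ≤ K ∧ ∀ z : Sph n, |F i z| ≤ K := fun i =>
    exists_bound fun x hx => (hF i).c1.cont hx
  have h2 : ∀ i, ∃ K : ℝ, 0 ≤ K ∧ ∀ z : Sph n, |slap (F i) z| ≤ K := fun i =>
    exists_bound fun x hx => (hF i).c1_slap.cont hx
  have h3 : ∀ i j, ∃ K : ℝ, 0 ≤ K ∧ ∀ z : Sph n, |pderiv j (F i) z| ≤ K := fun i j =>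
    exists_bound (f := fun x => pderiv j (F i) x) fun x hx => (hF i).c1.cont_pderiv hx j
  have h4 : ∀ i j, ∃ K : ℝ, 0 ≤ K ∧ ∀ z : Sph n, |pderiv j (slap (F i)) z| ≤ K := fun i j =>
    exists_bound (f := fun x => pderiv j (slap (F i)) x) fun x hx =>
      (hF i).c1_slap.cont_pderiv hx j
  choose K1 p1 k1 using h1
  choose K2 p2 k2 using h2
  choose K3 p3 k3 using h3
  choose K4 p4 k4 using h4
  set A1 := ∑ i, K1 i with hA1
  set A2 := ∑ i, K2 i with hA2
  set A3 := ∑ i, ∑ j, K3 i j with hA3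
  set A4 := ∑ i, ∑ j, K4 i j with hA4
  have a1 : 0 ≤ A1 := Finset.sum_nonneg fun i _ => p1 i
  have a2 : 0 ≤ A2 := Finset.sum_nonneg fun i _ => p2 i
  have a3 : 0 ≤ A3 := Finset.sum_nonneg fun i _ => Finset.sum_nonneg fun j _ => p3 i j
  have a4 : 0 ≤ A4 := Finset.sum_nonneg fun i _ => Finset.sum_nonneg fun j _ => p4 i j
  have hn : 0 ≤ (n : ℝ) := Nat.cast_nonneg n
  have hn1 : (1 : ℝ) ≤ (n : ℝ) + 1 := by linarith
  refine ⟨((n : ℝ) + 1) * (A1 + A2 + A3 + A4), by positivity, fun c δ hc z => ?_⟩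
  have hz := sph_ne z
  by_cases hι : Nonempty ι
  swap
  · have hι' : IsEmpty ι := not_nonempty_iff.1 hι
    have e1 : comb F c = fun _ => 0 := by funext x; unfold comb; simp
    have e2 : A1 = 0 := by rw [hA1]; simp
    have e3 : A2 = 0 := by rw [hA2]; simp
    have e4 : A3 = 0 := by rw [hA3]; simp
    have e5 : A4 = 0 := by rw [hA4]; simp
    have s1 : ∀ x : EE, slap (fun _ : EE => (0 : ℝ)) x = 0 := by
      intro x
      unfold slap lapl
      simp [hess_const]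
    have s2 : slap (fun _ : EE => (0 : ℝ)) = fun _ => 0 := by funext x; exact s1 x
    have s3 : ∀ x : EE, sgsq (fun _ : EE => (0 : ℝ)) x = 0 := by
      intro x
      rw [sgsq_eq, sdot_const]
    rw [e1, s2, s3, e2, e3, e4, e5]
    simp
  obtain ⟨i0⟩ := hι
  have hδ : 0 ≤ δ := (abs_nonneg _).trans (hc i0)
  have b1 : |comb F c z| ≤ A1 * δ := sum_abs_le hc fun i => k1 i z
  have b2 : |slap (comb F c) z| ≤ A2 * δ := by
    rw [slap_comb hF c hz]
    exact sum_abs_le hc fun i => k2 i z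
  have b3 : ∀ j, |pderiv j (comb F c) z| ≤ A3 * δ := by
    intro j
    rw [pderiv_comb hF c hz]
    refine sum_abs_le hc fun i => (k3 i j z).trans ?_
    exact Finset.single_le_sum (f := fun j => K3 i j) (fun j _ => p3 i j) (Finset.mem_univ j)
  have b4 : ∀ j, |pderiv j (slap (comb F c)) z| ≤ A4 * δ := by
    intro j
    rw [pderiv_slap_comb hF c hz]
    refine sum_abs_le hc fun i => (k4 i j z).trans ?_
    exact Finset.single_le_sum (f := fun j => K4 i j) (fun j _ => p4 i j) (Finset.mem_univ j)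
  have hS : ∀ {A : ℝ}, 0 ≤ A → A ≤ A1 + A2 + A3 + A4 →
      ((n : ℝ) + 1) * (A * δ) ≤ ((n : ℝ) + 1) * (A1 + A2 + A3 + A4) * δ := by
    intro A hA h
    rw [mul_assoc]
    gcongr
  have hS' : ∀ {A : ℝ}, 0 ≤ A → A ≤ A1 + A2 + A3 + A4 →
      A * δ ≤ ((n : ℝ) + 1) * (A1 + A2 + A3 + A4) * δ := by
    intro A hA h
    refine le_trans ?_ (hS hA h)
    have : 0 ≤ A * δ := mul_nonneg hA hδ
    nlinarith
  refine ⟨b1.trans (hS' a1 (by linarith)), ?_, b2.trans (hS' a2 (by linarith)), ?_⟩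
  · refine (sgsq_le_of_pderiv b3).trans ?_
    have h5 := hS a3 (by linarith)
    exact pow_le_pow_left₀ (by positivity) h5 2
  · refine (sgsq_le_of_pderiv b4).trans ?_
    have h5 := hS a4 (by linarith)
    exact pow_le_pow_left₀ (by positivity) h5 2

theorem sdot_comb (hF : ∀ i, SmHom0 (F i)) (c : ι → ℝ) {x : EE} (hx : x ≠ 0) :
    sgsq (comb F c) x = ∑ i, ∑ k, c i * c k * sdot (F i) (F k) x := by
  have h1 : sgsq (comb F c) x = nsq x * ∑ j, (∑ i, c i * pderiv j (F i) x)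
      * (∑ k, c k * pderiv j (F k) x) := by
    unfold sgsq gsq
    congr 1
    exact Finset.sum_congr rfl fun j _ => by rw [pderiv_comb hF c hx]
  rw [h1]
  have h2 : ∀ j, (∑ i, c i * pderiv j (F i) x) * (∑ k, c k * pderiv j (F k) x)
      = ∑ i, ∑ k, c i * c k * (pderiv j (F i) x * pderiv j (F k) x) := by
    intro j
    rw [Finset.sum_mul_sum]
    exact Finset.sum_congr rfl fun i _ => Finset.sum_congr rfl fun k _ => by ring
  rw [Finset.sum_congr rfl fun j _ => h2 j, Finset.sum_comm, Finset.mul_sum]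
  refine Finset.sum_congr rfl fun i _ => ?_
  rw [Finset.sum_comm, Finset.mul_sum]
  refine Finset.sum_congr rfl fun k _ => ?_
  rw [← Finset.mul_sum]
  unfold sdot
  ring

theorem sq_comb (F : ι → EE → ℝ) (c : ι → ℝ) (x : EE) :
    comb F c x ^ 2 = ∑ i, ∑ k, c i * c k * (F i x * F k x) := by
  unfold comb
  rw [sq, Finset.sum_mul_sum]
  exact Finset.sum_congr rfl fun i _ => Finset.sum_congr rfl fun k _ => by ring

end fam

end Crest.Agent.R246.IN200
end
end

-- ▼ part R246/IN9_200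
section

/-!
Row 246, block I(I) (helper200), part 9: Lemma N for a smooth minimal hypercone.
-/

set_option autoImplicit false

open MeasureTheory Filter Topology Metric Set
open scoped ContDiff RealInnerProductSpace
open Crest.GeometryTopology.CoordMetric Crest.GeometryTopology.AffineMaximal
open Crest.Agent.R236.Jet Crest.Agent.R202.SphDiv Crest.Agent.R246.D2x782
open Crest.Agent.R246.H990 (NullCone boost)

noncomputable section

namespace Crest.Agent.R246.IN200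

variable {n : ℕ}

local notation "EE" => EuclideanSpace ℝ (Fin n)

variable {φ : EuclideanSpace ℝ (Fin n) → ℝ} {b : ℝ}

/-! ### the family -/

/-- index type -/
abbrev Ix (n : ℕ) : Type := Option (Option (Fin n))

/-- basis functions `1`, `G`, `x_j`, extended along the normals -/
def FF (φ : EuclideanSpace ℝ (Fin n) → ℝ) {b : ℝ} (hb : 0 < b)
    (G : EuclideanSpace ℝ (Fin n) → ℝ) : Ix n → EuclideanSpace ℝ (Fin n) → ℝ
  | none => fun _ => 1
  | some none => ext φ hb G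
  | some (some j) => ext φ hb (fun x => x j)

/-- coefficients -/
def cc (s θ : ℝ) (z : EuclideanSpace ℝ (Fin n)) : Ix n → ℝ
  | none => θ
  | some none => s
  | some (some j) => - z j

/-- the direction -/
def uu (G : EuclideanSpace ℝ (Fin n) → ℝ) (s θ : ℝ) (z x : EuclideanSpace ℝ (Fin n)) : ℝ :=
  s * G x + θ - ⟪z, x⟫

theorem smHom0_const (k : ℝ) : SmHom0 (fun _ : EE => k) where
  smooth := fun _ _ => contDiffAt_const
  hom := fun _ _ _ => rfl

theorem FF_sm (hT : SM436.Tube φ b) {G : EE → ℝ} (hG : ∀ p ∈ SM436.Lk φ, ContDiffAt ℝ ∞ G p)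
    (i : Ix n) : SmHom0 (FF φ hT.hb G i) := by
  match i with
  | none => exact smHom0_const 1
  | some none => exact ext_sm hT hG
  | some (some j) => exact ext_sm hT fun p _ => smooth_coord j p

theorem FF_NC (hT : SM436.Tube φ b) (G : EE → ℝ) (i : Ix n) : NC φ b (FF φ hT.hb G i) := by
  match i with
  | none => exact fun _ _ _ _ => rfl
  | some none => exact ext_NC hT G
  | some (some j) => exact ext_NC hT (fun x => x j)

theorem comb_NC {ι : Type} [Fintype ι] {F : ι → EE → ℝ} (hF : ∀ i, NC φ b (F i)) (c : ι → ℝ) :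
    NC φ b (comb F c) := by
  intro p hp s hs
  unfold comb
  exact Finset.sum_congr rfl fun i _ => by rw [hF i p hp s hs]

theorem inner_eq_sum (z x : EE) : ⟪z, x⟫ = ∑ j, z j * x j := by
  rw [PiLp.inner_apply]
  exact Finset.sum_congr rfl fun j _ => by simp [mul_comm]

theorem comb_FF (hT : SM436.Tube φ b) (G : EE → ℝ) (s θ : ℝ) (z : EE) {x : EE}
    (hx : x ∈ TR φ b) : comb (FF φ hT.hb G) (cc s θ z) x = uu G s θ z (SM436.pp φ x) := by
  unfold comb uu
  rw [Fintype.sum_option, Fintype.sum_option]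
  simp only [FF, cc, ext_eq hT _ hx, inner_eq_sum]
  have : ∑ j, -z j * SM436.pp φ x j = - ∑ j, z j * SM436.pp φ x j := by
    rw [← Finset.sum_neg_distrib]
    exact Finset.sum_congr rfl fun j _ => by ring
  rw [this]
  ring

theorem abs_coord_le (z : EE) (j : Fin n) : |z j| ≤ ‖z‖ := by
  have := PiLp.norm_apply_le z j
  rwa [Real.norm_eq_abs] at this

theorem abs_cc_le (s θ : ℝ) (z : EE) (i : Ix n) : |cc s θ z i| ≤ |s| + ‖z‖ + |θ| := by
  have h1 := abs_nonneg s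
  have h2 := abs_nonneg θ
  have h3 := norm_nonneg z
  match i with
  | none => simp only [cc]; linarith
  | some none => simp only [cc]; linarith
  | some (some j) =>
    simp only [cc, abs_neg]
    have := abs_coord_le z j
    linarith

/-- gradient of the extended direction at the link -/
theorem sgsq_comb_Lk (hT : SM436.Tube φ b) {G : EE → ℝ}
    (hG : ∀ p ∈ SM436.Lk φ, ContDiffAt ℝ ∞ G p) (s θ : ℝ) (z : EE) {p : EE}
    (hp : p ∈ SM436.Lk φ) :
    sgsq (comb (FF φ hT.hb G) (cc s θ z)) p = Hersch900.T (gradient φ) (uu G s θ z) p := by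
  have hpT := Lk_TR hT hp
  have h1 : comb (FF φ hT.hb G) (cc s θ z) =ᶠ[𝓝 p] fun x => uu G s θ z (SM436.pp φ x) := by
    filter_upwards [(isOpen_TR hT).mem_nhds hpT] with y hy using comb_FF hT G s θ z hy
  have hud : DifferentiableAt ℝ (uu G s θ z) p := by
    unfold uu
    exact (((sm_diff (hG p hp)).const_mul s).add_const θ).sub
      ((innerSL ℝ z).differentiableAt)
  set u := uu G s θ z with hu
  have h2 : HasFDerivAt (fun x => u (SM436.pp φ x)) ((fderiv ℝ u p).comp (SM436.PT φ p)) p := by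
    have h3 : HasFDerivAt u (fderiv ℝ u p) (SM436.pp φ p) := by
      rw [hT.pp_Lk hp]; exact hud.hasFDerivAt
    exact h3.comp p (hT.hasFDerivAt_pp_Lk hp)
  have h4 : gradient (comb (FF φ hT.hb G) (cc s θ z)) p = SM436.PT φ p (gradient u p) := by
    rw [gradient_congr h1]
    apply hasFDerivAt_gradient_eq
    refine h2.congr_fderiv ?_
    ext v
    rw [ContinuousLinearMap.comp_apply, innerSL_apply_apply, SM436.PT_symm, SM436.inner_gradient]
  have h5 : ‖fderiv ℝ u p‖ = ‖gradient u p‖ := by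
    rw [SM436.gradient_eq_comp]
    exact (LinearIsometryEquiv.norm_map _ _).symm
  rw [sgsq_eq, sdot_eq_inner, h4, hp.1, SM436.PT_symm, hT.PT_PT hp, SM436.PT_apply]
  unfold Hersch900.T
  rw [h5, ← SM436.inner_gradient, ← SM436.inner_gradient]
  simp only [inner_sub_right, real_inner_smul_right, real_inner_self_eq_norm_sq]
  rw [real_inner_comm (gradient u p) (gradient φ p), real_inner_comm (gradient u p) p]
  ring

/-- the quadratic form -/
def QQ (φ : EuclideanSpace ℝ (Fin n) → ℝ) (b m : ℝ) (u : EuclideanSpace ℝ (Fin n) → ℝ) : ℝ :=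
  ∫ x, Hersch900.T (gradient φ) u x ∂(SM436.mu φ b)
    - ∫ x, HerschSM900.A2 φ x * u x ^ 2 ∂(SM436.mu φ b) - m * ∫ x, u x ^ 2 ∂(SM436.mu φ b)

theorem integral_quad (hT : SM436.Tube φ b) {G : EE → ℝ}
    (hG : ∀ p ∈ SM436.Lk φ, ContDiffAt ℝ ∞ G p) (s θ : ℝ) (z : EE) :
    ∫ x, (sgsq (comb (FF φ hT.hb G) (cc s θ z)) x
      - qF φ hT.hb x * comb (FF φ hT.hb G) (cc s θ z) x ^ 2) ∂(SM436.mu φ b)
      = QQ φ b ((n : ℝ) - 2) (uu G s θ z) := by
  set f := comb (FF φ hT.hb G) (cc s θ z) with hf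
  set u := uu G s θ z with hu
  have fsm : SmHom0 f := comb_sm (FF_sm hT hG) _
  have hfu : ∀ p ∈ SM436.Lk φ, f p = u p := by
    intro p hp
    rw [hf, comb_FF hT G s θ z (Lk_TR hT hp), hT.pp_Lk hp]
  have c1 : ContinuousOn (sgsq f) (SM436.Lk φ) := fun p hp =>
    ((fsm.smooth_sgsq (hT.ne_zero_of_Lk hp)).continuousAt).continuousWithinAt
  have c2 : ContinuousOn f (SM436.Lk φ) := fun p hp =>
    (fsm.c1.cont (hT.ne_zero_of_Lk hp)).continuousWithinAt
  have c3 : ContinuousOn (qF φ hT.hb) (SM436.Lk φ) := fun p hp =>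
    ((qF_sm hT).cont (hT.ne_zero_of_Lk hp)).continuousWithinAt
  have i1 : Integrable (Hersch900.T (gradient φ) u) (SM436.mu φ b) :=
    hT.integrable_mu (c1.congr fun p hp => (sgsq_comb_Lk hT hG s θ z hp).symm)
  have i2 : Integrable (fun x => HerschSM900.A2 φ x * u x ^ 2) (SM436.mu φ b) := by
    have c4 : ContinuousOn (fun x => (qF φ hT.hb x - ((n : ℝ) - 2)) * f x ^ 2) (SM436.Lk φ) :=
      (c3.sub continuousOn_const).mul (c2.pow 2)
    refine hT.integrable_mu (c4.congr fun p hp => ?_)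
    show HerschSM900.A2 φ p * u p ^ 2 = (qF φ hT.hb p - ((n : ℝ) - 2)) * f p ^ 2
    rw [qF_Lk hT hp, hfu p hp]; ring
  have i3 : Integrable (fun x => u x ^ 2) (SM436.mu φ b) := by
    have c4 : ContinuousOn (fun x => f x ^ 2) (SM436.Lk φ) := c2.pow 2
    refine hT.integrable_mu (c4.congr fun p hp => ?_)
    show u p ^ 2 = f p ^ 2
    rw [hfu p hp]
  have h1 : ∫ x, (sgsq f x - qF φ hT.hb x * f x ^ 2) ∂(SM436.mu φ b)
      = ∫ x, (Hersch900.T (gradient φ) u x - HerschSM900.A2 φ x * u x ^ 2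
        - ((n : ℝ) - 2) * u x ^ 2) ∂(SM436.mu φ b) := by
    refine integral_congr_ae ?_
    filter_upwards [hT.ae_mem_Lk] with p hp
    rw [sgsq_comb_Lk hT hG s θ z hp, qF_Lk hT hp, hfu p hp]
    ring
  have i12 : Integrable (fun x => Hersch900.T (gradient φ) u x
      - HerschSM900.A2 φ x * u x ^ 2) (SM436.mu φ b) := i1.sub i2
  have i3' : Integrable (fun x => ((n : ℝ) - 2) * u x ^ 2) (SM436.mu φ b) := i3.const_mul _
  rw [h1, integral_sub i12 i3', integral_sub i1 i2, integral_const_mul]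
  rfl

/-! ### the second order term -/

theorem hasDerivAt_GG (ε t : ℝ) : ∃ G' : ℝ, HasDerivAt (GG ε) G' t := by
  have h1 := ((((hasDerivAt_tdiv (ε := ε) t).pow 2).const_sub 1).pow 2).const_mul (1 / ε)
  exact ⟨_, h1⟩

theorem sdot_eF (hT : SM436.Tube φ b) {f : EE → ℝ} {z : EE} (hz : z ∈ TR φ b)
    (hf : sdot (rF φ hT.hb) f z = 0) : sdot (eF φ hT.hb) f z = 0 := by
  have hz0 := hT.ne_zero hz.1
  have hr : |r0 φ z| < Real.pi / 2 := by
    unfold r0
    rw [abs_lt]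
    exact ⟨Real.neg_pi_div_two_lt_arctan _, Real.arctan_lt_pi_div_two _⟩
  have hcos : Real.cos (r0 φ z) ≠ 0 :=
    (Real.cos_pos_of_mem_Ioo ⟨(abs_lt.1 hr).1, (abs_lt.1 hr).2⟩).ne'
  have h1 : eF φ hT.hb =ᶠ[𝓝 z] fun x => (fun t => chE hT.hb (Real.tan t) * 1) (r0 φ x) := by
    refine Eventually.of_forall fun x => ?_
    show chE hT.hb (SM436.ta φ x) * 1 = chE hT.hb (Real.tan (Real.arctan (SM436.ta φ x))) * 1
    rw [Real.tan_arctan]
  have h2 : DifferentiableAt ℝ (fun t => chE hT.hb (Real.tan t) * 1) (r0 φ z) := by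
    have h3 : DifferentiableAt ℝ (chE hT.hb) (Real.tan (r0 φ z)) :=
      ((chE_sm hT.hb).contDiffAt).differentiableAt (by simp)
    exact (h3.comp (r0 φ z) (Real.differentiableAt_tan.2 hcos)).mul_const 1
  rw [sdot_congr_left h1, sdot_comp h2.hasDerivAt
    ((hasFDerivAt_r0 hT hz.1).differentiableAt)]
  have h4 : sdot (r0 φ) f z = sdot (rF φ hT.hb) f z := (sdot_congr_left (rF_ev hT hz)).symm
  rw [h4, hf, mul_zero]

theorem second_term (hT : SM436.Tube φ b) (hn : 0 < n) {K t1 : ℝ}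
    (h : Tube (rF φ hT.hb) (eF φ hT.hb) (qF φ hT.hb) (TR φ b) t1 K) {f : EE → ℝ} (hf : SmHom0 f)
    (hN : NC φ b f) (ε : ℝ) :
    ∫ z : Sph n, eF φ hT.hb z * GG ε (rF φ hT.hb z) * (qF φ hT.hb z * f z ^ 2 + f z * slap f z)
      ∂(sig n)
      = - ∫ z : Sph n, eF φ hT.hb z * GG ε (rF φ hT.hb z)
        * (sgsq f z - qF φ hT.hb z * f z ^ 2) ∂(sig n) := by
  set r := rF φ hT.hb with hr
  set η := eF φ hT.hb with hη
  set q := qF φ hT.hb with hq
  have rc : C1 r := (rF_sm hT).c1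
  have ηc : C1 η := (eF_sm hT).c1
  have qc : C1 q := qF_sm hT
  have fc : C1 f := hf.c1
  have Lc : C1 (slap f) := hf.c1_slap
  have hGC : ContDiff ℝ 1 (GG ε) := by
    unfold GG
    have h1 : ContDiff ℝ 1 fun t : ℝ => Real.tanh (t / ε) :=
      (tanh_contDiff.of_le (by exact_mod_cast le_top)).comp (contDiff_id.div_const ε)
    exact contDiff_const.mul ((contDiff_const.sub (h1.pow 2)).pow 2)
  have Gc : C1 (fun x => GG ε (r x)) := rc.comp hGC
  have wc : C1 (fun x => η x * GG ε (r x)) := ηc.mul Gc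
  have ζc : C1 (fun x => (η x * GG ε (r x)) * f x) := wc.mul fc
  have hibp := sphere_ibp hn hf (ζ := fun x => (η x * GG ε (r x)) * f x) ζc
  have hpt : ∀ z : Sph n, (η z * GG ε (r z)) * f z * slap f z
      + sdot (fun x => (η x * GG ε (r x)) * f x) f z
      = η z * GG ε (r z) * (q z * f z ^ 2 + f z * slap f z)
        + η z * GG ε (r z) * (sgsq f z - q z * f z ^ 2) := by
    intro z
    have hz := sph_ne z
    have hz1 : ‖(z : EE)‖ = 1 := by simp
    have h1 : sdot (fun x => η x * GG ε (r x)) f z = 0 := by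
      rw [sdot_mul (ηc.diff hz) (Gc.diff hz)]
      by_cases hzT : (z : EE) ∈ TR φ b
      · have h2 : sdot r f z = 0 := by
          rw [sdot_comm]
          exact sdot_NC hT fc hN hzT hz1
        obtain ⟨G', hG'⟩ := hasDerivAt_GG ε (r z)
        rw [sdot_comp hG' (rc.diff hz), h2, sdot_eF hT hzT h2]
        ring
      · rw [h.supp z hzT, h.sdot_η_zero hzT]
        ring
    rw [sdot_mul (wc.diff hz) (fc.diff hz), h1, ← sgsq_eq]
    ring
  have hc1 : ∀ x : EE, x ≠ 0 → ContinuousAt (fun x => η x * GG ε (r x)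
      * (q x * f x ^ 2 + f x * slap f x)) x := fun x hx =>
    (wc.cont hx).mul (((qc.cont hx).mul ((fc.cont hx).pow 2)).add ((fc.cont hx).mul (Lc.cont hx)))
  have hc2 : ∀ x : EE, x ≠ 0 → ContinuousAt (fun x => η x * GG ε (r x)
      * (sgsq f x - q x * f x ^ 2)) x := fun x hx =>
    (wc.cont hx).mul ((fc.cont_sdot fc hx).sub ((qc.cont hx).mul ((fc.cont hx).pow 2)))
  have i1 := integrable_sph hc1
  have i2 := integrable_sph hc2
  have h3 : ∫ z : Sph n, (η z * GG ε (r z) * (q z * f z ^ 2 + f z * slap f z)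
        + η z * GG ε (r z) * (sgsq f z - q z * f z ^ 2)) ∂(sig n) = 0 := by
    rw [← hibp]
    exact integral_congr_ae (Eventually.of_forall fun z => (hpt z).symm)
  rw [integral_add i1 i2] at h3
  linarith

end Crest.Agent.R246.IN200
end
private theorem rz_bfb7279fe7 : type_of% @_root_.Crest.Agent.R246.IN200.FF.eq_1 := @_root_.Crest.Agent.R246.IN200.FF.eq_1 -- L31
private theorem rz_a69a0b9bb9 : type_of% @_root_.Crest.Agent.R246.IN200.cc.eq_1 := @_root_.Crest.Agent.R246.IN200.cc.eq_1 -- L38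
end

-- ▼ part R246/IN10_200

/-!
Row 246, block I(I) (helper200), part 10: Lemma N for a smooth minimal hypercone, assembly.
-/

set_option autoImplicit false

open MeasureTheory Filter Topology Metric Set
open scoped ContDiff RealInnerProductSpace
open Crest.GeometryTopology.CoordMetric Crest.GeometryTopology.AffineMaximal
open Crest.Agent.R236.Jet Crest.Agent.R202.SphDiv Crest.Agent.R246.D2x782
open Crest.Agent.R246.H990 (NullCone boost)

noncomputable section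

namespace Crest.Agent.R246.IN200

variable {n : ℕ}

local notation "EE" => EuclideanSpace ℝ (Fin n)

variable {φ : EuclideanSpace ℝ (Fin n) → ℝ} {b : ℝ}

/-- the remainder of the boosted distance -/
def Hh (φ : EuclideanSpace ℝ (Fin n) → ℝ) (z x : EuclideanSpace ℝ (Fin n)) : ℝ :=
  Real.arcsin (boost φ z x * ‖x‖⁻¹) - Real.arctan (SM436.ta φ x) - ⟪z, SM436.pp φ x⟫

/-- what is needed about the boost -/
def BoostHyp (φ : EuclideanSpace ℝ (Fin n) → ℝ) (b d0 C : ℝ) : Prop :=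
  ∀ z : EuclideanSpace ℝ (Fin n), ‖z‖ ≤ d0 → ∀ y : EuclideanSpace ℝ (Fin n), ‖y‖ = 1 →
    |SM436.ta φ y| ≤ 3 * b / 4 →
    ContDiffAt ℝ 1 (boost φ z) y ∧ |boost φ z y| < 1 ∧ |Hh φ z y| ≤ C * ‖z‖ ^ 2 ∧
      ‖fderiv ℝ (Hh φ z) y‖ ≤ C * ‖z‖ ^ 2

theorem boost_smul (nc : NullCone φ) {z : EE} (hz : ‖z‖ < 1) {t : ℝ} (ht : 0 < t) (x : EE) :
    boost φ z (t • x) = t * boost φ z x := (nc.boost hz).hom t ht.le x

theorem c1_Hh (nc : NullCone φ) (hT : SM436.Tube φ b) {d0 C : ℝ} (hd1 : d0 < 1)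
    (hB : BoostHyp φ b d0 C) {z : EE} (hz : ‖z‖ ≤ d0) :
    C1 (fun x => chR hT.hb (SM436.ta φ x) * Hh φ z x) := by
  intro x hx
  have hb := hT.hb
  refine contDiffAt_cut hT (chR_sm hT.hb) (c := 3 * b / 4) (by linarith)
    (fun t ht => chR_zero hT.hb ht) (by exact_mod_cast le_top) hx ?_
  intro hta
  have hz1 : ‖z‖ < 1 := hz.trans_lt hd1
  have hxT : x ∈ SM436.TT φ b := (mem_TT_iff hT hx).2 (by linarith)
  have hn : 0 < ‖x‖ := norm_pos_iff.2 hx
  have hy1 : ‖‖x‖⁻¹ • x‖ = 1 := by simp [norm_smul, hn.ne']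
  have hy2 : |SM436.ta φ (‖x‖⁻¹ • x)| ≤ 3 * b / 4 := by
    rw [hT.ta_smul x (inv_pos.2 hn)]; exact hta
  obtain ⟨h1, h2, -, -⟩ := hB z hz _ hy1 hy2
  have h3 : ContDiffAt ℝ 1 (boost φ z) x := by
    have h4 : boost φ z = fun x' => ‖x‖ * boost φ z (‖x‖⁻¹ • x') := by
      funext x'
      rw [boost_smul nc hz1 (inv_pos.2 hn)]
      field_simp
    rw [h4]
    refine contDiffAt_const.mul ?_
    exact h1.comp x (contDiff_const_smul (‖x‖⁻¹)).contDiffAt
  have h5 : ContDiffAt ℝ 1 (fun x : EE => ‖x‖⁻¹) x := (contDiffAt_norm ℝ hx).inv hn.ne'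
  have h6 : |boost φ z x * ‖x‖⁻¹| < 1 := by
    rwa [boost_smul nc hz1 (inv_pos.2 hn), mul_comm] at h2
  have h7 := abs_lt.1 h6
  have h8 : ContDiffAt ℝ 1 (fun x => Real.arcsin (boost φ z x * ‖x‖⁻¹)) x :=
    (Real.contDiffAt_arcsin (by linarith) (by linarith)).comp x (h3.mul h5)
  have h9 : ContDiffAt ℝ 1 (fun x => Real.arctan (SM436.ta φ x)) x :=
    (Real.contDiff_arctan.contDiffAt).comp x ((hT.contDiffAt_ta hxT).of_le (by exact_mod_cast le_top))
  have h10 : ContDiffAt ℝ 1 (fun x => ⟪z, SM436.pp φ x⟫) x :=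
    contDiffAt_const.inner ℝ ((hT.contDiffAt_pp hxT).of_le (by exact_mod_cast le_top))
  exact (h8.sub h9).sub h10

theorem norm_gradient_eq (a : EE → ℝ) (x : EE) : ‖gradient a x‖ = ‖fderiv ℝ a x‖ := by
  rw [SM436.gradient_eq_comp]
  exact LinearIsometryEquiv.norm_map _ _

/-- smallness of the deformation -/
theorem exists_small (nc : NullCone φ) (hT : SM436.Tube φ b) {G : EE → ℝ}
    (hG : ∀ p ∈ SM436.Lk φ, ContDiffAt ℝ ∞ G p) {d0 C : ℝ} (hd1 : d0 < 1) (hC : 0 ≤ C)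
    (hB : BoostHyp φ b d0 C) :
    ∃ K : ℝ, 0 < K ∧ ∀ (s θ : ℝ) (z : EE), ‖z‖ ≤ d0 →
      Small (TR φ b) (K * (|s| + ‖z‖ + |θ|)) (rF φ hT.hb) (comb (FF φ hT.hb G) (cc s θ z))
        (fun x => chR hT.hb (SM436.ta φ x) * Hh φ z x) := by
  obtain ⟨K1, hK1, hb1⟩ := comb_bounds (FF_sm hT hG)
  refine ⟨K1 + C + 1, by positivity, fun s θ z hz => ?_⟩
  set D := |s| + ‖z‖ + |θ| with hD
  have hD0 : 0 ≤ D := by positivity
  have hzD : ‖z‖ ≤ D := by
    have := abs_nonneg s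
    have := abs_nonneg θ
    linarith
  have hK1D : K1 * D ≤ (K1 + C + 1) * D := by
    have : 0 ≤ (C + 1) * D := by positivity
    nlinarith
  have hsq : C * ‖z‖ ^ 2 ≤ ((K1 + C + 1) * D) ^ 2 := by
    have h1 : ‖z‖ ^ 2 ≤ D ^ 2 := pow_le_pow_left₀ (norm_nonneg _) hzD 2
    have h2 : C ≤ (K1 + C + 1) ^ 2 := by nlinarith
    rw [mul_pow]
    exact mul_le_mul h2 h1 (sq_nonneg _) (sq_nonneg _)
  have hcc : ∀ i, |cc s θ z i| ≤ D := abs_cc_le s θ z
  have hbd := hb1 (cc s θ z) D hcc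
  have hsm := comb_sm (FF_sm hT hG) (cc s θ z)
  refine ⟨hsm, c1_Hh nc hT hd1 hB hz, ?_, ?_, ?_, ?_, ?_, ?_, ?_⟩
  · intro y hy
    exact sdot_NC hT hsm.c1 (comb_NC (FF_NC hT G) _) hy (by simp)
  · intro y _
    exact (hbd y).1.trans hK1D
  · intro y _
    exact (hbd y).2.1.trans (pow_le_pow_left₀ (by positivity) hK1D 2)
  · intro y _
    exact (hbd y).2.2.1.trans hK1D
  · intro y _
    exact (hbd y).2.2.2.trans (pow_le_pow_left₀ (by positivity) hK1D 2)
  · intro y hy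
    have hb := hT.hb
    obtain ⟨-, -, h3, -⟩ := hB z hz y (by simp) (by have := hy.2; linarith)
    show |chR hT.hb (SM436.ta φ y) * Hh φ z y| ≤ _
    rw [chR_one hT.hb hy.2.le, one_mul]
    exact h3.trans hsq
  · intro y hy
    have hb := hT.hb
    obtain ⟨-, -, -, h4⟩ := hB z hz y (by simp) (by have := hy.2; linarith)
    have h5 : (fun x => chR hT.hb (SM436.ta φ x) * Hh φ z x) =ᶠ[𝓝 (y : EE)] Hh φ z := by
      filter_upwards [(isOpen_TR hT).mem_nhds hy] with x hx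
      rw [chR_one hT.hb hx.2.le, one_mul]
    rw [sgsq_eq, sdot_congr_left h5, sdot_congr_right h5, sdot_sph, real_inner_self_eq_norm_sq,
      norm_gradient_eq]
    have h6 := h4.trans hsq
    calc ‖fderiv ℝ (Hh φ z) y‖ ^ 2 ≤ (((K1 + C + 1) * D) ^ 2) ^ 2 :=
          pow_le_pow_left₀ (norm_nonneg _) h6 2
      _ = ((K1 + C + 1) * D) ^ 4 := by ring

/-- the deformed distance -/
def rho (φ gt : EuclideanSpace ℝ (Fin n) → ℝ) (s θ : ℝ) (z x : EuclideanSpace ℝ (Fin n)) : ℝ :=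
  Real.arcsin (boost φ z x * ‖x‖⁻¹) - θ - s * gt x

theorem rhoF_eq (hT : SM436.Tube φ b) (G : EE → ℝ) (s θ : ℝ) (z : EE) {x : EE}
    (hx : x ∈ TR φ b) :
    rhoF (rF φ hT.hb) (comb (FF φ hT.hb G) (cc s θ z))
      (fun x => chR hT.hb (SM436.ta φ x) * Hh φ z x) x = rho φ (ext φ hT.hb G) s θ z x := by
  show rF φ hT.hb x - comb (FF φ hT.hb G) (cc s θ z) x + chR hT.hb (SM436.ta φ x) * Hh φ z x = _
  unfold rho
  rw [comb_FF hT G s θ z hx, chR_one hT.hb hx.2.le, rF_eq hT hx, ext_eq hT G hx]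
  unfold Hh uu r0
  ring

theorem eden_congr {ε : ℝ} {R R' : EE → ℝ} {x : EE} (h : R =ᶠ[𝓝 x] R') :
    eden ε R x = eden ε R' x := by
  rw [eden_eq, eden_eq, h.eq_of_nhds, sgsq_eq, sgsq_eq, sdot_congr_left h, sdot_congr_right h]

theorem eden_nonneg {ε : ℝ} (hε : 0 < ε) (R : EE → ℝ) (x : EE) : 0 ≤ eden ε R x := by
  rw [eden_eq]
  have h1 := GG_nonneg hε (R x)
  have h2 := sgsq_nonneg R x
  positivity

theorem ta_lt_of_phi (hT : SM436.Tube φ b) {y : EE} (hy : ‖y‖ = 1)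
    (h : |φ y| < min (1 / 2) (b / 16)) : |SM436.ta φ y| < b / 8 := by
  have h1 : |φ y| < 1 / 2 := h.trans_le (min_le_left _ _)
  have h2 : |φ y| < b / 16 := h.trans_le (min_le_right _ _)
  have hy0 : y ≠ 0 := by rintro rfl; simp at hy
  have h3 := hT.rr_sq y
  have h4 := hT.rr_pos hy0
  rw [hy] at h3
  have h5 : φ y ^ 2 < 1 / 4 := by
    rw [← sq_abs]
    have := abs_nonneg (φ y)
    nlinarith
  have h6 : 1 / 2 < SM436.rr φ y := by
    by_contra hc
    push Not at hc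
    nlinarith
  rw [SM436.ta, abs_div, abs_of_pos h4, div_lt_iff₀ h4]
  have := abs_nonneg (φ y)
  have hb := hT.hb
  nlinarith

/-- the weighted integral -/
def gI (φ : EuclideanSpace ℝ (Fin n) → ℝ) {b : ℝ} (hb : 0 < b) (ε : ℝ)
    (F : EuclideanSpace ℝ (Fin n) → ℝ) : ℝ :=
  ∫ z : Sph n, eF φ hb z * GG ε (rF φ hb z) * F z ∂(sig n)

/-- what is needed about the limit -/
def LimHyp (φ : EuclideanSpace ℝ (Fin n) → ℝ) (b : ℝ) (hb : 0 < b) : Prop :=
  ∀ F : EuclideanSpace ℝ (Fin n) → ℝ, (∀ x : EuclideanSpace ℝ (Fin n), x ≠ 0 → ContinuousAt F x) →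
    Tendsto (fun ε : ℝ => ∫ z : Sph n, chE hb (SM436.ta φ z)
      * (1 / ε * (1 - Real.tanh (Real.arctan (SM436.ta φ z) / ε) ^ 2) ^ 2) * F z ∂(sig n))
      (𝓝[>] 0) (𝓝 (4 / 3 * ∫ x, F x ∂(SM436.mu φ b)))

theorem gI_tendsto (hT : SM436.Tube φ b) (hL : LimHyp φ b hT.hb) {F : EE → ℝ}
    (hF : ∀ x : EE, x ≠ 0 → ContinuousAt F x) :
    Tendsto (fun ε => gI φ hT.hb ε F) (𝓝[>] 0) (𝓝 (4 / 3 * ∫ x, F x ∂(SM436.mu φ b))) := by
  refine (hL F hF).congr fun ε => ?_
  unfold gI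
  refine integral_congr_ae (Eventually.of_forall fun z => ?_)
  show chE hT.hb (SM436.ta φ z)
      * (1 / ε * (1 - Real.tanh (Real.arctan (SM436.ta φ z) / ε) ^ 2) ^ 2) * F z
      = chE hT.hb (SM436.ta φ z) * 1 * GG ε (rF φ hT.hb z) * F z
  by_cases h : b / 4 ≤ |SM436.ta φ (z : EE)|
  · rw [chE_zero hT.hb h]; ring
  · have hb := hT.hb
    have h1 : (z : EE) ∈ TR φ b := (mem_TR_iff hT (sph_ne z)).2 (by push Not at h; linarith)
    rw [rF_eq hT h1]
    unfold GG r0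
    ring

variable {ι : Type} [Fintype ι]

theorem gI_quad (hT : SM436.Tube φ b) {F : ι → EE → ℝ} (hF : ∀ i, SmHom0 (F i)) (c : ι → ℝ)
    (ε : ℝ) :
    gI φ hT.hb ε (fun x => sgsq (comb F c) x - qF φ hT.hb x * comb F c x ^ 2)
      = ∑ i, ∑ k, c i * c k * gI φ hT.hb ε
          (fun x => sdot (F i) (F k) x - qF φ hT.hb x * (F i x * F k x)) := by
  have ηc : C1 (eF φ hT.hb) := (eF_sm hT).c1
  have rc : C1 (rF φ hT.hb) := (rF_sm hT).c1
  have qc : C1 (qF φ hT.hb) := qF_sm hT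
  have hI : ∀ i k, Integrable (fun z : Sph n => eF φ hT.hb z * GG ε (rF φ hT.hb z)
      * (sdot (F i) (F k) z - qF φ hT.hb z * (F i z * F k z))) (sig n) := by
    intro i k
    refine integrable_sph (f := fun z => eF φ hT.hb z * GG ε (rF φ hT.hb z)
      * (sdot (F i) (F k) z - qF φ hT.hb z * (F i z * F k z))) fun x hx => ?_
    refine ((ηc.cont hx).mul (((continuous_GG ε).continuousAt).comp (rc.cont hx))).mul ?_
    exact ((hF i).c1.cont_sdot (hF k).c1 hx).sub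
      ((qc.cont hx).mul (((hF i).c1.cont hx).mul ((hF k).c1.cont hx)))
  have h1 : ∀ z : Sph n, eF φ hT.hb z * GG ε (rF φ hT.hb z)
      * (sgsq (comb F c) z - qF φ hT.hb z * comb F c z ^ 2)
      = ∑ i, ∑ k, c i * c k * (eF φ hT.hb z * GG ε (rF φ hT.hb z)
        * (sdot (F i) (F k) z - qF φ hT.hb z * (F i z * F k z))) := by
    intro z
    rw [sdot_comb hF c (sph_ne z), sq_comb]
    rw [Finset.mul_sum, ← Finset.sum_sub_distrib, Finset.mul_sum]
    refine Finset.sum_congr rfl fun i _ => ?_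
    rw [Finset.mul_sum, ← Finset.sum_sub_distrib, Finset.mul_sum]
    refine Finset.sum_congr rfl fun k _ => ?_
    ring
  unfold gI
  rw [integral_congr_ae (Eventually.of_forall h1), integral_finsetSum]
  · refine Finset.sum_congr rfl fun i _ => ?_
    rw [integral_finsetSum]
    · exact Finset.sum_congr rfl fun k _ => integral_const_mul _ _
    · exact fun k _ => (hI i k).const_mul _
  · exact fun i _ => integrable_finsetSum _ fun k _ => (hI i k).const_mul _

theorem mu_quad (hT : SM436.Tube φ b) {F : ι → EE → ℝ} (hF : ∀ i, SmHom0 (F i)) (c : ι → ℝ) :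
    ∫ x, (sgsq (comb F c) x - qF φ hT.hb x * comb F c x ^ 2) ∂(SM436.mu φ b)
      = ∑ i, ∑ k, c i * c k * ∫ x, (sdot (F i) (F k) x - qF φ hT.hb x * (F i x * F k x))
          ∂(SM436.mu φ b) := by
  have qc : C1 (qF φ hT.hb) := qF_sm hT
  have hI : ∀ i k, Integrable (fun x => sdot (F i) (F k) x - qF φ hT.hb x * (F i x * F k x))
      (SM436.mu φ b) := by
    intro i k
    refine hT.integrable_mu fun p hp => ?_
    have hx := hT.ne_zero_of_Lk hp
    exact (((hF i).c1.cont_sdot (hF k).c1 hx).sub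
      ((qc.cont hx).mul (((hF i).c1.cont hx).mul ((hF k).c1.cont hx)))).continuousWithinAt
  have h1 : ∀ᵐ x ∂(SM436.mu φ b), sgsq (comb F c) x - qF φ hT.hb x * comb F c x ^ 2
      = ∑ i, ∑ k, c i * c k * (sdot (F i) (F k) x - qF φ hT.hb x * (F i x * F k x)) := by
    filter_upwards [hT.ae_mem_Lk] with x hx
    rw [sdot_comb hF c (hT.ne_zero_of_Lk hx), sq_comb]
    rw [Finset.mul_sum, ← Finset.sum_sub_distrib]
    refine Finset.sum_congr rfl fun i _ => ?_
    rw [Finset.mul_sum, ← Finset.sum_sub_distrib]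
    refine Finset.sum_congr rfl fun k _ => ?_
    ring
  rw [integral_congr_ae h1, integral_finsetSum]
  · refine Finset.sum_congr rfl fun i _ => ?_
    rw [integral_finsetSum]
    · exact Finset.sum_congr rfl fun k _ => integral_const_mul _ _
    · exact fun k _ => (hI i k).const_mul _
  · exact fun i _ => integrable_finsetSum _ fun k _ => (hI i k).const_mul _

/-- LEMMA N, with the two analytic inputs as hypotheses -/
theorem near_core (hn : 0 < n) (nc : NullCone φ) (hT : SM436.Tube φ b)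
    (hmin : ∀ p ∈ SM436.Lk φ, LinearMap.trace ℝ EE (SM436.hs φ p : EE →ₗ[ℝ] EE) = 0)
    {G : EE → ℝ} (hG : ∀ p ∈ SM436.Lk φ, ContDiffAt ℝ ∞ G p) {dB CB : ℝ} (hdB : 0 < dB)
    (hd1 : dB < 1) (hCB : 0 ≤ CB) (hB : BoostHyp φ b dB CB) (hL : LimHyp φ b hT.hb) :
    ∃ (t0 d0 C : ℝ) (om : ℝ → ℝ), 0 < t0 ∧ 0 < d0 ∧ d0 ≤ dB ∧ 0 ≤ C ∧ Tendsto om (𝓝[>] 0) (𝓝 0) ∧
      (∀ z : EE, ‖z‖ ≤ d0 → ∀ y : EE, ‖y‖ = 1 → |φ y| < t0 → ContDiffAt ℝ 1 (boost φ z) y) ∧
      ∀ ε : ℝ, 0 < ε → ε ≤ 1 → ∀ (s : ℝ) (z : EE) (θ : ℝ), |s| ≤ d0 → ‖z‖ ≤ d0 → |θ| ≤ d0 →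
        ∫ y in {y : Sph n | |φ y| < t0}, eden ε (rho φ (ext φ hT.hb G) s θ z) y ∂(sig n)
          ≤ 4 / 3 * ((SM436.mu φ b).real univ + 1 / 2 * QQ φ b ((n : ℝ) - 2) (uu G s θ z))
            + C * (|s| + ‖z‖ + |θ|) ^ 3 + om ε := by
  have hb := hT.hb
  obtain ⟨K, hK⟩ := exists_tube hT hmin
  obtain ⟨C1', δ0, hC1, hδ0, -, -, hexp⟩ := hK.energy_expand hn
  obtain ⟨K0, hK0, hsmall⟩ := exists_small nc hT hG hd1 hCB hB
  set η := eF φ hT.hb with hη
  set r := rF φ hT.hb with hr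
  set q := qF φ hT.hb with hq
  set F := FF φ hT.hb G with hF
  have hFs : ∀ i, SmHom0 (F i) := FF_sm hT hG
  have ηc : C1 η := (eF_sm hT).c1
  have rc : C1 r := (rF_sm hT).c1
  have qc : C1 q := qF_sm hT
  set BB : Ix n → Ix n → EE → ℝ := fun i k x => sdot (F i) (F k) x - q x * (F i x * F k x) with hBB
  have hBBc : ∀ i k, ∀ x : EE, x ≠ 0 → ContinuousAt (BB i k) x := fun i k x hx =>
    ((hFs i).c1.cont_sdot (hFs k).c1 hx).sub
      ((qc.cont hx).mul (((hFs i).c1.cont hx).mul ((hFs k).c1.cont hx)))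
  set V := (SM436.mu φ b).real univ with hV
  set om : ℝ → ℝ := fun ε => |gI φ hT.hb ε (fun _ => 1) - 4 / 3 * V|
    + (∑ i, ∑ k, |gI φ hT.hb ε (BB i k) - 4 / 3 * ∫ x, BB i k x ∂(SM436.mu φ b)|)
    + C1' * ε with hom
  have := hT.isFiniteMeasure_mu
  have hom0 : Tendsto om (𝓝[>] 0) (𝓝 0) := by
    have e1 : Tendsto (fun ε => |gI φ hT.hb ε (fun _ => 1) - 4 / 3 * V|) (𝓝[>] 0) (𝓝 0) := by
      have h1 := gI_tendsto hT hL (F := fun _ => 1) (fun x _ => continuousAt_const)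
      have h2 : ∫ _x : EE, (1 : ℝ) ∂(SM436.mu φ b) = V := by
        rw [integral_const, smul_eq_mul, mul_one]
      rw [h2] at h1
      have h3 := (h1.sub_const (4 / 3 * V)).abs
      simpa using h3
    have e2 : Tendsto (fun ε => ∑ i, ∑ k, |gI φ hT.hb ε (BB i k)
        - 4 / 3 * ∫ x, BB i k x ∂(SM436.mu φ b)|) (𝓝[>] 0) (𝓝 0) := by
      have h1 : (0 : ℝ) = ∑ _i : Ix n, ∑ _k : Ix n, (0 : ℝ) := by simp
      rw [h1]
      refine tendsto_finsetSum _ fun i _ => tendsto_finsetSum _ fun k _ => ?_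
      have h2 := gI_tendsto hT hL (hBBc i k)
      have h3 := (h2.sub_const (4 / 3 * ∫ x, BB i k x ∂(SM436.mu φ b))).abs
      simpa using h3
    have e3 : Tendsto (fun ε : ℝ => C1' * ε) (𝓝[>] 0) (𝓝 0) := by
      have : Tendsto (fun ε : ℝ => C1' * ε) (𝓝 0) (𝓝 (C1' * 0)) := tendsto_id.const_mul C1'
      rw [mul_zero] at this
      exact this.mono_left nhdsWithin_le_nhds
    have e4 := (e1.add e2).add e3
    rw [add_zero, add_zero] at e4
    exact e4
  refine ⟨min (1 / 2) (b / 16), min (min dB (δ0 / (3 * K0))) (1 / 3), C1' * K0 ^ 3, om, by positivity,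
    by positivity, (min_le_left _ _).trans (min_le_left _ _), by positivity, hom0, ?_, ?_⟩
  · intro z hz y hy hφy
    have h1 := ta_lt_of_phi hT hy hφy
    exact (hB z (hz.trans ((min_le_left _ _).trans (min_le_left _ _))) y hy (by linarith)).1
  intro ε hε hε1 s z θ hs hz hθ
  have hzB : ‖z‖ ≤ dB := hz.trans ((min_le_left _ _).trans (min_le_left _ _))
  set D := |s| + ‖z‖ + |θ| with hD
  have hD0 : 0 ≤ D := by positivity
  have hD3 : D ≤ 3 * (min (min dB (δ0 / (3 * K0))) (1 / 3)) := by linarith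
  have hD1 : D ≤ 1 := by
    have := min_le_right (min dB (δ0 / (3 * K0))) (1 / 3)
    linarith
  have hDδ : K0 * D ≤ δ0 := by
    have h1 : min (min dB (δ0 / (3 * K0))) (1 / 3) ≤ δ0 / (3 * K0) :=
      (min_le_left _ _).trans (min_le_right _ _)
    calc K0 * D ≤ K0 * (3 * (δ0 / (3 * K0))) := by
          gcongr; linarith
      _ = δ0 := by field_simp
  set f := comb F (cc s θ z) with hf
  set hh : EE → ℝ := fun x => chR hT.hb (SM436.ta φ x) * Hh φ z x with hhh
  have hS : Small (TR φ b) (K0 * D) r f hh := hsmall s θ z hzB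
  have hE := hexp ε (K0 * D) f hh hε hε1 (by positivity) hDδ hS
  rw [second_term hT hn hK (comb_sm hFs _) (comb_NC (FF_NC hT G) _) ε] at hE
  have g1 : ∫ z : Sph n, η z * eden ε r z ∂(sig n) = gI φ hT.hb ε (fun _ => 1) := by
    unfold gI
    refine integral_congr_ae (Eventually.of_forall fun y => ?_)
    show η y * eden ε r y = η y * GG ε (r y) * 1
    by_cases hy : (y : EE) ∈ TR φ b
    · rw [eden_eq, hK.eik y hy]; ring
    · rw [hK.supp y hy]; ring
  have g2 : ∫ z : Sph n, η z * GG ε (r z) * (sgsq f z - q z * f z ^ 2) ∂(sig n)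
      = ∑ i, ∑ k, cc s θ z i * cc s θ z k * gI φ hT.hb ε (BB i k) :=
    gI_quad hT hFs (cc s θ z) ε
  have g3 : QQ φ b ((n : ℝ) - 2) (uu G s θ z)
      = ∑ i, ∑ k, cc s θ z i * cc s θ z k * ∫ x, BB i k x ∂(SM436.mu φ b) := by
    rw [← integral_quad hT hG s θ z]
    exact mu_quad hT hFs (cc s θ z)
  have hcc : ∀ i, |cc s θ z i| ≤ 1 := fun i => (abs_cc_le s θ z i).trans hD1
  have g4 : (∑ i, ∑ k, cc s θ z i * cc s θ z k * gI φ hT.hb ε (BB i k))
      ≤ 4 / 3 * (∑ i, ∑ k, cc s θ z i * cc s θ z k * ∫ x, BB i k x ∂(SM436.mu φ b))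
        + ∑ i, ∑ k, |gI φ hT.hb ε (BB i k) - 4 / 3 * ∫ x, BB i k x ∂(SM436.mu φ b)| := by
    rw [Finset.mul_sum, ← Finset.sum_add_distrib]
    refine Finset.sum_le_sum fun i _ => ?_
    rw [Finset.mul_sum, ← Finset.sum_add_distrib]
    refine Finset.sum_le_sum fun k _ => ?_
    set A := gI φ hT.hb ε (BB i k)
    set B := ∫ x, BB i k x ∂(SM436.mu φ b)
    have h1 : cc s θ z i * cc s θ z k * (A - 4 / 3 * B) ≤ |A - 4 / 3 * B| := by
      refine (le_abs_self _).trans ?_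
      rw [abs_mul, abs_mul]
      have h2 : |cc s θ z i| * |cc s θ z k| ≤ 1 :=
        mul_le_one₀ (hcc i) (abs_nonneg _) (hcc k)
      calc |cc s θ z i| * |cc s θ z k| * |A - 4 / 3 * B| ≤ 1 * |A - 4 / 3 * B| := by gcongr
        _ = _ := one_mul _
    linarith
  -- the set integral
  have hρc : ∀ x : EE, x ≠ 0 → ContinuousAt (fun x => η x * eden ε (rhoF r f hh) x) x := by
    intro x hx
    have ρc : C1 (rhoF r f hh) := c1_rhoF rc hS.f_sm.c1 hS.h_c1
    have h1 : (fun x => η x * eden ε (rhoF r f hh) x)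
        = fun x => η x * (GG ε (rhoF r f hh x) * ((1 + sgsq (rhoF r f hh) x) / 2)) := by
      funext x; rw [eden_eq]
    rw [h1]
    exact (ηc.cont hx).mul ((((continuous_GG ε).continuousAt).comp (ρc.cont hx)).mul
      ((continuousAt_const.add (ρc.cont_sdot ρc hx)).div_const 2))
  have iρ : Integrable (fun y : Sph n => η y * eden ε (rhoF r f hh) y) (sig n) :=
    integrable_sph hρc
  have hms : MeasurableSet {y : Sph n | |φ y| < min (1 / 2) (b / 16)} := by
    have hc : Continuous fun y : Sph n => |φ y| :=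
      (hT.lip.continuous.comp continuous_subtype_val).abs
    exact (isOpen_lt hc continuous_const).measurableSet
  have g5 : ∫ y in {y : Sph n | |φ y| < min (1 / 2) (b / 16)},
      eden ε (rho φ (ext φ hT.hb G) s θ z) y ∂(sig n)
      ≤ ∫ y : Sph n, η y * eden ε (rhoF r f hh) y ∂(sig n) := by
    have h1 : ∫ y in {y : Sph n | |φ y| < min (1 / 2) (b / 16)},
        eden ε (rho φ (ext φ hT.hb G) s θ z) y ∂(sig n)
        = ∫ y in {y : Sph n | |φ y| < min (1 / 2) (b / 16)},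
          η y * eden ε (rhoF r f hh) y ∂(sig n) := by
      refine setIntegral_congr_fun hms fun y hy => ?_
      have hy1 : ‖(y : EE)‖ = 1 := by simp
      have hta := ta_lt_of_phi hT hy1 hy
      have hyT : (y : EE) ∈ TR φ b := (mem_TR_iff hT (sph_ne y)).2 (by linarith)
      have h2 : η y = 1 := by
        show chE hT.hb (SM436.ta φ y) * 1 = 1
        rw [chE_one hT.hb hta.le, one_mul]
      have h3 : rhoF r f hh =ᶠ[𝓝 (y : EE)] rho φ (ext φ hT.hb G) s θ z := by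
        filter_upwards [(isOpen_TR hT).mem_nhds hyT] with x hx using rhoF_eq hT G s θ z hx
      show eden ε (rho φ (ext φ hT.hb G) s θ z) y = η y * eden ε (rhoF r f hh) y
      rw [h2, one_mul, eden_congr h3]
    rw [h1]
    refine setIntegral_le_integral iρ (Eventually.of_forall fun y => ?_)
    exact mul_nonneg (hK.η_nonneg y) (eden_nonneg hε _ _)
  have g6 := (abs_le.1 hE).2
  rw [g1, g2] at g6
  have g7 := le_abs_self (gI φ hT.hb ε (fun _ => 1) - 4 / 3 * V)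
  have g8 : C1' * ((K0 * D) ^ 3 + ε) = C1' * K0 ^ 3 * D ^ 3 + C1' * ε := by ring
  rw [g8] at g6
  have g9 : 0 ≤ ∑ i, ∑ k, |gI φ hT.hb ε (BB i k) - 4 / 3 * ∫ x, BB i k x ∂(SM436.mu φ b)| :=
    Finset.sum_nonneg fun i _ => Finset.sum_nonneg fun k _ => abs_nonneg _
  refine g5.trans ?_
  rw [g3]
  show _ ≤ _ + _ + (|gI φ hT.hb ε (fun _ => 1) - 4 / 3 * V|
    + (∑ i, ∑ k, |gI φ hT.hb ε (BB i k) - 4 / 3 * ∫ x, BB i k x ∂(SM436.mu φ b)|)
    + C1' * ε)
  linarith

end Crest.Agent.R246.IN200
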