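import Mathlib
import Crest.Agent.R246.Visc_475
import Crest.Agent.R246.HerschSM_900
import Crest.Agent.R246.NcMax_112

-- ▼ part R246/Glob_475
section

/-!
R246, step 4(B): local barriers of uniform radius => global barriers (helper475).
-/

set_option autoImplicit false
set_option linter.unusedSectionVars false
open MeasureTheory Set Filter Topology

namespace Crest.Agent.R246.Visc475

section Prod

variable {E : Type*} [NormedAddCommGroup E] [NormedSpace ℝ E]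

theorem fderiv2_mul {f g : E → ℝ} {x : E} (hf : ContDiffAt ℝ 2 f x) (hg : ContDiffAt ℝ 2 g x)
    (v : E) :
    fderiv ℝ (fderiv ℝ (fun y => f y * g y)) x v v
      = f x * fderiv ℝ (fderiv ℝ g) x v v + 2 * (fderiv ℝ f x v * fderiv ℝ g x v)
        + g x * fderiv ℝ (fderiv ℝ f) x v v := by
  have hf' : ∀ᶠ y in 𝓝 x, DifferentiableAt ℝ f y := by
    filter_upwards [hf.eventually (by norm_num)] with y hy
    exact hy.differentiableAt (by norm_num)
  have hg' : ∀ᶠ y in 𝓝 x, DifferentiableAt ℝ g y := by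
    filter_upwards [hg.eventually (by norm_num)] with y hy
    exact hy.differentiableAt (by norm_num)
  have e1 : fderiv ℝ (fun y => f y * g y) =ᶠ[𝓝 x]
      fun y => f y • fderiv ℝ g y + g y • fderiv ℝ f y := by
    filter_upwards [hf', hg'] with y h1 h2
    exact fderiv_fun_mul h1 h2
  have hf1 : DifferentiableAt ℝ f x := hf.differentiableAt (by norm_num)
  have hg1 : DifferentiableAt ℝ g x := hg.differentiableAt (by norm_num)
  have hf2 : DifferentiableAt ℝ (fderiv ℝ f) x :=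
    (hf.fderiv_right (m := 1) (by norm_num)).differentiableAt (by norm_num)
  have hg2 : DifferentiableAt ℝ (fderiv ℝ g) x :=
    (hg.fderiv_right (m := 1) (by norm_num)).differentiableAt (by norm_num)
  rw [e1.fderiv_eq]
  have h1 := (hf1.hasFDerivAt.smul hg2.hasFDerivAt).add (hg1.hasFDerivAt.smul hf2.hasFDerivAt)
  have h2 : fderiv ℝ (fun y => f y • fderiv ℝ g y + g y • fderiv ℝ f y) x = _ := h1.fderiv
  rw [h2]
  simp
  ring

end Prod

section Glob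

variable {E : Type*} [NormedAddCommGroup E] [InnerProductSpace ℝ E] [FiniteDimensional ℝ E]
variable {ι : Type*} [Fintype ι]

theorem Lop_congr {V : ι → E → E} {b : E → E} {f g : E → ℝ} {x : E} (h : f =ᶠ[𝓝 x] g) :
    Lop V b f x = Lop V b g x := by
  unfold Lop
  have h1 : fderiv ℝ f =ᶠ[𝓝 x] fderiv ℝ g := h.fderiv
  rw [h1.fderiv_eq, h.fderiv_eq]

theorem fderiv_bdd {E : Type*} [NormedAddCommGroup E] [NormedSpace ℝ E]
    {F : Type*} [NormedAddCommGroup F] [NormedSpace ℝ F] {g : E → F}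
    (hg : ContDiff ℝ 1 g) (hc : HasCompactSupport g) : ∃ B, ∀ x, ‖fderiv ℝ g x‖ ≤ B :=
  (hc.fderiv (𝕜 := ℝ)).exists_bound_of_continuous (hg.continuous_fderiv (by norm_num))

theorem fderiv2_bdd {f : E → ℝ} (hf : ContDiff ℝ 2 f) (hc : HasCompactSupport f) :
    ∃ B2, ∀ x, ‖fderiv ℝ (fderiv ℝ f) x‖ ≤ B2 :=
  fderiv_bdd (F := E →L[ℝ] ℝ) (hf.fderiv_right (m := 1) (by norm_num)) (hc.fderiv (𝕜 := ℝ))

theorem exists_bump0 {r : WithTop ℕ∞} (hr' : r ≤ (⊤ : ℕ∞)) {r0 : ℝ} (hr0 : 0 < r0) :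
    ∃ f : E → ℝ, ContDiff ℝ r f ∧ HasCompactSupport f ∧ (∀ x, 0 ≤ f x) ∧ (∀ x, f x ≤ 1) ∧
      (∀ x, ‖x‖ ≤ r0 / 3 → f x = 1) ∧ (∀ x, 2 * r0 / 3 ≤ ‖x‖ → f x = 0) := by
  obtain ⟨χ0, h1, h2⟩ : ∃ χ0 : ContDiffBump (0 : E), χ0.rIn = r0 / 3 ∧ χ0.rOut = 2 * r0 / 3 :=
    ⟨⟨r0 / 3, 2 * r0 / 3, by positivity, by linarith⟩, rfl, rfl⟩
  have hs : ContDiff ℝ (((⊤ : ℕ∞) : WithTop ℕ∞)) (fun x : E => χ0 x) := χ0.contDiff
  refine ⟨fun x => χ0 x, hs.of_le hr', χ0.hasCompactSupport, fun x => χ0.nonneg,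
    fun x => χ0.le_one, fun x hx => ?_, fun x hx => ?_⟩
  · apply χ0.one_of_mem_closedBall
    rw [mem_closedBall_zero_iff, h1]
    exact hx
  · apply χ0.zero_of_le_dist
    rw [dist_zero_right, h2]
    exact hx

/-- bumps, uniformly in the centre. -/
theorem exists_bumps {r : WithTop ℕ∞} (hr : 2 ≤ r) (hr' : r ≤ (⊤ : ℕ∞)) {r0 : ℝ} (hr0 : 0 < r0) :
    ∃ B : ℝ, 0 ≤ B ∧ ∀ x₀ : E, ∃ χ : E → ℝ, ContDiff ℝ r χ ∧ (∀ x, 0 ≤ χ x) ∧ (∀ x, χ x ≤ 1) ∧
      (∀ x, ‖fderiv ℝ χ x‖ ≤ B) ∧ (∀ x, ‖fderiv ℝ (fderiv ℝ χ) x‖ ≤ B) ∧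
      (∀ x, x ∉ Metric.ball x₀ r0 → χ =ᶠ[𝓝 x] fun _ => 0) ∧ χ =ᶠ[𝓝 x₀] fun _ => 1 := by
  obtain ⟨f, hfs, hfc, hf0, hf1, hfin, hfout⟩ := exists_bump0 (E := E) hr' hr0
  have hf2 : ContDiff ℝ 2 f := hfs.of_le hr
  obtain ⟨B1, hB1⟩ := fderiv_bdd (hf2.of_le (by norm_num)) hfc
  obtain ⟨B2, hB2⟩ := fderiv2_bdd hf2 hfc
  refine ⟨max B1 B2, (norm_nonneg _).trans ((hB1 0).trans (le_max_left _ _)), fun x₀ => ?_⟩
  refine ⟨fun x => f (x - x₀), hfs.comp (contDiff_id.sub contDiff_const), fun x => hf0 _,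
      fun x => hf1 _, fun x => ?_, fun x => ?_, fun x hx => ?_, ?_⟩
  · rw [fderiv_comp_sub x₀]
    exact (hB1 _).trans (le_max_left _ _)
  · have h3 : fderiv ℝ (fun y => f (y - x₀)) = fun y => fderiv ℝ f (y - x₀) :=
      funext fun y => fderiv_comp_sub x₀
    rw [h3, fderiv_comp_sub x₀]
    exact (hB2 _).trans (le_max_right _ _)
  · have h1 : IsOpen {y : E | 2 * r0 / 3 < dist y x₀} :=
      isOpen_lt continuous_const (continuous_id.dist continuous_const)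
    have h2 : x ∈ {y : E | 2 * r0 / 3 < dist y x₀} := by
      rw [Metric.mem_ball, not_lt] at hx
      show 2 * r0 / 3 < dist x x₀
      linarith
    filter_upwards [h1.mem_nhds h2] with y hy
    apply hfout
    rw [← dist_eq_norm]
    exact le_of_lt hy
  · filter_upwards [Metric.ball_mem_nhds x₀ (show 0 < r0 / 3 by positivity)] with y hy
    apply hfin
    rw [← dist_eq_norm]
    exact le_of_lt hy

/-- one barrier made global. -/
theorem glob_one {r : WithTop ℕ∞} (hr : 2 ≤ r) {x₀ : E} {r0 : ℝ} {B C0 B3 K : ℝ}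
    (hC0 : 0 ≤ C0) (hB30 : 0 ≤ B3) (hB0 : 0 ≤ B) {χ ψ : E → ℝ}
    (hχ : ContDiff ℝ r χ) (hχ0 : ∀ x, 0 ≤ χ x) (hχ1 : ∀ x, χ x ≤ 1)
    (hχd1 : ∀ x, ‖fderiv ℝ χ x‖ ≤ B) (hχd2 : ∀ x, ‖fderiv ℝ (fderiv ℝ χ) x‖ ≤ B)
    (hχout : ∀ x, x ∉ Metric.ball x₀ r0 → χ =ᶠ[𝓝 x] fun _ => 0)
    (hψat : ∀ x ∈ Metric.ball x₀ r0, ContDiffAt ℝ r ψ x)
    (hD1 : ∀ x ∈ Metric.ball x₀ r0, ‖fderiv ℝ ψ x‖ ≤ C0)
    (hD2 : ∀ x ∈ Metric.ball x₀ r0, ‖fderiv ℝ (fderiv ℝ ψ) x‖ ≤ C0)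
    (hψb : ∀ x ∈ Metric.ball x₀ r0, |ψ x + K| ≤ B3) :
    ContDiff ℝ r (fun x => χ x * (ψ x + K) + (-K)) ∧
    (∀ x, ‖fderiv ℝ (fun x => χ x * (ψ x + K) + (-K)) x‖ ≤ C0 + B3 * B) ∧
    (∀ x, ∀ v : E, |fderiv ℝ (fderiv ℝ (fun x => χ x * (ψ x + K) + (-K))) x v v|
      ≤ (C0 + 2 * (B * C0) + B3 * B) * ‖v‖ * ‖v‖) := by
  have hr1 : r ≠ 0 := by
    intro h; rw [h] at hr; simp at hr
  have hφout : ∀ x, x ∉ Metric.ball x₀ r0 →
      (fun x => χ x * (ψ x + K) + (-K)) =ᶠ[𝓝 x] fun _ => -K := by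
    intro x hx
    filter_upwards [hχout x hx] with y hy
    rw [hy]; ring
  refine ⟨?_, fun x => ?_, fun x v => ?_⟩
  · rw [contDiff_iff_contDiffAt]
    intro x
    by_cases hx : x ∈ Metric.ball x₀ r0
    · exact (hχ.contDiffAt.mul ((hψat x hx).add contDiffAt_const)).add contDiffAt_const
    · exact contDiffAt_const.congr_of_eventuallyEq (hφout x hx)
  · by_cases hx : x ∈ Metric.ball x₀ r0
    · have hψx : DifferentiableAt ℝ (fun y => ψ y + K) x :=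
        ((hψat x hx).differentiableAt hr1).add_const K
      have hχx : DifferentiableAt ℝ χ x := hχ.contDiffAt.differentiableAt hr1
      have h1 : fderiv ℝ (fun x => χ x * (ψ x + K) + (-K)) x
          = χ x • fderiv ℝ ψ x + (ψ x + K) • fderiv ℝ χ x := by
        rw [fderiv_add_const, fderiv_fun_mul hχx hψx, fderiv_add_const]
      rw [h1]
      calc ‖χ x • fderiv ℝ ψ x + (ψ x + K) • fderiv ℝ χ x‖
          ≤ ‖χ x • fderiv ℝ ψ x‖ + ‖(ψ x + K) • fderiv ℝ χ x‖ := norm_add_le _ _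
        _ ≤ 1 * C0 + B3 * B := by
            rw [norm_smul, norm_smul]
            refine add_le_add ?_ ?_
            · refine mul_le_mul ?_ (hD1 x hx) (norm_nonneg _) zero_le_one
              rw [Real.norm_eq_abs, abs_of_nonneg (hχ0 x)]
              exact hχ1 x
            · exact mul_le_mul (hψb x hx) (hχd1 x) (norm_nonneg _) hB30
        _ = C0 + B3 * B := by ring
    · rw [(hφout x hx).fderiv_eq]
      simp
      positivity
  · by_cases hx : x ∈ Metric.ball x₀ r0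
    · have hψx : ContDiffAt ℝ 2 (fun y => ψ y + K) x :=
        ((hψat x hx).of_le hr).add contDiffAt_const
      have e0 : fderiv ℝ (fun x => χ x * (ψ x + K) + (-K))
          = fderiv ℝ (fun y => χ y * (ψ y + K)) := by
        funext y
        rw [fderiv_add_const]
      have e1 : fderiv ℝ (fun y => ψ y + K) = fderiv ℝ ψ := by
        funext y
        rw [fderiv_add_const]
      rw [e0, fderiv2_mul (hχ.of_le hr).contDiffAt hψx v, e1]
      have a1 : |χ x * fderiv ℝ (fderiv ℝ ψ) x v v| ≤ C0 * ‖v‖ * ‖v‖ := by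
        rw [abs_mul, abs_of_nonneg (hχ0 x)]
        have h1 : |fderiv ℝ (fderiv ℝ ψ) x v v| ≤ C0 * ‖v‖ * ‖v‖ := by
          refine (ContinuousLinearMap.le_opNorm₂ (fderiv ℝ (fderiv ℝ ψ) x) v v).trans ?_
          have := hD2 x hx
          gcongr
        have h2 := hχ1 x
        have h3 := abs_nonneg (fderiv ℝ (fderiv ℝ ψ) x v v)
        nlinarith
      have a2 : |2 * (fderiv ℝ χ x v * fderiv ℝ ψ x v)| ≤ 2 * (B * C0) * ‖v‖ * ‖v‖ := by
        rw [abs_mul, abs_mul, abs_two]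
        have h1 : |fderiv ℝ χ x v| ≤ B * ‖v‖ := by
          refine (ContinuousLinearMap.le_opNorm (fderiv ℝ χ x) v).trans ?_
          have := hχd1 x
          gcongr
        have h2 : |fderiv ℝ ψ x v| ≤ C0 * ‖v‖ := by
          refine (ContinuousLinearMap.le_opNorm (fderiv ℝ ψ x) v).trans ?_
          have := hD1 x hx
          gcongr
        calc 2 * (|fderiv ℝ χ x v| * |fderiv ℝ ψ x v|) ≤ 2 * ((B * ‖v‖) * (C0 * ‖v‖)) := by
              gcongr
          _ = _ := by ring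
      have a3 : |(ψ x + K) * fderiv ℝ (fderiv ℝ χ) x v v| ≤ B3 * B * ‖v‖ * ‖v‖ := by
        rw [abs_mul]
        have h1 : |fderiv ℝ (fderiv ℝ χ) x v v| ≤ B * ‖v‖ * ‖v‖ := by
          refine (ContinuousLinearMap.le_opNorm₂ (fderiv ℝ (fderiv ℝ χ) x) v v).trans ?_
          have := hχd2 x
          gcongr
        calc |ψ x + K| * |fderiv ℝ (fderiv ℝ χ) x v v| ≤ B3 * (B * ‖v‖ * ‖v‖) := by
              have := hψb x hx
              gcongr
          _ = _ := by ring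
      calc _ ≤ |χ x * fderiv ℝ (fderiv ℝ ψ) x v v| + |2 * (fderiv ℝ χ x v * fderiv ℝ ψ x v)|
            + |(ψ x + K) * fderiv ℝ (fderiv ℝ χ) x v v| := abs_add_three _ _ _
        _ ≤ C0 * ‖v‖ * ‖v‖ + 2 * (B * C0) * ‖v‖ * ‖v‖ + B3 * B * ‖v‖ * ‖v‖ := by linarith
        _ = (C0 + 2 * (B * C0) + B3 * B) * ‖v‖ * ‖v‖ := by ring
    · have h1 : fderiv ℝ (fun x => χ x * (ψ x + K) + (-K)) =ᶠ[𝓝 x] fderiv ℝ (fun _ => -K) :=
        (hφout x hx).fderiv
      have h2 : fderiv ℝ (fun _ : E => -K) = fun _ => 0 := by funext y; simp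
      rw [h1.fderiv_eq, h2]
      simp
      positivity

/-- bound for `Lop` from derivative bounds. -/
theorem abs_Lop_le {V : ι → E → E} {b : E → E} {φ : E → ℝ} {x : E} {M C1 C2 : ℝ} (hM : 0 ≤ M)
    (hC1 : 0 ≤ C1) (hC2 : 0 ≤ C2)
    (hV : ∀ i, ‖V i x‖ ≤ M) (hb : ‖b x‖ ≤ M) (h1 : ‖fderiv ℝ φ x‖ ≤ C1)
    (h2 : ∀ v : E, |fderiv ℝ (fderiv ℝ φ) x v v| ≤ C2 * ‖v‖ * ‖v‖) :
    |Lop V b φ x| ≤ Fintype.card ι * (C2 * M * M) + C1 * M := by
  unfold Lop
  refine (abs_add_le _ _).trans ?_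
  refine add_le_add ?_ ?_
  · refine (Finset.abs_sum_le_sum_abs _ _).trans ?_
    have h2 : ∀ i ∈ (Finset.univ : Finset ι),
        |fderiv ℝ (fderiv ℝ φ) x (V i x) (V i x)| ≤ C2 * M * M := by
      intro i _
      refine (h2 _).trans ?_
      have := hV i
      gcongr
    refine (Finset.sum_le_sum h2).trans ?_
    rw [Finset.sum_const, Finset.card_univ, nsmul_eq_mul]
  · refine (ContinuousLinearMap.le_opNorm (fderiv ℝ φ x) (b x)).trans ?_
    exact mul_le_mul h1 hb (norm_nonneg _) hC1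

theorem coeff_bound {Z : Set E} (hZ : IsCompact Z) {V : ι → E → E} {b : E → E}
    (hV : ∀ i, ContinuousOn (V i) Z) (hb : ContinuousOn b Z) :
    ∃ M : ℝ, 0 ≤ M ∧ (∀ i, ∀ x ∈ Z, ‖V i x‖ ≤ M) ∧ ∀ x ∈ Z, ‖b x‖ ≤ M := by
  have hVM : ∀ i, ∃ M : ℝ, ∀ x ∈ Z, ‖V i x‖ ≤ M := fun i => hZ.exists_bound_of_continuousOn (hV i)
  choose Mi hMi using hVM
  obtain ⟨Mb, hMb⟩ := hZ.exists_bound_of_continuousOn hb
  refine ⟨∑ i, |Mi i| + |Mb|, by positivity, fun i x hx => ?_, fun x hx => ?_⟩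
  · calc ‖V i x‖ ≤ Mi i := hMi i x hx
      _ ≤ |Mi i| := le_abs_self _
      _ ≤ ∑ i, |Mi i| := Finset.single_le_sum (f := fun i => |Mi i|)
          (fun _ _ => abs_nonneg _) (Finset.mem_univ i)
      _ ≤ _ := by linarith [abs_nonneg Mb]
  · calc ‖b x‖ ≤ Mb := hMb x hx
      _ ≤ |Mb| := le_abs_self _
      _ ≤ _ := by
        have : 0 ≤ ∑ i, |Mi i| := Finset.sum_nonneg fun _ _ => abs_nonneg _
        linarith

/-- Local barriers with uniform radius and `C²` bounds give global barriers with uniform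
constants. -/
theorem globalize {r : WithTop ℕ∞} (hr : 2 ≤ r) (hr' : r ≤ (⊤ : ℕ∞)) {Z : Set E}
    (hZ : IsCompact Z) {V : ι → E → E} {b : E → E}
    (hV : ∀ i, ContinuousOn (V i) Z) (hb : ContinuousOn b Z) {w : E → ℝ} {K : ℝ}
    (hwK : ∀ x ∈ Z, |w x| ≤ K) {r0 : ℝ} (hr0 : 0 < r0) (C : ℝ) :
    ∃ C' : ℝ, ∀ x₀ ∈ Z, ∀ ψ : E → ℝ, ContDiffOn ℝ r ψ (Metric.ball x₀ r0) →
      (∀ x ∈ Z, x ∈ Metric.ball x₀ r0 → ψ x ≤ w x) → ψ x₀ = w x₀ →
      (∀ x ∈ Metric.ball x₀ r0, ‖fderiv ℝ ψ x‖ ≤ C) →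
      (∀ x ∈ Metric.ball x₀ r0, ‖fderiv ℝ (fderiv ℝ ψ) x‖ ≤ C) →
      ∃ φ, IsBar r Z w x₀ φ ∧ (∀ x ∈ Z, ∀ y ∈ Z, |φ x - φ y| ≤ C' * dist x y) ∧
        (∀ x ∈ Z, -C' ≤ Lop V b φ x) ∧ Lop V b φ x₀ = Lop V b ψ x₀ := by
  rcases Z.eq_empty_or_nonempty with hZe | ⟨z0, hz0⟩
  · exact ⟨0, fun x hx => by simp [hZe] at hx⟩
  have hK0 : 0 ≤ K := (abs_nonneg _).trans (hwK z0 hz0)
  obtain ⟨B, hB0, hB⟩ := exists_bumps (E := E) hr hr' hr0
  obtain ⟨M, hM0, hVM, hbM⟩ := coeff_bound hZ hV hb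
  obtain ⟨C0, hC0⟩ : ∃ C0 : ℝ, C0 = max C 0 := ⟨_, rfl⟩
  have hC00 : 0 ≤ C0 := by rw [hC0]; exact le_max_right _ _
  have hCC0 : C ≤ C0 := by rw [hC0]; exact le_max_left _ _
  obtain ⟨B3, hB3⟩ : ∃ B3 : ℝ, B3 = 2 * K + C0 * r0 := ⟨_, rfl⟩
  have hB30 : 0 ≤ B3 := by rw [hB3]; positivity
  have hr1 : r ≠ 0 := by
    intro h; rw [h] at hr; simp at hr
  refine ⟨max (C0 + B3 * B) (Fintype.card ι * ((C0 + 2 * (B * C0) + B3 * B) * M * M)
    + (C0 + B3 * B) * M), fun x₀ hx₀ ψ hψ hψw hψ0 hD1 hD2 => ?_⟩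
  have hD1' : ∀ x ∈ Metric.ball x₀ r0, ‖fderiv ℝ ψ x‖ ≤ C0 := fun x hx => (hD1 x hx).trans hCC0
  have hD2' : ∀ x ∈ Metric.ball x₀ r0, ‖fderiv ℝ (fderiv ℝ ψ) x‖ ≤ C0 := fun x hx =>
    (hD2 x hx).trans hCC0
  have hψat : ∀ x ∈ Metric.ball x₀ r0, ContDiffAt ℝ r ψ x := fun x hx =>
    hψ.contDiffAt (Metric.isOpen_ball.mem_nhds hx)
  have hψb : ∀ x ∈ Metric.ball x₀ r0, |ψ x + K| ≤ B3 := by
    intro x hx
    have h1 := (convex_ball x₀ r0).norm_image_sub_le_of_norm_fderiv_le (𝕜 := ℝ) (f := ψ)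
      (C := C0) (fun z hz => (hψat z hz).differentiableAt hr1) hD1'
      (Metric.mem_ball_self hr0) hx
    rw [Real.norm_eq_abs, ← dist_eq_norm] at h1
    have h2 : C0 * dist x x₀ ≤ C0 * r0 :=
      mul_le_mul_of_nonneg_left (Metric.mem_ball.1 hx).le hC00
    have h3 := hwK x₀ hx₀
    rw [hψ0] at h1
    rw [abs_le] at h1 h3 ⊢
    constructor <;> linarith [h1.1, h1.2, h3.1, h3.2]
  obtain ⟨χ, hχs, hχ0, hχ1, hχd1, hχd2, hχout, hχone⟩ := hB x₀
  obtain ⟨g1, g2, g3⟩ := glob_one hr hC00 hB30 hB0 hχs hχ0 hχ1 hχd1 hχd2 hχout hψat hD1' hD2' hψb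
  refine ⟨fun x => χ x * (ψ x + K) + (-K), ⟨g1, fun x hx => ?_, ?_⟩, fun x _ y _ => ?_,
    fun x hx => ?_, ?_⟩
  · have h2 := hwK x hx
    rw [abs_le] at h2
    by_cases hxb : x ∈ Metric.ball x₀ r0
    · have h1 := hψw x hx hxb
      have h3 : χ x * (ψ x + K) ≤ χ x * (w x + K) :=
        mul_le_mul_of_nonneg_left (by linarith) (hχ0 x)
      have h4 : χ x * (w x + K) ≤ 1 * (w x + K) :=
        mul_le_mul_of_nonneg_right (hχ1 x) (by linarith)
      show χ x * (ψ x + K) + (-K) ≤ w x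
      linarith
    · have h1 : χ x = 0 := (hχout x hxb).eq_of_nhds
      show χ x * (ψ x + K) + (-K) ≤ w x
      rw [h1]
      linarith [h2.1]
  · have h1 : χ x₀ = 1 := hχone.eq_of_nhds
    show χ x₀ * (ψ x₀ + K) + (-K) = w x₀
    rw [h1, hψ0]; ring
  · have h1 := convex_univ.norm_image_sub_le_of_norm_fderiv_le (𝕜 := ℝ)
      (f := fun x => χ x * (ψ x + K) + (-K))
      (fun z _ => g1.contDiffAt.differentiableAt hr1) (fun z _ => g2 z)
      (mem_univ y) (mem_univ x)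
    rw [Real.norm_eq_abs, ← dist_eq_norm] at h1
    exact h1.trans (mul_le_mul_of_nonneg_right (le_max_left _ _) dist_nonneg)
  · have h1 := abs_Lop_le (V := V) (b := b) (x := x) hM0 (by positivity : 0 ≤ C0 + B3 * B)
      (by positivity : 0 ≤ C0 + 2 * (B * C0) + B3 * B) (fun i => hVM i x hx) (hbM x hx)
      (g2 x) (g3 x)
    rw [abs_le] at h1
    refine le_trans ?_ h1.1
    exact neg_le_neg (le_max_right _ _)
  · apply Lop_congr
    filter_upwards [hχone] with y hy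
    rw [hy]; ring

end Glob

end Crest.Agent.R246.Visc475
end

-- ▼ part R246/NcMain_475
section

/-!
R246, step 4(B): assembly of the noncollapsing inequality (helper475).
-/

set_option autoImplicit false
set_option linter.unusedSectionVars false
open MeasureTheory Set Filter Topology
open scoped RealInnerProductSpace ContDiff

noncomputable section

namespace Crest.Agent.R246.NcMain475

open Crest.Agent.R246.H990 Crest.Agent.R246.SM436 Crest.Agent.R246.Hersch900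
  Crest.Agent.R246.HerschSM900 Crest.Agent.R246.Visc475

variable {E : Type*} [NormedAddCommGroup E] [InnerProductSpace ℝ E] [FiniteDimensional ℝ E]

theorem two_le_infty : (2 : WithTop ℕ∞) ≤ ∞ :=
  (WithTop.coe_le_coe.2 le_top : ((2 : ℕ∞) : WithTop ℕ∞) ≤ ((⊤ : ℕ∞) : WithTop ℕ∞))

/-- tangential projection with normals `x`, `ν` -/
def Pj (x ν v : E) : E := v - ⟪x, v⟫ • x - ⟪ν, v⟫ • ν

/-- `∑ B(P eᵢ, P eᵢ) = ∑ B(eᵢ,eᵢ) - B(x,x) - B(ν,ν)`. -/
theorem sum_proj {ι : Type*} [Fintype ι] (e : OrthonormalBasis ι ℝ E) (B : E →L[ℝ] E →L[ℝ] ℝ)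
    (hB : ∀ u v, B u v = B v u) {x ν : E} (hx : ‖x‖ = 1) (hν : ‖ν‖ = 1) (hxν : ⟪x, ν⟫ = 0) :
    ∑ i, B (Pj x ν (e i)) (Pj x ν (e i)) = ∑ i, B (e i) (e i) - B x x - B ν ν := by
  have hsum : ∀ u v : E, ∑ i, ⟪u, e i⟫ * ⟪v, e i⟫ = ⟪u, v⟫ := by
    intro u v
    rw [← e.sum_inner_mul_inner u v]
    refine Finset.sum_congr rfl fun i _ => ?_
    rw [real_inner_comm v (e i)]
  have hBs : ∀ u : E, ∑ i, ⟪u, e i⟫ * B u (e i) = B u u := by
    intro u
    have h1 : ∑ i, ⟪u, e i⟫ • e i = u := by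
      have := e.sum_repr' u
      simpa only [real_inner_comm u] using this
    calc ∑ i, ⟪u, e i⟫ * B u (e i) = B u (∑ i, ⟪u, e i⟫ • e i) := by
          rw [map_sum]
          simp
      _ = B u u := by rw [h1]
  have hxx : ∑ i, ⟪x, e i⟫ * ⟪x, e i⟫ = 1 := by
    rw [hsum, real_inner_self_eq_norm_sq, hx]; norm_num
  have hνν : ∑ i, ⟪ν, e i⟫ * ⟪ν, e i⟫ = 1 := by
    rw [hsum, real_inner_self_eq_norm_sq, hν]; norm_num
  have hxn : ∑ i, ⟪x, e i⟫ * ⟪ν, e i⟫ = 0 := by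
    rw [hsum, hxν]
  have key : ∀ i, B (Pj x ν (e i)) (Pj x ν (e i)) = B (e i) (e i)
      - 2 * (⟪x, e i⟫ * B x (e i)) - 2 * (⟪ν, e i⟫ * B ν (e i))
      + (⟪x, e i⟫ * ⟪x, e i⟫) * B x x + (⟪ν, e i⟫ * ⟪ν, e i⟫) * B ν ν
      + 2 * ((⟪x, e i⟫ * ⟪ν, e i⟫) * B x ν) := by
    intro i
    unfold Pj
    simp only [map_sub, map_smul, sub_apply, smul_apply, smul_eq_mul]
    rw [hB (e i) x, hB (e i) ν, hB ν x]
    ring
  simp only [key, Finset.sum_add_distrib, Finset.sum_sub_distrib, ← Finset.mul_sum,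
    ← Finset.sum_mul, hBs, hxx, hνν, hxn]
  ring

/-- the coefficient fields -/
def Vf (φ : E → ℝ) (i : Fin (Module.finrank ℝ E)) (x : E) : E :=
  Pj x (gradient φ x) (stdOrthonormalBasis ℝ E i)

def bf (m : ℕ) (x : E) : E := -((m : ℝ) • x)

/-- `M' = {x | ‖x‖ = 1, φ x = 0}` -/
def Mp (φ : E → ℝ) : Set E := {x | ‖x‖ = 1 ∧ φ x = 0}

variable [MeasurableSpace E] [BorelSpace E]

theorem good_of_mem {φ : E → ℝ} (S : SmoothMin φ) {x : E} (hx : x ∈ Mp φ) : Good φ x :=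
  S.good x (by rintro rfl; simp [Mp] at hx) hx.2

theorem isCompact_Mp {φ : E → ℝ} (S : SmoothMin φ) : IsCompact (Mp φ) := by
  have : Mp φ = Metric.sphere (0 : E) 1 ∩ {y | φ y = 0} := by
    ext x; simp [Mp]
  rw [this]
  exact (isCompact_sphere (0 : E) 1).inter_right
    (isClosed_eq S.nc.lip.continuous continuous_const)

theorem inner_grad_self {φ : E → ℝ} (S : SmoothMin φ) {x : E} (hx : x ∈ Mp φ) :
    ⟪x, gradient φ x⟫ = 0 := by
  rw [real_inner_comm]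
  rw [Good.euler S.nc.hom (good_of_mem S hx), hx.2]

theorem continuousOn_grad {φ : E → ℝ} (S : SmoothMin φ) : ContinuousOn (gradient φ) (Mp φ) :=
  fun _ hx => (good_of_mem S hx).contDiffAt_gradient.continuousAt.continuousWithinAt

theorem continuousOn_Vf {φ : E → ℝ} (S : SmoothMin φ) (i : Fin (Module.finrank ℝ E)) :
    ContinuousOn (Vf φ i) (Mp φ) := by
  have h := continuousOn_grad S
  unfold Vf Pj
  exact (continuousOn_const.sub ((continuousOn_id.inner continuousOn_const).smul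
    continuousOn_id)).sub ((h.inner continuousOn_const).smul h)

theorem continuousOn_bf (m : ℕ) (s : Set E) : ContinuousOn (bf m : E → E) s :=
  (continuous_const.smul continuous_id).neg.continuousOn

/-- `L f = tr D²f - D²f(x,x) - D²f(ν,ν) - m Df(x)` on `M'`. -/
theorem Lop_eq {φ : E → ℝ} (S : SmoothMin φ) (m : ℕ) {f : E → ℝ} {x : E} (hx : x ∈ Mp φ)
    (hf : ContDiffAt ℝ 2 f x) :
    Lop (Vf φ) (bf m) f x
      = ∑ i, fderiv ℝ (fderiv ℝ f) x (stdOrthonormalBasis ℝ E i) (stdOrthonormalBasis ℝ E i)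
        - fderiv ℝ (fderiv ℝ f) x x x
        - fderiv ℝ (fderiv ℝ f) x (gradient φ x) (gradient φ x) - m * fderiv ℝ f x x := by
  unfold Lop Vf bf
  have hsym : ∀ u v, fderiv ℝ (fderiv ℝ f) x u v = fderiv ℝ (fderiv ℝ f) x v u := by
    have h : IsSymmSndFDerivAt ℝ f x := hf.isSymmSndFDerivAt (by
      rw [minSmoothness_of_isRCLikeNormedField])
    exact fun u v => h u v
  rw [sum_proj (stdOrthonormalBasis ℝ E) _ hsym hx.1 (good_of_mem S hx).norm_gradient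
    (inner_grad_self S hx)]
  simp only [map_neg, map_smul, smul_eq_mul]
  ring

/-- `∫ L f dμ = 0`. -/
theorem integral_Lop {φ : E → ℝ} (S : SmoothMin φ) {m : ℕ} {μ : Measure E}
    (hμ : AreaMeas m φ μ) {f : E → ℝ} (hf : ContDiff ℝ ∞ f) :
    ∫ x, Lop (Vf φ) (bf m) f x ∂μ = 0 := by
  have hfin := hμ.fin
  set e := stdOrthonormalBasis ℝ E with he
  have hf1 : ContDiff ℝ ∞ (fderiv ℝ f) := hf.fderiv_right (m := ∞) (by simp)
  have hd1 : Differentiable ℝ (fderiv ℝ f) := hf1.differentiable (by simp)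
  have hc2 : Continuous (fderiv ℝ (fderiv ℝ f)) := hf1.continuous_fderiv (by simp)
  have hc1 : Continuous (fderiv ℝ f) := hf1.continuous
  have hg : ∀ x, Good φ x → ContinuousAt (gradient φ) x := fun x hx =>
    hx.contDiffAt_gradient.continuousAt
  -- the test functions
  have hh : ∀ i, SmS (fun x => fderiv ℝ f x (e i)) := fun i x _ =>
    (hf1.clm_apply contDiff_const).contDiffAt
  have hhd : ∀ i x v, fderiv ℝ (fun x => fderiv ℝ f x (e i)) x v
      = fderiv ℝ (fderiv ℝ f) x v (e i) := by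
    intro i x v
    have h1 := (hd1 x).hasFDerivAt.clm_apply (hasFDerivAt_const (e i) x)
    rw [h1.fderiv]
    simp
  -- integrability
  have hI1 : ∀ i, Integrable (fun x => fderiv ℝ (fun x => fderiv ℝ f x (e i)) x (e i)
      - ⟪x, e i⟫ * fderiv ℝ (fun x => fderiv ℝ f x (e i)) x x
      - ⟪gradient φ x, e i⟫ * fderiv ℝ (fun x => fderiv ℝ f x (e i)) x (gradient φ x)) μ := by
    intro i
    refine integrable_of_cont S hμ.supp ?_
    intro x hx
    simp only [hhd]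
    have h2 : ContinuousAt (fderiv ℝ (fderiv ℝ f)) x := hc2.continuousAt
    have h3 := hg x hx
    refine ((((h2.clm_apply continuousAt_const).clm_apply continuousAt_const)).sub
      ((continuousAt_id.inner continuousAt_const).mul
        ((h2.clm_apply continuousAt_id).clm_apply continuousAt_const))).sub
      ((h3.inner continuousAt_const).mul ((h2.clm_apply h3).clm_apply continuousAt_const))
  have hI2 : ∀ i, Integrable (fun x => ⟪x, e i⟫ * fderiv ℝ f x (e i)) μ := by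
    intro i
    refine integrable_of_cont S hμ.supp ?_
    intro x hx
    exact (continuousAt_id.inner continuousAt_const).mul
      (hc1.continuousAt.clm_apply continuousAt_const)
  have hsum : ∀ u v : E, ∀ x, ∑ i, ⟪u, e i⟫ * fderiv ℝ (fderiv ℝ f) x v (e i)
      = fderiv ℝ (fderiv ℝ f) x v u := by
    intro u v x
    have h1 : ∑ i, ⟪u, e i⟫ • e i = u := by
      have := e.sum_repr' u
      simpa only [real_inner_comm u] using this
    conv_rhs => rw [← h1, map_sum]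
    simp
  have hsum1 : ∀ u : E, ∀ x, ∑ i, ⟪u, e i⟫ * fderiv ℝ f x (e i) = fderiv ℝ f x u := by
    intro u x
    have h1 : ∑ i, ⟪u, e i⟫ • e i = u := by
      have := e.sum_repr' u
      simpa only [real_inner_comm u] using this
    conv_rhs => rw [← h1, map_sum]
    simp
  have h1 : ∫ x, Lop (Vf φ) (bf m) f x ∂μ
      = ∫ x, (∑ i, (fderiv ℝ (fun x => fderiv ℝ f x (e i)) x (e i)
      - ⟪x, e i⟫ * fderiv ℝ (fun x => fderiv ℝ f x (e i)) x x
      - ⟪gradient φ x, e i⟫ * fderiv ℝ (fun x => fderiv ℝ f x (e i)) x (gradient φ x))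
      - m * ∑ i, ⟪x, e i⟫ * fderiv ℝ f x (e i)) ∂μ := by
    apply integral_congr_ae
    filter_upwards [hμ.supp] with x hx
    have hxM : x ∈ Mp φ := hx
    rw [Lop_eq S m hxM (hf.contDiffAt.of_le two_le_infty)]
    simp only [hhd, Finset.sum_sub_distrib, hsum, hsum1]
    rfl
  rw [h1, integral_sub (integrable_finsetSum _ fun i _ => hI1 i)
    ((integrable_finsetSum _ fun i _ => hI2 i).const_mul _),
    integral_finsetSum _ (fun i _ => hI1 i), integral_const_mul,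
    integral_finsetSum _ (fun i _ => hI2 i), Finset.mul_sum, ← Finset.sum_sub_distrib]
  apply Finset.sum_eq_zero
  intro i _
  rw [hμ.fv _ (hh i) (e i), sub_self]

/-- the pointwise input (P1-P3 of helper112): for small `lam` a bounded function `w` on `M'` with
local `C^∞` lower barriers of uniform radius and `C²` size, and
`L ψ (X) ≥ m - |A|²(X) - C₁ lam`. -/
def BarSt (m : ℕ) (φ : E → ℝ) : Prop :=
  ∃ C1 lam0 : ℝ, 0 < lam0 ∧ ∀ lam : ℝ, 0 < lam → lam < lam0 →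
    ∃ (w : E → ℝ) (K r0 C : ℝ), 0 < r0 ∧ (∀ x ∈ Mp φ, |w x| ≤ K) ∧
      ∀ X ∈ Mp φ, ∃ ψ : E → ℝ, ContDiffOn ℝ ∞ ψ (Metric.ball X r0) ∧
        (∀ x ∈ Mp φ, x ∈ Metric.ball X r0 → ψ x ≤ w x) ∧ ψ X = w X ∧
        (∀ x ∈ Metric.ball X r0, ‖fderiv ℝ ψ x‖ ≤ C) ∧
        (∀ x ∈ Metric.ball X r0, ‖fderiv ℝ (fderiv ℝ ψ) x‖ ≤ C) ∧
        m - A2 φ X - C1 * lam ≤ Lop (Vf φ) (bf m) ψ X

/-- **the noncollapsing inequality** `m |M'| ≤ ∫ |A|²`. -/
theorem nc_main {φ : E → ℝ} (S : SmoothMin φ) {m : ℕ} {μ : Measure E}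
    (hμ : AreaMeas m φ μ) (hbar : BarSt m φ) :
    m * μ.real univ ≤ ∫ x, A2 φ x ∂μ := by
  have hfin := hμ.fin
  obtain ⟨C1, lam0, hlam0, hb⟩ := hbar
  have hZ := isCompact_Mp S
  have hμZ : μ (Mp φ)ᶜ = 0 := by
    have := hμ.supp
    rw [ae_iff] at this
    exact this
  have hA : Integrable (A2 φ) μ := integrable_of_cont S hμ.supp fun x hx => continuousAt_A2 hx
  have hAc : ContinuousOn (A2 φ) (Mp φ) := fun x hx =>
    (continuousAt_A2 (good_of_mem S hx)).continuousWithinAt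
  have key : ∀ lam : ℝ, 0 < lam → lam < lam0 →
      m * μ.real univ ≤ ∫ x, A2 φ x ∂μ + C1 * lam * μ.real univ := by
    intro lam h0 h1
    obtain ⟨w, K, r0, C, hr0, hwK, hψ⟩ := hb lam h0 h1
    obtain ⟨C', hC'⟩ := globalize (r := ∞) two_le_infty le_rfl hZ
      (V := Vf φ) (b := bf m) (continuousOn_Vf S) (continuousOn_bf m _) hwK hr0 C
    have hglob : ∀ X ∈ Mp φ, ∃ ψ, IsBar ∞ (Mp φ) w X ψ ∧
        (∀ x ∈ Mp φ, ∀ y ∈ Mp φ, |ψ x - ψ y| ≤ C' * dist x y) ∧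
        (∀ x ∈ Mp φ, -C' ≤ Lop (Vf φ) (bf m) ψ x) ∧
        m - A2 φ X - C1 * lam ≤ Lop (Vf φ) (bf m) ψ X := by
      intro X hX
      obtain ⟨ψ, h1, h2, h3, h4, h5, h6⟩ := hψ X hX
      obtain ⟨ψ', g1, g2, g3, g4⟩ := hC' X hX ψ h1 h2 h3 h4 h5
      exact ⟨ψ', g1, g2, g3, by rw [g4]; exact h6⟩
    have hmain := barrier_integral (r := ∞) two_le_infty hZ μ hμZ
      (V := Vf φ) (b := bf m) (continuousOn_Vf S) (continuousOn_bf m _)
      (fun f hf => integral_Lop S hμ hf) (w := w) (g := fun x => m - A2 φ x - C1 * lam)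
      ((continuousOn_const.sub hAc).sub continuousOn_const)
      ⟨C', fun X hX => by
        obtain ⟨ψ, h1, h2, h3, -⟩ := hglob X hX
        exact ⟨ψ, h1, h2, h3⟩⟩
      (fun X hX e he => by
        obtain ⟨ψ, h1, -, -, h4⟩ := hglob X hX
        exact ⟨ψ, h1, by linarith⟩)
    have e1 : ∫ x, ((m : ℝ) - A2 φ x - C1 * lam) ∂μ
        = ∫ x, ((m : ℝ) - A2 φ x) ∂μ - ∫ _x, C1 * lam ∂μ :=
      integral_sub ((integrable_const _).sub hA) (integrable_const _)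
    have e2 : ∫ x, ((m : ℝ) - A2 φ x) ∂μ = ∫ _x, (m : ℝ) ∂μ - ∫ x, A2 φ x ∂μ :=
      integral_sub (integrable_const _) hA
    rw [e1, e2, integral_const, integral_const, smul_eq_mul, smul_eq_mul] at hmain
    linarith
  -- let `lam → 0`
  have hlim : Tendsto (fun lam : ℝ => ∫ x, A2 φ x ∂μ + C1 * lam * μ.real univ) (𝓝[>] 0)
      (𝓝 (∫ x, A2 φ x ∂μ + C1 * 0 * μ.real univ)) := by
    have : Continuous (fun lam : ℝ => ∫ x, A2 φ x ∂μ + C1 * lam * μ.real univ) := by fun_prop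
    exact this.continuousWithinAt
  rw [mul_zero, zero_mul, add_zero] at hlim
  refine ge_of_tendsto hlim ?_
  have : Ioo (0:ℝ) lam0 ∈ 𝓝[>] (0:ℝ) := Ioo_mem_nhdsGT hlam0
  filter_upwards [this] with lam hlam
  exact key lam hlam.1 hlam.2

end Crest.Agent.R246.NcMain475
end
end

-- ▼ part R246/UniC2_475
section

/-!
R246, step 4(B): uniform radius and `C²` bounds for a compact family (helper475), and the
second-difference lemma.
-/

set_option autoImplicit false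
set_option linter.unusedSectionVars false
open Set Filter Topology
open scoped ContDiff

namespace Crest.Agent.R246.UniC475

section U

variable {P : Type*} [NormedAddCommGroup P] [NormedSpace ℝ P]
variable {E : Type*} [NormedAddCommGroup E] [NormedSpace ℝ E]
variable {W : Type*} [NormedAddCommGroup W] [NormedSpace ℝ W]
variable {W' : Type*} [NormedAddCommGroup W'] [NormedSpace ℝ W']

/-- partial first derivative -/
theorem fderiv_part {F : P × E → W} {q : P} {x : E} (h : DifferentiableAt ℝ F (q, x)) :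
    fderiv ℝ (fun y => F (q, y)) x
      = (fderiv ℝ F (q, x)).comp (ContinuousLinearMap.inr ℝ P E) := by
  have h1 : HasFDerivAt (fun y : E => (q, y)) (ContinuousLinearMap.inr ℝ P E) x :=
    hasFDerivAt_prodMk_right q x
  exact (h.hasFDerivAt.comp x h1).fderiv

theorem norm_inr_comp_le (L : P × E →L[ℝ] W) :
    ‖L.comp (ContinuousLinearMap.inr ℝ P E)‖ ≤ ‖L‖ := by
  refine ContinuousLinearMap.opNorm_le_bound _ (norm_nonneg _) fun v => ?_
  calc ‖L.comp (ContinuousLinearMap.inr ℝ P E) v‖ = ‖L ((0 : P), v)‖ := by simp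
    _ ≤ ‖L‖ * ‖((0 : P), v)‖ := L.le_opNorm _
    _ = ‖L‖ * ‖v‖ := by rw [Prod.norm_def]; simp

theorem fderiv_part_le {F : P × E → W} {q : P} {x : E} (h : DifferentiableAt ℝ F (q, x)) :
    ‖fderiv ℝ (fun y => F (q, y)) x‖ ≤ ‖fderiv ℝ F (q, x)‖ := by
  rw [fderiv_part h]
  exact norm_inr_comp_le _

theorem differentiableAt_part {F : P × E → W} {q : P} {x : E}
    (h : DifferentiableAt ℝ F (q, x)) : DifferentiableAt ℝ (fun y => F (q, y)) x := by
  have h1 : HasFDerivAt (fun y : E => (q, y)) (ContinuousLinearMap.inr ℝ P E) x :=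
    hasFDerivAt_prodMk_right q x
  exact (h.hasFDerivAt.comp x h1).differentiableAt

theorem fderiv_clm_comp_le (Λ : W →L[ℝ] W') {g : E → W} {x : E} (hg : DifferentiableAt ℝ g x)
    (hΛ : ‖Λ‖ ≤ 1) : ‖fderiv ℝ (fun y => Λ (g y)) x‖ ≤ ‖fderiv ℝ g x‖ := by
  have h1 : HasFDerivAt (fun y => Λ (g y)) (Λ.comp (fderiv ℝ g x)) x :=
    Λ.hasFDerivAt.comp x hg.hasFDerivAt
  rw [h1.fderiv]
  refine (ContinuousLinearMap.opNorm_comp_le _ _).trans ?_
  exact mul_le_of_le_one_left (norm_nonneg _) hΛ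

/-- restriction of functionals to the second factor -/
noncomputable def rest : (P × E →L[ℝ] ℝ) →L[ℝ] (E →L[ℝ] ℝ) :=
  (ContinuousLinearMap.compL ℝ E (P × E) ℝ).flip (ContinuousLinearMap.inr ℝ P E)

theorem rest_apply (L : P × E →L[ℝ] ℝ) :
    rest L = L.comp (ContinuousLinearMap.inr ℝ P E) := rfl

theorem norm_rest_le : ‖(rest : (P × E →L[ℝ] ℝ) →L[ℝ] (E →L[ℝ] ℝ))‖ ≤ 1 := by
  refine ContinuousLinearMap.opNorm_le_bound _ zero_le_one fun L => ?_
  rw [one_mul, rest_apply]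
  exact norm_inr_comp_le L

theorem fderiv2_part_le {F : P × E → ℝ} {U : Set (P × E)} (hU : IsOpen U)
    (hF : ContDiffOn ℝ ∞ F U) {q : P} {x : E} (hx : (q, x) ∈ U) :
    ‖fderiv ℝ (fderiv ℝ (fun y => F (q, y))) x‖ ≤ ‖fderiv ℝ (fderiv ℝ F) (q, x)‖ := by
  have hd : ∀ z ∈ U, DifferentiableAt ℝ F z := fun z hz =>
    (hF.contDiffAt (hU.mem_nhds hz)).differentiableAt (by simp)
  have hF1 : ContDiffOn ℝ ∞ (fderiv ℝ F) U := hF.fderiv_of_isOpen hU (by simp)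
  have hd1 : DifferentiableAt ℝ (fderiv ℝ F) (q, x) :=
    (hF1.contDiffAt (hU.mem_nhds hx)).differentiableAt (by simp)
  have hi : HasFDerivAt (fun y : E => (q, y)) (ContinuousLinearMap.inr ℝ P E) x :=
    hasFDerivAt_prodMk_right q x
  have hev : ∀ᶠ y in 𝓝 x, (q, y) ∈ U := hi.continuousAt.eventually (hU.mem_nhds hx)
  have e1 : fderiv ℝ (fun y => F (q, y)) =ᶠ[𝓝 x] fun y => rest (fderiv ℝ F (q, y)) := by
    filter_upwards [hev] with y hy
    rw [fderiv_part (hd _ hy)]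
    rfl
  rw [e1.fderiv_eq]
  exact (fderiv_clm_comp_le (W := P × E →L[ℝ] ℝ) (W' := E →L[ℝ] ℝ) rest
    (differentiableAt_part hd1) norm_rest_le).trans (fderiv_part_le hd1)

theorem fderiv_bdd_on {D : Type*} [NormedAddCommGroup D] [NormedSpace ℝ D] {G : D → W}
    {U : Set D} (hU : IsOpen U)
    (hG : ContDiffOn ℝ ∞ G U) {K : Set D} (hK : IsCompact K) (hKU : K ⊆ U) :
    ∃ C, ∀ z ∈ K, ‖fderiv ℝ G z‖ ≤ C :=
  hK.exists_bound_of_continuousOn ((hG.fderiv_of_isOpen (m := ∞) hU (by simp)).continuousOn.mono hKU)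

/-- **Lemma U**: uniform radius and `C²` bounds. -/
theorem uniform_C2 [FiniteDimensional ℝ E] {F : P × E → ℝ} {U : Set (P × E)} (hU : IsOpen U)
    (hF : ContDiffOn ℝ ∞ F U) {Q : Set P} (hQ : IsCompact Q) {X : P → E} (hX : ContinuousOn X Q)
    (hQU : ∀ q ∈ Q, (q, X q) ∈ U) :
    ∃ r0 : ℝ, 0 < r0 ∧ ∃ C : ℝ, 0 ≤ C ∧ ∀ q ∈ Q,
      (∀ x ∈ Metric.ball (X q) r0, (q, x) ∈ U) ∧
      ContDiffOn ℝ ∞ (fun x => F (q, x)) (Metric.ball (X q) r0) ∧
      (∀ x ∈ Metric.ball (X q) r0, ‖fderiv ℝ (fun y => F (q, y)) x‖ ≤ C) ∧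
      (∀ x ∈ Metric.ball (X q) r0, ‖fderiv ℝ (fderiv ℝ (fun y => F (q, y))) x‖ ≤ C) ∧
      (∀ x ∈ Metric.ball (X q) r0, |F (q, x) - F (q, X q)| ≤ C * ‖x - X q‖) := by
  have : ProperSpace E := FiniteDimensional.proper ℝ E
  -- the compact graph
  set K : Set (P × E) := (fun q => (q, X q)) '' Q with hK
  have hKc : IsCompact K := hQ.image_of_continuousOn (continuousOn_id.prodMk hX)
  have hKU : K ⊆ U := by
    rintro _ ⟨q, hq, rfl⟩
    exact hQU q hq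
  obtain ⟨δ, hδ, hδU⟩ := hKc.exists_thickening_subset_open hU hKU
  set r0 : ℝ := δ / 2 with hr0
  have hr0' : 0 < r0 := by positivity
  -- the compact tube
  set K' : Set (P × E) := (fun z : P × E => (z.1, X z.1 + z.2)) '' (Q ×ˢ Metric.closedBall 0 r0)
    with hK'
  have hK'c : IsCompact K' := by
    refine (hQ.prod (isCompact_closedBall (0:E) r0)).image_of_continuousOn ?_
    refine continuousOn_fst.prodMk (ContinuousOn.add ?_ continuousOn_snd)
    exact hX.comp continuousOn_fst (fun z hz => hz.1)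
  have hmem : ∀ q ∈ Q, ∀ x ∈ Metric.closedBall (X q) r0, (q, x) ∈ K' := by
    intro q hq x hx
    refine ⟨(q, x - X q), ⟨hq, ?_⟩, by simp⟩
    rw [mem_closedBall_zero_iff, ← dist_eq_norm]
    exact hx
  have hK'U : K' ⊆ U := by
    rintro _ ⟨⟨q, v⟩, ⟨hq, hv⟩, rfl⟩
    apply hδU
    rw [Metric.mem_thickening_iff]
    refine ⟨(q, X q), ⟨q, hq, rfl⟩, ?_⟩
    rw [mem_closedBall_zero_iff] at hv
    rw [Prod.dist_eq]
    simp only [dist_self]
    rw [dist_eq_norm]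
    simp only [add_sub_cancel_left]
    rw [max_eq_right (norm_nonneg _)]
    exact lt_of_le_of_lt hv (by rw [hr0]; linarith)
  have hF1 : ContDiffOn ℝ ∞ (fderiv ℝ F) U := hF.fderiv_of_isOpen hU (by simp)
  obtain ⟨C1, hC1⟩ := fderiv_bdd_on hU hF hK'c hK'U
  obtain ⟨C2, hC2⟩ := fderiv_bdd_on (W := P × E →L[ℝ] ℝ) hU hF1 hK'c hK'U
  have hsub : ∀ q ∈ Q, ∀ x ∈ Metric.ball (X q) r0, (q, x) ∈ K' := fun q hq x hx =>
    hmem q hq x (Metric.ball_subset_closedBall hx)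
  have hdF : ∀ z ∈ U, DifferentiableAt ℝ F z := fun z hz =>
    (hF.contDiffAt (hU.mem_nhds hz)).differentiableAt (by simp)
  refine ⟨r0, hr0', max (max C1 C2) 0, le_max_right _ _, fun q hq => ?_⟩
  have hb1 : ∀ x ∈ Metric.ball (X q) r0,
      ‖fderiv ℝ (fun y => F (q, y)) x‖ ≤ max (max C1 C2) 0 := fun x hx =>
    ((fderiv_part_le (hdF _ (hK'U (hsub q hq x hx)))).trans (hC1 _ (hsub q hq x hx))).trans
      ((le_max_left _ _).trans (le_max_left _ _))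
  refine ⟨fun x hx => hK'U (hsub q hq x hx), fun x hx => ?_, hb1, fun x hx => ?_, fun x hx => ?_⟩
  · have h1 : ContDiffAt ℝ ∞ F (q, x) := hF.contDiffAt (hU.mem_nhds (hK'U (hsub q hq x hx)))
    have h2 : ContDiffAt ℝ ∞ (fun y : E => (q, y)) x := contDiffAt_const.prodMk contDiffAt_id
    exact (h1.comp x h2).contDiffWithinAt
  · exact ((fderiv2_part_le hU hF (hK'U (hsub q hq x hx))).trans (hC2 _ (hsub q hq x hx))).trans
      ((le_max_right _ _).trans (le_max_left _ _))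
  · have h1 := (convex_ball (X q) r0).norm_image_sub_le_of_norm_fderiv_le (𝕜 := ℝ)
      (f := fun y => F (q, y))
      (fun z hz => differentiableAt_part (hdF _ (hK'U (hsub q hq z hz)))) hb1
      (Metric.mem_ball_self hr0') hx
    rw [Real.norm_eq_abs] at h1
    exact h1

end U

section Tay



variable {D : Type*} [NormedAddCommGroup D] [NormedSpace ℝ D]









end Tay

end Crest.Agent.R246.UniC475
end

-- ▼ part R246/NcMain_112

/-!
# Local barriers for the noncollapsing quantity: final statement of block I(B), pointwise part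
-/

set_option autoImplicit false
set_option linter.unusedSectionVars false
set_option maxSynthPendingDepth 3
noncomputable section
open MeasureTheory Set Filter Topology
open scoped RealInnerProductSpace ContDiff

namespace Crest.Agent.R246.NcMain112

open Crest.Agent.R246.H990 Crest.Agent.R246.SM436 Crest.Agent.R246.NcJet112
  Crest.Agent.R246.NcAlg112 Crest.Agent.R246.NcFoot112 Crest.Agent.R246.NcBar112
  Crest.Agent.R246.NcLoc112 Crest.Agent.R246.NcDiag112 Crest.Agent.R246.NcMax112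

variable {E : Type*} [NormedAddCommGroup E] [InnerProductSpace ℝ E] [FiniteDimensional ℝ E]
variable {φ : E → ℝ} {b lam : ℝ}

/-! ### change of sign -/

lemma gradient_neg' (φ : E → ℝ) : gradient (fun x => -φ x) = fun x => -gradient φ x := by
  funext x
  rw [gradient_eq_comp, gradient_eq_comp]
  simp only
  rw [fderiv_fun_neg, map_neg]

lemma hs_neg' (φ : E → ℝ) (x : E) : hs (fun x => -φ x) x = -hs φ x := by
  rw [hs, gradient_neg', fderiv_fun_neg, hs]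

lemma good_neg {x : E} (h : Good φ x) : Good (fun x => -φ x) x := by
  obtain ⟨U, hU, hx, h1, h2⟩ := h
  refine ⟨U, hU, hx, h1.neg, fun y hy => ?_⟩
  rw [gradient_neg', norm_neg, h2 y hy]

lemma tube_neg (hT : Tube φ b) : Tube (fun x => -φ x) b where
  hb := hT.hb
  hom := fun t ht x => by simp only [hT.hom t ht x]; ring
  lip := hT.lip.neg
  lt := fun x hx => by simpa using hT.lt x hx
  line := fun y hy h s hs' => by
    have h1 := hT.line y hy (by simpa using h) (-s) (by simpa using hs')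
    have h2 := good_neg h1
    rw [gradient_neg']
    simp only
    rwa [smul_neg, ← neg_smul]

lemma ZS_neg : ZS (fun x => -φ x) = ZS φ := by
  ext x; simp [ZS]

lemma Pf_neg (x ν v : E) : Pf x (-ν) v = Pf x ν v := by
  simp [Pf]


/-- the envelope -/
def GG (φ : E → ℝ) (lam : ℝ) (x : E) : ℝ := sSup (PsiA φ lam x '' {y | y ∈ ZS φ ∧ y ≠ x})

lemma GG_eq {x Y : E} (hY : Y ∈ ZS φ) (hne : Y ≠ x)
    (hmax : ∀ y ∈ ZS φ, y ≠ x → PsiA φ lam x y ≤ PsiA φ lam x Y) :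
    GG φ lam x = PsiA φ lam x Y := by
  have h : IsGreatest (PsiA φ lam x '' {y | y ∈ ZS φ ∧ y ≠ x}) (PsiA φ lam x Y) := by
    refine ⟨⟨Y, ⟨hY, hne⟩, rfl⟩, ?_⟩
    rintro _ ⟨y, ⟨hy, hyx⟩, rfl⟩
    exact hmax y hy hyx
  exact h.csSup_eq

/-! ### lower bound of the Gauss map pairing -/

lemma exists_c1 (hT : Tube φ b) (hne : ∀ x ∈ ZS φ, ∃ y ∈ ZS φ, ⟪gradient φ x, y⟫ ≠ 0) :
    ∃ c : ℝ, 0 < c ∧ ∀ x ∈ ZS φ, ∃ y ∈ ZS φ, c ≤ |⟪gradient φ x, y⟫| := by
  refine (isCompact_ZS hT).induction_on (p := fun S => ∃ c : ℝ, 0 < c ∧ ∀ x ∈ S, ∃ y ∈ ZS φ,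
    c ≤ |⟪gradient φ x, y⟫|) ⟨1, one_pos, by simp⟩ ?_ ?_ ?_
  · rintro s t hst ⟨c, hc, h⟩
    exact ⟨c, hc, fun x hx => h x (hst hx)⟩
  · rintro s t ⟨c, hc, h⟩ ⟨c', hc', h'⟩
    refine ⟨min c c', lt_min hc hc', fun x hx => ?_⟩
    rcases hx with hx | hx
    · obtain ⟨y, hy, h1⟩ := h x hx
      exact ⟨y, hy, (min_le_left _ _).trans h1⟩
    · obtain ⟨y, hy, h1⟩ := h' x hx
      exact ⟨y, hy, (min_le_right _ _).trans h1⟩
  · intro x hx
    obtain ⟨y, hy, h1⟩ := hne x hx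
    have hc : 0 < |⟪gradient φ x, y⟫| := abs_pos.2 h1
    have hcont : ContinuousAt (fun x => |⟪gradient φ x, y⟫|) x :=
      ((hT.good (ZS_subset hT hx)).contDiffAt_gradient.continuousAt.inner
        continuousAt_const).abs
    have hev : ∀ᶠ x' in 𝓝 x, |⟪gradient φ x, y⟫| / 2 < |⟪gradient φ x', y⟫| :=
      hcont.eventually (lt_mem_nhds (by linarith))
    refine ⟨{x' | |⟪gradient φ x, y⟫| / 2 < |⟪gradient φ x', y⟫|},
      mem_nhdsWithin_of_mem_nhds hev, |⟪gradient φ x, y⟫| / 2, by positivity, fun x' hx' => ?_⟩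
    exact ⟨y, hy, le_of_lt hx'⟩

/-! ### one sign -/

lemma contDiffOn_FF' (hT : Tube φ b) :
    ContDiffOn ℝ ∞ (fun z : (E × E) × E => FF φ lam (z.2, z.1))
      {z : (E × E) × E | (z.2, z.1) ∈ Om φ b lam} := by
  intro z hz
  have c1 : ContDiffAt ℝ ∞ (FF φ lam) ((fun z : (E × E) × E => (z.2, z.1)) z) :=
    contDiffAt_FF hT hz
  have c2 : ContDiffAt ℝ ∞ (fun z : (E × E) × E => (z.2, z.1)) z := by fun_prop
  exact (ContDiffAt.comp (g := FF φ lam) z c1 c2).contDiffWithinAt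

/-- admissible pairs -/
def QQ (φ : E → ℝ) (lam δ c : ℝ) : Set (E × E) :=
  {q | q.1 ∈ ZS φ ∧ q.2 ∈ ZS φ ∧ δ ≤ ‖q.1 - q.2‖ ∧ c ≤ Psi φ lam q.1 q.2}

lemma isCompact_QQ (hT : Tube φ b) {δ c : ℝ} (hδ : 0 < δ) : IsCompact (QQ φ lam δ c) := by
  set K0 : Set (E × E) := (ZS φ ×ˢ ZS φ) ∩ {q | δ ≤ ‖q.1 - q.2‖} with hK0
  have hK0c : IsCompact K0 :=
    ((isCompact_ZS hT).prod (isCompact_ZS hT)).inter_right
      (isClosed_le continuous_const (by fun_prop))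
  have hcont : ContinuousOn (fun q : E × E => Psi φ lam q.1 q.2) K0 := by
    rintro q ⟨⟨h1, h2⟩, h3⟩
    have hne : q.1 ≠ q.2 := by
      intro h0
      simp only [mem_ofPred_eq, h0, sub_self, norm_zero] at h3
      linarith
    have hD := (one_sub_inner_pos h1.1 h2.1 hne).ne'
    have c0 : ContinuousAt (fun q : E × E => gradient φ q.1) q :=
      ((hT.good (ZS_subset hT h1)).contDiffAt_gradient.continuousAt).comp continuousAt_fst
    have c1 : ContinuousAt (fun q : E × E => ⟪gradient φ q.1, q.2⟫) q :=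
      c0.inner continuousAt_snd
    have c2 : Continuous fun q : E × E => 1 - ⟪q.1, q.2⟫ := by fun_prop
    have c3 : Continuous fun q : E × E => lam * Real.sqrt (2 * (1 - ⟪q.1, q.2⟫)) := by fun_prop
    exact ((c1.mul (c2.continuousAt.inv₀ hD)).add c3.continuousAt).continuousWithinAt
  have hcl : IsClosed (K0 ∩ (fun q : E × E => Psi φ lam q.1 q.2) ⁻¹' Ici c) :=
    hcont.preimage_isClosed_of_isClosed hK0c.isClosed isClosed_Ici
  have heq : QQ φ lam δ c = K0 ∩ (fun q : E × E => Psi φ lam q.1 q.2) ⁻¹' Ici c := by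
    ext q
    simp only [QQ, hK0, mem_ofPred_eq, mem_inter_iff, mem_prod, mem_preimage, mem_Ici]
    tauto
  rw [heq]
  exact hK0c.of_isClosed_subset hcl inter_subset_left

lemma QQ_subset (hT : Tube φ b) {δ c : ℝ} (hδ : 0 < δ) (hc : 0 < c) {q : E × E}
    (hq : q ∈ QQ φ lam δ c) : (q.1, q) ∈ Om φ b lam := by
  obtain ⟨h1, h2, h3, h4⟩ := hq
  have hne : q.1 ≠ q.2 := by
    intro h0
    rw [h0, sub_self, norm_zero] at h3
    linarith
  have hD := one_sub_inner_pos h1.1 h2.1 hne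
  have hRF : RF (q.1, q) = q.2 := by
    rw [RF, Rf]
    have h5 : ⟪q.1 - q.2, q.1⟫ = 1 - ⟪q.1, q.2⟫ := by
      rw [inner_sub_left, real_inner_self_eq_norm_sq, h1.1, real_inner_comm]; norm_num
    have h6 := one_sub_inner h1.1 h2.1
    simp only
    rw [h5, ← h6]
    have h7 : 2 / (2 * (1 - ⟪q.1, q.2⟫)) * (1 - ⟪q.1, q.2⟫) = 1 := by field_simp
    rw [h7, one_smul, sub_sub_cancel]
  have hqf : qf φ q.1 q.2 q.1 = q.2 := by
    have : qf φ q.1 q.2 q.1 = pp φ (RF (q.1, q)) := rfl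
    rw [this, hRF, pp_self hT h2.1 h2.2]
  have hdd : dd φ q.1 q.2 q.1 = 1 - ⟪q.1, q.2⟫ := by
    rw [dd, hqf, pp_self hT h1.1 h1.2]
  have hff : ff φ lam q.1 q.2 q.1 = Psi φ lam q.1 q.2 := by
    rw [ff, nn, hqf, hdd, Psi]
  refine ⟨ZS_subset hT h1, hne, ?_, ?_, ?_⟩
  · rw [hRF]; exact ZS_subset hT h2
  · show 0 < dd φ q.1 q.2 q.1
    rw [hdd]; exact hD
  · show 0 < ff φ lam q.1 q.2 q.1
    rw [hff]; linarith

/-- uniform bounds, one sign -/
lemma one_side (hT : Tube φ b) {δ c : ℝ} (hδ : 0 < δ) (hc : 0 < c) :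
    ∃ r0 : ℝ, 0 < r0 ∧ ∃ C : ℝ, 0 ≤ C ∧ ∀ q ∈ QQ φ lam δ c,
      (∀ x ∈ Metric.ball q.1 r0, (x, q) ∈ Om φ b lam) ∧
      ContDiffOn ℝ ∞ (fun x => FF φ lam (x, q)) (Metric.ball q.1 r0) ∧
      (∀ x ∈ Metric.ball q.1 r0, ‖fderiv ℝ (fun y => FF φ lam (y, q)) x‖ ≤ C) ∧
      (∀ x ∈ Metric.ball q.1 r0, ‖fderiv ℝ (fderiv ℝ (fun y => FF φ lam (y, q))) x‖ ≤ C) := by
  have hU : IsOpen {z : (E × E) × E | (z.2, z.1) ∈ Om φ b lam} :=
    (isOpen_Om hT).preimage (by fun_prop)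
  obtain ⟨r0, hr0, C, hC, h⟩ := UniC475.uniform_C2 hU (contDiffOn_FF' hT)
    (isCompact_QQ (lam := lam) (c := c) hT hδ) (X := Prod.fst) continuousOn_fst
    (fun q hq => QQ_subset hT hδ hc hq)
  refine ⟨r0, hr0, C, hC, fun q hq => ?_⟩
  obtain ⟨h1, h2, h3, h4, -⟩ := h q hq
  exact ⟨h1, h2, h3, h4⟩

lemma err_le {m ε Φ d lam c : ℝ} (hm : 0 < m) (hc : 0 < c) (hΦ : c ≤ Φ) (hd : 0 < d)
    (hε0 : 0 ≤ ε) (hε : ε ≤ lam) (hlam : 0 < lam) (hlam1 : lam ≤ 1) (hεd : ε ^ 2 / d = lam ^ 2 / 2) :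
    (4 * m * ε + 16 * ε ^ 2 * Φ + 18 * ε ^ 2 / (Φ * d)) / Φ
      ≤ (4 * m / c + 16 + 9 / c ^ 2) * lam := by
  have hΦ0 : 0 < Φ := hc.trans_le hΦ
  have hl2 : lam ^ 2 ≤ lam := by nlinarith
  have e1 : (4 * m * ε + 16 * ε ^ 2 * Φ + 18 * ε ^ 2 / (Φ * d)) / Φ
      = 4 * m * ε / Φ + 16 * ε ^ 2 + 18 * (ε ^ 2 / d) / Φ ^ 2 := by
    field_simp
  rw [e1, hεd]
  have t1 : 4 * m * ε / Φ ≤ 4 * m / c * lam := by
    calc 4 * m * ε / Φ ≤ 4 * m * lam / c := by gcongr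
      _ = 4 * m / c * lam := by ring
  have t2 : 16 * ε ^ 2 ≤ 16 * lam := by
    have : ε ^ 2 ≤ lam ^ 2 := by gcongr
    linarith
  have t3 : 18 * (lam ^ 2 / 2) / Φ ^ 2 ≤ 9 / c ^ 2 * lam := by
    calc 18 * (lam ^ 2 / 2) / Φ ^ 2 ≤ 18 * (lam / 2) / c ^ 2 := by gcongr
      _ = 9 / c ^ 2 * lam := by ring
  linarith

/-- one sign, one point -/
lemma point {ι : Type*} [Fintype ι] (e : OrthonormalBasis ι ℝ E) {m : ℝ}
    (hm : (Fintype.card ι : ℝ) = m + 2) (hm1 : 0 < m) (hT : Tube φ b)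
    (hmin : ∀ x, x ≠ 0 → φ x = 0 → LinearMap.trace ℝ E (hs φ x : E →ₗ[ℝ] E) = 0)
    {G : E → ℝ} (hG : ∀ x ∈ ZS φ, ∀ y ∈ ZS φ, x ≠ y → Psi φ lam x y ≤ G x) {c r0 : ℝ}
    {X Y : E} (hX : X ∈ ZS φ) (hY : Y ∈ ZS φ) (hne : X ≠ Y) (hXY : G X = Psi φ lam X Y)
    (hc : 0 < c) (hcG : c ≤ G X) (hlam : 0 < lam) (hlam1 : lam ≤ 1 / 8) (hlam2 : lam ≤ c / 8)
    (hh : ∀ v, ‖hs φ X v‖ ≤ G X * ‖v‖)
    (hOm : ∀ x ∈ Metric.ball X r0, (x, X, Y) ∈ Om φ b lam) :
    (∀ x ∈ Metric.ball X r0, x ∈ ZS φ → FF φ lam (x, X, Y) ≤ Real.log (G x)) ∧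
    FF φ lam (X, X, Y) = Real.log (G X) ∧
    m - ∑ i, ‖hs φ X (e i)‖ ^ 2 - (4 * m / c + 16 + 9 / c ^ 2) * lam
      ≤ ∑ i, fderiv ℝ (fderiv ℝ (fun x => FF φ lam (x, X, Y))) X (Pf X (gradient φ X) (e i))
            (Pf X (gradient φ X) (e i))
          + fderiv ℝ (fun x => FF φ lam (x, X, Y)) X (-(m • X)) := by
  have hG' : ∀ x y, ‖x‖ = 1 → φ x = 0 → ‖y‖ = 1 → φ y = 0 → x ≠ y → Psi φ lam x y ≤ G x :=
    fun x y h1 h2 h3 h4 h5 => hG x ⟨h1, h2⟩ y ⟨h3, h4⟩ h5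
  have hd := one_sub_inner_pos hX.1 hY.1 hne
  have hg := hT.good (ZS_subset hT hX)
  set d := 1 - ⟪X, Y⟫ with hdd
  set n := ⟪gradient φ X, Y⟫ with hnn
  set ε := lam * Real.sqrt (2 * d) / 2 with hε
  have hρ : Real.sqrt (2 * d) = ‖X - Y‖ := sqrt_eq hX.1 hY.1
  have hρ2 : ‖X - Y‖ ≤ 2 := by
    refine (norm_sub_le _ _).trans ?_
    rw [hX.1, hY.1]; norm_num
  have hε0 : 0 ≤ ε := by rw [hε]; positivity
  have hεl : ε ≤ lam := by
    rw [hε, hρ]
    nlinarith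
  have hr2 : Real.sqrt (2 * d) ^ 2 = 2 * d := Real.sq_sqrt (by positivity)
  have hεd : ε ^ 2 / d = lam ^ 2 / 2 := by
    rw [hε, div_pow, mul_pow, hr2]
    field_simp
  have hΦ : G X = n / d + 2 * ε := by
    rw [hXY, Psi, ← hdd, ← hnn, hε]; ring
  have hnd : 2 * ε ≤ n / d := by linarith
  have hn0 : 0 < n := by
    have h1 : 0 < n / d := by linarith
    have h2 : 0 < n / d * d := by positivity
    rwa [div_mul_cancel₀ _ hd.ne'] at h2
  have hn1 : n ≤ 1 := by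
    have := real_inner_le_norm (gradient φ X) Y
    rwa [hg.norm_gradient, hY.1, one_mul] at this
  have hd2 : d ≤ 2 := by
    have := abs_real_inner_le_norm X Y
    rw [hX.1, hY.1, one_mul] at this
    have := (abs_le.1 this).1
    rw [hdd]; linarith
  have hq : 1 / 2 ≤ Pair.q d n ε := by
    rw [Pair.q]
    have h1 : 0 ≤ ε ^ 2 * (2 * d - d ^ 2) := by
      have : 0 ≤ 2 * d - d ^ 2 := by nlinarith
      positivity
    have h2 : ε * n ≤ 1 / 8 * 1 := by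
      apply mul_le_mul (hεl.trans hlam1) hn1 hn0.le (by norm_num)
    linarith
  have hmain := lop_ge hT e hm hmin hG' hX.1 hX.2 hY.1 hY.2 hne hXY hdd hnn hε hlam.le hnd hn0 hq
    (fun v => by rw [← hΦ]; exact hh v)
  obtain ⟨-, h2, h3⟩ := hmain
  refine ⟨?_, h2, ?_⟩
  · intro x hx hxZ
    have h4 := ff_le hT hG' (hOm x hx)
    simp only at h4
    rw [pp_self hT hxZ.1 hxZ.2] at h4
    exact Real.log_le_log (hOm x hx).2.2.2.2 h4
  · refine le_trans ?_ h3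
    have h5 := err_le (Φ := n / d + 2 * ε) hm1 hc (by rw [← hΦ]; exact hcG) hd hε0 hεl hlam
      (by linarith) hεd
    linarith

/-- **Local barriers for the noncollapsing quantity.** -/
theorem nc_barriers {ι : Type*} [Fintype ι] (e : OrthonormalBasis ι ℝ E) {m : ℝ}
    (hm : (Fintype.card ι : ℝ) = m + 2) (hm1 : 1 ≤ m) (hT : Tube φ b)
    (hmin : ∀ x, x ≠ 0 → φ x = 0 → LinearMap.trace ℝ E (hs φ x : E →ₗ[ℝ] E) = 0)
    (hne : ∀ x, ‖x‖ = 1 → φ x = 0 → ∃ y, ‖y‖ = 1 ∧ φ y = 0 ∧ ⟪gradient φ x, y⟫ ≠ 0) :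
    ∃ C0 lam0 : ℝ, 0 < lam0 ∧ ∀ lam, 0 < lam → lam < lam0 → ∃ (w : E → ℝ) (C r0 : ℝ), 0 < r0 ∧
      (∀ X, ‖X‖ = 1 → φ X = 0 → |w X| ≤ C) ∧
      ∀ X, ‖X‖ = 1 → φ X = 0 → ∃ psi : E → ℝ,
        ContDiffOn ℝ ∞ psi (Metric.ball X r0) ∧
        (∀ x ∈ Metric.ball X r0, ‖x‖ = 1 → φ x = 0 → psi x ≤ w x) ∧
        psi X = w X ∧
        (∀ x ∈ Metric.ball X r0, ‖fderiv ℝ psi x‖ ≤ C ∧ ‖fderiv ℝ (fderiv ℝ psi) x‖ ≤ C) ∧
        m - ∑ i, ‖hs φ X (e i)‖ ^ 2 - C0 * lam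
          ≤ ∑ i, fderiv ℝ (fderiv ℝ psi) X (Pf X (gradient φ X) (e i))
                (Pf X (gradient φ X) (e i))
              + fderiv ℝ psi X (-(m • X)) := by
  have hm0 : 0 < m := by linarith
  obtain ⟨c1, hc1, hc1'⟩ := exists_c1 hT (fun x hx => by
    obtain ⟨y, h1, h2, h3⟩ := hne x hx.1 hx.2
    exact ⟨y, ⟨h1, h2⟩, h3⟩)
  set c := c1 / 2 with hc
  have hc0 : 0 < c := by positivity
  refine ⟨4 * m / c + 16 + 9 / c ^ 2, min (1 / 8) (c / 8), by positivity, fun lam hlam hlam' => ?_⟩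
  have hlam1 : lam ≤ 1 / 8 := (hlam'.le).trans (min_le_left _ _)
  have hlam2 : lam ≤ c / 8 := (hlam'.le).trans (min_le_right _ _)
  obtain ⟨δ, hδ, hmax⟩ := exists_max e hm hm0 hT hlam
  have hTn := tube_neg hT
  obtain ⟨r1, hr1, C1, hC1, hA⟩ := one_side (lam := lam) hT hδ hc0
  obtain ⟨r2, hr2, C2, hC2, hB⟩ := one_side (lam := lam) hTn hδ hc0
  -- lower and upper bounds for the envelope
  have hlow : ∀ X ∈ ZS φ, ∀ Y ∈ ZS φ, Y ≠ X →
      (∀ y ∈ ZS φ, y ≠ X → PsiA φ lam X y ≤ PsiA φ lam X Y) → c ≤ PsiA φ lam X Y := by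
    intro X hX Y hY hYX hm'
    obtain ⟨y, hy, hy1⟩ := hc1' X hX
    have hyX : y ≠ X := by
      intro h0
      rw [h0, hT.euler (ZS_subset hT hX), hX.2, abs_zero] at hy1
      linarith
    refine le_trans ?_ (hm' y hy hyX)
    rw [PsiA]
    have hD := one_sub_inner_pos hX.1 hy.1 hyX.symm
    have hD2 : 1 - ⟪X, y⟫ ≤ 2 := by
      have := abs_real_inner_le_norm X y
      rw [hX.1, hy.1, one_mul] at this
      have := (abs_le.1 this).1
      linarith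
    have h1 : c1 * 2⁻¹ ≤ |⟪gradient φ X, y⟫| * (1 - ⟪X, y⟫)⁻¹ := by gcongr
    have h2 : 0 ≤ lam * Real.sqrt (2 * (1 - ⟪X, y⟫)) := by positivity
    rw [hc]; linarith
  refine ⟨fun x => Real.log (GG φ lam x), max (max C1 C2) (max |Real.log c|
    |Real.log (2 / δ ^ 2 + 2)|), min r1 r2, lt_min hr1 hr2, ?_, ?_⟩
  · intro X nX hX
    obtain ⟨Y, hY, hδY, hYm, -⟩ := hmax X ⟨nX, hX⟩
    have hYX : Y ≠ X := by
      intro h0
      rw [h0, sub_self, norm_zero] at hδY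
      linarith
    have hGe := GG_eq (φ := φ) (lam := lam) hY hYX hYm
    have hl := hlow X ⟨nX, hX⟩ Y hY hYX hYm
    have hu : PsiA φ lam X Y ≤ 2 / δ ^ 2 + 2 := by
      have hD := one_sub_inner nX hY.1
      have hD1 : δ ^ 2 / 2 ≤ 1 - ⟪X, Y⟫ := by
        have : δ ^ 2 ≤ ‖X - Y‖ ^ 2 := by gcongr
        linarith
      have hn1 : |⟪gradient φ X, Y⟫| ≤ 1 := by
        have := abs_real_inner_le_norm (gradient φ X) Y
        rwa [(hT.good (ZS_subset hT ⟨nX, hX⟩)).norm_gradient, hY.1, one_mul] at this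
      rw [PsiA, sqrt_eq nX hY.1]
      have hDp := one_sub_inner_pos nX hY.1 hYX.symm
      have h1 : |⟪gradient φ X, Y⟫| * (1 - ⟪X, Y⟫)⁻¹ ≤ 1 * (δ ^ 2 / 2)⁻¹ := by gcongr
      have h2 : lam * ‖X - Y‖ ≤ 1 * 2 := by
        have h3 : ‖X - Y‖ ≤ 2 := by
          refine (norm_sub_le _ _).trans ?_
          rw [nX, hY.1]; norm_num
        gcongr
        linarith
      have h4 : (1 : ℝ) * (δ ^ 2 / 2)⁻¹ = 2 / δ ^ 2 := by field_simp
      linarith
    simp only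
    rw [hGe]
    have hΨ : 0 < PsiA φ lam X Y := hc0.trans_le hl
    have l1 : Real.log c ≤ Real.log (PsiA φ lam X Y) := Real.log_le_log hc0 hl
    have l2 : Real.log (PsiA φ lam X Y) ≤ Real.log (2 / δ ^ 2 + 2) := Real.log_le_log hΨ hu
    refine le_trans ?_ (le_max_right _ _)
    rw [abs_le]
    constructor
    · have := neg_abs_le (Real.log c)
      have h5 : |Real.log c| ≤ max |Real.log c| |Real.log (2 / δ ^ 2 + 2)| := le_max_left _ _
      linarith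
    · have := le_abs_self (Real.log (2 / δ ^ 2 + 2))
      have h5 : |Real.log (2 / δ ^ 2 + 2)| ≤ max |Real.log c| |Real.log (2 / δ ^ 2 + 2)| :=
        le_max_right _ _
      linarith
  · intro X nX hX0
    have hX : X ∈ ZS φ := ⟨nX, hX0⟩
    obtain ⟨Y, hY, hδY, hYm, hhY⟩ := hmax X hX
    have hYX : Y ≠ X := by
      intro h0
      rw [h0, sub_self, norm_zero] at hδY
      linarith
    have hGe := GG_eq (φ := φ) (lam := lam) hY hYX hYm
    have hl := hlow X hX Y hY hYX hYm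
    have hD := one_sub_inner_pos hX.1 hY.1 hYX.symm
    -- the envelope dominates both one-sided functions
    have hdom : ∀ x ∈ ZS φ, ∀ y ∈ ZS φ, x ≠ y → PsiA φ lam x y ≤ GG φ lam x := by
      intro x hx y hy hxy
      obtain ⟨Y', hY', hδY', hYm', -⟩ := hmax x hx
      have hYX' : Y' ≠ x := by
        intro h0
        rw [h0, sub_self, norm_zero] at hδY'
        linarith
      rw [GG_eq hY' hYX' hYm']
      exact hYm' y hy hxy.symm
    have hballs1 : Metric.ball X (min r1 r2) ⊆ Metric.ball X r1 :=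
      Metric.ball_subset_ball (min_le_left _ _)
    have hballs2 : Metric.ball X (min r1 r2) ⊆ Metric.ball X r2 :=
      Metric.ball_subset_ball (min_le_right _ _)
    have hCa : C1 ≤ max (max C1 C2) (max |Real.log c| |Real.log (2 / δ ^ 2 + 2)|) :=
      (le_max_left _ _).trans (le_max_left _ _)
    have hCb : C2 ≤ max (max C1 C2) (max |Real.log c| |Real.log (2 / δ ^ 2 + 2)|) :=
      (le_max_right _ _).trans (le_max_left _ _)
    rcases le_or_gt 0 ⟪gradient φ X, Y⟫ with hs' | hs'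
    · -- positive sign
      have hPe : Psi φ lam X Y = PsiA φ lam X Y := by rw [Psi, PsiA, abs_of_nonneg hs']
      have hqm : (X, Y) ∈ QQ φ lam δ c := ⟨hX, hY, hδY, by rw [hPe]; exact hl⟩
      obtain ⟨a1, a2, a3, a4⟩ := hA (X, Y) hqm
      have hGd : ∀ x ∈ ZS φ, ∀ y ∈ ZS φ, x ≠ y → Psi φ lam x y ≤ GG φ lam x := by
        intro x hx y hy hxy
        refine le_trans ?_ (hdom x hx y hy hxy)
        have := one_sub_inner_pos hx.1 hy.1 hxy
        rw [Psi, PsiA]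
        gcongr
        exact le_abs_self _
      obtain ⟨p1, p2, p3⟩ := point e hm hm0 hT hmin hGd hX hY hYX.symm (by rw [hGe, hPe]) hc0
        (by rw [hGe]; exact hl) hlam hlam1 hlam2 (fun v => by rw [hGe]; exact hhY v) a1
      refine ⟨fun x => FF φ lam (x, X, Y), a2.mono hballs1, fun x hx h1 h2 =>
        p1 x (hballs1 hx) ⟨h1, h2⟩, p2, fun x hx => ⟨(a3 x (hballs1 hx)).trans hCa,
        (a4 x (hballs1 hx)).trans hCa⟩, p3⟩
    · -- negative sign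
      have hminn : ∀ x, x ≠ 0 → (fun x => -φ x) x = 0 →
          LinearMap.trace ℝ E (hs (fun x => -φ x) x : E →ₗ[ℝ] E) = 0 := by
        intro x hx h0
        rw [hs_neg']
        have := hmin x hx (by simpa using h0)
        simp [this]
      have hPe : Psi (fun x => -φ x) lam X Y = PsiA φ lam X Y := by
        rw [Psi, PsiA, abs_of_neg hs', gradient_neg']
        simp only [inner_neg_left]
      have hX' : X ∈ ZS (fun x => -φ x) := by rw [ZS_neg]; exact hX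
      have hY' : Y ∈ ZS (fun x => -φ x) := by rw [ZS_neg]; exact hY
      have hqm : (X, Y) ∈ QQ (fun x => -φ x) lam δ c := ⟨hX', hY', hδY, by
        show c ≤ Psi (fun x => -φ x) lam X Y
        rw [hPe]; exact hl⟩
      obtain ⟨a1, a2, a3, a4⟩ := hB (X, Y) hqm
      have hGd : ∀ x ∈ ZS (fun x => -φ x), ∀ y ∈ ZS (fun x => -φ x), x ≠ y →
          Psi (fun x => -φ x) lam x y ≤ GG φ lam x := by
        intro x hx y hy hxy
        rw [ZS_neg] at hx hy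
        refine le_trans ?_ (hdom x hx y hy hxy)
        have := one_sub_inner_pos hx.1 hy.1 hxy
        rw [Psi, PsiA, gradient_neg']
        simp only [inner_neg_left]
        gcongr
        exact neg_le_abs _
      have hnorm : ∀ v, ‖hs (fun x => -φ x) X v‖ = ‖hs φ X v‖ := by
        intro v
        rw [hs_neg', neg_apply, norm_neg]
      obtain ⟨p1, p2, p3⟩ := point e hm hm0 hTn hminn hGd hX' hY' hYX.symm (by rw [hGe, hPe]) hc0
        (by rw [hGe]; exact hl) hlam hlam1 hlam2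
        (fun v => by rw [hGe, hnorm]; exact hhY v) a1
      refine ⟨fun x => FF (fun x => -φ x) lam (x, X, Y), a2.mono hballs2, fun x hx h1 h2 =>
        p1 x (hballs2 hx) ?_, p2, fun x hx => ⟨(a3 x (hballs2 hx)).trans hCb,
        (a4 x (hballs2 hx)).trans hCb⟩, ?_⟩
      · rw [ZS_neg]; exact ⟨h1, h2⟩
      · simp only [hnorm] at p3
        refine p3.trans (le_of_eq ?_)
        rw [gradient_neg']
        simp only [Pf_neg]

end Crest.Agent.R246.NcMain112
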