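import Crest.Agent.R246.LimO4_538
import Crest.Agent.R246.Skel2_656
import Crest.Agent.R246.VarL_872
import Crest.Agent.R246.LimO1_538
import Crest.Agent.R246.D3LimC_67
import Crest.Agent.R246.Mass_872
import Crest.Agent.R246.UL_873
import Mathlib.MeasureTheory.Integral.RieszMarkovKakutani.Real
import Crest.Agent.R246.E2c_858
import Crest.Agent.R246.Lim4_538
import Crest.Agent.R246.E2a_782
import Mathlib.MeasureTheory.Covering.Besicovitch
import Mathlib.MeasureTheory.Covering.BesicovitchVectorSpace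
import Crest.Agent.R246.VarP_872

-- ▼ part R246/Eqp_538
section

/-!
Row 246, block E3 (helper538): `StEqp` (Skel2_656) from equipartition (Q).
-/

set_option autoImplicit false

open Filter Topology Metric Set MeasureTheory
open scoped ContDiff RealInnerProductSpace
open Crest.GeometryTopology.CoordMetric Crest.GeometryTopology.AffineMaximal
open Crest.Agent.R236.Jet Crest.Agent.R246.D2x782 Crest.Agent.R246.G873
open Crest.Agent.R246.H990 (NullCone VB cV)
open Crest.Agent.R246.Skel656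

noncomputable section

namespace Crest.Agent.R246.Lim538

/-- **(Q)**: equipartition for minimisers. -/
def StQ (m : ℕ) : Prop :=
  ∀ (U : Filter ℕ) (ε : ℕ → ℝ) (R : ℕ → E m → ℝ) (r φ : E m → ℝ) (μ : Measure (E m)) (a : ℝ),
    Skel2.ACLim m U ε R r φ μ a → Skel2.LimM φ μ (a * cV (E m)) → NullCone φ →
    (∀ A, VB φ A → a ≤ A) → Tendsto (fun k => Qd (R k) (ε k)) U (𝓝 0)

theorem eDen_eq {m : ℕ} (ε : ℝ) (R : E m → ℝ) (x : E m) : Skel2.eDen ε R x = wq R ε x := by
  have h : (MSP782.hw : E m → ℝ) = hw := by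
    funext y; unfold MSP782.hw hw; rw [nsq_eq]
  unfold Skel2.eDen wq
  rw [h]; ring

theorem ACsol_sol {m : ℕ} (hm : 1 ≤ m) {ε : ℝ} {R : E m → ℝ} (h : ACsol m ε R) : Sol R ε :=
  Sol.mk' (by omega) h.sm h.pos h.eq

theorem mlim_of {m : ℕ} {U : Filter ℕ} {ε : ℕ → ℝ} {R : ℕ → E m → ℝ} {r φ : E m → ℝ}
    {μ : Measure (E m)} {a : ℝ} (h : Skel2.ACLim m U ε R r φ μ a) : MLim U R ε μ := by
  intro f hf hc
  refine (h.loc f hf hc).congr fun k => ?_
  refine integral_congr_ae (Eventually.of_forall fun x => ?_)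
  simp only [eDen_eq]; ring

theorem sen_eq {m : ℕ} {ε : ℝ} {R : E m → ℝ} (h : ACsol m ε R) : En ε R = sen R ε :=
  Vb872.En_eq h

open CompactlySupported in
theorem measure_eq {m : ℕ} {μ ν : Measure (E m)} [IsFiniteMeasureOnCompacts μ]
    [IsFiniteMeasureOnCompacts ν]
    (h : ∀ f : E m → ℝ, Continuous f → HasCompactSupport f → ∫ x, f x ∂μ = ∫ x, f x ∂ν) :
    μ = ν :=
  Measure.ext_of_integral_eq_on_compactlySupported fun f =>
    h f f.continuous f.hasCompactSupport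

/-- **StEqp from (Q)** -/
theorem stEqp_of {m : ℕ} (hm : 1 ≤ m) (hQ : StQ m) : Skel2.StEqp m := by
  intro U ε R r φ μ a hL hM hN hmin
  have hU := hL.neBot
  have hfinμ := hL.fin
  set 𝒰 : Ultrafilter ℕ := Ultrafilter.of U with h𝒰
  have hle : (𝒰 : Filter ℕ) ≤ U := Ultrafilter.of_le U
  have H : ∀ k, Sol (R k) (ε k) := fun k => ACsol_sol hm (hL.sol k)
  have hQ' : Tendsto (fun k => Qd (R k) (ε k)) (𝒰 : Filter ℕ) (𝓝 0) :=
    (hQ U ε R r φ μ a hL hM hN hmin).mono_left hle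
  have hn : 2 ≤ m + 2 := by omega
  have hC : ∀ᶠ k in (𝒰 : Filter ℕ), sen (R k) (ε k) ≤ 4 / 3 * (a + 1) := by
    have h1 := hL.en.mono_left hle
    filter_upwards [h1.eventually (gt_mem_nhds (lt_add_one a))] with k hk
    rw [sen_eq (hL.sol k)] at hk
    linarith
  obtain ⟨G, hG, hS⟩ := exists_GV 𝒰 hn H hC hQ'
  have hGfin := G.fin
  have hMμ : MLim (𝒰 : Filter ℕ) R ε μ := fun f hf hc => (mlim_of hL f hf hc).mono_left hle
  have hGμ : G.μ = μ := measure_eq fun f hf hc => tendsto_nhds_unique (hG f hf hc) (hMμ f hf hc)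
  refine ⟨G, hGμ, ?_⟩
  exact
    { hom := hM.hom
      cD := hM.cD
      conc := by rw [hGμ]; exact hM.conc
      homμ := by rw [hGμ]; exact hM.homμ
      var := by rw [hGμ]; exact hM.var
      stat := statOn hn H hQ' hG hS
      mass := by rw [hGμ]; exact hM.mass.le }

end Crest.Agent.R246.Lim538
end
end

-- ▼ part R246/Eqp_657
section

/-!
# R246, block E: leaf (Q-a) of `StEqp` (helper657)

The weighted discrepancy tends to `0` once the energy defect `dd` does.
-/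

set_option autoImplicit false
noncomputable section
open MeasureTheory Set Filter Topology Metric
open scoped RealInnerProductSpace ContDiff
open Crest.GeometryTopology.CoordMetric Crest.GeometryTopology.AffineMaximal
open Crest.Agent.R236.Jet
open Crest.Agent.R246.D2x782 Crest.Agent.R246.Lim538 Crest.Agent.R246.Stress638
open Crest.Agent.R246.Vb872 Crest.Agent.R202.SphDiv

namespace Crest.Agent.R246.Eqp657

variable {n : ℕ}

local notation "EE" => EuclideanSpace ℝ (Fin n)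

/-- scalar inequality: `(1-τ²)² ≤ (8/δ) w(τ) + 8 δ² τ`, `w(τ) = (1-τ)³(3+τ)/6` -/
theorem scalar_ineq {τ δ : ℝ} (h0 : 0 ≤ τ) (h1 : τ ≤ 1) (hδ : 0 < δ) (hδ2 : δ ≤ 1 / 2) :
    (1 - τ ^ 2) ^ 2 ≤ 8 / δ * ((1 - τ) ^ 3 * (3 + τ) / 6) + 8 * δ ^ 2 * τ := by
  have hf : (1 - τ ^ 2) ^ 2 = (1 - τ) ^ 2 * (1 + τ) ^ 2 := by ring
  have hs : 0 ≤ 1 - τ := by linarith
  have hq : (1 + τ) ^ 2 ≤ 4 := by nlinarith
  rw [hf]
  by_cases hc : τ ≤ 1 - δ
  · have h2 : δ ≤ 1 - τ := by linarith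
    have h3 : 0 ≤ 8 * δ ^ 2 * τ := by positivity
    have h4 : 4 * (1 - τ) ^ 2 ≤ 8 / δ * ((1 - τ) ^ 3 * (3 + τ) / 6) := by
      rw [div_mul_eq_mul_div, le_div_iff₀ hδ]
      have h5 : (1 - τ) ^ 2 * δ ≤ (1 - τ) ^ 2 * (1 - τ) :=
        mul_le_mul_of_nonneg_left h2 (sq_nonneg _)
      have h6 : 0 ≤ (1 - τ) ^ 3 := by positivity
      have h7 : (1 - τ) ^ 3 * 3 ≤ (1 - τ) ^ 3 * (3 + τ) :=
        mul_le_mul_of_nonneg_left (by linarith) h6
      nlinarith
    have h5 : (1 - τ) ^ 2 * (1 + τ) ^ 2 ≤ (1 - τ) ^ 2 * 4 :=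
      mul_le_mul_of_nonneg_left hq (sq_nonneg _)
    linarith
  · have h2 : 1 - τ ≤ δ := by linarith
    have h3 : 1 / 2 ≤ τ := by linarith
    have h4 : (1 - τ) ^ 2 ≤ δ ^ 2 := pow_le_pow_left₀ hs h2 2
    have h5 : 0 ≤ 8 / δ * ((1 - τ) ^ 3 * (3 + τ) / 6) := by positivity
    have h6 : (1 - τ) ^ 2 * (1 + τ) ^ 2 ≤ δ ^ 2 * 4 :=
      mul_le_mul h4 hq (sq_nonneg _) (sq_nonneg _)
    have h7 : δ ^ 2 * 4 ≤ 8 * δ ^ 2 * τ := by nlinarith [sq_nonneg δ]
    linarith

/-- pointwise: discrepancy `≤ (8/δ)` defect `+ 4δ² |ΔR|` -/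
theorem pointwise_le {R : EE → ℝ} {ε : ℝ} (H : Sol R ε) {x : EE} (hx : x ≠ 0) {δ : ℝ}
    (hδ : 0 < δ) (hδ2 : δ ≤ 1 / 2) :
    sg R ε x * (hw x - gsq R x) ≤
      8 / δ * dd hw R ε x + 4 * δ ^ 2 * |lapl R x| := by
  have hε := H.pos
  have hA : 0 ≤ hw x - gsq R x := by linarith [H.gsq_le hx]
  rw [H.acsol.abs_lapl (x := x) hx]
  unfold sg dd
  set t := Real.tanh (R x / ε) with ht
  have h1 := (abs_tanh_lt (R x / ε)).le
  rw [← ht] at h1
  have h2 : t ^ 2 = |t| ^ 2 := (sq_abs t).symm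
  have h3 := scalar_ineq (abs_nonneg t) h1 hδ hδ2
  rw [h2]
  have h4 : 0 ≤ 1 / ε * (hw x - gsq R x) := by positivity
  have h5 := mul_le_mul_of_nonneg_left h3 h4
  calc 1 / ε * (1 - |t| ^ 2) ^ 2 * (hw x - gsq R x)
      = 1 / ε * (hw x - gsq R x) * (1 - |t| ^ 2) ^ 2 := by ring
    _ ≤ _ := h5
    _ = _ := by ring

/-- integrability of `0`-th order homogeneous densities against the Gaussian -/
theorem integrable_gauss_of_le (hn : 3 ≤ n) {g : EE → ℝ} (hg : ContinuousOn g ({0}ᶜ : Set EE))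
    {C : ℝ} (hC : ∀ x : EE, x ≠ 0 → |g x| ≤ C * ‖x‖⁻¹) :
    Integrable fun x : EE => Real.exp (-‖x‖ ^ 2) * g x := by
  have : Nonempty (Fin n) := ⟨⟨0, by omega⟩⟩
  have : Nontrivial EE := inferInstance
  have hfin : 2 ≤ Module.finrank ℝ EE := by simp; omega
  have h1 := (integrable_gauss_radial (E := EE) hfin (b := 1) one_pos).const_mul |C|
  refine h1.mono' ?_ ?_
  · refine AEStronglyMeasurable.mul ?_ ?_
    · exact (by fun_prop : Continuous fun x : EE => Real.exp (-‖x‖ ^ 2)).aestronglyMeasurable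
    · exact D3Lim67.aesm_of_continuousOn (by omega) hg
  · have hae : ∀ᵐ x : EE, x ≠ 0 := by
      have := (measure_singleton (μ := (volume : Measure EE)) (0 : EE))
      exact compl_mem_ae_iff.2 this
    filter_upwards [hae] with x hx
    have h2 := hC x hx
    have h3 : 0 ≤ ‖x‖⁻¹ := by positivity
    have h4 : C * ‖x‖⁻¹ ≤ |C| * (2 * ‖x‖⁻¹ + 1 + ‖x‖) := by
      have h5 : C * ‖x‖⁻¹ ≤ |C| * ‖x‖⁻¹ := mul_le_mul_of_nonneg_right (le_abs_self C) h3
      have h6 : |C| * ‖x‖⁻¹ ≤ |C| * (2 * ‖x‖⁻¹ + 1 + ‖x‖) :=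
        mul_le_mul_of_nonneg_left (by linarith [norm_nonneg x]) (abs_nonneg C)
      linarith
    rw [norm_mul, Real.norm_eq_abs, Real.norm_eq_abs, abs_of_pos (Real.exp_pos _)]
    have h7 : Real.exp (-‖x‖ ^ 2) = Real.exp (-1 * ‖x‖ ^ 2) := by congr 1; ring
    calc Real.exp (-‖x‖ ^ 2) * |g x| ≤ Real.exp (-‖x‖ ^ 2) * (|C| * (2 * ‖x‖⁻¹ + 1 + ‖x‖)) :=
          mul_le_mul_of_nonneg_left (h2.trans h4) (Real.exp_pos _).le
      _ = _ := by rw [h7]; ring

/-- `∫ e^{-|x|²} |x| |ΔR| = kap (n-1) ∫_S |Δ_S R|` -/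
theorem integral_gauss_lapl (hn : 3 ≤ n) {ε : ℝ} (hε : 0 < ε) {R : EE → ℝ} (h : SmHom0 R)
    (hR : ACeq ε R) :
    (Integrable fun x : EE => Real.exp (-‖x‖ ^ 2) * (‖x‖ * |lapl R x|)) ∧
      ∫ x : EE, Real.exp (-‖x‖ ^ 2) * (‖x‖ * |lapl R x|) =
        D3Lim67.kap (n - 1) * ∫ z : Sph n, |slap R z| ∂(sig n) := by
  have H := Sol.mk' hn h hε hR
  have hslap : ∀ x : EE, x ≠ 0 → ‖x‖ * |lapl R x| = ‖x‖⁻¹ * |slap R x| := by
    intro x hx
    have hx' : 0 < ‖x‖ := norm_pos_iff.2 hx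
    unfold slap
    rw [nsq_eq, abs_mul, abs_of_pos (by positivity : 0 < ‖x‖ ^ 2)]
    field_simp
  have hint : Integrable fun x : EE => Real.exp (-‖x‖ ^ 2) * (‖x‖ * |lapl R x|) := by
    refine integrable_gauss_of_le hn (C := 2 / ε) ?_ ?_
    · exact continuous_norm.continuousOn.mul H.acsol.cont_lapl.abs
    · intro x hx
      rw [hslap x hx, abs_mul, abs_abs, abs_of_nonneg (by positivity : 0 ≤ ‖x‖⁻¹), mul_comm]
      exact mul_le_mul_of_nonneg_right (D3Lim67.abs_slap_le hn hε h hR hx) (by positivity)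
  refine ⟨hint, ?_⟩
  rw [polar (by omega) _ hint, D3Lim67.kap, ← integral_mul_const]
  refine setIntegral_congr_fun measurableSet_Ioi fun t ht => ?_
  have ht' : (0 : ℝ) < t := ht
  have h1 : ∀ z : Sph n, Real.exp (-‖t • (z : EE)‖ ^ 2) * (‖t • (z : EE)‖ * |lapl R (t • (z : EE))|) =
      Real.exp (-t ^ 2) * t⁻¹ * |slap R z| := by
    intro z
    have hz : ‖(z : EE)‖ = 1 := by simp
    rw [hslap _ (smul_ne_zero ht'.ne' (sph_ne z)),
      D3Lim67.slap_smul h hR (sph_ne z) ht', norm_smul, Real.norm_eq_abs,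
      abs_of_pos ht', hz, mul_one]
    ring
  simp only [h1]
  rw [integral_const_mul]
  have h2 : t ^ (n - 1) = t ^ (n - 1 - 1) * t := by
    rw [← pow_succ]; congr 1; omega
  rw [h2]
  field_simp

/-- **(Q-a)** -/
theorem disc_tendsto (hn : 3 ≤ n) {U : Filter ℕ} {ε : ℕ → ℝ}
    {R : ℕ → EuclideanSpace ℝ (Fin n) → ℝ} {C : ℝ} (hR : ∀ k, SmHom0 (R k))
    (hε : ∀ k, 0 < ε k) (hac : ∀ k, ACeq (ε k) (R k))
    (hC : ∀ k, ∫ z : Sph n, |slap (R k) z| ∂(sig n) ≤ C)
    (hdd : Tendsto (fun k => ∫ x, Real.exp (-‖x‖ ^ 2) * (‖x‖ * dd hw (R k) (ε k) x)) U (𝓝 0)) :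
    Tendsto (fun k => ∫ x, Real.exp (-‖x‖ ^ 2) *
      (‖x‖ * (sg (R k) (ε k) x * (hw x - gsq (R k) x)))) U (𝓝 0) := by
  have : Nonempty (Fin n) := ⟨⟨0, by omega⟩⟩
  have : Nontrivial EE := inferInstance
  have hae : ∀ᵐ x : EE, x ≠ 0 := by
    have := (measure_singleton (μ := (volume : Measure EE)) (0 : EE))
    exact compl_mem_ae_iff.2 this
  have H : ∀ k, Sol (R k) (ε k) := fun k => Sol.mk' hn (hR k) (hε k) (hac k)
  set a : ℕ → ℝ := fun k => ∫ x, Real.exp (-‖x‖ ^ 2) *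
      (‖x‖ * (sg (R k) (ε k) x * (hw x - gsq (R k) x))) with ha
  set d : ℕ → ℝ := fun k => ∫ x, Real.exp (-‖x‖ ^ 2) * (‖x‖ * dd hw (R k) (ε k) x) with hd
  set M : ℝ := D3Lim67.kap (n - 1) * C with hM
  have hxw : ∀ x : EE, x ≠ 0 → ‖x‖ * hw x = ‖x‖⁻¹ := by
    intro x hx
    have hx' : 0 < ‖x‖ := norm_pos_iff.2 hx
    unfold hw
    field_simp
  -- integrability of the three densities
  have hI1 : ∀ k, Integrable fun x : EE => Real.exp (-‖x‖ ^ 2) *
      (‖x‖ * (sg (R k) (ε k) x * (hw x - gsq (R k) x))) := by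
    intro k
    refine integrable_gauss_of_le hn (C := 1 / ε k) ?_ ?_
    · exact continuous_norm.continuousOn.mul
        ((H k).continuousOn_sg.mul ((H k).acsol.cont_h.sub (H k).acsol.cont_gsq))
    · intro x hx
      have h1 := (H k).sg_nn x
      have h2 := (H k).gsq_le hx
      have h3 := (H k).sg_le x
      have h4 := gsq_nonneg (R k) x
      have h5 := hε k
      have h6 : 0 ≤ hw x - gsq (R k) x := by linarith
      rw [abs_of_nonneg (by positivity)]
      calc ‖x‖ * (sg (R k) (ε k) x * (hw x - gsq (R k) x))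
          ≤ ‖x‖ * (1 / ε k * hw x) := by
            gcongr
            linarith
        _ = 1 / ε k * (‖x‖ * hw x) := by ring
        _ = _ := by rw [hxw x hx]
  have hI2 : ∀ k, Integrable fun x : EE => Real.exp (-‖x‖ ^ 2) *
      (‖x‖ * dd hw (R k) (ε k) x) := by
    intro k
    refine integrable_gauss_of_le hn (C := 1 / ε k) ?_ ?_
    · exact continuous_norm.continuousOn.mul (cont_dd (H k).acsol)
    · intro x hx
      have h2 := (H k).gsq_le hx
      have h4 := gsq_nonneg (R k) x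
      have h5 := hε k
      have h6 : 0 ≤ hw x - gsq (R k) x := by linarith
      have h7 : 0 ≤ dd hw (R k) (ε k) x := dd_nonneg (H k).acsol (x := x) hx
      rw [abs_of_nonneg (by positivity)]
      unfold dd
      set t := Real.tanh (R k x / ε k) with ht
      have h8 := (abs_tanh_lt (R k x / ε k)).le
      rw [← ht] at h8
      have h9 := abs_nonneg t
      have hhw : 0 ≤ 1 / ε k * hw x := by
        have : 0 ≤ hw x := by unfold hw; positivity
        positivity
      have h10 : (1 - |t|) ^ 3 * (3 + |t|) / 6 ≤ 1 := by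
        have h11 : (1 - |t|) ^ 3 ≤ 1 := pow_le_one₀ (by linarith) (by linarith)
        have h12 : 0 ≤ (1 - |t|) ^ 3 := pow_nonneg (by linarith) 3
        nlinarith
      calc ‖x‖ * (1 / ε k * (hw x - gsq (R k) x) * ((1 - |t|) ^ 3 * (3 + |t|) / 6))
          ≤ ‖x‖ * (1 / ε k * hw x * 1) := by
            refine mul_le_mul_of_nonneg_left ?_ (norm_nonneg x)
            have h13 : 0 ≤ (1 - |t|) ^ 3 * (3 + |t|) / 6 := by
              have : 0 ≤ 1 - |t| := by linarith
              positivity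
            refine mul_le_mul ?_ h10 h13 hhw
            refine mul_le_mul_of_nonneg_left (by linarith) (by positivity)
        _ = 1 / ε k * (‖x‖ * hw x) := by ring
        _ = _ := by rw [hxw x hx]
  -- the key estimate
  have key : ∀ δ : ℝ, 0 < δ → δ ≤ 1 / 2 → ∀ k, a k ≤ 8 / δ * d k + 4 * δ ^ 2 * M := by
    intro δ hδ hδ2 k
    obtain ⟨hI3, he⟩ := integral_gauss_lapl hn (hε k) (hR k) (hac k)
    have h1 : a k ≤ ∫ x : EE, (8 / δ * (Real.exp (-‖x‖ ^ 2) * (‖x‖ * dd hw (R k) (ε k) x)) +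
        4 * δ ^ 2 * (Real.exp (-‖x‖ ^ 2) * (‖x‖ * |lapl (R k) x|))) := by
      refine integral_mono_ae (hI1 k) (((hI2 k).const_mul _).add (hI3.const_mul _)) ?_
      filter_upwards [hae] with x hx
      have h2 := pointwise_le (H k) hx hδ hδ2
      have h3 : 0 ≤ Real.exp (-‖x‖ ^ 2) * ‖x‖ := by positivity
      have h4 := mul_le_mul_of_nonneg_left h2 h3
      calc Real.exp (-‖x‖ ^ 2) * (‖x‖ * (sg (R k) (ε k) x * (hw x - gsq (R k) x)))
          = Real.exp (-‖x‖ ^ 2) * ‖x‖ * (sg (R k) (ε k) x * (hw x - gsq (R k) x)) := by ring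
        _ ≤ _ := h4
        _ = _ := by ring
    rw [integral_add ((hI2 k).const_mul _) (hI3.const_mul _), integral_const_mul,
      integral_const_mul, he] at h1
    have h5 : D3Lim67.kap (n - 1) * ∫ z : Sph n, |slap (R k) z| ∂(sig n) ≤ M :=
      mul_le_mul_of_nonneg_left (hC k) (D3Lim67.kap_nonneg _)
    have h6 : 4 * δ ^ 2 * (D3Lim67.kap (n - 1) * ∫ z : Sph n, |slap (R k) z| ∂(sig n)) ≤
        4 * δ ^ 2 * M := mul_le_mul_of_nonneg_left h5 (by positivity)
    linarith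
  have hnn : ∀ k, 0 ≤ a k := by
    intro k
    refine integral_nonneg_of_ae ?_
    filter_upwards [hae] with x hx
    have h1 := (H k).sg_nn x
    have h6 : 0 ≤ hw x - gsq (R k) x := by linarith [(H k).gsq_le hx]
    simp only [Pi.zero_apply]
    positivity
  rw [Metric.tendsto_nhds]
  intro η hη
  -- choose δ with 4 δ² M < η/2
  obtain ⟨δ, hδ, hδ2, hδM⟩ : ∃ δ : ℝ, 0 < δ ∧ δ ≤ 1 / 2 ∧ 4 * δ ^ 2 * M < η / 2 := by
    have h1 : Tendsto (fun δ : ℝ => 4 * δ ^ 2 * M) (𝓝[>] 0) (𝓝 0) := by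
      have h2 : Continuous fun δ : ℝ => 4 * δ ^ 2 * M := by fun_prop
      have h3 := h2.tendsto 0
      simp only [ne_eq, OfNat.ofNat_ne_zero, not_false_eq_true, zero_pow, mul_zero,
        zero_mul] at h3
      exact h3.mono_left nhdsWithin_le_nhds
    have h4 := h1.eventually (gt_mem_nhds (show (0 : ℝ) < η / 2 by linarith))
    have h5 : ∀ᶠ δ in 𝓝[>] (0 : ℝ), δ ∈ Ioo (0 : ℝ) (1 / 2) := Ioo_mem_nhdsGT (by norm_num)
    obtain ⟨δ, h6, h7⟩ := (h4.and h5).exists
    exact ⟨δ, h7.1, h7.2.le, h6⟩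
  have h8 : Tendsto (fun k => 8 / δ * d k) U (𝓝 (8 / δ * 0)) := hdd.const_mul _
  rw [mul_zero] at h8
  filter_upwards [h8.eventually (gt_mem_nhds (show (0 : ℝ) < η / 2 by linarith))] with k hk
  rw [Real.dist_eq, sub_zero, abs_of_nonneg (hnn k)]
  have := key δ hδ hδ2 k
  linarith

end Crest.Agent.R246.Eqp657
end
end

-- ▼ part R246/HomLim_782
section

/-!
# Row 246, blocks E/G (helper782): limits of homogeneous measures `w dx`, `w` of degree `-1`

`exists_lim` (Riesz ultralimit), `homμ` (homogeneity of the limit), `mass` (Gaussian mass of the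
limit), `conc` (concentration on a zero set).
-/

set_option autoImplicit false
set_option linter.unusedSectionVars false
noncomputable section
open MeasureTheory Set Filter Topology
open scoped RealInnerProductSpace ENNReal

namespace Crest.Agent.R246.HL782

open Crest.Agent.R246.G873 (ul tendsto_ul)
open Crest.Agent.R246.Vb872 (mass_le_of_tests cl cl_one cl_zero cl_nonneg cl_le_one)

variable {n : ℕ}

local notation "EE" => EuclideanSpace ℝ (Fin n)

/-- nonnegative measurable densities, homogeneous of degree `-1`, Gaussian integrable. -/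
structure HW (w : EuclideanSpace ℝ (Fin n) → ℝ) : Prop where
  nonneg : ∀ x, 0 ≤ w x
  meas : Measurable w
  hom : ∀ (t : ℝ) x, 0 < t → w (t • x) = t⁻¹ * w x
  int : Integrable fun x => Real.exp (-‖x‖ ^ 2) * w x

lemma exists_bound {f : EuclideanSpace ℝ (Fin n) → ℝ} (hf : Continuous f)
    (hc : HasCompactSupport f) :
    ∃ C : ℝ, 0 ≤ C ∧ ∀ x, |f x| ≤ C * Real.exp (-‖x‖ ^ 2) := by
  have hg : Continuous fun x => f x * Real.exp (‖x‖ ^ 2) := by fun_prop
  have hgc : HasCompactSupport fun x => f x * Real.exp (‖x‖ ^ 2) := hc.mul_right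
  obtain ⟨C, hC⟩ := hg.bounded_above_of_compact_support hgc
  refine ⟨C, (norm_nonneg _).trans (hC 0), fun x => ?_⟩
  have h1 := hC x
  rw [Real.norm_eq_abs, abs_mul, abs_of_pos (Real.exp_pos _)] at h1
  rw [Real.exp_neg, ← div_eq_mul_inv, le_div_iff₀ (Real.exp_pos _)]
  exact h1

variable {w : EuclideanSpace ℝ (Fin n) → ℝ}

lemma HW.integrable_of_le (h : HW w) {f : EuclideanSpace ℝ (Fin n) → ℝ} (hf : Measurable f)
    {C : ℝ} (hC : ∀ x, |f x| ≤ C * Real.exp (-‖x‖ ^ 2)) : Integrable fun x => f x * w x := by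
  refine (h.int.const_mul C).mono' (hf.mul h.meas).aestronglyMeasurable
    (Eventually.of_forall fun x => ?_)
  rw [Real.norm_eq_abs, abs_mul, abs_of_nonneg (h.nonneg x)]
  calc |f x| * w x ≤ C * Real.exp (-‖x‖ ^ 2) * w x :=
        mul_le_mul_of_nonneg_right (hC x) (h.nonneg x)
    _ = C * (Real.exp (-‖x‖ ^ 2) * w x) := by ring

lemma HW.integrable_mul (h : HW w) {f : EuclideanSpace ℝ (Fin n) → ℝ} (hf : Continuous f)
    (hc : HasCompactSupport f) : Integrable fun x => f x * w x := by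
  obtain ⟨C, -, hC⟩ := exists_bound hf hc
  exact h.integrable_of_le hf.measurable hC

lemma HW.abs_integral_le (h : HW w) {f : EuclideanSpace ℝ (Fin n) → ℝ}
    {C : ℝ} (hC : ∀ x, |f x| ≤ C * Real.exp (-‖x‖ ^ 2)) :
    |∫ x, f x * w x| ≤ C * ∫ x, Real.exp (-‖x‖ ^ 2) * w x := by
  rw [← Real.norm_eq_abs, ← integral_const_mul]
  refine norm_integral_le_of_norm_le (h.int.const_mul C) (Eventually.of_forall fun x => ?_)
  rw [Real.norm_eq_abs, abs_mul, abs_of_nonneg (h.nonneg x)]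
  calc |f x| * w x ≤ C * Real.exp (-‖x‖ ^ 2) * w x :=
        mul_le_mul_of_nonneg_right (hC x) (h.nonneg x)
    _ = C * (Real.exp (-‖x‖ ^ 2) * w x) := by ring

lemma HW.integral_nonneg' (h : HW w) : 0 ≤ ∫ x, Real.exp (-‖x‖ ^ 2) * w x :=
  integral_nonneg fun x => mul_nonneg (Real.exp_pos _).le (h.nonneg x)

/-- (i) existence of the limit measure along an ultrafilter. -/
theorem exists_lim {ι : Type*} (𝒰 : Ultrafilter ι) {w : ι → EuclideanSpace ℝ (Fin n) → ℝ}
    (hw : ∀ i, HW (w i)) {C : ℝ} (hC : ∀ i, ∫ x, Real.exp (-‖x‖ ^ 2) * w i x ≤ C) :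
    ∃ μ : Measure (EuclideanSpace ℝ (Fin n)), IsFiniteMeasureOnCompacts μ ∧
      ∀ f : EuclideanSpace ℝ (Fin n) → ℝ, Continuous f → HasCompactSupport f →
        Tendsto (fun i => ∫ x, f x * w i x) (𝒰 : Filter ι) (𝓝 (∫ x, f x ∂μ)) := by
  have hI : ∀ f : EuclideanSpace ℝ (Fin n) → ℝ, Continuous f → HasCompactSupport f →
      Tendsto (fun i => ∫ x, f x * w i x) (𝒰 : Filter ι) (𝓝 (ul 𝒰 (fun i => ∫ x, f x * w i x))) := by
    intro f hf hc
    obtain ⟨D, hD0, hD⟩ := exists_bound hf hc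
    refine tendsto_ul 𝒰 ⟨D * C, Eventually.of_forall fun i => ?_⟩
    exact ((hw i).abs_integral_le hD).trans (mul_le_mul_of_nonneg_left (hC i) hD0)
  let L0 : CompactlySupportedContinuousMap (EuclideanSpace ℝ (Fin n)) ℝ →ₗ[ℝ] ℝ :=
    { toFun := fun f => ul 𝒰 (fun i => ∫ x, f x * w i x)
      map_add' := by
        intro f g
        have h1 := (hI f f.continuous f.hasCompactSupport).add (hI g g.continuous g.hasCompactSupport)
        have h2 := hI (f + g) (f + g).continuous (f + g).hasCompactSupport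
        refine tendsto_nhds_unique h2 (h1.congr fun i => ?_)
        have h3 := integral_add ((hw i).integrable_mul f.continuous f.hasCompactSupport)
          ((hw i).integrable_mul g.continuous g.hasCompactSupport)
        refine Eq.trans h3.symm (integral_congr_ae (Eventually.of_forall fun x => ?_))
        show f x * w i x + g x * w i x = (f x + g x) * w i x
        ring
      map_smul' := by
        intro c f
        have h1 := (hI f f.continuous f.hasCompactSupport).const_mul c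
        have h2 := hI (c • f) (c • f).continuous (c • f).hasCompactSupport
        refine tendsto_nhds_unique h2 (h1.congr fun i => ?_)
        rw [← integral_const_mul]
        refine integral_congr_ae (Eventually.of_forall fun x => ?_)
        show c * (f x * w i x) = (c * f x) * w i x
        ring }
  let Λ : CompactlySupportedContinuousMap (EuclideanSpace ℝ (Fin n)) ℝ →ₚ[ℝ] ℝ :=
    PositiveLinearMap.mk₀ L0 (by
      intro f hf
      have h2 := hI f f.continuous f.hasCompactSupport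
      exact ge_of_tendsto' h2 fun i => integral_nonneg fun x => mul_nonneg (hf x) ((hw i).nonneg x))
  refine ⟨RealRMK.rieszMeasure Λ, inferInstance, fun f hf hc => ?_⟩
  have := RealRMK.integral_rieszMeasure Λ ⟨⟨f, hf⟩, hc⟩
  have h3 : ∫ x, f x ∂(RealRMK.rieszMeasure Λ) = ul 𝒰 (fun i => ∫ x, f x * w i x) := this
  rw [h3]
  exact hI f hf hc

section filt
variable {ι : Type*} {U : Filter ι} {w : ι → EuclideanSpace ℝ (Fin n) → ℝ}
  {μ : Measure (EuclideanSpace ℝ (Fin n))}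

lemma HW.integral_comp {w : EuclideanSpace ℝ (Fin n) → ℝ} (h : HW w)
    (f : EuclideanSpace ℝ (Fin n) → ℝ) {t : ℝ} (ht : 0 < t) :
    ∫ x, f (t⁻¹ • x) * w x = t ^ n * t⁻¹ * ∫ x, f x * w x := by
  have h1 := Measure.integral_comp_smul (volume : Measure (EuclideanSpace ℝ (Fin n)))
    (fun y => f y * w (t • y)) t⁻¹
  have h2 : ∀ x : EuclideanSpace ℝ (Fin n), t • t⁻¹ • x = x := fun x => by
    rw [smul_smul, mul_inv_cancel₀ ht.ne', one_smul]
  simp only [h2] at h1
  rw [h1]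
  have h3 : ∀ y : EuclideanSpace ℝ (Fin n), f y * w (t • y) = t⁻¹ * (f y * w y) := fun y => by
    rw [h.hom t y ht]; ring
  simp only [h3]
  rw [integral_const_mul, smul_eq_mul, finrank_euclideanSpace_fin, inv_pow, inv_inv,
    abs_of_pos (pow_pos ht n)]
  ring

/-- (ii) the limit measure is homogeneous. -/
theorem homμ [U.NeBot] (hn : 1 ≤ n) (hw : ∀ i, HW (w i))
    (loc : ∀ f : EuclideanSpace ℝ (Fin n) → ℝ, Continuous f → HasCompactSupport f →
      Tendsto (fun i => ∫ x, f x * w i x) U (𝓝 (∫ x, f x ∂μ))) :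
    ∀ t : ℝ, 0 < t → ∀ f : EuclideanSpace ℝ (Fin n) → ℝ, Continuous f → HasCompactSupport f →
      ∫ x, f (t⁻¹ • x) ∂μ =
        t ^ (Module.finrank ℝ (EuclideanSpace ℝ (Fin n)) - 1) * ∫ x, f x ∂μ := by
  intro t ht f hf hc
  have h1 : Continuous fun x : EuclideanSpace ℝ (Fin n) => f (t⁻¹ • x) :=
    hf.comp (continuous_const_smul _)
  have h2 : HasCompactSupport fun x : EuclideanSpace ℝ (Fin n) => f (t⁻¹ • x) :=
    hc.comp_homeomorph (Homeomorph.smulOfNeZero t⁻¹ (inv_ne_zero ht.ne'))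
  have h3 := loc _ h1 h2
  have h4 := (loc f hf hc).const_mul (t ^ n * t⁻¹)
  have h5 := tendsto_nhds_unique h3 (h4.congr fun i => ((hw i).integral_comp f ht).symm)
  rw [h5, finrank_euclideanSpace_fin]
  congr 1
  obtain ⟨m, rfl⟩ : ∃ m, n = m + 1 := ⟨n - 1, by omega⟩
  rw [Nat.add_sub_cancel, pow_succ]
  field_simp

/-- Gaussian tails of homogeneous densities. -/
lemma HW.tail {w : EuclideanSpace ℝ (Fin n) → ℝ} (h : HW w) :
    Integrable (fun x => Real.exp (-‖x‖ ^ 2 / 2) * w x) ∧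
    ∫ x, Real.exp (-‖x‖ ^ 2 / 2) * w x =
      (Real.sqrt 2) ^ n * (Real.sqrt 2)⁻¹ * ∫ x, Real.exp (-‖x‖ ^ 2) * w x := by
  have hs : 0 < Real.sqrt 2 := Real.sqrt_pos.2 two_pos
  have hs2 : Real.sqrt 2 ^ 2 = 2 := Real.sq_sqrt two_pos.le
  have e1 : ∀ x : EuclideanSpace ℝ (Fin n), Real.exp (-‖(Real.sqrt 2)⁻¹ • x‖ ^ 2) =
      Real.exp (-‖x‖ ^ 2 / 2) := by
    intro x
    rw [norm_smul, norm_inv, Real.norm_eq_abs, abs_of_pos hs, mul_pow, inv_pow, hs2]
    congr 1
    ring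
  refine ⟨?_, ?_⟩
  · have h1 := h.int.comp_smul (R := (Real.sqrt 2)⁻¹) (inv_ne_zero hs.ne')
    have h2 : (fun x : EuclideanSpace ℝ (Fin n) => Real.exp (-‖(Real.sqrt 2)⁻¹ • x‖ ^ 2) *
        w ((Real.sqrt 2)⁻¹ • x)) =
        fun x => Real.sqrt 2 * (Real.exp (-‖x‖ ^ 2 / 2) * w x) := by
      funext x
      rw [e1, h.hom _ x (inv_pos.2 hs), inv_inv]
      ring
    rw [h2] at h1
    have h3 := h1.const_mul (Real.sqrt 2)⁻¹
    refine h3.congr (Eventually.of_forall fun x => ?_)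
    show (Real.sqrt 2)⁻¹ * (Real.sqrt 2 * (Real.exp (-‖x‖ ^ 2 / 2) * w x)) = _
    rw [← mul_assoc, inv_mul_cancel₀ hs.ne', one_mul]
  · have h1 := h.integral_comp (fun x => Real.exp (-‖x‖ ^ 2)) hs
    simp only [e1] at h1
    exact h1

/-- the cut-offs -/
def cut (j : ℕ) (x : EuclideanSpace ℝ (Fin n)) : ℝ :=
  cl ((j : ℝ) + 1 - ‖x‖) * Real.exp (-‖x‖ ^ 2)

lemma continuous_cl : Continuous cl := by unfold cl; fun_prop

lemma continuous_cut (j : ℕ) : Continuous (cut (n := n) j) := by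
  unfold cut
  have := continuous_cl
  fun_prop

lemma hasCompactSupport_cut (j : ℕ) : HasCompactSupport (cut (n := n) j) := by
  refine HasCompactSupport.intro
    (isCompact_closedBall (0 : EuclideanSpace ℝ (Fin n)) ((j : ℝ) + 1)) fun x hx => ?_
  rw [mem_closedBall_zero_iff, not_le] at hx
  unfold cut
  rw [cl_zero (by linarith), zero_mul]

lemma cut_nonneg (j : ℕ) (x : EuclideanSpace ℝ (Fin n)) : 0 ≤ cut j x :=
  mul_nonneg (cl_nonneg _) (Real.exp_pos _).le

lemma cut_le (j : ℕ) (x : EuclideanSpace ℝ (Fin n)) : cut j x ≤ Real.exp (-‖x‖ ^ 2) := by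
  have h1 := cl_le_one ((j : ℝ) + 1 - ‖x‖)
  have h2 := Real.exp_pos (-‖x‖ ^ 2)
  unfold cut
  nlinarith

lemma cut_ge (j : ℕ) (x : EuclideanSpace ℝ (Fin n)) :
    Real.exp (-‖x‖ ^ 2) - Real.exp (-(j : ℝ) ^ 2 / 2) * Real.exp (-‖x‖ ^ 2 / 2) ≤ cut j x := by
  by_cases hx : ‖x‖ ≤ j
  · unfold cut
    rw [cl_one (by linarith), one_mul]
    have := mul_pos (Real.exp_pos (-(j : ℝ) ^ 2 / 2)) (Real.exp_pos (-‖x‖ ^ 2 / 2))
    linarith
  · push Not at hx
    refine le_trans ?_ (cut_nonneg j x)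
    rw [sub_nonpos, ← Real.exp_add]
    apply Real.exp_le_exp.2
    have h0 : (0 : ℝ) ≤ j := Nat.cast_nonneg j
    nlinarith

/-- (iii) the Gaussian mass passes to the limit. -/
theorem mass [U.NeBot] [IsFiniteMeasureOnCompacts μ] (hw : ∀ i, HW (w i)) {A : ℝ}
    (loc : ∀ f : EuclideanSpace ℝ (Fin n) → ℝ, Continuous f → HasCompactSupport f →
      Tendsto (fun i => ∫ x, f x * w i x) U (𝓝 (∫ x, f x ∂μ)))
    (hA : Tendsto (fun i => ∫ x, Real.exp (-‖x‖ ^ 2) * w i x) U (𝓝 A)) :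
    ∫⁻ x, ENNReal.ofReal (Real.exp (-‖x‖ ^ 2)) ∂μ = ENNReal.ofReal A := by
  apply le_antisymm
  · refine mass_le_of_tests fun f hf hc hf0 hf1 => ?_
    refine le_of_tendsto_of_tendsto' (loc f hf hc) hA fun i => ?_
    refine integral_mono ((hw i).integrable_mul hf hc) (hw i).int fun x => ?_
    exact mul_le_mul_of_nonneg_right (hf1 x) ((hw i).nonneg x)
  · set c : ℝ := (Real.sqrt 2) ^ n * (Real.sqrt 2)⁻¹ with hc
    have h1 : ∀ j : ℕ, (1 - Real.exp (-(j : ℝ) ^ 2 / 2) * c) * A ≤ ∫ x, cut j x ∂μ := by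
      intro j
      refine le_of_tendsto_of_tendsto' (hA.const_mul (1 - Real.exp (-(j : ℝ) ^ 2 / 2) * c))
        (loc _ (continuous_cut j) (hasCompactSupport_cut j)) fun i => ?_
      obtain ⟨t1, t2⟩ := (hw i).tail
      have e : (1 - Real.exp (-(j : ℝ) ^ 2 / 2) * c) * ∫ x, Real.exp (-‖x‖ ^ 2) * w i x =
          ∫ x, (Real.exp (-‖x‖ ^ 2) * w i x -
            Real.exp (-(j : ℝ) ^ 2 / 2) * (Real.exp (-‖x‖ ^ 2 / 2) * w i x)) := by
        rw [integral_sub (hw i).int (t1.const_mul _), integral_const_mul, t2]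
        ring
      rw [e]
      refine integral_mono ((hw i).int.sub (t1.const_mul _))
        ((hw i).integrable_mul (continuous_cut j) (hasCompactSupport_cut j)) fun x => ?_
      have h3 := mul_le_mul_of_nonneg_right (cut_ge j x) ((hw i).nonneg x)
      have h4 : (Real.exp (-‖x‖ ^ 2) - Real.exp (-(j : ℝ) ^ 2 / 2) * Real.exp (-‖x‖ ^ 2 / 2)) *
          w i x = Real.exp (-‖x‖ ^ 2) * w i x -
            Real.exp (-(j : ℝ) ^ 2 / 2) * (Real.exp (-‖x‖ ^ 2 / 2) * w i x) := by ring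
      rw [h4] at h3
      exact h3
    have h2 : ∀ j : ℕ, ENNReal.ofReal ((1 - Real.exp (-(j : ℝ) ^ 2 / 2) * c) * A) ≤
        ∫⁻ x, ENNReal.ofReal (Real.exp (-‖x‖ ^ 2)) ∂μ := by
      intro j
      refine (ENNReal.ofReal_le_ofReal (h1 j)).trans ?_
      rw [ofReal_integral_eq_lintegral_ofReal
        ((continuous_cut j).integrable_of_hasCompactSupport (hasCompactSupport_cut j))
        (Eventually.of_forall (cut_nonneg j))]
      exact lintegral_mono fun x => ENNReal.ofReal_le_ofReal (cut_le j x)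
    have h3 : Tendsto (fun j : ℕ => Real.exp (-(j : ℝ) ^ 2 / 2)) atTop (𝓝 0) := by
      apply Real.tendsto_exp_atBot.comp
      have h4 : Tendsto (fun j : ℕ => (j : ℝ) ^ 2 / 2) atTop atTop :=
        ((tendsto_pow_atTop two_ne_zero).comp tendsto_natCast_atTop_atTop).atTop_div_const two_pos
      refine (tendsto_neg_atTop_atBot.comp h4).congr fun j => ?_
      simp only [Function.comp_apply]
      ring
    have h4 : Tendsto (fun j : ℕ => (1 - Real.exp (-(j : ℝ) ^ 2 / 2) * c) * A) atTop (𝓝 A) := by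
      have := ((tendsto_const_nhds (x := (1 : ℝ))).sub (h3.mul_const c)).mul_const A
      simpa using this
    exact le_of_tendsto' ((ENNReal.continuous_ofReal.tendsto A).comp h4) h2

/-- (iv) concentration on the zero set of `φ`. -/
theorem conc [U.NeBot] [IsFiniteMeasureOnCompacts μ] (hw : ∀ i, HW (w i))
    (loc : ∀ f : EuclideanSpace ℝ (Fin n) → ℝ, Continuous f → HasCompactSupport f →
      Tendsto (fun i => ∫ x, f x * w i x) U (𝓝 (∫ x, f x ∂μ)))
    {φ : EuclideanSpace ℝ (Fin n) → ℝ} (hφ : Continuous φ) (h0 : φ 0 = 0)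
    (h : ∀ δ : ℝ, 0 < δ → ∀ η : ℝ, 0 < η → ∀ᶠ i in U, ∀ x, x ≠ 0 → δ * ‖x‖ ≤ |φ x| →
      w i x ≤ η * ‖x‖⁻¹) : μ {x | φ x ≠ 0} = 0 := by
  have hopen : IsOpen {x | φ x ≠ 0} := isOpen_ne_fun hφ continuous_const
  rw [hopen.measure_eq_iSup_isCompact μ]
  simp only [ENNReal.iSup_eq_zero]
  intro K' hK'W hK'
  obtain ⟨K, hK, hK'K, hKW⟩ := exists_compact_between hK' hopen hK'W
  obtain ⟨f, hf1, hf0, hfc, hf01⟩ := exists_continuous_one_zero_of_isCompact hK'
    (isOpen_interior (s := K)).isClosed_compl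
    (Set.disjoint_compl_right_iff_subset.2 hK'K)
  have hK0 : (0 : EuclideanSpace ℝ (Fin n)) ∉ K := fun hh => hKW hh h0
  have hfK : ∀ x, x ∉ K → f x = 0 := fun x hx => hf0 (fun hh => hx (interior_subset hh))
  -- lower bounds on `K`
  obtain ⟨δ, hδ, hδK⟩ : ∃ δ : ℝ, 0 < δ ∧ ∀ x ∈ K, δ * ‖x‖ ≤ |φ x| := by
    rcases K.eq_empty_or_nonempty with hE | hne
    · exact ⟨1, one_pos, by simp [hE]⟩
    · have hc : ContinuousOn (fun x : EuclideanSpace ℝ (Fin n) => ‖x‖⁻¹ * |φ x|) K := by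
        intro x hx
        have hx0 : x ≠ 0 := fun h => hK0 (h ▸ hx)
        exact ((continuous_norm.continuousAt.inv₀ (norm_ne_zero_iff.2 hx0)).mul
          hφ.continuousAt.abs).continuousWithinAt
      obtain ⟨y, hy, hmin⟩ := hK.exists_isMinOn hne hc
      have hy0 : y ≠ 0 := fun h => hK0 (h ▸ hy)
      have hp : 0 < ‖y‖⁻¹ * |φ y| := mul_pos (inv_pos.2 (norm_pos_iff.2 hy0)) (abs_pos.2 (hKW hy))
      refine ⟨‖y‖⁻¹ * |φ y|, hp, fun x hx => ?_⟩
      have hx0 : x ≠ 0 := fun h => hK0 (h ▸ hx)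
      have hxp : 0 < ‖x‖ := norm_pos_iff.2 hx0
      have h1 : ‖y‖⁻¹ * |φ y| ≤ ‖x‖⁻¹ * |φ x| := hmin hx
      calc ‖y‖⁻¹ * |φ y| * ‖x‖ ≤ ‖x‖⁻¹ * |φ x| * ‖x‖ := mul_le_mul_of_nonneg_right h1 hxp.le
        _ = |φ x| := by field_simp
  have hgi : Integrable fun x : EuclideanSpace ℝ (Fin n) => f x * ‖x‖⁻¹ := by
    have hcont : Continuous fun x : EuclideanSpace ℝ (Fin n) => f x * ‖x‖⁻¹ := by
      rw [continuous_iff_continuousAt]
      intro x
      by_cases hx : x = 0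
      · have h1 : (fun x : EuclideanSpace ℝ (Fin n) => f x * ‖x‖⁻¹) =ᶠ[𝓝 x] fun _ => 0 := by
          have h2 : Kᶜ ∈ 𝓝 x := hK.isClosed.isOpen_compl.mem_nhds (by rw [hx]; exact hK0)
          filter_upwards [h2] with y hy
          rw [hfK y hy, zero_mul]
        exact continuousAt_const.congr h1.symm
      · exact f.continuous.continuousAt.mul
          (continuous_norm.continuousAt.inv₀ (norm_ne_zero_iff.2 hx))
    exact hcont.integrable_of_hasCompactSupport hfc.mul_right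
  have hI0 : ∫ x, f x ∂μ ≤ 0 := by
    refine le_of_forall_pos_le_add fun e he => ?_
    rw [zero_add]
    set B := ∫ x : EuclideanSpace ℝ (Fin n), f x * ‖x‖⁻¹ with hB
    have hB0 : 0 ≤ B := integral_nonneg fun x =>
      mul_nonneg (hf01 x).1 (inv_nonneg.2 (norm_nonneg x))
    have hη : 0 < e / (B + 1) := by positivity
    refine le_of_tendsto (loc f f.continuous hfc) ?_
    filter_upwards [h δ hδ _ hη] with i hi
    calc ∫ x, f x * w i x ≤ ∫ x, e / (B + 1) * (f x * ‖x‖⁻¹) := by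
          refine integral_mono ((hw i).integrable_mul f.continuous hfc) (hgi.const_mul _)
            fun x => ?_
          by_cases hx : x ∈ K
          · have hx0 : x ≠ 0 := fun h => hK0 (h ▸ hx)
            have h1 := mul_le_mul_of_nonneg_left (hi x hx0 (hδK x hx)) (hf01 x).1
            calc f x * w i x ≤ f x * (e / (B + 1) * ‖x‖⁻¹) := h1
              _ = e / (B + 1) * (f x * ‖x‖⁻¹) := by ring
          · show f x * w i x ≤ e / (B + 1) * (f x * ‖x‖⁻¹)
            rw [hfK x hx]; simp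
      _ = e / (B + 1) * B := integral_const_mul _ _
      _ ≤ e := by
          rw [div_mul_eq_mul_div, div_le_iff₀ (by positivity)]
          nlinarith
  have hI1 : ∫ x, f x ∂μ = 0 := le_antisymm hI0 (integral_nonneg fun x => (hf01 x).1)
  have h2 := ofReal_integral_eq_lintegral_ofReal
    (f.continuous.integrable_of_hasCompactSupport (μ := μ) hfc)
    (Eventually.of_forall fun x => (hf01 x).1)
  rw [hI1, ENNReal.ofReal_zero] at h2
  have h3 : μ K' ≤ ∫⁻ x, ENNReal.ofReal (f x) ∂μ := by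
    rw [← lintegral_indicator_one hK'.measurableSet]
    refine lintegral_mono fun x => ?_
    by_cases hx : x ∈ K'
    · rw [indicator_of_mem hx, Pi.one_apply, hf1 hx]; simp
    · rw [indicator_of_notMem hx]; exact zero_le
  rw [← h2] at h3
  exact le_antisymm h3 zero_le

end filt

end Crest.Agent.R246.HL782
end
end

-- ▼ part R246/E2d_858
section

/-!
Row 246, block E2 (helper858): families of Allen–Cahn solutions (flat weighted form): the gradients
converge strongly and the limit satisfies `|∇ρ|² = h`.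
-/

set_option autoImplicit false
set_option linter.unusedSectionVars false

namespace Crest.Agent.R246.E2x858

open MeasureTheory Filter Topology Metric Set
open scoped NNReal ENNReal Gradient RealInnerProductSpace
open Crest.GeometryTopology.CoordMetric Crest.GeometryTopology.AffineMaximal
open Crest.Agent.R246.Flat105 Crest.Agent.R246.Lim538 Crest.Agent.R246.D2x782

variable {n : ℕ}

local notation "EE" => EuclideanSpace ℝ (Fin n)

/-! ### coordinates -/

theorem inner_grad_basis (f : EE → ℝ) (x : EE) (i : Fin n) :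
    ⟪∇ f x, EuclideanSpace.basisFun (Fin n) ℝ i⟫ = pderiv i f x := by
  rw [inner_grad, EuclideanSpace.basisFun_apply]; rfl

theorem dot_eq (f g : EE → ℝ) (x : EE) : dot f g x = ⟪∇ f x, ∇ g x⟫ := by
  rw [← (EuclideanSpace.basisFun (Fin n) ℝ).sum_inner_mul_inner]
  unfold dot
  refine Finset.sum_congr rfl fun i _ => ?_
  rw [inner_grad_basis, real_inner_comm, inner_grad_basis]

theorem gsq_eq (f : EE → ℝ) (x : EE) : gsq f x = ‖∇ f x‖ ^ 2 := by
  rw [gsq_eq_dot, dot_eq, real_inner_self_eq_norm_sq]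

/-- integration by parts of a smooth function against a Lipschitz function with compact support -/
theorem ibp_lip {U : Set EE} (hU : IsOpen U) {r ψ : EE → ℝ} (hr : ContDiffOn ℝ 2 r U)
    (hψ : ∃ L : ℝ≥0, LipschitzWith L ψ) (hc : HasCompactSupport ψ) (hs : tsupport ψ ⊆ U) :
    ∫ x, ⟪∇ r x, ∇ ψ x⟫ = -∫ x, lapl r x * ψ x := by
  obtain ⟨L, hL⟩ := hψ
  obtain ⟨χ, V, hV, hKV, hVU, hχ1, hχc, hχs, hχr, hχV⟩ := exists_smooth_cut hc hU hs
  have hp : ∀ j, ContDiffOn ℝ 1 (fun x => pderiv j r x) U := fun j => by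
    unfold pderiv
    exact (hr.fderiv_of_isOpen hU (by norm_num)).clm_apply contDiffOn_const
  set G : Fin n → EE → ℝ := fun j x => χ x * pderiv j r x with hG
  have hGc : ∀ j, HasCompactSupport (G j) := fun j => hχc.mul_right
  have hG1 : ∀ j, ContDiff ℝ 1 (G j) := by
    intro j
    rw [contDiff_iff_contDiffAt]
    intro x
    by_cases hx : x ∈ tsupport χ
    · exact hχ1.contDiffAt.mul ((hp j).contDiffAt (hU.mem_nhds (hχs hx)))
    · have h0 : G j =ᶠ[𝓝 x] fun _ => 0 := by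
        filter_upwards [notMem_tsupport_iff_eventuallyEq.1 hx] with y hy
        simp only [hG, hy, Pi.zero_apply, zero_mul]
      exact contDiffAt_const.congr_of_eventuallyEq h0
  have hGL : ∀ j, ∃ D : ℝ≥0, LipschitzWith D (G j) := fun j =>
    (hG1 j).lipschitzWith_of_hasCompactSupport (hGc j) (by simp)
  have key : ∀ j, ∫ x, ⟪∇ (G j) x, EuclideanSpace.basisFun (Fin n) ℝ j⟫ * ψ x =
      -∫ x, ⟪∇ ψ x, EuclideanSpace.basisFun (Fin n) ℝ j⟫ * G j x := by
    intro j
    obtain ⟨D, hD⟩ := hGL j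
    exact Flat105.ibp hD hL hc _
  have e1 : ∀ x, ⟪∇ r x, ∇ ψ x⟫ =
      ∑ j, ⟪∇ ψ x, EuclideanSpace.basisFun (Fin n) ℝ j⟫ * G j x := by
    intro x
    by_cases hx : x ∈ tsupport ψ
    · rw [← dot_eq]
      unfold dot
      refine Finset.sum_congr rfl fun j _ => ?_
      rw [inner_grad_basis]
      simp only [hG, hχV x (hKV hx), one_mul]
      rw [mul_comm]
    · rw [grad_zero_of_notMem hx, inner_zero_right]
      simp
  have e2 : ∀ x, lapl r x * ψ x =
      ∑ j, ⟪∇ (G j) x, EuclideanSpace.basisFun (Fin n) ℝ j⟫ * ψ x := by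
    intro x
    by_cases hx : x ∈ tsupport ψ
    · rw [lapl, Finset.sum_mul]
      refine Finset.sum_congr rfl fun j _ => ?_
      rw [hessianMat, grad_congr_open hV (r' := fun x => pderiv j r x)
        (fun y hy => by simp only [hG, hχV y hy, one_mul]) (hKV hx), inner_grad_basis]
    · rw [image_eq_zero_of_notMem_tsupport hx, mul_zero]
      simp
  have i1 : ∀ j, Integrable fun x => ⟪∇ ψ x, EuclideanSpace.basisFun (Fin n) ℝ j⟫ * G j x := by
    intro j
    exact integrable_mul_grad hL hc (hG1 j).continuous _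
  have i2 : ∀ j, Integrable fun x =>
      ⟪∇ (G j) x, EuclideanSpace.basisFun (Fin n) ℝ j⟫ * ψ x := by
    intro j
    obtain ⟨D, hD⟩ := hGL j
    exact integrable_mul_grad hD (hGc j) hL.continuous _
  calc ∫ x, ⟪∇ r x, ∇ ψ x⟫
      = ∫ x, ∑ j, ⟪∇ ψ x, EuclideanSpace.basisFun (Fin n) ℝ j⟫ * G j x :=
        integral_congr_ae (Eventually.of_forall e1)
    _ = ∑ j, ∫ x, ⟪∇ ψ x, EuclideanSpace.basisFun (Fin n) ℝ j⟫ * G j x :=
        integral_finsetSum _ fun j _ => i1 j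
    _ = -∑ j, ∫ x, ⟪∇ (G j) x, EuclideanSpace.basisFun (Fin n) ℝ j⟫ * ψ x := by
        rw [← Finset.sum_neg_distrib]
        refine Finset.sum_congr rfl fun j _ => ?_
        rw [key j, neg_neg]
    _ = -∫ x, ∑ j, ⟪∇ (G j) x, EuclideanSpace.basisFun (Fin n) ℝ j⟫ * ψ x := by
        rw [integral_finsetSum _ fun j _ => i2 j]
    _ = -∫ x, lapl r x * ψ x := by
        congr 1
        exact (integral_congr_ae (Eventually.of_forall e2)).symm

variable {U W : Set (EuclideanSpace ℝ (Fin n))} {h r : EuclideanSpace ℝ (Fin n) → ℝ} {ε : ℝ}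
  {ζ : EuclideanSpace ℝ (Fin n) → ℝ}

/-- the mass bound from a cut-off which is `≥ 1` on `V` -/
theorem massBd_of (H : ACSol W h r ε) (hζ : Cut W ζ) (h0 : ∀ x, 0 ≤ ζ x)
    {V : Set (EuclideanSpace ℝ (Fin n))}
    (hV : ∀ x ∈ V, 1 ≤ ζ x) :
    MassBd V r (7 * (∫ x, qq h r ε x * ζ x) + 2 * ∫ x, |dot r ζ x|) := by
  intro ψ hL hc hs s hψ
  have hVW : V ⊆ W := fun x hx => by
    by_contra h'
    have := hV x hx
    rw [hζ.zero_out h'] at this
    linarith
  rw [ibp_lip H.isOpen (contDiffOn_infty.1 H.smooth_r 2) hL hc (hs.trans hVW), abs_neg]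
  have hs0 : 0 ≤ s := (abs_nonneg _).trans (hψ 0)
  have hm := H.mass hζ h0
  calc |∫ x, lapl r x * ψ x| ≤ ∫ x, s * (|lapl r x| * ζ x) := by
        rw [← Real.norm_eq_abs]
        refine norm_integral_le_of_norm_le ((H.int_abs_lapl hζ).const_mul _)
          (Eventually.of_forall fun x => ?_)
        rw [Real.norm_eq_abs, abs_mul]
        by_cases hx : x ∈ tsupport ψ
        · have h1 := hV x (hs hx)
          calc |lapl r x| * |ψ x| ≤ |lapl r x| * (s * ζ x) := by
                gcongr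
                exact (hψ x).trans (le_mul_of_one_le_right hs0 h1)
            _ = _ := by ring
        · rw [image_eq_zero_of_notMem_tsupport hx, abs_zero, mul_zero]
          have := h0 x
          positivity
    _ = s * ∫ x, |lapl r x| * ζ x := integral_const_mul _ _
    _ ≤ s * (7 * (∫ x, qq h r ε x * ζ x) + 2 * ∫ x, |dot r ζ x|) := by gcongr
    _ = _ := mul_comm _ _

/-! ### families -/

section fam

variable {ι : Type*}

/-- a family of Allen–Cahn solutions along a filter, with locally bounded energies -/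
structure ACSeq (F : Filter ι) (U : Set (EuclideanSpace ℝ (Fin n)))
    (W : ι → Set (EuclideanSpace ℝ (Fin n))) (h r : ι → EuclideanSpace ℝ (Fin n) → ℝ) (ε : ι → ℝ)
    (h₀ ρ : EuclideanSpace ℝ (Fin n) → ℝ) : Prop where
  isOpen : IsOpen U
  sol : ∀ᶠ i in F, ACSol (W i) (h i) (r i) (ε i)
  dom : ∀ K ⊆ U, IsCompact K → ∀ᶠ i in F, K ⊆ W i
  eps : Tendsto ε F (𝓝 0)
  hconv : ∀ K ⊆ U, IsCompact K → TendstoUniformlyOn h h₀ F K
  rconv : ∀ K ⊆ U, IsCompact K → TendstoUniformlyOn r ρ F K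
  energy : ∀ K ⊆ U, IsCompact K → ∃ C, ∀ᶠ i in F, ∫ x in K, qq (h i) (r i) (ε i) x ≤ C

variable {F : Filter ι} {U : Set (EuclideanSpace ℝ (Fin n))}
  {W : ι → Set (EuclideanSpace ℝ (Fin n))} {h r : ι → EuclideanSpace ℝ (Fin n) → ℝ} {ε : ι → ℝ}
  {h₀ ρ : EuclideanSpace ℝ (Fin n) → ℝ}

theorem ACSeq.mono {G : Filter ι} (H : ACSeq F U W h r ε h₀ ρ) (hG : G ≤ F) :
    ACSeq G U W h r ε h₀ ρ where
  isOpen := H.isOpen
  sol := H.sol.filter_mono hG
  dom K h1 h2 := (H.dom K h1 h2).filter_mono hG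
  eps := H.eps.mono_left hG
  hconv K h1 h2 u hu := (H.hconv K h1 h2 u hu).filter_mono hG
  rconv K h1 h2 u hu := (H.rconv K h1 h2 u hu).filter_mono hG
  energy K h1 h2 := by
    obtain ⟨C, hC⟩ := H.energy K h1 h2
    exact ⟨C, hC.filter_mono hG⟩

theorem ACSeq.cont_h [F.NeBot] (H : ACSeq F U W h r ε h₀ ρ) {K : Set EE} (hK : IsCompact K)
    (hKU : K ⊆ U) : ContinuousOn h₀ K := by
  refine (H.hconv K hKU hK).continuousOn (Eventually.frequently ?_)
  filter_upwards [H.sol, H.dom K hKU hK] with i h1 h2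
  exact h1.cont_h.mono h2

/-- uniform bounds on compact sets -/
theorem ACSeq.exists_bd [F.NeBot] (H : ACSeq F U W h r ε h₀ ρ) {K : Set EE} (hK : IsCompact K)
    (hKU : K ⊆ U) : ∃ M : ℝ, 1 ≤ M ∧ (∀ x ∈ K, |h₀ x| ≤ M) ∧
      ∀ᶠ i in F, ∀ x ∈ K, |h i x| ≤ M ∧ ‖∇ (r i) x‖ ≤ M := by
  obtain ⟨B, hB⟩ := (IsCompact.image_of_continuousOn hK (H.cont_h hK hKU).norm).bddAbove
  have hB' : ∀ x ∈ K, |h₀ x| ≤ |B| := fun x hx =>
    (hB (mem_image_of_mem _ hx)).trans (le_abs_self B)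
  refine ⟨|B| + 1, by linarith [abs_nonneg B], fun x hx => (hB' x hx).trans (by linarith), ?_⟩
  filter_upwards [Metric.tendstoUniformlyOn_iff.1 (H.hconv K hKU hK) 1 one_pos, H.sol,
    H.dom K hKU hK] with i hi hs hd x hx
  have h1 := hi x hx
  rw [Real.dist_eq] at h1
  have h2 := hB' x hx
  have h3 : |h i x| ≤ |h₀ x| + |h₀ x - h i x| := by
    have := abs_sub_abs_le_abs_sub (h i x) (h₀ x)
    rw [abs_sub_comm] at this
    linarith
  have h4 : |h i x| ≤ |B| + 1 := by linarith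
  refine ⟨h4, ?_⟩
  have h5 := hs.modica x (hd hx)
  rw [gsq_eq] at h5
  have h6 : ‖∇ (r i) x‖ ^ 2 ≤ |B| + 1 := h5.trans ((le_abs_self _).trans h4)
  have h7 : (0:ℝ) ≤ |B| := abs_nonneg B
  nlinarith [norm_nonneg (∇ (r i) x)]

theorem ACSeq.cut (H : ACSeq F U W h r ε h₀ ρ) {ζ : EE → ℝ} (hζ : Cut U ζ) :
    ∀ᶠ i in F, Cut (W i) ζ := by
  filter_upwards [H.dom _ hζ.sub hζ.cs] with i hi
  exact ⟨hζ.cd, hζ.cs, hi⟩

theorem exists_cut_one {K U : Set EE} (hK : IsCompact K) (hU : IsOpen U) (hKU : K ⊆ U) :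
    ∃ ζ : EE → ℝ, Cut U ζ ∧ (∀ x, 0 ≤ ζ x) ∧ (∀ x, ζ x ≤ 1) ∧ ∀ x ∈ K, ζ x = 1 := by
  obtain ⟨χ, V, hV, hKV, hVU, hχ1, hχc, hχs, hχr, hχV⟩ := exists_smooth_cut hK hU hKU
  exact ⟨χ, ⟨hχ1, hχc, hχs⟩, fun x => (hχr x).1, fun x => (hχr x).2, fun x hx => hχV x (hKV hx)⟩

theorem exists_lip {ζ : EE → ℝ} (hζ : Cut U ζ) : ∃ L : ℝ≥0, LipschitzWith L ζ :=
  hζ.cd.lipschitzWith_of_hasCompactSupport hζ.cs (by simp)

/-- energies and gradient terms with a cut-off are bounded -/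
theorem ACSeq.exists_energy [F.NeBot] (H : ACSeq F U W h r ε h₀ ρ) {ζ : EE → ℝ} (hζ : Cut U ζ)
    (_h0 : ∀ x, 0 ≤ ζ x) : ∃ C : ℝ, 0 ≤ C ∧ ∀ᶠ i in F,
      ∫ x, qq (h i) (r i) (ε i) x * ζ x ≤ C ∧ ∫ x, |dot (r i) ζ x| ≤ C := by
  obtain ⟨C₁, hC₁⟩ := H.energy _ hζ.sub hζ.cs
  obtain ⟨M, hM1, -, hM⟩ := H.exists_bd hζ.cs hζ.sub
  obtain ⟨L, hL⟩ := exists_lip hζ
  obtain ⟨B, hB⟩ := hζ.cd.continuous.bounded_above_of_compact_support hζ.cs
  have hB0 : 0 ≤ B := (norm_nonneg _).trans (hB 0)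
  set v : ℝ := (volume (tsupport ζ)).toReal with hv
  have hv0 : 0 ≤ v := ENNReal.toReal_nonneg
  refine ⟨B * |C₁| + M * L * v, by positivity, ?_⟩
  filter_upwards [H.sol, H.dom _ hζ.sub hζ.cs, hC₁, hM, H.cut hζ] with i hs hd h1 h2 hc
  have a1 : ∫ x, qq (h i) (r i) (ε i) x * ζ x ≤ B * |C₁| := by
    have e : ∫ x, qq (h i) (r i) (ε i) x * ζ x =
        ∫ x in tsupport ζ, qq (h i) (r i) (ε i) x * ζ x :=
      (setIntegral_eq_integral_of_forall_compl_eq_zero fun x hx => by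
        rw [image_eq_zero_of_notMem_tsupport hx, mul_zero]).symm
    have hq : IntegrableOn (qq (h i) (r i) (ε i)) (tsupport ζ) :=
      (hs.cont_qq.mono hd).integrableOn_compact hζ.cs
    rw [e]
    calc ∫ x in tsupport ζ, qq (h i) (r i) (ε i) x * ζ x
        ≤ ∫ x in tsupport ζ, B * qq (h i) (r i) (ε i) x := by
          refine setIntegral_mono_on (hs.int_qq hc).integrableOn (hq.const_mul _)
            (isClosed_tsupport ζ).measurableSet fun x hx => ?_
          rw [mul_comm B]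
          have := hs.qq_nonneg (hd hx)
          gcongr
          exact (le_abs_self _).trans (hB x)
      _ = B * ∫ x in tsupport ζ, qq (h i) (r i) (ε i) x := integral_const_mul _ _
      _ ≤ B * |C₁| := by
          gcongr
          exact h1.trans (le_abs_self _)
  have a2 : ∫ x, |dot (r i) ζ x| ≤ M * L * v := by
    have e : ∫ x, |dot (r i) ζ x| = ∫ x in tsupport ζ, |dot (r i) ζ x| :=
      (setIntegral_eq_integral_of_forall_compl_eq_zero fun x hx => by
        rw [dot_eq, grad_zero_of_notMem hx, inner_zero_right, abs_zero]).symm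
    rw [e]
    calc ∫ x in tsupport ζ, |dot (r i) ζ x| ≤ ∫ x in tsupport ζ, (M * L : ℝ) := by
          refine setIntegral_mono_on ((hs.integrable_dot hc).abs).integrableOn ?_
            (isClosed_tsupport ζ).measurableSet fun x hx => ?_
          · exact integrableOn_const hζ.cs.measure_lt_top.ne
          · rw [dot_eq]
            refine (abs_real_inner_le_norm _ _).trans ?_
            have := (h2 x hx).2
            gcongr
            exact norm_grad_le hL x
      _ = M * L * v := by simp [mul_comm, Measure.real, hv]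
  have b1 : 0 ≤ B * |C₁| := by positivity
  have b2 : 0 ≤ M * L * v := by positivity
  exact ⟨by linarith, by linarith⟩

/-- the family is a `LocSeq`: all results of `E2c_858` apply -/
theorem ACSeq.locSeq [F.NeBot] (H : ACSeq F U W h r ε h₀ ρ) : LocSeq F U r ρ := by
  refine ⟨H.isOpen, fun K hKU hK => ?_, H.rconv⟩
  obtain ⟨ζ, hζ, h0, h1, hζK⟩ := exists_cut_one hK H.isOpen hKU
  obtain ⟨C, hC0, hC⟩ := H.exists_energy hζ h0
  obtain ⟨M, hM1, -, hM⟩ := H.exists_bd hK hKU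
  refine ⟨M, 9 * C, ?_⟩
  filter_upwards [H.sol, H.dom K hKU hK, hC, hM, H.cut hζ] with i hs hd h2 h3 hc
  refine ⟨fun x hx => ⟨?_, (h3 x hx).2⟩, ?_⟩
  · exact (hs.smooth_r.contDiffAt (hs.isOpen.mem_nhds (hd hx))).differentiableAt (by simp)
  · have := massBd_of hs hc h0 (V := interior K) fun x hx => (hζK x (interior_subset hx)).ge
    intro ψ p1 p2 p3 s p4
    have hs0 : 0 ≤ s := (abs_nonneg _).trans (p4 0)
    refine (this ψ p1 p2 p3 s p4).trans ?_
    gcongr
    linarith [h2.1, h2.2]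

end fam

end Crest.Agent.R246.E2x858
end

-- ▼ part R246/E2e_858
section

/-!
Row 246, block E2 (helper858): the limit of a family of Allen–Cahn solutions satisfies the eikonal
equation `|∇ρ|² = h` almost everywhere, the zero set is a null set, and the truncated gradients
converge.
-/

set_option autoImplicit false
set_option linter.unusedSectionVars false

namespace Crest.Agent.R246.E2x858

open MeasureTheory Filter Topology Metric Set
open scoped NNReal ENNReal Gradient RealInnerProductSpace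
open Crest.GeometryTopology.CoordMetric Crest.GeometryTopology.AffineMaximal
open Crest.Agent.R246.Flat105 Crest.Agent.R246.Lim538 Crest.Agent.R246.D2x782

variable {n : ℕ} {ι : Type*} {F : Filter ι} {U : Set (EuclideanSpace ℝ (Fin n))}
  {W : ι → Set (EuclideanSpace ℝ (Fin n))} {h r : ι → EuclideanSpace ℝ (Fin n) → ℝ} {ε : ι → ℝ}
  {h₀ ρ : EuclideanSpace ℝ (Fin n) → ℝ}

local notation "EE" => EuclideanSpace ℝ (Fin n)

/-- `∫_K (h_i - |∇r_i|²) → 0` -/
theorem ACSeq.tendsto_bulk [F.NeBot] (H : ACSeq F U W h r ε h₀ ρ) {K : Set EE} (hK : IsCompact K)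
    (hKU : K ⊆ U) : Tendsto (fun i => ∫ x in K, (h i x - ‖∇ (r i) x‖ ^ 2)) F (𝓝 0) := by
  obtain ⟨ζ, hζ, h0, h1, hζK⟩ := exists_cut_one hK H.isOpen hKU
  obtain ⟨C, hC0, hC⟩ := H.exists_energy hζ h0
  have hlim : Tendsto (fun i => ε i * ACSol.CB * (10 * C)) F (𝓝 0) := by
    have := (H.eps.mul_const ACSol.CB).mul_const (10 * C)
    simpa using this
  refine tendsto_of_tendsto_of_tendsto_of_le_of_le' tendsto_const_nhds hlim ?_ ?_
  · filter_upwards [H.sol, H.dom K hKU hK] with i hs hd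
    refine setIntegral_nonneg hK.measurableSet fun x hx => ?_
    rw [← gsq_eq]
    linarith [hs.modica x (hd hx)]
  · filter_upwards [H.sol, H.dom K hKU hK, hC, H.cut hζ] with i hs hd h2 hc
    have hb := hs.bulk hc h0
    have hε := hs.eps_pos
    have hCB := ACSol.CB_pos
    have hint : Integrable fun x => (h i x - gsq (r i) x) * ζ x :=
      integrable_mul_of_tsupport hs.isOpen (hs.cont_h.sub hs.cont_gsq) hζ.cd.continuous hc.cs hc.sub
    calc ∫ x in K, (h i x - ‖∇ (r i) x‖ ^ 2)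
        = ∫ x in K, (h i x - gsq (r i) x) * ζ x := by
          refine setIntegral_congr_fun hK.measurableSet fun x hx => ?_
          simp only [hζK x hx, mul_one, gsq_eq]
      _ ≤ ∫ x, (h i x - gsq (r i) x) * ζ x := by
          refine setIntegral_le_integral hint (Eventually.of_forall fun x => ?_)
          by_cases hx : x ∈ W i
          · exact mul_nonneg (by linarith [hs.modica x hx]) (h0 x)
          · show 0 ≤ (h i x - gsq (r i) x) * ζ x
            rw [hc.zero_out hx, mul_zero]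
      _ ≤ ε i * ACSol.CB * (8 * C + 2 * C) := by
          refine hb.trans (mul_le_mul_of_nonneg_left ?_ (by positivity))
          linarith [h2.1, h2.2]
      _ = ε i * ACSol.CB * (10 * C) := by ring

/-- **the eikonal equation** -/
theorem ACSeq.eikonal [F.NeBot] (H : ACSeq F U W h r ε h₀ ρ) :
    ∀ᵐ x, x ∈ U → ‖∇ ρ x‖ ^ 2 = h₀ x := by
  obtain ⟨K, hK, hKU, -, hUK⟩ := exists_exh H.isOpen
  have key : ∀ n, ∀ᵐ x, x ∈ K n → ‖∇ ρ x‖ ^ 2 = h₀ x := by
    intro m
    have hK' := hK m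
    have hKU' := hKU m
    obtain ⟨M, hM1, hMh, hM⟩ := H.exists_bd hK' hKU'
    obtain ⟨M₂, hM₂, hM₂', hMρ⟩ := H.locSeq.exists_bd hK' hKU'
    have hch := H.cont_h hK' hKU'
    have hih : IntegrableOn h₀ (K m) := hch.integrableOn_compact hK'
    have hisq : ∀ q : EE → ℝ, (∀ x ∈ K m, ‖∇ q x‖ ≤ M₂) →
        IntegrableOn (fun x => ‖∇ q x‖ ^ 2) (K m) := by
      intro q hq
      refine integrableOn_of_bd (B := M₂ ^ 2) hK' ((meas_grad q).norm.pow_const 2) fun x hx => ?_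
      rw [abs_of_nonneg (by positivity)]
      exact pow_le_pow_left₀ (norm_nonneg _) (hq x hx) 2
    -- ∫ |h₀ - |∇ r_i|²| → ∫ |h₀ - |∇ρ|²|
    have t1 : Tendsto (fun i => ∫ x in K m, |h₀ x - ‖∇ (r i) x‖ ^ 2|) F
        (𝓝 (∫ x in K m, |h₀ x - ‖∇ ρ x‖ ^ 2|)) := by
      refine H.locSeq.tendsto_of_lip hK' hKU' (A := 2 * M₂) ?_ ((hih.sub (hisq ρ hMρ)).abs) ?_
      · filter_upwards [hM₂'] with i hi using (hih.sub (hisq _ hi)).abs
      · filter_upwards [hM₂'] with i hi x hx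
        have a1 : |(|h₀ x - ‖∇ (r i) x‖ ^ 2| - |h₀ x - ‖∇ ρ x‖ ^ 2|)| ≤
            |(h₀ x - ‖∇ (r i) x‖ ^ 2) - (h₀ x - ‖∇ ρ x‖ ^ 2)| := abs_abs_sub_abs_le _ _
        refine a1.trans ?_
        have e : (h₀ x - ‖∇ (r i) x‖ ^ 2) - (h₀ x - ‖∇ ρ x‖ ^ 2) =
            -((‖∇ (r i) x‖ + ‖∇ ρ x‖) * (‖∇ (r i) x‖ - ‖∇ ρ x‖)) := by ring
        rw [e, abs_neg, abs_mul, abs_of_nonneg (by positivity : (0 : ℝ) ≤ ‖∇ (r i) x‖ + ‖∇ ρ x‖)]
        have h3 : |‖∇ (r i) x‖ - ‖∇ ρ x‖| ≤ ‖∇ (r i) x - ∇ ρ x‖ := abs_norm_sub_norm_le _ _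
        have h4 : ‖∇ (r i) x‖ + ‖∇ ρ x‖ ≤ 2 * M₂ := by linarith [hi x hx, hMρ x hx]
        gcongr
    -- it tends to zero
    have t2 : Tendsto (fun i => ∫ x in K m, |h₀ x - h i x|) F (𝓝 0) := by
      rw [Metric.tendsto_nhds]
      intro δ hδ
      set v : ℝ := (volume (K m)).toReal with hv
      have hv0 : 0 ≤ v := ENNReal.toReal_nonneg
      filter_upwards [Metric.tendstoUniformlyOn_iff.1 (H.hconv _ hKU' hK') (δ / (v + 1))
        (by positivity), H.sol, H.dom _ hKU' hK'] with i hi hs hd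
      rw [Real.dist_eq, sub_zero, abs_of_nonneg (integral_nonneg fun x => abs_nonneg _)]
      have hihi : IntegrableOn (h i) (K m) := (hs.cont_h.mono hd).integrableOn_compact hK'
      calc ∫ x in K m, |h₀ x - h i x| ≤ ∫ x in K m, δ / (v + 1) := by
            refine setIntegral_mono_on (hih.sub hihi).abs
              (integrableOn_const hK'.measure_lt_top.ne) hK'.measurableSet fun x hx => ?_
            have := hi x hx
            rw [Real.dist_eq] at this
            exact this.le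
        _ = v * (δ / (v + 1)) := by simp [Measure.real, hv]
        _ < δ := by
            rw [← mul_div_assoc, div_lt_iff₀ (by positivity)]
            nlinarith
    have t3 : Tendsto (fun i => ∫ x in K m, |h₀ x - ‖∇ (r i) x‖ ^ 2|) F (𝓝 0) := by
      have t4 : Tendsto (fun i => (∫ x in K m, |h₀ x - h i x|) +
          ∫ x in K m, (h i x - ‖∇ (r i) x‖ ^ 2)) F (𝓝 0) := by
        simpa using t2.add (H.tendsto_bulk hK' hKU')
      refine tendsto_of_tendsto_of_tendsto_of_le_of_le' tendsto_const_nhds t4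
        (Eventually.of_forall fun i => integral_nonneg fun x => abs_nonneg _) ?_
      filter_upwards [hM₂', H.sol, H.dom _ hKU' hK'] with i hi hs hd
      have hihi : IntegrableOn (h i) (K m) := (hs.cont_h.mono hd).integrableOn_compact hK'
      have i1 : IntegrableOn (fun x => |h₀ x - h i x|) (K m) := (hih.sub hihi).abs
      have i2 : IntegrableOn (fun x => h i x - ‖∇ (r i) x‖ ^ 2) (K m) := hihi.sub (hisq _ hi)
      rw [← integral_add i1 i2]
      refine setIntegral_mono_on ((hih.sub (hisq _ hi)).abs) (i1.add i2) hK'.measurableSet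
        fun x hx => ?_
      have h1 := hs.modica x (hd hx)
      rw [gsq_eq] at h1
      have h2 : |h₀ x - ‖∇ (r i) x‖ ^ 2| ≤ |h₀ x - h i x| + |h i x - ‖∇ (r i) x‖ ^ 2| :=
        abs_sub_le _ _ _
      rw [abs_of_nonneg (sub_nonneg.2 h1)] at h2
      exact h2
    have t5 := tendsto_nhds_unique t1 t3
    rw [← ae_restrict_iff' hK'.measurableSet]
    have t6 := (integral_eq_zero_iff_of_nonneg_ae (Eventually.of_forall fun x => abs_nonneg _)
      ((hih.sub (hisq ρ hMρ)).abs)).1 t5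
    filter_upwards [t6] with x hx
    have h3 : |h₀ x - ‖∇ ρ x‖ ^ 2| = 0 := hx
    have h4 := abs_eq_zero.1 h3
    linarith
  filter_upwards [ae_all_iff.2 key] with x hx hxU
  obtain ⟨m, hm⟩ := mem_iUnion.1 (hUK hxU)
  exact hx m hm

end Crest.Agent.R246.E2x858
end

-- ▼ part R246/E2f_858
section

/-!
Row 246, block E2 (helper858): weak convergence of gradients of locally Lipschitz families and
`∫ T₀(r_i/ε_i) ⟨∇r_i, ∇η⟩ → (2/3) ∫ ⟨∇|ρ|, ∇η⟩` along any filter.
-/

set_option autoImplicit false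
set_option linter.unusedSectionVars false

namespace Crest.Agent.R246.E2x858

open MeasureTheory Filter Topology Metric Set
open scoped NNReal ENNReal Gradient RealInnerProductSpace
open Crest.Agent.R246.Flat105

section gen

variable {E : Type*} [NormedAddCommGroup E] [InnerProductSpace ℝ E] [FiniteDimensional ℝ E]
  [MeasurableSpace E] [BorelSpace E] {ι : Type*} {F : Filter ι} {U : Set E} {w : ι → E → ℝ}
  {ρ : E → ℝ}

/-- a family of functions, differentiable with bounded gradients near compact subsets of `U`,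
converging locally uniformly to `ρ` -/
structure LocLip (F : Filter ι) (U : Set E) (w : ι → E → ℝ) (ρ : E → ℝ) : Prop where
  isOpen : IsOpen U
  bd : ∀ K ⊆ U, IsCompact K → ∃ M : ℝ, ∀ᶠ i in F,
    ∀ x ∈ K, DifferentiableAt ℝ (w i) x ∧ ‖∇ (w i) x‖ ≤ M
  conv : ∀ K ⊆ U, IsCompact K → TendstoUniformlyOn w ρ F K

/-- globalisation -/
theorem LocLip.glob [F.NeBot] (H : LocLip F U w ρ) {K : Set E} (hK : IsCompact K) (hKU : K ⊆ U) :
    ∃ (V : Set E) (w' : ι → E → ℝ) (ρ' : E → ℝ) (M : ℝ≥0), IsOpen V ∧ K ⊆ V ∧ V ⊆ U ∧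
      (∀ i, EqOn (w' i) (w i) V) ∧ EqOn ρ' ρ V ∧ (∀ᶠ i in F, LipschitzWith M (w' i)) ∧
      LipschitzWith M ρ' ∧ TendstoUniformly w' ρ' F := by
  obtain ⟨χ, V, hV, hKV, hVU, hχ1, hχc, hχs, hχr, hχV⟩ := exists_smooth_cut hK H.isOpen hKU
  obtain ⟨M₁, hbd⟩ := H.bd _ hχs hχc
  have hconv := H.conv _ hχs hχc
  obtain ⟨L, hL⟩ : ∃ L : ℝ≥0, LipschitzWith L χ :=
    hχ1.lipschitzWith_of_hasCompactSupport hχc (by simp)
  have hρc : ContinuousOn ρ (tsupport χ) := by
    refine hconv.continuousOn (Eventually.frequently ?_)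
    filter_upwards [hbd] with i hi x hx
    exact (hi x hx).1.continuousAt.continuousWithinAt
  obtain ⟨B, hB⟩ := (IsCompact.image_of_continuousOn hχc hρc.norm).bddAbove
  have hB' : ∀ x ∈ tsupport χ, |ρ x| ≤ |B| := fun x hx =>
    (hB (mem_image_of_mem _ hx)).trans (le_abs_self B)
  have hrB : ∀ᶠ i in F, ∀ x ∈ tsupport χ, |w i x| ≤ |B| + 1 := by
    filter_upwards [Metric.tendstoUniformlyOn_iff.1 hconv 1 one_pos] with i hi x hx
    have h1 := hi x hx
    rw [Real.dist_eq] at h1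
    have h2 := hB' x hx
    have h3 : |w i x| ≤ |ρ x| + |ρ x - w i x| := by
      have := abs_sub_abs_le_abs_sub (w i x) (ρ x)
      rw [abs_sub_comm] at this
      linarith
    linarith
  set M : ℝ≥0 := ⟨(|B| + 1) * L + |M₁|, by positivity⟩ with hM
  have hdiff : ∀ᶠ i in F, LipschitzWith M (fun x => χ x * w i x) := by
    filter_upwards [hbd, hrB] with i hi hBi
    refine lipschitzWith_of_nnnorm_fderiv_le (𝕜 := ℝ) ?_ ?_
    · intro x
      by_cases hx : x ∈ tsupport χ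
      · exact (hχ1.differentiable one_ne_zero x).mul (hi x hx).1
      · have h0 : (fun x => χ x * w i x) =ᶠ[𝓝 x] fun _ => 0 := by
          filter_upwards [notMem_tsupport_iff_eventuallyEq.1 hx] with y hy
          rw [hy, Pi.zero_apply, zero_mul]
        exact h0.differentiableAt_iff.2 (differentiableAt_const _)
    · intro x
      rw [← NNReal.coe_le_coe, coe_nnnorm]
      show ‖fderiv ℝ (fun x => χ x * w i x) x‖ ≤ (|B| + 1) * L + |M₁|
      by_cases hx : x ∈ tsupport χ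
      · rw [fderiv_fun_mul (hχ1.differentiable one_ne_zero x) (hi x hx).1]
        have h1 : ‖χ x • fderiv ℝ (w i) x‖ ≤ |M₁| := by
          rw [norm_smul, Real.norm_eq_abs, abs_of_nonneg (hχr x).1, ← norm_grad]
          calc χ x * ‖∇ (w i) x‖ ≤ 1 * |M₁| := by
                gcongr
                · exact (hχr x).2
                · exact (hi x hx).2.trans (le_abs_self _)
            _ = _ := one_mul _
        have h2 : ‖w i x • fderiv ℝ χ x‖ ≤ (|B| + 1) * L := by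
          rw [norm_smul, Real.norm_eq_abs]
          gcongr
          · exact hBi x hx
          · exact norm_fderiv_le_of_lipschitz ℝ hL
        exact (norm_add_le _ _).trans (by linarith)
      · have h0 : (fun x => χ x * w i x) =ᶠ[𝓝 x] fun _ => 0 := by
          filter_upwards [notMem_tsupport_iff_eventuallyEq.1 hx] with y hy
          rw [hy, Pi.zero_apply, zero_mul]
        rw [h0.fderiv_eq]
        simp only [fderiv_fun_const, Pi.zero_apply, norm_zero]
        positivity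
  have hunif : TendstoUniformly (fun i x => χ x * w i x) (fun x => χ x * ρ x) F := by
    rw [Metric.tendstoUniformly_iff]
    intro δ hδ
    filter_upwards [Metric.tendstoUniformlyOn_iff.1 hconv δ hδ] with i hi x
    rw [Real.dist_eq, ← mul_sub, abs_mul, abs_of_nonneg (hχr x).1]
    by_cases hx : x ∈ tsupport χ
    · have h1 := hi x hx
      rw [Real.dist_eq] at h1
      calc χ x * |ρ x - w i x| ≤ 1 * |ρ x - w i x| := by
            gcongr; exact (hχr x).2
        _ < δ := by rwa [one_mul]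
    · rw [image_eq_zero_of_notMem_tsupport hx, zero_mul]; exact hδ
  have hρL : LipschitzWith M (fun x => χ x * ρ x) := by
    apply LipschitzWith.of_dist_le_mul
    intro x y
    have h1 : Tendsto (fun i => dist (χ x * w i x) (χ y * w i y)) F
        (𝓝 (dist (χ x * ρ x) (χ y * ρ y))) :=
      (hunif.tendsto_at x).dist (hunif.tendsto_at y)
    refine le_of_tendsto h1 ?_
    filter_upwards [hdiff] with i hi
    exact hi.dist_le_mul x y
  exact ⟨V, fun i x => χ x * w i x, fun x => χ x * ρ x, M, hV, hKV, hVU, fun i x hx => by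
    simp only [hχV x hx, one_mul], fun x hx => by simp only [hχV x hx, one_mul], hdiff, hρL, hunif⟩

theorem integrable_grad {ψ : E → ℝ} {L : ℝ≥0} (hL : LipschitzWith L ψ) (hc : HasCompactSupport ψ) :
    Integrable (∇ ψ) := by
  have h1 : IntegrableOn (∇ ψ) (tsupport ψ) :=
    integrableOn_grad (fun x => norm_grad_le hL x) hc.measure_lt_top
  exact h1.integrable_of_forall_notMem_eq_zero (fun x hx => grad_zero_of_notMem hx)

/-- weak convergence of the gradients -/
theorem LocLip.tendsto_test [F.NeBot] (H : LocLip F U w ρ) {ψ : E → ℝ}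
    (hL : ∃ L : ℝ≥0, LipschitzWith L ψ) (hc : HasCompactSupport ψ) (hs : tsupport ψ ⊆ U) :
    Tendsto (fun i => ∫ x, ⟪∇ (w i) x, ∇ ψ x⟫) F (𝓝 (∫ x, ⟪∇ ρ x, ∇ ψ x⟫)) := by
  obtain ⟨L, hL⟩ := hL
  obtain ⟨V, w', ρ', M, hV, hKV, hVU, he', he, hL', hLρ, hu⟩ := H.glob hc hs
  have h1 := tendsto_weak (F := F) (v := ∇ ψ) hL' hLρ hV hc hKV (integrable_grad hL hc)
    (fun x hx => grad_zero_of_notMem hx) fun K' _ _ => hu.tendstoUniformlyOn
  have e : ∀ q q' : E → ℝ, EqOn q' q V →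
      ∫ x, ⟪∇ q' x, ∇ ψ x⟫ = ∫ x, ⟪∇ q x, ∇ ψ x⟫ := by
    intro q q' hq
    refine integral_congr_ae (Eventually.of_forall fun x => ?_)
    show ⟪∇ q' x, ∇ ψ x⟫ = ⟪∇ q x, ∇ ψ x⟫
    by_cases hx : x ∈ tsupport ψ
    · rw [grad_congr_open hV hq (hKV hx)]
    · rw [grad_zero_of_notMem hx, inner_zero_right, inner_zero_right]
  rw [← e _ _ he]
  exact h1.congr fun i => e _ _ (he' i)

end gen

/-! ### the primitive of `T₀` -/

open Crest.Agent.R246.Lim538

/-- primitive of `T₀` -/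
noncomputable def PT (s : ℝ) : ℝ := 2 / 3 * Real.log (Real.cosh s) + Real.tanh s ^ 2 / 6

theorem hasDerivAt_PT (s : ℝ) : HasDerivAt PT (T0 s) s := by
  have h1 : HasDerivAt (fun s => Real.log (Real.cosh s)) (Real.tanh s) s := by
    have := (Real.hasDerivAt_cosh s).log (Real.cosh_pos s).ne'
    rwa [← Real.tanh_eq_sinh_div_cosh] at this
  have h2 : HasDerivAt PT (2 / 3 * Real.tanh s +
      ((2 : ℕ) * Real.tanh s ^ (2 - 1) * (1 - Real.tanh s ^ 2)) / 6) s :=
    (h1.const_mul (2 / 3)).add (((hasDerivAt_tanh s).pow 2).div_const 6)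
  have e : 2 / 3 * Real.tanh s +
      ((2 : ℕ) * Real.tanh s ^ (2 - 1) * (1 - Real.tanh s ^ 2)) / 6 = T0 s := by
    unfold T0; push_cast; ring
  rwa [e] at h2

theorem abs_PT_sub_le (s : ℝ) : |PT s - 2 / 3 * (|s|)| ≤ 1 := by
  have h1 : Real.log (Real.cosh s) ≤ |s| := by
    rw [Real.log_le_iff_le_exp (Real.cosh_pos s), Real.cosh_eq]
    have a1 : Real.exp s ≤ Real.exp |s| := Real.exp_le_exp.2 (le_abs_self s)
    have a2 : Real.exp (-s) ≤ Real.exp |s| := Real.exp_le_exp.2 (neg_le_abs s)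
    linarith
  have h2 : |s| - Real.log 2 ≤ Real.log (Real.cosh s) := by
    rw [← Real.log_exp |s|, ← Real.log_div (Real.exp_ne_zero _) (by norm_num)]
    refine Real.log_le_log (by positivity) ?_
    rw [Real.cosh_eq]
    have a1 := Real.exp_pos s
    have a2 := Real.exp_pos (-s)
    rcases le_total 0 s with h | h
    · rw [abs_of_nonneg h]; linarith
    · rw [abs_of_nonpos h]; linarith
  have h3 := tanh_sq_lt s
  have h4 := sq_nonneg (Real.tanh s)
  have h5 : Real.log 2 < 0.6931471808 := Real.log_two_lt_d9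
  unfold PT
  rw [abs_le]
  constructor <;> norm_num at h5 ⊢ <;> nlinarith

section ac

open Crest.GeometryTopology.CoordMetric Crest.GeometryTopology.AffineMaximal
open Crest.Agent.R246.D2x782

variable {n : ℕ} {ι : Type*} {F : Filter ι} {U : Set (EuclideanSpace ℝ (Fin n))}
  {W : ι → Set (EuclideanSpace ℝ (Fin n))} {h r : ι → EuclideanSpace ℝ (Fin n) → ℝ} {ε : ι → ℝ}
  {h₀ ρ : EuclideanSpace ℝ (Fin n) → ℝ}

local notation "EE" => EuclideanSpace ℝ (Fin n)

theorem grad_PT {r : EE → ℝ} {x : EE} {ε : ℝ} (hε : 0 < ε) (hr : DifferentiableAt ℝ r x) :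
    DifferentiableAt ℝ (fun y => 3 / 2 * (ε * PT (r y / ε))) x ∧
      ∇ (fun y => 3 / 2 * (ε * PT (r y / ε))) x = (3 / 2 * T0 (r x / ε)) • ∇ r x := by
  have h1 : HasFDerivAt (fun y => r y / ε) (ε⁻¹ • fderiv ℝ r x) x := by
    have := hr.hasFDerivAt.const_smul ε⁻¹
    refine this.congr_of_eventuallyEq (Eventually.of_forall fun y => ?_)
    simp only [Pi.smul_apply, smul_eq_mul]; rw [div_eq_inv_mul]
  have h2 : HasFDerivAt (fun y => PT (r y / ε)) (T0 (r x / ε) • (ε⁻¹ • fderiv ℝ r x)) x :=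
    HasDerivAt.comp_hasFDerivAt (h₂ := PT) x (hasDerivAt_PT (r x / ε)) h1
  have h3 : HasFDerivAt (fun y => 3 / 2 * (ε * PT (r y / ε)))
      ((3 / 2 * T0 (r x / ε)) • fderiv ℝ r x) x := by
    have := (h2.const_mul ε).const_mul (3 / 2)
    refine this.congr_fderiv ?_
    simp only [smul_smul]
    congr 1
    field_simp
  refine ⟨h3.differentiableAt, ?_⟩
  apply ext_inner_right ℝ
  intro v
  rw [inner_smul_left, inner_grad, inner_grad, h3.fderiv]
  simp

/-- the truncated family `(3/2) ε PT(r/ε)` converges to `|ρ|` -/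
theorem ACSeq.locLip [F.NeBot] (H : ACSeq F U W h r ε h₀ ρ) :
    LocLip F U (fun i y => 3 / 2 * (ε i * PT (r i y / ε i))) (fun y => |ρ y|) := by
  refine ⟨H.isOpen, fun K hKU hK => ?_, fun K hKU hK => ?_⟩
  · obtain ⟨M, hM1, -, hM⟩ := H.exists_bd hK hKU
    refine ⟨M, ?_⟩
    filter_upwards [hM, H.sol, H.dom K hKU hK] with i hi hs hd x hx
    have hdiff : DifferentiableAt ℝ (r i) x :=
      (hs.smooth_r.contDiffAt (hs.isOpen.mem_nhds (hd hx))).differentiableAt (by simp)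
    obtain ⟨h1, h2⟩ := grad_PT hs.eps_pos hdiff
    refine ⟨h1, ?_⟩
    rw [h2, norm_smul, Real.norm_eq_abs, abs_mul]
    have h3 := abs_T0_le (r i x / ε i)
    have h4 : |(3 / 2 : ℝ)| * |T0 (r i x / ε i)| ≤ 1 := by
      rw [abs_of_pos (by norm_num)]; linarith
    calc |(3 / 2 : ℝ)| * |T0 (r i x / ε i)| * ‖∇ (r i) x‖ ≤ 1 * M :=
          mul_le_mul h4 (hi x hx).2 (norm_nonneg _) zero_le_one
      _ = M := one_mul _
  · rw [Metric.tendstoUniformlyOn_iff]
    intro δ hδ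
    have he : ∀ᶠ i in F, ε i < δ / 6 := H.eps.eventually (Iio_mem_nhds (by positivity))
    filter_upwards [Metric.tendstoUniformlyOn_iff.1 (H.rconv K hKU hK) (δ / 2) (by positivity), he,
      H.sol] with i hi h1 hs x hx
    have hε := hs.eps_pos
    have h2 := hi x hx
    rw [Real.dist_eq] at h2 ⊢
    have h3 := abs_PT_sub_le (r i x / ε i)
    rw [abs_div, abs_of_pos hε] at h3
    have h4 : |3 / 2 * (ε i * PT (r i x / ε i)) - (|r i x|)| ≤ 3 / 2 * ε i := by
      have e : 3 / 2 * (ε i * PT (r i x / ε i)) - |r i x| =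
          3 / 2 * ε i * (PT (r i x / ε i) - 2 / 3 * (|r i x| / ε i)) := by
        field_simp
      rw [e, abs_mul, abs_of_pos (by positivity)]
      exact mul_le_of_le_one_right (by positivity) h3
    have h5 : |(|ρ x|) - (|r i x|)| ≤ |ρ x - r i x| := abs_abs_sub_abs_le _ _
    have h6 : |(|ρ x|) - 3 / 2 * (ε i * PT (r i x / ε i))| ≤
        |(|ρ x|) - (|r i x|)| + |3 / 2 * (ε i * PT (r i x / ε i)) - (|r i x|)| := by
      have := abs_sub_le |ρ x| |r i x| (3 / 2 * (ε i * PT (r i x / ε i)))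
      rw [abs_sub_comm |r i x|] at this
      exact this
    linarith

/-- **`∫ T₀(r_i/ε_i)⟨∇r_i,∇η⟩ → (2/3) ∫ ⟨∇|ρ|,∇η⟩`** -/
theorem ACSeq.tendsto_T0 [F.NeBot] (H : ACSeq F U W h r ε h₀ ρ) {η : EE → ℝ}
    (hL : ∃ L : ℝ≥0, LipschitzWith L η) (hc : HasCompactSupport η) (hs : tsupport η ⊆ U) :
    Tendsto (fun i => ∫ x, T0 (r i x / ε i) * ⟪∇ (r i) x, ∇ η x⟫) F
      (𝓝 (2 / 3 * ∫ x, ⟪∇ (fun y => |ρ y|) x, ∇ η x⟫)) := by
  have h1 := (H.locLip.tendsto_test hL hc hs).const_mul (2 / 3)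
  refine h1.congr' ?_
  filter_upwards [H.sol, H.dom _ hs hc] with i hs' hd
  rw [← integral_const_mul]
  refine integral_congr_ae (Eventually.of_forall fun x => ?_)
  show 2 / 3 * ⟪∇ (fun y => 3 / 2 * (ε i * PT (r i y / ε i))) x, ∇ η x⟫ =
    T0 (r i x / ε i) * ⟪∇ (r i) x, ∇ η x⟫
  by_cases hx : x ∈ tsupport η
  · have hdiff : DifferentiableAt ℝ (r i) x :=
      (hs'.smooth_r.contDiffAt (hs'.isOpen.mem_nhds (hd hx))).differentiableAt (by simp)
    rw [(grad_PT hs'.eps_pos hdiff).2, inner_smul_left]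
    simp only [conj_trivial]
    ring
  · rw [grad_zero_of_notMem hx, inner_zero_right, inner_zero_right, mul_zero, mul_zero]

/-- `∫ ⟨∇r_i,∇ζ⟩ → ∫ ⟨∇ρ,∇ζ⟩` -/
theorem ACSeq.tendsto_test [F.NeBot] (H : ACSeq F U W h r ε h₀ ρ) {ζ : EE → ℝ}
    (hL : ∃ L : ℝ≥0, LipschitzWith L ζ) (hc : HasCompactSupport ζ) (hs : tsupport ζ ⊆ U) :
    Tendsto (fun i => ∫ x, ⟪∇ (r i) x, ∇ ζ x⟫) F (𝓝 (∫ x, ⟪∇ ρ x, ∇ ζ x⟫)) :=
  H.locSeq.tendsto_test hL hc hs

end ac

end Crest.Agent.R246.E2x858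
end

-- ▼ part R246/E2g_858
section

/-!
Row 246, block E2 (helper858): the base level: `0`-homogeneous Allen–Cahn solutions with bounded
energy, the limit `r` and the cone function `φ = ‖x‖ sin r`.
-/

set_option autoImplicit false
set_option linter.unusedSectionVars false

namespace Crest.Agent.R246.E2x858

open MeasureTheory Filter Topology Metric Set
open scoped NNReal ENNReal Gradient RealInnerProductSpace
open Crest.Agent.R246.Flat105

section gen

variable {E : Type*} [NormedAddCommGroup E] [InnerProductSpace ℝ E] [FiniteDimensional ℝ E]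
  [MeasurableSpace E] [BorelSpace E]


/-- the gradient of the norm -/
theorem hasFDerivAt_norm {x : E} (hx : x ≠ 0) :
    HasFDerivAt (fun y : E => ‖y‖) (innerSL ℝ (‖x‖⁻¹ • x)) x := by
  have h1 : DifferentiableAt ℝ (fun y : E => ‖y‖) x :=
    (contDiffAt_norm ℝ hx (n := 1)).differentiableAt one_ne_zero
  have h2 : HasFDerivAt (fun y : E => ‖y‖ ^ 2) (2 • innerSL ℝ x) x :=
    (hasStrictFDerivAt_norm_sq x).hasFDerivAt
  have h3 : HasFDerivAt (fun y : E => ‖y‖ ^ 2)
      ((2 * ‖x‖) • fderiv ℝ (fun y : E => ‖y‖) x) x := by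
    have := h1.hasFDerivAt.pow 2
    refine this.congr_fderiv ?_
    ext v; simp
  have h4 := h2.unique h3
  refine h1.hasFDerivAt.congr_fderiv ?_
  ext v
  have h5 := congrArg (fun T : E →L[ℝ] ℝ => T v) h4
  simp only [smul_apply, nsmul_eq_mul, smul_eq_mul,
    innerSL_apply_apply] at h5
  have hx' : ‖x‖ ≠ 0 := norm_ne_zero_iff.2 hx
  rw [innerSL_apply_apply, real_inner_smul_left]
  push_cast at h5
  field_simp
  linarith

/-- `|∇(‖x‖ sin r)| = 1` where `r` is `0`-homogeneous and `|∇r| = 1/‖x‖` -/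
theorem norm_grad_phi {r : E → ℝ} (hom : ∀ t : ℝ, 0 < t → ∀ x, r (t • x) = r x) {x : E}
    (hx : x ≠ 0) (hd : DifferentiableAt ℝ r x) (hn : ‖∇ r x‖ ^ 2 = (‖x‖ ^ 2)⁻¹) :
    DifferentiableAt ℝ (fun y => ‖y‖ * Real.sin (r y)) x ∧
      ‖fderiv ℝ (fun y => ‖y‖ * Real.sin (r y)) x‖ = 1 := by
  have hx' : 0 < ‖x‖ := norm_pos_iff.2 hx
  -- radial derivative vanishes
  have hrad : ⟪∇ r x, x⟫ = 0 := by
    rw [inner_grad]
    have h1 : HasDerivAt (fun t : ℝ => r (t • x)) (fderiv ℝ r x x) 1 := by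
      have h2 : HasDerivAt (fun t : ℝ => t • x) x 1 := by
        simpa using (hasDerivAt_id (1 : ℝ)).smul_const x
      have h3 : HasFDerivAt r (fderiv ℝ r x) ((1 : ℝ) • x) := by
        rw [one_smul]; exact hd.hasFDerivAt
      exact h3.comp_hasDerivAt 1 h2
    have h4 : HasDerivAt (fun t : ℝ => r (t • x)) 0 1 := by
      refine (hasDerivAt_const (1 : ℝ) (r x)).congr_of_eventuallyEq ?_
      filter_upwards [Ioi_mem_nhds (show (0 : ℝ) < 1 by norm_num)] with t ht
      exact hom t ht x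
    exact h1.unique h4
  have hdr : HasFDerivAt r (innerSL ℝ (∇ r x)) x := by
    refine hd.hasFDerivAt.congr_fderiv ?_
    ext v
    rw [innerSL_apply_apply, inner_grad]
  have h5 : HasFDerivAt (fun y => ‖y‖ * Real.sin (r y))
      (‖x‖ • (Real.cos (r x) • innerSL ℝ (∇ r x)) +
        Real.sin (r x) • innerSL ℝ (‖x‖⁻¹ • x)) x :=
    (hasFDerivAt_norm hx).mul hdr.sin
  have h6 : HasFDerivAt (fun y => ‖y‖ * Real.sin (r y))
      (innerSL ℝ ((‖x‖ * Real.cos (r x)) • ∇ r x + (Real.sin (r x) * ‖x‖⁻¹) • x)) x := by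
    refine h5.congr_fderiv ?_
    ext v
    simp only [add_apply, smul_apply, innerSL_apply_apply,
      smul_eq_mul, inner_add_left, real_inner_smul_left]
    ring
  refine ⟨h6.differentiableAt, ?_⟩
  rw [← norm_grad, grad_of_hasFDerivAt h6]
  have h7 : ‖(‖x‖ * Real.cos (r x)) • ∇ r x + (Real.sin (r x) * ‖x‖⁻¹) • x‖ ^ 2 = 1 := by
    rw [norm_add_sq_real, norm_smul, norm_smul, mul_pow, mul_pow, hn, real_inner_smul_left,
      real_inner_smul_right, hrad, Real.norm_eq_abs, Real.norm_eq_abs, sq_abs, sq_abs]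
    have := Real.sin_sq_add_cos_sq (r x)
    field_simp
    nlinarith
  have h8 := norm_nonneg ((‖x‖ * Real.cos (r x)) • ∇ r x + (Real.sin (r x) * ‖x‖⁻¹) • x)
  nlinarith

end gen

/-! ### the base level -/

section base

open Crest.GeometryTopology.CoordMetric Crest.GeometryTopology.AffineMaximal
open Crest.Agent.R246.D2x782 Crest.Agent.R246.Lim538 Crest.Agent.R246.Vb872
open Crest.Agent.R246.H990 (cV)

variable {n : ℕ} {ι : Type*} {F : Filter ι} {ε : ι → ℝ} {R : ι → EuclideanSpace ℝ (Fin n) → ℝ}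
  {r : EuclideanSpace ℝ (Fin n) → ℝ} {C : ℝ}

local notation "EE" => EuclideanSpace ℝ (Fin n)

/-- energy on compact subsets of `ℝⁿ ∖ {0}` in terms of the energy on the sphere -/
theorem energy_le (hn : 2 ≤ n) {K : Set EE} (hK : IsCompact K) (hK0 : K ⊆ {0}ᶜ) (C : ℝ) :
    ∃ C' : ℝ, ∀ (ε : ℝ) (R : EE → ℝ), 0 < ε → SmHom0 R →
      ∫ z, eden ε R (z : EE) ∂((volume : Measure EE).toSphere) ≤ C →
      ∫ x in K, qq (fun x => (‖x‖ ^ 2)⁻¹) R ε x ≤ C' := by
  rcases K.eq_empty_or_nonempty with rfl | hne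
  · exact ⟨0, fun ε R _ _ _ => by simp⟩
  obtain ⟨x₀, hx₀, hmin⟩ := hK.exists_isMinOn hne continuous_norm.continuousOn
  have hc : 0 < ‖x₀‖ := norm_pos_iff.2 (hK0 hx₀)
  obtain ⟨ρ, hρ⟩ := hK.isBounded.subset_closedBall (0 : EE)
  refine ⟨4 / (3 * ‖x₀‖) * (Real.exp (ρ ^ 2) *
    (cV EE * (3 / 4 * |C|))), fun ε R hε hR hE => ?_⟩
  have hden : IntegrableOn (den R ε) K := ((continuousOn_den hR).mono hK0).integrableOn_compact hK
  have hdn : ∀ x, 0 ≤ den R ε x := den_nonneg hε R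
  have hcV : 0 < cV EE := Crest.Agent.R246.H990.cV_pos EE
  have h1 : ∫ x in K, den R ε x ≤ Real.exp (ρ ^ 2) * (cV EE * (3 / 4 * |C|)) := by
    rw [integral_eq_lintegral_of_nonneg_ae (Eventually.of_forall hdn) hden.aestronglyMeasurable]
    refine ENNReal.toReal_le_of_le_ofReal (by positivity) ?_
    have h2 : ∫⁻ x in K, ENNReal.ofReal (den R ε x) = mu R ε K := by
      unfold mu
      rw [withDensity_apply _ hK.measurableSet]
    rw [h2]
    refine (measure_mono hρ).trans ((mu_closedBall_le hn hε hR ρ).trans ?_)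
    refine ENNReal.ofReal_le_ofReal ?_
    have h3 : ∫ z, eden ε R (z : EE) ∂((volume : Measure EE).toSphere) ≤ |C| :=
      hE.trans (le_abs_self _)
    have h4 : 3 / 4 * ∫ z, eden ε R (z : EE) ∂((volume : Measure EE).toSphere) ≤ 3 / 4 * |C| := by
      linarith
    have h5 := mul_le_mul_of_nonneg_left h4 hcV.le
    exact mul_le_mul_of_nonneg_left h5 (Real.exp_pos _).le
  calc ∫ x in K, qq (fun x => (‖x‖ ^ 2)⁻¹) R ε x
      ≤ ∫ x in K, 4 / (3 * ‖x₀‖) * den R ε x := by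
        have hq : ∀ x ∈ K, qq (fun x => (‖x‖ ^ 2)⁻¹) R ε x = 4 / (3 * ‖x‖) * den R ε x := by
          intro x hx
          have hx' : 0 < ‖x‖ := norm_pos_iff.2 (hK0 hx)
          unfold den
          field_simp
        refine integral_mono_of_nonneg ?_ (hden.const_mul _) ?_
        · refine (ae_restrict_iff' hK.measurableSet).2 (Eventually.of_forall fun x hx => ?_)
          show 0 ≤ qq (fun x => (‖x‖ ^ 2)⁻¹) R ε x
          rw [hq x hx]
          have := hdn x
          positivity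
        · refine (ae_restrict_iff' hK.measurableSet).2 (Eventually.of_forall fun x hx => ?_)
          show qq (fun x => (‖x‖ ^ 2)⁻¹) R ε x ≤ 4 / (3 * ‖x₀‖) * den R ε x
          rw [hq x hx]
          have h6 : ‖x₀‖ ≤ ‖x‖ := hmin hx
          have := hdn x
          gcongr
    _ = 4 / (3 * ‖x₀‖) * ∫ x in K, den R ε x := integral_const_mul _ _
    _ ≤ _ := by gcongr

/-- the base level is a family in the sense of `E2d_858` -/
theorem acseq_base (hn : 3 ≤ n) (hε : ∀ᶠ i in F, 0 < ε i) (h0 : Tendsto ε F (𝓝 0))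
    (hR : ∀ᶠ i in F, SmHom0 (R i)) (hac : ∀ᶠ i in F, ACeq (ε i) (R i))
    (hE : ∀ᶠ i in F, ∫ z, eden (ε i) (R i) (z : EE) ∂((volume : Measure EE).toSphere) ≤ C)
    (hconv : TendstoUniformlyOn R r F {0}ᶜ) :
    ACSeq F {0}ᶜ (fun _ => {0}ᶜ) (fun _ x => (‖x‖ ^ 2)⁻¹) R ε (fun x => (‖x‖ ^ 2)⁻¹) r where
  isOpen := isOpen_compl_singleton
  sol := by
    filter_upwards [hε, hR, hac] with i h1 h2 h3
    exact acsol_of_ac hn h2 h1 h3
  dom K hK _ := Eventually.of_forall fun _ => hK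
  eps := h0
  hconv K _ _ := by
    rw [Metric.tendstoUniformlyOn_iff]
    intro δ hδ
    exact Eventually.of_forall fun i x _ => by rw [dist_self]; exact hδ
  rconv K hK _ := hconv.mono hK
  energy K hK hKc := by
    obtain ⟨C', hC'⟩ := energy_le (by omega) hKc hK C
    refine ⟨C', ?_⟩
    filter_upwards [hε, hR, hE] with i h1 h2 h3
    exact hC' _ _ h1 h2 h3

variable [F.NeBot]

/-- a.e. differentiability of the limit and `‖∇r‖² = 1/‖x‖²` -/
theorem base_eikonal (hn : 3 ≤ n) (H : ACSeq F {0}ᶜ (fun _ => {0}ᶜ) (fun _ x => (‖x‖ ^ 2)⁻¹) R ε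
    (fun x => (‖x‖ ^ 2)⁻¹) r) :
    ∀ᵐ x, x ≠ 0 ∧ DifferentiableAt ℝ r x ∧ ‖∇ r x‖ ^ 2 = (‖x‖ ^ 2)⁻¹ := by
  have : Nontrivial EE := by
    apply Module.nontrivial_of_finrank_pos (R := ℝ)
    simp only [finrank_euclideanSpace, Fintype.card_fin]
    omega
  have h0 : ∀ᵐ x : EE, x ∈ ({0}ᶜ : Set EE) := by
    rw [ae_iff]
    simp
  filter_upwards [h0, H.locSeq.ae_diff, H.eikonal] with x h1 h2 h3
  exact ⟨h1, h2 h1, h3 h1⟩


/-- **`‖∇(‖x‖ sin r)‖ = 1` almost everywhere** -/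
theorem base_grad (hn : 3 ≤ n) (hom : ∀ t : ℝ, 0 < t → ∀ x, r (t • x) = r x)
    (H : ACSeq F {0}ᶜ (fun _ => {0}ᶜ) (fun _ x => (‖x‖ ^ 2)⁻¹) R ε
    (fun x => (‖x‖ ^ 2)⁻¹) r) :
    ∀ᵐ x : EE, ‖fderiv ℝ (fun y => ‖y‖ * Real.sin (r y)) x‖ = 1 := by
  filter_upwards [base_eikonal hn H] with x ⟨h1, h2, h3⟩
  exact (norm_grad_phi hom h1 h2 h3).2

end base

end Crest.Agent.R246.E2x858
end

-- ▼ part R246/Q_538

/-!
Row 246, block E3 (helper538): the refined limit inequality and equipartition for minimisers (Q).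
-/

set_option autoImplicit false

open Filter Topology Metric Set MeasureTheory
open scoped ContDiff RealInnerProductSpace NNReal
open Crest.GeometryTopology.CoordMetric Crest.GeometryTopology.AffineMaximal
open Crest.Agent.R236.Jet Crest.Agent.R246.D2x782 Crest.Agent.R246.G873
open Crest.Agent.R246.Stress638
open Crest.Agent.R246.H990 (NullCone VB cV cV_pos)
open Crest.Agent.R246.Vb872 (dd dd_nonneg cont_dd)

noncomputable section

namespace Crest.Agent.R246.Lim538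

variable {n : ℕ}

local notation "EE" => EuclideanSpace ℝ (Fin n)

/-- the reduced density `(3/4) |x| (q - dd)` -/
def wr (R : EuclideanSpace ℝ (Fin n) → ℝ) (ε : ℝ) (x : EuclideanSpace ℝ (Fin n)) : ℝ :=
  3 / 4 * ‖x‖ * (qq hw R ε x - dd hw R ε x)

/-- the Gaussian integral of `|x| dd` -/
def Dd (R : EuclideanSpace ℝ (Fin n) → ℝ) (ε : ℝ) : ℝ :=
  ∫ x, Real.exp (-‖x‖ ^ 2) * (‖x‖ * dd hw R ε x)

theorem dd_le_qq {U : Set EE} {h r : EE → ℝ} {ε : ℝ} (H : ACSol U h r ε) {x : EE} (hx : x ∈ U) :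
    dd h r ε x ≤ qq h r ε x := by
  have h1 := Vb872.pointwise_id H hx
  have h2 := abs_T0_le (r x / ε)
  have h3 : -(2 / 3 * |lapl r x|) ≤ T0 (r x / ε) * lapl r x := by
    have h4 : |T0 (r x / ε) * lapl r x| ≤ 2 / 3 * |lapl r x| := by
      rw [abs_mul]; gcongr
    exact (abs_le.1 h4).1
  have h5 : 0 ≤ 1 / ε * (1 - Real.tanh (r x / ε) ^ 2) ^ 2 * gsq r x := by
    have := H.eps_pos
    have := gsq_nonneg r x
    positivity
  nlinarith

namespace Sol

variable {R : EuclideanSpace ℝ (Fin n) → ℝ} {ε : ℝ}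

theorem wr_nonneg (H : Sol R ε) (x : EE) : 0 ≤ wr R ε x := by
  by_cases hx : x = 0
  · subst hx; simp [wr]
  · unfold wr
    have := dd_le_qq H.acsol (x := x) hx
    have h2 : 0 ≤ qq hw R ε x - dd hw R ε x := by linarith
    positivity

theorem ndd_nonneg (H : Sol R ε) (x : EE) : 0 ≤ ‖x‖ * dd hw R ε x := by
  by_cases hx : x = 0
  · subst hx; simp
  · have := dd_nonneg H.acsol (x := x) hx
    positivity

theorem wr_eq (R : EE → ℝ) (ε : ℝ) (x : EE) :
    wr R ε x = wq R ε x - 3 / 4 * (‖x‖ * dd hw R ε x) := by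
  unfold wr wq; ring

theorem wr_le (H : Sol R ε) (x : EE) : wr R ε x ≤ wq R ε x := by
  rw [wr_eq]; linarith [H.ndd_nonneg x]

theorem ndd_le (H : Sol R ε) (x : EE) : ‖x‖ * dd hw R ε x ≤ 4 / 3 * wq R ε x := by
  have h1 := H.wr_nonneg x
  rw [wr_eq] at h1; linarith

theorem continuousOn_wr (H : Sol R ε) : ContinuousOn (wr R ε) ({0}ᶜ : Set EE) := by
  unfold wr
  exact (continuousOn_const.mul continuous_norm.continuousOn).mul
    (H.acsol.cont_qq.sub (cont_dd H.acsol))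

theorem measurable_wr (H : Sol R ε) : Measurable (wr R ε) :=
  measurable_of_continuousOn_compl H.continuousOn_wr

theorem measurable_ndd (H : Sol R ε) : Measurable fun x : EE => ‖x‖ * dd hw R ε x :=
  measurable_of_continuousOn_compl (continuous_norm.continuousOn.mul (cont_dd H.acsol))

theorem dd_smul (H : Sol R ε) {x : EE} (hx : x ≠ 0) {t : ℝ} (ht : 0 < t) :
    dd hw R ε (t • x) = (t ^ 2)⁻¹ * dd hw R ε x := by
  unfold dd
  rw [H.gsq_smul hx ht, hw_smul, H.sm.hom t x ht]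
  ring

theorem wr_smul (H : Sol R ε) {x : EE} {t : ℝ} (ht : 0 < t) :
    wr R ε (t • x) = t⁻¹ * wr R ε x := by
  by_cases hx : x = 0
  · subst hx; simp [wr]
  · unfold wr
    rw [H.qq_smul hx ht, H.dd_smul hx ht, norm_smul, Real.norm_eq_abs, abs_of_pos ht]
    field_simp

theorem integrable_exp_wq (hn : 2 ≤ n) (H : Sol R ε) :
    Integrable fun x : EE => Real.exp (-‖x‖ ^ 2) * wq R ε x := by
  have hfin : 2 ≤ Module.finrank ℝ EE := by simpa using hn
  have h1 := (Crest.Agent.R246.Vb872.integrable_gauss_radial hfin (b := 1) one_pos).const_mul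
    (3 / (4 * ε))
  refine h1.mono' ?_ (Eventually.of_forall fun x => ?_)
  · exact ((Real.measurable_exp.comp (measurable_norm.pow_const 2).neg).mul
      H.measurable_wq).aestronglyMeasurable
  · have h2 := H.wq_nonneg x
    have h3 := H.wq_le x
    have h4 := H.pos
    have h5 : 0 < Real.exp (-‖x‖ ^ 2) := Real.exp_pos _
    have h6 : 0 ≤ ‖x‖⁻¹ := by positivity
    have h7 : 0 ≤ ‖x‖ := norm_nonneg x
    rw [Real.norm_eq_abs, abs_of_nonneg (mul_nonneg h5.le h2)]
    calc Real.exp (-‖x‖ ^ 2) * wq R ε x ≤ Real.exp (-‖x‖ ^ 2) * (3 / (4 * ε) * ‖x‖⁻¹) := by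
          gcongr
      _ ≤ Real.exp (-‖x‖ ^ 2) * (3 / (4 * ε) * (2 * ‖x‖⁻¹ + 1 + ‖x‖)) := by
          gcongr; linarith
      _ = 3 / (4 * ε) * (Real.exp (-1 * ‖x‖ ^ 2) * (2 * ‖x‖⁻¹ + 1 + ‖x‖)) := by
          rw [neg_one_mul]; ring

theorem integrable_exp_ndd (hn : 2 ≤ n) (H : Sol R ε) :
    Integrable fun x : EE => Real.exp (-‖x‖ ^ 2) * (‖x‖ * dd hw R ε x) := by
  refine ((H.integrable_exp_wq hn).const_mul (4 / 3)).mono'
    ((Real.measurable_exp.comp (measurable_norm.pow_const 2).neg).mul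
      H.measurable_ndd).aestronglyMeasurable (Eventually.of_forall fun x => ?_)
  have h1 := H.ndd_nonneg x
  have h2 := H.ndd_le x
  have h5 : 0 < Real.exp (-‖x‖ ^ 2) := Real.exp_pos _
  rw [Real.norm_eq_abs, abs_of_nonneg (mul_nonneg h5.le h1)]
  calc Real.exp (-‖x‖ ^ 2) * (‖x‖ * dd hw R ε x) ≤ Real.exp (-‖x‖ ^ 2) * (4 / 3 * wq R ε x) := by
        gcongr
    _ = _ := by ring

theorem integral_exp_wq (hn : 2 ≤ n) (H : Sol R ε) :
    ∫ x : EE, Real.exp (-‖x‖ ^ 2) * wq R ε x = cV EE * (3 / 4 * sen R ε) := by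
  have h1 := Vb872.mass_lintegral hn H.pos H.sm
  have h2 : 0 ≤ cV EE * (3 / 4 * sen R ε) := by
    have := cV_pos EE; have := H.sen_nonneg; positivity
  rw [integral_eq_lintegral_of_nonneg_ae
    (Eventually.of_forall fun x => mul_nonneg (Real.exp_pos _).le (H.wq_nonneg x))
    (H.integrable_exp_wq hn).aestronglyMeasurable]
  have h3 : ∫⁻ x : EE, ENNReal.ofReal (Real.exp (-‖x‖ ^ 2) * wq R ε x) =
      ENNReal.ofReal (cV EE * (3 / 4 * sen R ε)) := by
    unfold sen
    rw [← h1]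
    refine lintegral_congr fun x => ?_
    rw [ENNReal.ofReal_mul (Real.exp_pos _).le, den_eq_wq]
  rw [h3, ENNReal.toReal_ofReal h2]

theorem hw_wq (hn : 2 ≤ n) (H : Sol R ε) : HL782.HW (wq R ε) where
  nonneg := H.wq_nonneg
  meas := H.measurable_wq
  hom := fun _ _ ht => H.wq_smul ht
  int := H.integrable_exp_wq hn

theorem Dd_nonneg (H : Sol R ε) : 0 ≤ Dd R ε :=
  integral_nonneg fun x => mul_nonneg (Real.exp_pos _).le (H.ndd_nonneg x)

theorem integral_exp_wr (hn : 2 ≤ n) (H : Sol R ε) :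
    ∫ x : EE, Real.exp (-‖x‖ ^ 2) * wr R ε x = cV EE * (3 / 4 * sen R ε) - 3 / 4 * Dd R ε := by
  rw [← H.integral_exp_wq hn]
  unfold Dd
  rw [← integral_const_mul, ← integral_sub (H.integrable_exp_wq hn)
    ((H.integrable_exp_ndd hn).const_mul _)]
  refine integral_congr_ae (Eventually.of_forall fun x => ?_)
  simp only [wr_eq]; ring

theorem hw_wr (hn : 2 ≤ n) (H : Sol R ε) : HL782.HW (wr R ε) where
  nonneg := H.wr_nonneg
  meas := H.measurable_wr
  hom := fun _ _ ht => H.wr_smul ht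
  int := by
    have h1 := (H.integrable_exp_wq hn).sub ((H.integrable_exp_ndd hn).const_mul (3 / 4))
    refine h1.congr (Eventually.of_forall fun x => ?_)
    simp only [Pi.sub_apply, wr_eq]; ring

theorem Dd_le (hn : 2 ≤ n) (H : Sol R ε) : Dd R ε ≤ cV EE * sen R ε := by
  have h1 : 0 ≤ ∫ x : EE, Real.exp (-‖x‖ ^ 2) * wr R ε x :=
    integral_nonneg fun x => mul_nonneg (Real.exp_pos _).le (H.wr_nonneg x)
  rw [H.integral_exp_wr hn] at h1
  linarith

end Sol

section seq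

variable {ι : Type*} {F : Filter ι} {R : ι → EuclideanSpace ℝ (Fin n) → ℝ} {ε : ι → ℝ}
  {r : EuclideanSpace ℝ (Fin n) → ℝ}

/-- **refined VAR at the level of `r`** -/
theorem varr_limit [F.NeBot] (hn : 3 ≤ n) (H : ∀ k, Sol (R k) (ε k)) (h0 : Tendsto ε F (𝓝 0))
    {C : ℝ} (hE : ∀ᶠ k in F, sen (R k) (ε k) ≤ C) (hconv : TendstoUniformlyOn R r F {0}ᶜ)
    {Z K : EE → ℝ} (hZ : Lip Z) (hK : Lip K) (hZc : HasCompactSupport Z)
    (hKc : HasCompactSupport K) (hle : ∀ x, |Z x| ≤ K x) (hKs : tsupport K ⊆ {0}ᶜ)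
    (hZs : tsupport Z ⊆ {0}ᶜ) {L : ℝ}
    (hL : Tendsto (fun k => ∫ x, (qq hw (R k) (ε k) x - dd hw (R k) (ε k) x) * K x) F (𝓝 L)) :
    (∫ x, gi r Z x) - (∫ x, gi (fun y => |r y|) K x) ≤ 3 / 2 * L := by
  have S := E2x858.acseq_base hn (Eventually.of_forall fun k => (H k).pos) h0
    (Eventually.of_forall fun k => (H k).sm) (Eventually.of_forall fun k => (H k).ac) hE hconv
  have h1 := S.tendsto_test hZ hZc hZs
  have h2 := (S.tendsto_T0 hK hKc hKs).const_mul (3 / 2)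
  have h3 := le_of_tendsto_of_tendsto' (h1.sub h2) (hL.const_mul (3 / 2)) (fun k => by
    have := Vb872.VAR_lip (H k).acsol (⟨hZ, hZc, hZs⟩ : Vb872.LCut {0}ᶜ Z) ⟨hK, hKc, hKs⟩ hle
    simp only [← Vb872.gi_eq_dot] at this
    exact this)
  have h4 : 3 / 2 * (2 / 3 * ∫ x, ⟪gradient (fun y => |r y|) x, gradient K x⟫) =
      ∫ x, gi (fun y => |r y|) K x := by
    unfold gi; ring
  rw [h4] at h3
  exact h3

/-- continuous, compactly supported quotient by the norm -/
theorem div_norm_test {K : EE → ℝ} (hK : Continuous K) (hKc : HasCompactSupport K)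
    (hKs : tsupport K ⊆ {0}ᶜ) :
    Continuous (fun x : EE => ‖x‖⁻¹ * K x) ∧ HasCompactSupport fun x : EE => ‖x‖⁻¹ * K x := by
  refine ⟨continuous_mul_of_tsupport isOpen_compl_singleton ?_ hK hKs, hKc.mul_left⟩
  intro x hx
  exact (continuous_norm.continuousAt.inv₀ (norm_ne_zero_iff.2 hx)).continuousWithinAt

/-- the refined density gives a measure with VAR -/
theorem var_of_wr [F.NeBot] (hn : 3 ≤ n) (H : ∀ k, Sol (R k) (ε k)) (h0 : Tendsto ε F (𝓝 0))
    {C : ℝ} (hE : ∀ᶠ k in F, sen (R k) (ε k) ≤ C) (hconv : TendstoUniformlyOn R r F {0}ᶜ)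
    {φ : EE → ℝ} (hD : ClassD φ) (hom : ∀ t : ℝ, 0 ≤ t → ∀ x, φ (t • x) = t * φ x)
    (hr : ∀ x, x ≠ 0 → r x = Real.arcsin (φ x * ‖x‖⁻¹))
    {μ : Measure EE} [IsFiniteMeasureOnCompacts μ]
    (loc : ∀ f : EE → ℝ, Continuous f → HasCompactSupport f →
      Tendsto (fun k => ∫ x, f x * wr (R k) (ε k) x) F (𝓝 (∫ x, f x ∂μ))) :
    VAR φ μ {0}ᶜ := by
  refine Vb872.VAR_of_VARr hD hom hr fun Z K hZ hK hZc hKc hle hKs hZs => ?_
  obtain ⟨c1, c2⟩ := div_norm_test hK.choose_spec.continuous hKc hKs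
  have h1 := (loc _ c1 c2).const_mul (4 / 3)
  have h2 := varr_limit hn H h0 hE hconv hZ hK hZc hKc hle hKs hZs (h1.congr fun k => by
    rw [← integral_const_mul]
    refine integral_congr_ae (Eventually.of_forall fun x => ?_)
    simp only [wr]
    by_cases hx : x = 0
    · have : K x = 0 := by
        apply image_eq_zero_of_notMem_tsupport
        intro h; exact hKs h hx
      rw [this]; ring
    · have : ‖x‖ ≠ 0 := norm_ne_zero_iff.2 hx
      field_simp)
  linarith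

/-- the plain version -/
theorem var_of_wq [F.NeBot] (hn : 3 ≤ n) (H : ∀ k, Sol (R k) (ε k)) (h0 : Tendsto ε F (𝓝 0))
    {C : ℝ} (hE : ∀ᶠ k in F, sen (R k) (ε k) ≤ C) (hconv : TendstoUniformlyOn R r F {0}ᶜ)
    {φ : EE → ℝ} (hD : ClassD φ) (hom : ∀ t : ℝ, 0 ≤ t → ∀ x, φ (t • x) = t * φ x)
    (hr : ∀ x, x ≠ 0 → r x = Real.arcsin (φ x * ‖x‖⁻¹))
    {μ : Measure EE} [IsFiniteMeasureOnCompacts μ] (loc : MLim F R ε μ) :
    VAR φ μ {0}ᶜ := by
  set 𝒰 : Ultrafilter ι := Ultrafilter.of F with h𝒰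
  have hle𝒰 : (𝒰 : Filter ι) ≤ F := Ultrafilter.of_le F
  refine Vb872.VAR_of_VARr hD hom hr fun Z K hZ hK hZc hKc hle hKs hZs => ?_
  obtain ⟨c1, c2⟩ := div_norm_test hK.choose_spec.continuous hKc hKs
  have hK0 : ∀ x, 0 ≤ K x := fun x => (abs_nonneg _).trans (hle x)
  have h1 := (loc _ c1 c2).mono_left hle𝒰
  -- the refined integrals are bounded
  have hb : ∀ k, 0 ≤ ∫ x, (qq hw (R k) (ε k) x - dd hw (R k) (ε k) x) * K x ∧
      ∫ x, (qq hw (R k) (ε k) x - dd hw (R k) (ε k) x) * K x ≤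
        4 / 3 * ∫ x, wq (R k) (ε k) x * (‖x‖⁻¹ * K x) := by
    intro k
    have hnn : ∀ x, 0 ≤ (qq hw (R k) (ε k) x - dd hw (R k) (ε k) x) * K x := by
      intro x
      by_cases hx : x = 0
      · have : K x = 0 := by
          apply image_eq_zero_of_notMem_tsupport
          intro h; exact hKs h hx
        rw [this]; simp
      · exact mul_nonneg (by linarith [dd_le_qq (H k).acsol (x := x) hx]) (hK0 x)
    refine ⟨integral_nonneg hnn, ?_⟩
    rw [← integral_const_mul]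
    refine integral_mono_of_nonneg (Eventually.of_forall hnn)
      (((H k).integrable_wq_mul (by omega) c1 c2).const_mul _) (Eventually.of_forall fun x => ?_)
    simp only
    by_cases hx : x = 0
    · have : K x = 0 := by
        apply image_eq_zero_of_notMem_tsupport
        intro h; exact hKs h hx
      rw [this]; simp
    · have h5 : ‖x‖ ≠ 0 := norm_ne_zero_iff.2 hx
      have h6 := dd_nonneg (H k).acsol (x := x) hx
      have h7 : 4 / 3 * (wq (R k) (ε k) x * (‖x‖⁻¹ * K x)) = qq hw (R k) (ε k) x * K x := by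
        unfold wq; field_simp
      rw [h7]
      have := hK0 x
      nlinarith
  have hb1 : ∃ C : ℝ, ∀ᶠ k in (𝒰 : Filter ι),
      |∫ x, (qq hw (R k) (ε k) x - dd hw (R k) (ε k) x) * K x| ≤ C := by
    refine ⟨4 / 3 * (∫ x, ‖x‖⁻¹ * K x ∂μ) + 4 / 3, ?_⟩
    filter_upwards [h1.eventually (gt_mem_nhds (lt_add_one _))] with k hk
    rw [abs_of_nonneg (hb k).1]
    refine (hb k).2.trans ?_
    linarith
  have hul := tendsto_ul 𝒰 hb1
  have h2 := varr_limit (F := (𝒰 : Filter ι)) hn H (h0.mono_left hle𝒰) (hE.filter_mono hle𝒰)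
    (fun u hu => (hconv u hu).filter_mono hle𝒰) hZ hK hZc hKc hle hKs hZs hul
  have h3 := le_of_tendsto_of_tendsto' hul (h1.const_mul (4 / 3)) fun k => (hb k).2
  linarith

end seq

/-! ### equipartition -/

/-- along every ultrafilter the energy defect vanishes -/
theorem defect_ultra {m : ℕ} (hm : 1 ≤ m) {U : Filter ℕ} {ε : ℕ → ℝ} {R : ℕ → Skel656.E m → ℝ}
    {r φ : Skel656.E m → ℝ} {μ : Measure (Skel656.E m)} {a : ℝ}
    (hL : Skel2.ACLim m U ε R r φ μ a) (hM : Skel2.LimM φ μ (a * cV (Skel656.E m)))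
    (hN : NullCone φ) (hmin : ∀ A, VB φ A → a ≤ A) (𝒰 : Ultrafilter ℕ)
    (hle : (𝒰 : Filter ℕ) ≤ U) : Tendsto (fun k => Dd (R k) (ε k)) (𝒰 : Filter ℕ) (𝓝 0) := by
  have hfinμ := hL.fin
  have hn : 2 ≤ m + 2 := by omega
  have hn3 : 3 ≤ m + 2 := by omega
  have H : ∀ k, Sol (R k) (ε k) := fun k => ACsol_sol hm (hL.sol k)
  have hcV := cV_pos (Skel656.E m)
  have h0 := hL.eps.mono_left hle
  have hconv : TendstoUniformlyOn R r (𝒰 : Filter ℕ) {0}ᶜ :=
    fun u hu => (hL.conv u hu).filter_mono hle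
  have hen : Tendsto (fun k => 3 / 4 * sen (R k) (ε k)) (𝒰 : Filter ℕ) (𝓝 a) :=
    (hL.en.mono_left hle).congr fun k => by rw [sen_eq (hL.sol k)]
  have hC : ∀ᶠ k in (𝒰 : Filter ℕ), sen (R k) (ε k) ≤ 4 / 3 * (a + 1) := by
    filter_upwards [hen.eventually (gt_mem_nhds (lt_add_one a))] with k hk
    linarith
  have hMμ : MLim (𝒰 : Filter ℕ) R ε μ := fun f hf hc => (mlim_of hL f hf hc).mono_left hle
  -- the defect
  have hDb : ∃ C : ℝ, ∀ᶠ k in (𝒰 : Filter ℕ), |Dd (R k) (ε k)| ≤ C := by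
    refine ⟨cV (Skel656.E m) * (4 / 3 * (a + 1)), ?_⟩
    filter_upwards [hC] with k hk
    rw [abs_of_nonneg (H k).Dd_nonneg]
    exact ((H k).Dd_le hn).trans (by gcongr)
  have hD := tendsto_ul 𝒰 hDb
  set D := ul 𝒰 (fun k => Dd (R k) (ε k)) with hDdef
  have hD0 : 0 ≤ D := ge_of_tendsto' hD fun k => (H k).Dd_nonneg
  -- bounded masses: modify the sequence off a large set
  obtain ⟨k0, hk0⟩ := hC.exists
  set w : ℕ → Skel656.E m → ℝ := fun k =>
    if sen (R k) (ε k) ≤ 4 / 3 * (a + 1) then wr (R k) (ε k) else wr (R k0) (ε k0) with hw'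
  have hwev : ∀ᶠ k in (𝒰 : Filter ℕ), w k = wr (R k) (ε k) := by
    filter_upwards [hC] with k hk
    simp only [hw', if_pos hk]
  have hHW : ∀ k, HL782.HW (w k) := by
    intro k
    simp only [hw']
    split_ifs
    · exact (H k).hw_wr hn
    · exact (H k0).hw_wr hn
  have hwC : ∀ k, ∫ x, Real.exp (-‖x‖ ^ 2) * w k x ≤
      cV (Skel656.E m) * (3 / 4 * (4 / 3 * (a + 1))) := by
    intro k
    simp only [hw']
    split_ifs with hk
    · rw [(H k).integral_exp_wr hn]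
      have h1 := (H k).Dd_nonneg
      have h2 : cV (Skel656.E m) * (3 / 4 * sen (R k) (ε k)) ≤
        cV (Skel656.E m) * (3 / 4 * (4 / 3 * (a + 1))) := by gcongr
      linarith
    · rw [(H k0).integral_exp_wr hn]
      have h1 := (H k0).Dd_nonneg
      have h2 : cV (Skel656.E m) * (3 / 4 * sen (R k0) (ε k0)) ≤
        cV (Skel656.E m) * (3 / 4 * (4 / 3 * (a + 1))) := by gcongr
      linarith
  obtain ⟨ν, hνfin, hνloc⟩ := HL782.exists_lim 𝒰 hHW hwC
  have hνloc' : ∀ f : Skel656.E m → ℝ, Continuous f → HasCompactSupport f →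
      Tendsto (fun k => ∫ x, f x * wr (R k) (ε k) x) (𝒰 : Filter ℕ) (𝓝 (∫ x, f x ∂ν)) := by
    intro f hf hc
    refine (hνloc f hf hc).congr' ?_
    filter_upwards [hwev] with k hk
    rw [hk]
  -- VAR
  have hr : ∀ x, x ≠ 0 → r x = Real.arcsin (φ x * ‖x‖⁻¹) := by
    intro x hx
    have h1 : ‖x‖ ≠ 0 := norm_ne_zero_iff.2 hx
    have h2 := abs_le.1 (hL.rpi x hx)
    rw [hL.phi x, mul_comm ‖x‖, mul_assoc, mul_inv_cancel₀ h1, mul_one,
      Real.arcsin_sin (by linarith) h2.2]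
  have hvar : VAR φ ν {0}ᶜ :=
    var_of_wr hn3 H h0 hC hconv hM.cD hM.hom hr hνloc'
  -- concentration
  have hφc : Continuous φ := hM.cD.lip.continuous
  have hconc : ν {x | φ x ≠ 0} = 0 := by
    refine measure_zero_of_open (isOpen_ne_fun hφc continuous_const)
      fun K hK hKW f hf hf0 hfK => ?_
    have hc : HasCompactSupport f := HasCompactSupport.intro hK hfK
    have h1 : ∫ x, f x ∂μ = 0 := by
      have h2 : f =ᵐ[μ] fun _ => 0 := by
        have h3 : ∀ᵐ x ∂μ, φ x = 0 := by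
          rw [ae_iff]; exact hM.conc
        filter_upwards [h3] with x hx
        apply hfK
        intro hxK
        exact hKW hxK hx
      rw [integral_congr_ae h2, integral_zero]
    have h2 : ∫ x, f x ∂ν ≤ ∫ x, f x ∂μ := by
      refine le_of_tendsto_of_tendsto' (hνloc' f hf hc) (hMμ f hf hc) fun k => ?_
      refine integral_mono (((H k).hw_wr hn).integrable_mul hf hc)
        ((H k).integrable_wq_mul hn hf hc) fun x => ?_
      have := (H k).wr_le x
      have := hf0 x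
      simp only
      nlinarith
    exact le_antisymm (h2.trans h1.le) (integral_nonneg hf0)
  -- mass
  have hA : Tendsto (fun k => ∫ x, Real.exp (-‖x‖ ^ 2) * w k x) (𝒰 : Filter ℕ)
      (𝓝 (cV (Skel656.E m) * a - 3 / 4 * D)) := by
    have h1 := (hen.const_mul (cV (Skel656.E m))).sub (hD.const_mul (3 / 4))
    refine h1.congr' ?_
    filter_upwards [hwev] with k hk
    rw [hk, (H k).integral_exp_wr hn]
  have hmass := HL782.mass hHW hνloc hA
  have hA0 : 0 ≤ cV (Skel656.E m) * a - 3 / 4 * D :=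
    ge_of_tendsto' hA fun k => (hHW k).integral_nonneg'
  have hVB := Vb872.VB_of_VAR (E := Skel656.E m) (by simp [Skel656.E]) hN hvar hconc hA0 hmass.le
  have h9 := hmin _ hVB
  rw [le_div_iff₀ hcV] at h9
  have hD00 : D = 0 := by
    apply le_antisymm _ hD0
    linarith
  rw [hD00] at hD
  exact hD

theorem defect_tendsto {m : ℕ} (hm : 1 ≤ m) {U : Filter ℕ} {ε : ℕ → ℝ} {R : ℕ → Skel656.E m → ℝ}
    {r φ : Skel656.E m → ℝ} {μ : Measure (Skel656.E m)} {a : ℝ}
    (hL : Skel2.ACLim m U ε R r φ μ a) (hM : Skel2.LimM φ μ (a * cV (Skel656.E m)))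
    (hN : NullCone φ) (hmin : ∀ A, VB φ A → a ≤ A) :
    Tendsto (fun k => Dd (R k) (ε k)) U (𝓝 0) :=
  (tendsto_iff_ultrafilter _ _ _).2 fun 𝒰 h𝒰 => defect_ultra hm hL hM hN hmin 𝒰 h𝒰

/-- **(Q)** -/
theorem stQ {m : ℕ} (hm : 1 ≤ m) : StQ m := by
  intro U ε R r φ μ a hL hM hN hmin
  have hU := hL.neBot
  have hn3 : 3 ≤ m + 2 := by omega
  have hdef := defect_tendsto hm hL hM hN hmin
  have hC : ∀ᶠ k in U, sen (R k) (ε k) ≤ 4 / 3 * (a + 1) := by
    filter_upwards [hL.en.eventually (gt_mem_nhds (lt_add_one a))] with k hk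
    rw [sen_eq (hL.sol k)] at hk
    linarith
  obtain ⟨k0, hk0⟩ := hC.exists
  set R' : ℕ → Skel656.E m → ℝ := fun k =>
    if sen (R k) (ε k) ≤ 4 / 3 * (a + 1) then R k else R k0 with hR'
  set ε' : ℕ → ℝ := fun k =>
    if sen (R k) (ε k) ≤ 4 / 3 * (a + 1) then ε k else ε k0 with hε'
  have hev : ∀ᶠ k in U, R' k = R k ∧ ε' k = ε k := by
    filter_upwards [hC] with k hk
    simp only [hR', hε', if_pos hk, and_self]
  have hsol : ∀ k, Skel656.ACsol m (ε' k) (R' k) := by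
    intro k
    simp only [hR', hε']
    split_ifs
    · exact hL.sol k
    · exact hL.sol k0
  have hsen : ∀ k, sen (R' k) (ε' k) ≤ 4 / 3 * (a + 1) := by
    intro k
    simp only [hR', hε']
    split_ifs with hk
    · exact hk
    · exact hk0
  have hdef' : Tendsto (fun k => Dd (R' k) (ε' k)) U (𝓝 0) := by
    refine hdef.congr' ?_
    filter_upwards [hev] with k hk
    rw [hk.1, hk.2]
  have h1 := Eqp657.disc_tendsto hn3 (C := 3 / 2 * (4 / 3 * (a + 1))) (fun k => (hsol k).sm)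
    (fun k => (hsol k).pos) (fun k => (hsol k).eq)
    (fun k => (integral_abs_slap_le hn3 (hsol k).pos (hsol k).sm (hsol k).eq).trans
      (mul_le_mul_of_nonneg_left (hsen k) (by norm_num))) hdef'
  refine h1.congr' ?_
  filter_upwards [hev] with k hk
  rw [hk.1, hk.2]
  rfl

/-- **StEqp** -/
theorem stEqp {m : ℕ} (hm : 1 ≤ m) : Skel2.StEqp m := stEqp_of hm (stQ hm)

end Crest.Agent.R246.Lim538
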