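import Crest.Agent.R246.Psi1_348
import Mathlib.Topology.UniformSpace.Ascoli
import Mathlib.Topology.MetricSpace.Equicontinuity
import Mathlib.Analysis.Calculus.MeanValue
import Mathlib.Topology.Sequences

-- ▼ part R246/Psi2_348
section

/-!
# Existence of the min-max fixed point of `Ψ`
-/

set_option autoImplicit false
set_option linter.unusedSectionVars false
set_option linter.unusedSimpArgs false
noncomputable section
open MeasureTheory Set Filter Topology Metric
open scoped RealInnerProductSpace ContDiff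

namespace Crest.Agent.R246.Psi348

open Fam348

variable {E : Type*} [NormedAddCommGroup E] [InnerProductSpace ℝ E]
variable [FiniteDimensional ℝ E] [MeasurableSpace E] [BorelSpace E]
variable {ε lam : ℝ} {G : C(sphere (0 : E) 1, ℝ) →L[ℝ] C(sphere (0 : E) 1, ℝ)}

/-- the density of the energy of `G f`. -/
lemma continuous_EnG (hG : Res ε lam G) :
    Continuous fun f : C(sphere (0 : E) 1, ℝ) => En ε (G f) := by
  obtain ⟨C, hC0, hC⟩ := hG.grad
  rw [continuous_iff_continuousAt]
  intro f0
  have hder : ∀ f : C(sphere (0 : E) 1, ℝ), ∀ y : sphere (0 : E) 1,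
      ‖fderiv ℝ (ext (G f)) (y : E) - fderiv ℝ (ext (G f0)) (y : E)‖ ≤ C * ‖f - f0‖ := by
    intro f y
    have h1 := hC (f - f0) y
    rw [map_sub, ext_sub, fderiv_sub ((C1.differentiableAt (hG.c1 f) y))
      ((C1.differentiableAt (hG.c1 f0) y))] at h1
    exact h1
  have hGn : ∀ f : C(sphere (0 : E) 1, ℝ), ∀ y, |G f y| ≤ ‖G‖ * ‖f‖ := by
    intro f y
    have h1 := ContinuousMap.norm_coe_le_norm (G f) y
    exact h1.trans (G.le_opNorm f)
  unfold En AcE
  refine continuousAt_of_dominated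
    (bound := fun _ => |ε / 2| * (C * (‖f0‖ + 1)) ^ 2 + (1 + (‖G‖ * (‖f0‖ + 1)) ^ 2) ^ 2 / |2 * ε|)
    ?_ ?_ (integrable_const _) ?_
  · refine Filter.Eventually.of_forall fun f => ?_
    have c1 : Continuous fun y : sphere (0 : E) 1 => ε / 2 * ‖fderiv ℝ (ext (G f)) (y : E)‖ ^ 2 +
        (1 - (ext (G f)) (y : E) ^ 2) ^ 2 / (2 * ε) := by
      have h2 := (C1.continuous_fderiv (hG.c1 f))
      have h3 : (fun y : sphere (0 : E) 1 => (ext (G f)) (y : E)) = fun y => G f y := by
        funext y; exact ext_coe _ y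
      have h4 : Continuous fun y : sphere (0 : E) 1 => (ext (G f)) (y : E) := by
        rw [h3]; exact (G f).continuous
      exact (continuous_const.mul (h2.norm.pow 2)).add
        (((continuous_const.sub (h4.pow 2)).pow 2).div_const _)
    exact c1.aestronglyMeasurable
  · have h5 : ∀ᶠ f in 𝓝 f0, ‖f‖ < ‖f0‖ + 1 :=
      (continuous_norm.tendsto f0).eventually_lt_const (by linarith)
    filter_upwards [h5] with f hf
    refine Filter.Eventually.of_forall fun y => ?_
    have h6 : ‖fderiv ℝ (ext (G f)) (y : E)‖ ≤ C * (‖f0‖ + 1) :=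
      (hC f y).trans (mul_le_mul_of_nonneg_left hf.le hC0)
    have h7 : |ext (G f) (y : E)| ≤ ‖G‖ * (‖f0‖ + 1) := by
      rw [ext_coe]
      exact (hGn f y).trans (mul_le_mul_of_nonneg_left hf.le (ContinuousLinearMap.opNorm_nonneg G))
    have h8 : ext (G f) (y : E) ^ 2 ≤ (‖G‖ * (‖f0‖ + 1)) ^ 2 := by
      rw [← sq_abs]
      exact pow_le_pow_left₀ (abs_nonneg _) h7 2
    have h9 : |1 - ext (G f) (y : E) ^ 2| ≤ 1 + (‖G‖ * (‖f0‖ + 1)) ^ 2 := by
      rw [abs_le]; constructor <;> nlinarith [sq_nonneg (ext (G f) (y : E))]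
    rw [Real.norm_eq_abs]
    refine (abs_add_le _ _).trans (add_le_add ?_ ?_)
    · rw [abs_mul, abs_of_nonneg (sq_nonneg ‖fderiv ℝ (ext (G f)) (y : E)‖)]
      exact mul_le_mul_of_nonneg_left (pow_le_pow_left₀ (norm_nonneg _) h6 2) (abs_nonneg _)
    · rw [abs_div, abs_pow]
      exact div_le_div_of_nonneg_right (pow_le_pow_left₀ (abs_nonneg _) h9 2) (abs_nonneg _)
  · refine Filter.Eventually.of_forall fun y => ?_
    have h10 : ContinuousAt (fun f : C(sphere (0 : E) 1, ℝ) => fderiv ℝ (ext (G f)) (y : E)) f0 := by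
      rw [ContinuousAt, tendsto_iff_norm_sub_tendsto_zero]
      have h11 : Tendsto (fun f : C(sphere (0 : E) 1, ℝ) => C * ‖f - f0‖) (𝓝 f0) (𝓝 0) := by
        have hc : Continuous fun f : C(sphere (0 : E) 1, ℝ) => C * ‖f - f0‖ :=
          continuous_const.mul (continuous_id.sub continuous_const).norm
        have := hc.tendsto f0
        simpa using this
      exact squeeze_zero (fun f => norm_nonneg _) (fun f => hder f y) h11
    have h12 : ContinuousAt (fun f : C(sphere (0 : E) 1, ℝ) => ext (G f) (y : E)) f0 := by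
      have : (fun f : C(sphere (0 : E) 1, ℝ) => ext (G f) (y : E)) = fun f => G f y := by
        funext f; exact ext_coe _ y
      rw [this]
      exact ((continuous_eval_const y).comp G.continuous).continuousAt
    exact (continuousAt_const.mul (h10.norm.pow 2)).add
      (((continuousAt_const.sub (h12.pow 2)).pow 2).div_const _)

/-- Arzelà-Ascoli for uniformly Lipschitz bounded functions. -/
lemma isCompact_lip {X : Type*} [MetricSpace X] [CompactSpace X] (M K : ℝ) :
    IsCompact {f : C(X, ℝ) | (∀ x, |f x| ≤ M) ∧ ∀ x y, |f x - f y| ≤ K * dist x y} := by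
  apply ArzelaAscoli.isCompact_of_equicontinuous
  · have himg : ContinuousMap.toFun '' {f : C(X, ℝ) | (∀ x, |f x| ≤ M) ∧
        ∀ x y, |f x - f y| ≤ K * dist x y} =
        {g : X → ℝ | (∀ x, g x ∈ Icc (-M) M) ∧ ∀ x y, |g x - g y| ≤ K * dist x y} := by
      ext g
      constructor
      · rintro ⟨f, ⟨h1, h2⟩, rfl⟩
        exact ⟨fun x => abs_le.1 (h1 x), h2⟩
      · rintro ⟨h1, h2⟩
        have hc : Continuous g := by
          refine (LipschitzWith.of_dist_le_mul (K := (max K 0).toNNReal) fun x y => ?_).continuous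
          rw [Real.dist_eq, Real.coe_toNNReal _ (le_max_right _ _)]
          exact (h2 x y).trans (mul_le_mul_of_nonneg_right (le_max_left _ _) dist_nonneg)
        exact ⟨⟨g, hc⟩, ⟨fun x => abs_le.2 (h1 x), h2⟩, rfl⟩
    rw [himg]
    have hcomp : IsCompact {g : X → ℝ | ∀ x, g x ∈ Icc (-M) M} :=
      isCompact_pi_infinite fun _ => isCompact_Icc
    have hcl : IsClosed {g : X → ℝ | ∀ x y, |g x - g y| ≤ K * dist x y} := by
      simp only [ofPred_forall]
      refine isClosed_iInter fun x => isClosed_iInter fun y => ?_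
      exact isClosed_le ((continuous_apply x).sub (continuous_apply y)).abs continuous_const
    exact hcomp.inter_right hcl
  · refine Metric.equicontinuous_of_continuity_modulus (fun t => K * t) ?_ _ ?_
    · have : Continuous fun t : ℝ => K * t := continuous_const.mul continuous_id
      simpa using this.tendsto 0
    · intro x y f
      rw [Real.dist_eq]
      exact f.2.2 x y

/-- gradient of a `0`-homogeneous function -/
lemma norm_fderiv_ext {u : C(sphere (0 : E) 1, ℝ)} (hu : C1 u) {x : E} (hx : x ≠ 0) :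
    ‖fderiv ℝ (ext u) x‖ = ‖x‖⁻¹ * ‖fderiv ℝ (ext u) (nz x hx : E)‖ := by
  have hn : 0 < ‖x‖⁻¹ := inv_pos.2 (norm_pos_iff.2 hx)
  have h1 : (fun z : E => ext u (‖x‖⁻¹ • z)) = ext u := by
    funext z; exact ext_smul u hn z
  have h2 : HasFDerivAt (fun z : E => ext u (‖x‖⁻¹ • z))
      ((fderiv ℝ (ext u) (nz x hx : E)).comp (‖x‖⁻¹ • ContinuousLinearMap.id ℝ E)) x := by
    have h3 : HasFDerivAt (fun z : E => ‖x‖⁻¹ • z) (‖x‖⁻¹ • ContinuousLinearMap.id ℝ E) x :=
      (hasFDerivAt_id x).const_smul _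
    exact HasFDerivAt.comp x (g := ext u) (hu.differentiableAt (nz x hx)).hasFDerivAt h3
  rw [h1] at h2
  rw [h2.fderiv, ContinuousLinearMap.comp_smul, ContinuousLinearMap.comp_id, norm_smul,
    Real.norm_eq_abs, abs_of_pos hn]

/-- Lipschitz bound on the sphere from the gradient bound. -/
lemma lip_of_grad {u : C(sphere (0 : E) 1, ℝ)} (hu : C1 u) {D M : ℝ} (hD : 0 ≤ D) (hM : 0 ≤ M)
    (hgrad : ∀ y : sphere (0 : E) 1, ‖fderiv ℝ (ext u) (y : E)‖ ≤ D)
    (hsup : ∀ y : sphere (0 : E) 1, |u y| ≤ M) (x y : sphere (0 : E) 1) :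
    |u x - u y| ≤ (2 * D + 2 * M) * dist x y := by
  by_cases hxy : dist x y ≤ 1
  · have hxy' : ‖(x : E) - y‖ ≤ 1 := by rwa [← dist_eq_norm]
    have hseg : ∀ z ∈ segment ℝ (x : E) (y : E), 1 / 2 ≤ ‖z‖ := by
      rintro z ⟨a, b, ha, hb, hab, rfl⟩
      have e1 : a • (x : E) + b • (y : E) = (x : E) - b • ((x : E) - y) := by
        have : a = 1 - b := by linarith
        rw [this, sub_smul, one_smul, smul_sub]; abel
      have e2 : a • (x : E) + b • (y : E) = (y : E) + a • ((x : E) - y) := by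
        have : b = 1 - a := by linarith
        rw [this, sub_smul, one_smul, smul_sub]; abel
      have hx1 : ‖(x : E)‖ = 1 := by simp
      have hy1 : ‖(y : E)‖ = 1 := by simp
      rcases le_total b (1 / 2) with h | h
      · rw [e1]
        have h2 := norm_sub_norm_le (x : E) (b • ((x : E) - y))
        have h3 : ‖b • ((x : E) - y)‖ ≤ 1 / 2 := by
          rw [norm_smul, Real.norm_eq_abs, abs_of_nonneg hb]
          nlinarith [norm_nonneg ((x : E) - y)]
        linarith
      · rw [e2]
        have h2 := norm_sub_norm_le (y : E) (-(a • ((x : E) - y)))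
        rw [sub_neg_eq_add, norm_neg] at h2
        have h3 : ‖a • ((x : E) - y)‖ ≤ 1 / 2 := by
          rw [norm_smul, Real.norm_eq_abs, abs_of_nonneg ha]
          nlinarith [norm_nonneg ((x : E) - y)]
        linarith
    have hne : ∀ z ∈ segment ℝ (x : E) (y : E), z ≠ 0 := by
      intro z hz h0
      have := hseg z hz
      rw [h0, norm_zero] at this
      norm_num at this
    have h4 := (convex_segment (𝕜 := ℝ) (x : E) (y : E)).norm_image_sub_le_of_norm_fderiv_le
      (𝕜 := ℝ) (f := ext u) (C := 2 * D)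
      (fun z hz => (hu.contDiffAt (isOpen_compl.mem_nhds (hne z hz))).differentiableAt one_ne_zero)
      (fun z hz => by
        rw [norm_fderiv_ext hu (hne z hz)]
        have h5 := hseg z hz
        have h6 : ‖z‖⁻¹ ≤ 2 := by
          rw [inv_le_comm₀ (by linarith) (by norm_num)]; linarith
        exact mul_le_mul h6 (hgrad _) (norm_nonneg _) (by norm_num))
      (right_mem_segment ℝ (x : E) (y : E)) (left_mem_segment ℝ (x : E) (y : E))
    rw [ext_coe, ext_coe, Real.norm_eq_abs, ← dist_eq_norm] at h4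
    have h7 : dist (x : E) (y : E) = dist x y := rfl
    rw [h7] at h4
    have h8 : 0 ≤ 2 * M * dist x y := by positivity
    linarith
  · rw [not_le] at hxy
    have h1 := hsup x
    have h2 := hsup y
    have h3 : |u x - u y| ≤ 2 * M := by
      have := abs_sub (u x) (u y)
      linarith
    have h4 : 2 * M ≤ 2 * M * dist x y := by nlinarith
    have h5 : 0 ≤ 2 * D * dist x y := by positivity
    linarith

/-- The images `G f` with `|f| ≤ lam` lie in a compact set. -/
lemma exists_compact (hG : Res ε lam G) (hlam : 0 < lam) :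
    ∃ K : Set C(sphere (0 : E) 1, ℝ), IsCompact K ∧
      ∀ f : C(sphere (0 : E) 1, ℝ), (∀ y, |f y| ≤ lam) → G f ∈ K := by
  obtain ⟨C, hC0, hC⟩ := hG.grad
  refine ⟨_, isCompact_lip 1 (2 * (C * lam) + 2 * 1), fun f hf => ?_⟩
  have hfn : ‖f‖ ≤ lam := (ContinuousMap.norm_le f hlam.le).2 hf
  refine ⟨hG.abs_le hlam hf, ?_⟩
  exact lip_of_grad (hG.c1 f) (by positivity) (by norm_num)
    (fun y => (hC f y).trans (mul_le_mul_of_nonneg_left hfn hC0)) (hG.abs_le hlam hf)

end Crest.Agent.R246.Psi348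
end
end

-- ▼ part R246/Psi3_348

/-!
# Min-max fixed point of `Ψ` for an arbitrary odd family
-/

set_option autoImplicit false
set_option linter.unusedSectionVars false
set_option linter.unusedSimpArgs false
noncomputable section
open MeasureTheory Set Filter Topology Metric
open scoped RealInnerProductSpace ContDiff

namespace Crest.Agent.R246.Psi348

open Fam348

variable {E : Type*} [NormedAddCommGroup E] [InnerProductSpace ℝ E]
variable [FiniteDimensional ℝ E] [MeasurableSpace E] [BorelSpace E]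
variable {ε lam : ℝ} {G : C(sphere (0 : E) 1, ℝ) →L[ℝ] C(sphere (0 : E) 1, ℝ)}

lemma continuous_EnPsi (hG : Res ε lam G) :
    Continuous fun u : C(sphere (0 : E) 1, ℝ) => En ε (Psi lam G u) :=
  (continuous_EnG hG).comp (continuous_psiF lam)

/-- restriction of an admissible function -/
def restr (w : E → ℝ) (hw : Adm w) : C(sphere (0 : E) 1, ℝ) :=
  ⟨fun y => w y, by
    have := hw.smooth.continuousOn
    exact this.comp_continuous continuous_subtype_val fun y => coe_ne_zero y⟩

lemma ext_restr {w : E → ℝ} (hw : Adm w) {x : E} (hx : x ≠ 0) : ext (restr w hw) x = w x := by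
  rw [ext_of_ne _ hx]
  show w (‖x‖⁻¹ • x) = w x
  exact hw.hom _ (inv_pos.2 (norm_pos_iff.2 hx)) x

lemma C1_restr {w : E → ℝ} (hw : Adm w) : C1 (restr w hw) := by
  unfold C1
  refine (hw.smooth.of_le (by exact_mod_cast le_top)).congr fun x hx => ?_
  exact ext_restr hw hx

lemma En_restr {w : E → ℝ} (hw : Adm w) : En ε (restr w hw) = AcE ε w := by
  unfold En AcE
  congr 1
  funext y
  have h1 : ext (restr w hw) =ᶠ[𝓝 (y : E)] w := by
    filter_upwards [isOpen_compl.mem_nhds (coe_ne_zero y)] with x hx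
    exact ext_restr hw hx
  rw [h1.fderiv_eq, h1.eq_of_nhds]

/-- If two continuous functions have `∫ (f-g)² = 0` they are equal. -/
lemma eq_of_integral_sq (f g : C(sphere (0 : E) 1, ℝ))
    (h : ∫ y : sphere (0 : E) 1, (f y - g y) ^ 2 ∂(sg E) = 0) : f = g := by
  have hcont : Continuous fun y : sphere (0 : E) 1 => (f y - g y) ^ 2 :=
    (f.continuous.sub g.continuous).pow 2
  have h1 := (integral_eq_zero_iff_of_nonneg (μ := sg E)
    (fun y => sq_nonneg (f y - g y)) (integrable_cont hcont)).1 h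
  have h2 : (fun y : sphere (0 : E) 1 => (f y - g y) ^ 2) = fun _ => 0 :=
    Measure.eq_of_ae_eq h1 hcont continuous_const
  ext y
  have h3 : (f y - g y) ^ 2 = 0 := congrFun h2 y
  have := pow_eq_zero_iff (two_ne_zero) |>.1 h3
  linarith

/-- **Min-max fixed point** for an arbitrary (compact) parameter space with involution. -/
theorem exists_fixed (hG : Res ε lam G) (hε : 0 < ε) (hlam : 4 ≤ lam)
    {P : Type*} [TopologicalSpace P] [CompactSpace P] [Nonempty P] (ν : P → P)
    (U : C(P, C(sphere (0 : E) 1, ℝ))) (hodd : ∀ p, U (ν p) = - U p)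
    (hU : ∀ p y, |U p y| ≤ 1) {A B : ℝ}
    (happ : ∀ p, ∀ δ > 0, ∃ w : E → ℝ, Adm w ∧ (∀ y : sphere (0 : E) 1, |w y - U p y| ≤ δ) ∧
      AcE ε w ≤ A + δ)
    (hB : ∀ V : C(P, C(sphere (0 : E) 1, ℝ)), (∀ p, V (ν p) = - V p) →
      (∀ p y, |V p y| ≤ 1) → (∀ p, C1 (V p)) → (∀ p, En ε (V p) ≤ A) →
      ∃ p, B ≤ En ε (V p)) :
    ∃ u : C(sphere (0 : E) 1, ℝ), (∀ y, |u y| ≤ 1) ∧ Psi lam G u = u ∧
      B ≤ En ε u ∧ En ε u ≤ A := by
  have hEP := continuous_EnPsi hG
  -- the iterated family
  let V : ℕ → C(P, C(sphere (0 : E) 1, ℝ)) := fun j =>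
    Nat.rec U (fun _ W => ⟨fun p => Psi lam G (W p), continuous_Psi.comp W.continuous⟩) j
  have V0 : V 0 = U := rfl
  have Vs : ∀ j p, V (j + 1) p = Psi lam G (V j p) := fun j p => rfl
  have Vodd : ∀ j p, V j (ν p) = - V j p := by
    intro j
    induction j with
    | zero => exact hodd
    | succ j ih => intro p; rw [Vs, Vs, ih, Psi_neg]
  have Vbd : ∀ j p y, |V j p y| ≤ 1 := by
    intro j
    induction j with
    | zero => exact hU
    | succ j ih => intro p y; rw [Vs]; exact Psi_abs_le hG hlam (ih p) y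
  have VC1 : ∀ j p, C1 (V (j + 1) p) := fun j p => by rw [Vs]; exact hG.c1 _
  -- energies
  have ec : ∀ j, Continuous fun p => En ε (V (j + 1) p) := fun j => hEP.comp (V j).continuous
  have hmax : ∀ j, ∃ q, ∀ p, En ε (V (j + 1) p) ≤ En ε (V (j + 1) q) := by
    intro j
    obtain ⟨q, -, hq⟩ := isCompact_univ.exists_isMaxOn univ_nonempty (ec j).continuousOn
    exact ⟨q, fun p => hq (mem_univ p)⟩
  choose q hq using hmax
  set a : ℕ → ℝ := fun j => En ε (V (j + 1) (q j)) with ha
  have hdec : ∀ j p, En ε (V (j + 2) p) + 2 / ε *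
      ∫ y : sphere (0 : E) 1, (V (j + 1) p y - V (j + 2) p y) ^ 2 ∂(sg E) ≤ En ε (V (j + 1) p) := by
    intro j p
    exact energy_decrease hG hε hlam (VC1 j p) (Vbd (j + 1) p)
  have hnn : ∀ j p, 0 ≤ 2 / ε *
      ∫ y : sphere (0 : E) 1, (V (j + 1) p y - V (j + 2) p y) ^ 2 ∂(sg E) := by
    intro j p
    have : 0 ≤ ∫ y : sphere (0 : E) 1, (V (j + 1) p y - V (j + 2) p y) ^ 2 ∂(sg E) :=
      integral_nonneg fun y => sq_nonneg _
    positivity
  have V1A : ∀ p0, En ε (V 1 p0) ≤ A := by
    intro p0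
    rw [show V 1 p0 = Psi lam G (U p0) from rfl]
    have hap : ∀ n : ℕ, ∃ w : E → ℝ, ∃ hw : Adm w, (∀ y : sphere (0 : E) 1,
        |w y - U p0 y| ≤ 1 / ((n : ℝ) + 1)) ∧ AcE ε w ≤ A + 1 / ((n : ℝ) + 1) := by
      intro n
      obtain ⟨w, hw, h1, h2⟩ := happ p0 (1 / ((n : ℝ) + 1)) (by positivity)
      exact ⟨w, hw, h1, h2⟩
    choose w hw hw1 hw2 using hap
    have hlim : Tendsto (fun n => restr (w n) (hw n)) atTop (𝓝 (U p0)) := by
      rw [tendsto_iff_dist_tendsto_zero]
      refine squeeze_zero (fun n => dist_nonneg) (fun n => ?_)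
        (tendsto_one_div_add_atTop_nhds_zero_nat (𝕜 := ℝ))
      rw [ContinuousMap.dist_le (by positivity)]
      intro y
      rw [Real.dist_eq]
      exact hw1 n y
    have hle : ∀ n, En ε (Psi lam G (restr (w n) (hw n))) ≤ A + 1 / ((n : ℝ) + 1) := by
      intro n
      have h1 := energy_decrease hG hε hlam (C1_restr (hw n)) (fun y => (hw n).bd y)
      have h2 : 0 ≤ 2 / ε * ∫ y : sphere (0 : E) 1,
          (restr (w n) (hw n) y - Psi lam G (restr (w n) (hw n)) y) ^ 2 ∂(sg E) := by
        have : 0 ≤ ∫ y : sphere (0 : E) 1,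
          (restr (w n) (hw n) y - Psi lam G (restr (w n) (hw n)) y) ^ 2 ∂(sg E) :=
          integral_nonneg fun y => sq_nonneg _
        positivity
      rw [En_restr] at h1
      have := hw2 n
      linarith
    have hl1 := (hEP.tendsto (U p0)).comp hlim
    have hl2 : Tendsto (fun n : ℕ => A + 1 / ((n : ℝ) + 1)) atTop (𝓝 (A + 0)) :=
      tendsto_const_nhds.add (tendsto_one_div_add_atTop_nhds_zero_nat (𝕜 := ℝ))
    rw [add_zero] at hl2
    exact le_of_tendsto_of_tendsto' hl1 hl2 hle
  have VA : ∀ j p, En ε (V (j + 1) p) ≤ A := by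
    intro j
    induction j with
    | zero => exact V1A
    | succ j ih =>
      intro p
      have h1 := hdec j p
      have h2 := hnn j p
      have h3 := ih p
      show En ε (V (j + 2) p) ≤ A
      linarith
  have aB : ∀ j, B ≤ a j := by
    intro j
    obtain ⟨p, hp⟩ := hB (V (j + 1)) (Vodd (j + 1)) (Vbd (j + 1)) (VC1 j) (VA j)
    exact hp.trans (hq j p)
  have amono : Antitone a := by
    refine antitone_nat_of_succ_le fun j => ?_
    have h1 := hdec j (q (j + 1))
    have h2 := hnn j (q (j + 1))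
    have h3 := hq j (q (j + 1))
    show En ε (V (j + 2) (q (j + 1))) ≤ En ε (V (j + 1) (q j))
    linarith
  -- limit of `a`
  have abdd : BddBelow (range a) := ⟨B, by rintro _ ⟨j, rfl⟩; exact aB j⟩
  have alim := tendsto_atTop_ciInf amono abdd
  set L := ⨅ j, a j with hL
  have LB : B ≤ L := le_ciInf aB
  have LA : L ≤ A := (ciInf_le abdd 0).trans (VA 0 (q 0))
  -- the sequence
  obtain ⟨K, hK, hKG⟩ := exists_compact hG (by linarith : 0 < lam)
  have hmem : ∀ j, V (j + 1) (q (j + 1)) ∈ K := by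
    intro j
    rw [Vs]
    exact hKG _ (psiF_abs_le hlam (Vbd j _))
  obtain ⟨w, hwK, φ, hφ, hw⟩ := hK.tendsto_subseq hmem
  have hwbd : ∀ y, |w y| ≤ 1 := by
    intro y
    have h1 : Tendsto (fun k => |V (φ k + 1) (q (φ k + 1)) y|) atTop (𝓝 |w y|) :=
      (((continuous_eval_const y).tendsto w).comp hw).abs
    exact le_of_tendsto' h1 fun k => Vbd (φ k + 1) (q (φ k + 1)) y
  have a1lim : Tendsto (fun k => a (φ k + 1)) atTop (𝓝 L) :=
    (((tendsto_add_atTop_iff_nat 1).2 alim)).comp hφ.tendsto_atTop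
  have a0lim : Tendsto (fun k => a (φ k)) atTop (𝓝 L) := alim.comp hφ.tendsto_atTop
  -- energy of the limit
  have hE : En ε (Psi lam G w) = L := by
    have h1 := (hEP.tendsto w).comp hw
    exact tendsto_nhds_unique h1 a1lim
  -- fixed point
  have hint : ∫ y : sphere (0 : E) 1, (w y - Psi lam G w y) ^ 2 ∂(sg E) = 0 := by
    have hcI : Continuous fun f : C(sphere (0 : E) 1, ℝ) =>
        ∫ y : sphere (0 : E) 1, f y ∂(sg E) := by
      refine (LipschitzWith.of_dist_le_mul (K := ((sg E).real univ).toNNReal)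
        fun f g => ?_).continuous
      rw [Real.coe_toNNReal _ measureReal_nonneg, Real.dist_eq,
        ← integral_sub (integrable_cont f.continuous) (integrable_cont g.continuous), mul_comm]
      have hb : ∀ᵐ y ∂(sg E), ‖f y - g y‖ ≤ dist f g := by
        refine Filter.Eventually.of_forall fun y => ?_
        rw [← dist_eq_norm]
        exact ContinuousMap.dist_apply_le_dist y
      exact norm_integral_le_of_norm_le_const (μ := sg E) hb
    have hc2 : Continuous fun u : C(sphere (0 : E) 1, ℝ) =>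
        ∫ y : sphere (0 : E) 1, (u y - Psi lam G u y) ^ 2 ∂(sg E) := by
      have h4 : Continuous fun u : C(sphere (0 : E) 1, ℝ) => (u - Psi lam G u) * (u - Psi lam G u) := by
        have h5 : Continuous fun u : C(sphere (0 : E) 1, ℝ) => u - Psi lam G u :=
          continuous_id.sub continuous_Psi
        exact h5.mul h5
      refine (hcI.comp h4).congr fun u => ?_
      simp only [Function.comp]
      congr 1
      funext y
      simp only [ContinuousMap.mul_apply, ContinuousMap.sub_apply]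
      ring
    have h6 := (hc2.tendsto w).comp hw
    have h7 : Tendsto (fun k => ε / 2 * (a (φ k) - a (φ k + 1))) atTop (𝓝 (ε / 2 * (L - L))) :=
      (a0lim.sub a1lim).const_mul _
    rw [sub_self, mul_zero] at h7
    refine le_antisymm ?_ (integral_nonneg fun y => sq_nonneg _)
    refine le_of_tendsto_of_tendsto' h6 h7 fun k => ?_
    simp only [Function.comp]
    have h8 := hdec (φ k) (q (φ k + 1))
    have h9 := hq (φ k) (q (φ k + 1))
    have h10 : 2 / ε * ∫ y : sphere (0 : E) 1, (V (φ k + 1) (q (φ k + 1)) y -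
        V (φ k + 2) (q (φ k + 1)) y) ^ 2 ∂(sg E) ≤ a (φ k) - a (φ k + 1) := by
      show _ ≤ En ε (V (φ k + 1) (q (φ k))) - En ε (V (φ k + 2) (q (φ k + 1)))
      linarith
    rw [div_mul_eq_mul_div, div_le_iff₀ hε] at h10
    have h11 : ∫ y : sphere (0 : E) 1, (V (φ k + 1) (q (φ k + 1)) y -
        Psi lam G (V (φ k + 1) (q (φ k + 1))) y) ^ 2 ∂(sg E) =
        ∫ y : sphere (0 : E) 1, (V (φ k + 1) (q (φ k + 1)) y -
        V (φ k + 2) (q (φ k + 1)) y) ^ 2 ∂(sg E) := rfl
    rw [h11]
    linarith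
  have hfix : w = Psi lam G w := eq_of_integral_sq _ _ hint
  refine ⟨w, hwbd, hfix.symm, ?_, ?_⟩
  · rw [hfix, hE]; exact LB
  · rw [hfix, hE]; exact LA

end Crest.Agent.R246.Psi348
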