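import Crest.Agent.R246.Brg_657
import Crest.Agent.R246.Artanh_657
import Crest.Agent.R246.Psi3_348
import Crest.Agent.R246.C5_378
import Crest.Agent.R246.ThetaK_688
import Crest.Agent.Lib.BorsukUlam
import Crest.Agent.R246.StFam_348
import Crest.Agent.R246.Res_797

-- ▼ part R246/Brg2_657
section

/-!
# R246, block D0 (R6), second part: gradient, Laplacian and energy of the extension (helper657)

* `norm_sq_fderiv_ext` : `‖∇ ext u‖² = Σ_a (u' a)²` on the sphere;
* `slap_ext` : `Δ_S u = Σ_a u'' a`;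
* `acU_ext`, `acE_ext`.
-/

set_option autoImplicit false
set_option linter.unusedSectionVars false

noncomputable section
open MeasureTheory Set Filter Topology Metric
open scoped RealInnerProductSpace ContDiff
open Crest.GeometryTopology.CoordMetric Crest.GeometryTopology.AffineMaximal
open Crest.Agent.R236.Jet Crest.Agent.R246.D2x782
open Crest.Agent.R246.Zon797 (EE SS Pr HasRot rotV rotE rotS nrm two_sum_Pr sum_mul_coord)
open Crest.Agent.R246.Moll657 (AcE acDen)
open Crest.Agent.R246.Artanh657 (ACu)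

namespace Crest.Agent.R246.Brg657

variable {d : ℕ}

theorem fderiv_Aa (f : EE d → ℝ) (x : EE d) (a : Pr d) :
    fderiv ℝ f x (Aa a x) = x a.1.1 * pderiv a.1.2 f x - x a.1.2 * pderiv a.1.1 f x := by
  unfold Aa pderiv
  rw [map_sub, map_smul, map_smul, smul_eq_mul, smul_eq_mul]




section

variable {u : C(SS d, ℝ)} {u' : Pr d → C(SS d, ℝ)}


/-- the rotation derivatives are the components of the gradient -/
theorem hasRot_val (h : ∀ a, HasRot a u (u' a)) (a : Pr d) (x : SS d) :
    u' a x = fderiv ℝ (ext u) x (Aa a x) :=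
  hasRot_eq a (fun z => (ext_coe u z).symm) (hasFDerivAt_ext h (coe_ne x)).differentiableAt (h a)



/-! ### Laplacian -/

/-- the extension of the rotation derivative is the rotation derivative of the extension -/
theorem ext_rot_eq (h : ∀ a, HasRot a u (u' a)) (a : Pr d) {x : EE d} (hx : x ≠ 0) :
    ext (u' a) x = fderiv ℝ (ext u) x (Aa a x) := by
  have hn : 0 < ‖x‖ := norm_pos_iff.2 hx
  set y : SS d := toS x hx with hy
  have hyc : (y : EE d) = ‖x‖⁻¹ • x := rfl
  have h1 : ext (u' a) x = fderiv ℝ (ext u) y (Aa a y) := by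
    rw [ext_of_ne (u' a) hx]; exact hasRot_val h a y
  have h2 : ∀ v, fderiv ℝ (ext u) y v = ‖x‖ * fderiv ℝ (ext u) x v := by
    intro v
    rw [fderiv_ext h hx, fderiv_ext h (coe_ne y), Dext_apply, Dext_apply, nrm y]
    have h3 : ∀ b : Pr d, ext (u' b) (y : EE d) = ext (u' b) x := fun b => by
      rw [hyc, ext_smul _ (inv_pos.2 hn)]
    rw [Finset.sum_congr rfl fun b _ => by rw [h3 b]]
    simp only [hyc, PiLp.smul_apply, smul_eq_mul]
    rw [Finset.mul_sum, Finset.mul_sum, Finset.mul_sum]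
    refine Finset.sum_congr rfl fun b _ => ?_
    field_simp
  have h4 : Aa a (y : EE d) = ‖x‖⁻¹ • Aa a x := by
    rw [hyc]
    unfold Aa
    simp only [PiLp.smul_apply, smul_eq_mul, smul_sub, smul_smul]
  rw [h1, h2, h4, map_smul, smul_eq_mul]
  field_simp

variable {u'' : Pr d → C(SS d, ℝ)}

/-- **(Br4)** the spherical Laplacian is the sum of the squares of the rotation fields -/
theorem slap_ext (hs : SmHom0 (ext u)) (h : ∀ a, HasRot a u (u' a))
    (h2 : ∀ a, HasRot a (u' a) (u'' a)) (x : SS d) : slap (ext u) x = ∑ a : Pr d, u'' a x := by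
  set w := ext u with hw
  have hx := coe_ne x
  -- values of the second rotation derivatives
  have h3 : ∀ a : Pr d, u'' a x =
      (x : EE d) a.1.1 * ((x : EE d) a.1.1 * hessianMat w x a.1.2 a.1.2 - pderiv a.1.1 w x
        - (x : EE d) a.1.2 * hessianMat w x a.1.2 a.1.1) -
      (x : EE d) a.1.2 * (pderiv a.1.2 w x + (x : EE d) a.1.1 * hessianMat w x a.1.1 a.1.2
        - (x : EE d) a.1.2 * hessianMat w x a.1.1 a.1.1) := by
    intro a
    set i := a.1.1 with hi
    set j := a.1.2 with hj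
    have hij : i ≠ j := a.ne
    -- `ext (u' a)` near `x`
    have e1 : ext (u' a) =ᶠ[𝓝 (x : EE d)] fun z => z i * pderiv j w z - z j * pderiv i w z := by
      filter_upwards [isOpen_ne.mem_nhds hx] with z hz
      rw [ext_rot_eq h a hz, fderiv_Aa]
    have hsm : ∀ k, ContDiffAt ℝ ∞ (fun z => pderiv k w z) x := fun k => hs.sp hx k
    have hd : ∀ k, DifferentiableAt ℝ (fun z => pderiv k w z) (x : EE d) := fun k => sm_diff (hsm k)
    have hc : ∀ k, DifferentiableAt ℝ (fun z : EE d => z k) (x : EE d) := fun k =>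
      sm_diff (smooth_coord k _)
    have e2 : ∀ k l m : Fin d, pderiv k (fun z => z l * pderiv m w z) (x : EE d) =
        (x : EE d) l * hessianMat w x k m + (if l = k then pderiv m w x else 0) := by
      intro k l m
      rw [pderiv_mul (f := fun z : EE d => z l) (g := fun z => pderiv m w z) (hc l) (hd m),
        pderiv_coord]
      unfold hessianMat
      split_ifs <;> simp
    have e3 : ∀ k, pderiv k (ext (u' a)) (x : EE d) =
        ((x : EE d) i * hessianMat w x k j + (if i = k then pderiv j w x else 0)) -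
        ((x : EE d) j * hessianMat w x k i + (if j = k then pderiv i w x else 0)) := by
      intro k
      rw [pderiv_congr e1 k]
      have := pderiv_sub (f := fun z : EE d => z i * pderiv j w z)
        (g := fun z : EE d => z j * pderiv i w z) (x := (x : EE d))
        ((hc i).mul (hd j)) ((hc j).mul (hd i)) k
      rw [this, e2, e2]
    have e4 : DifferentiableAt ℝ (ext (u' a)) (x : EE d) := by
      have : DifferentiableAt ℝ (fun z : EE d => z i * pderiv j w z - z j * pderiv i w z) (x : EE d) :=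
        ((hc i).mul (hd j)).sub ((hc j).mul (hd i))
      exact this.congr_of_eventuallyEq e1
    have e5 := hasRot_eq a (fun z => (ext_coe (u' a) z).symm) e4 (h2 a)
    rw [e5, fderiv_Aa, e3, e3]
    simp only [← hi, ← hj, hij, hij.symm, if_true, if_false]
    ring
  -- the sum
  have h4 := two_sum_Pr (d := d) (fun i j =>
      (x : EE d) i * (x : EE d) i * hessianMat w x j j + (x : EE d) j * (x : EE d) j * hessianMat w x i i
      - (x : EE d) i * (x : EE d) j * hessianMat w x i j - (x : EE d) i * (x : EE d) j * hessianMat w x j i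
      - (x : EE d) i * pderiv i w x - (x : EE d) j * pderiv j w x) (fun i j => by ring)
  have h5 : ∑ a : Pr d, u'' a x = ∑ a : Pr d,
      ((x : EE d) a.1.1 * (x : EE d) a.1.1 * hessianMat w x a.1.2 a.1.2
      + (x : EE d) a.1.2 * (x : EE d) a.1.2 * hessianMat w x a.1.1 a.1.1
      - (x : EE d) a.1.1 * (x : EE d) a.1.2 * hessianMat w x a.1.1 a.1.2
      - (x : EE d) a.1.1 * (x : EE d) a.1.2 * hessianMat w x a.1.2 a.1.1
      - (x : EE d) a.1.1 * pderiv a.1.1 w x - (x : EE d) a.1.2 * pderiv a.1.2 w x) :=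
    Finset.sum_congr rfl fun a _ => by rw [h3 a]; ring
  rw [← h5] at h4
  have hxx : ∑ i, (x : EE d) i * (x : EE d) i = 1 := by
    rw [sum_mul_coord, real_inner_self_eq_norm_sq, nrm]; norm_num
  have heul : ∑ i, (x : EE d) i * pderiv i w x = 0 := hs.euler hx
  have hrad : ∀ j, ∑ i, (x : EE d) i * hessianMat w x j i = - pderiv j w x := fun j =>
    hs.hess_radial hx j
  have s1 : ∑ i, ∑ j, (x : EE d) i * (x : EE d) i * hessianMat w x j j = lapl w x := by
    simp only [← Finset.mul_sum]
    rw [← Finset.sum_mul, hxx, one_mul]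
    rfl
  have s2 : ∑ i, ∑ j, (x : EE d) j * (x : EE d) j * hessianMat w x i i = lapl w x := by
    simp only [← Finset.sum_mul]
    rw [hxx]
    simp only [one_mul]
    rfl
  have s3 : ∑ i, ∑ j, (x : EE d) i * (x : EE d) j * hessianMat w x i j = 0 := by
    have : ∀ i, ∑ j, (x : EE d) i * (x : EE d) j * hessianMat w x i j =
        - ((x : EE d) i * pderiv i w x) := fun i => by
      have e : ∑ j, (x : EE d) i * (x : EE d) j * hessianMat w x i j =
          (x : EE d) i * ∑ j, (x : EE d) j * hessianMat w x i j := by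
        rw [Finset.mul_sum]; exact Finset.sum_congr rfl fun j _ => by ring
      rw [e, hrad i]; ring
    rw [Finset.sum_congr rfl fun i _ => this i, Finset.sum_neg_distrib, heul, neg_zero]
  have s4 : ∑ i, ∑ j, (x : EE d) i * (x : EE d) j * hessianMat w x j i = 0 := by
    rw [Finset.sum_comm]
    rw [← s3]
    exact Finset.sum_congr rfl fun i _ => Finset.sum_congr rfl fun j _ => by ring
  have s5 : ∑ i : Fin d, ∑ _j : Fin d, (x : EE d) i * pderiv i w x = 0 := by
    rw [Finset.sum_comm]
    exact Finset.sum_eq_zero fun j _ => heul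
  have s6 : ∑ _i : Fin d, ∑ j : Fin d, (x : EE d) j * pderiv j w x = 0 :=
    Finset.sum_eq_zero fun i _ => heul
  have hdiag : ∑ i, ((x : EE d) i * (x : EE d) i * hessianMat w x i i
      + (x : EE d) i * (x : EE d) i * hessianMat w x i i
      - (x : EE d) i * (x : EE d) i * hessianMat w x i i
      - (x : EE d) i * (x : EE d) i * hessianMat w x i i
      - (x : EE d) i * pderiv i w x - (x : EE d) i * pderiv i w x) = 0 := by
    have : ∀ i, ((x : EE d) i * (x : EE d) i * hessianMat w x i i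
      + (x : EE d) i * (x : EE d) i * hessianMat w x i i
      - (x : EE d) i * (x : EE d) i * hessianMat w x i i
      - (x : EE d) i * (x : EE d) i * hessianMat w x i i
      - (x : EE d) i * pderiv i w x - (x : EE d) i * pderiv i w x) =
      -2 * ((x : EE d) i * pderiv i w x) := fun i => by ring
    rw [Finset.sum_congr rfl fun i _ => this i, ← Finset.mul_sum, heul, mul_zero]
  have htot : ∑ i, ∑ j, ((x : EE d) i * (x : EE d) i * hessianMat w x j j
      + (x : EE d) j * (x : EE d) j * hessianMat w x i i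
      - (x : EE d) i * (x : EE d) j * hessianMat w x i j
      - (x : EE d) i * (x : EE d) j * hessianMat w x j i
      - (x : EE d) i * pderiv i w x - (x : EE d) j * pderiv j w x) = 2 * lapl w x := by
    simp only [Finset.sum_sub_distrib, Finset.sum_add_distrib]
    rw [s1, s2, s3, s4, s5, s6]
    ring
  rw [htot, hdiag] at h4
  have h6 : slap w x = lapl w x := by
    unfold slap; rw [nsq_eq, nrm x]; ring
  rw [h6]
  linarith

end

/-! ### homogeneity of `slap`, the Allen–Cahn equation -/

theorem smHom0_ext {u : C(SS d, ℝ)} (h : ContDiffOn ℝ ∞ (ext u) {0}ᶜ) : SmHom0 (ext u) where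
  smooth x hx := h.contDiffAt (isOpen_compl_singleton.mem_nhds hx)
  hom t x ht := ext_smul u ht x

theorem smHom0_of_rotSm {u : C(SS d, ℝ)} (h : ∀ k, RotSm k u) : SmHom0 (ext u) :=
  smHom0_ext (contDiffOn_ext_infty h)

theorem slap_smul {R : EE d → ℝ} (h : SmHom0 R) {x : EE d} (hx : x ≠ 0) {t : ℝ} (ht : 0 < t) :
    slap R (t • x) = slap R x := by
  have htx : t • x ≠ 0 := smul_ne_zero ht.ne' hx
  have key : ∀ i : Fin d, hessianMat R (t • x) i i = (t ^ 2)⁻¹ * hessianMat R x i i := by
    intro i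
    have hd : DifferentiableAt ℝ (fun y => pderiv i R y) (t • x) := sm_diff (h.sp htx i)
    have h1 : HasFDerivAt (fun y : EE d => pderiv i R (t • y))
        ((fderiv ℝ (fun y => pderiv i R y) (t • x)).comp (t • ContinuousLinearMap.id ℝ (EE d))) x :=
      hd.hasFDerivAt.comp x ((t • ContinuousLinearMap.id ℝ (EE d)).hasFDerivAt (x := x))
    have h2 : (fun y : EE d => pderiv i R (t • y)) =ᶠ[𝓝 x] fun y => t⁻¹ * pderiv i R y := by
      filter_upwards [isOpen_ne.mem_nhds hx] with y hy using h.pderiv_smul hy ht i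
    have h3 : HasFDerivAt (fun y : EE d => t⁻¹ * pderiv i R y)
        (t⁻¹ • fderiv ℝ (fun y => pderiv i R y) x) x :=
      (sm_diff (h.sp hx i)).hasFDerivAt.const_mul t⁻¹
    have h4 := (h1.congr_of_eventuallyEq h2.symm).unique h3
    have h5 := congrArg (fun L : EE d →L[ℝ] ℝ => L (EuclideanSpace.single i 1)) h4
    simp only [ContinuousLinearMap.comp_apply, smul_apply, ContinuousLinearMap.id_apply,
      map_smul, smul_eq_mul] at h5
    have h6 : t * hessianMat R (t • x) i i = t⁻¹ * hessianMat R x i i := h5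
    have ht' := ht.ne'
    field_simp at h6 ⊢
    linarith
  unfold slap lapl
  rw [nsq_eq, nsq_eq, norm_smul, Real.norm_eq_abs, abs_of_pos ht,
    Finset.sum_congr rfl fun i _ => key i, ← Finset.mul_sum]
  field_simp

/-- the Allen–Cahn equation for the extension, from the equation on the sphere -/
theorem acU_ext {ε : ℝ} (hε : 0 < ε) {u : C(SS d, ℝ)} {u' u'' : Pr d → C(SS d, ℝ)}
    (hs : SmHom0 (ext u)) (h : ∀ a, HasRot a u (u' a)) (h2 : ∀ a, HasRot a (u' a) (u'' a))
    (heq : ∀ x : SS d, ε ^ 2 * ∑ a : Pr d, u'' a x = -2 * u x * (1 - u x ^ 2)) :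
    ACu ε (ext u) := by
  intro x hx
  have hn : 0 < ‖x‖ := norm_pos_iff.2 hx
  have h1 := slap_smul hs hx (inv_pos.2 hn)
  have h3 := slap_ext hs h h2 (toS x hx)
  have h4 : ((toS x hx : SS d) : EE d) = ‖x‖⁻¹ • x := rfl
  rw [h4, h1] at h3
  rw [h3, ext_of_ne u hx]
  have h5 := heq (toS x hx)
  have hε' := hε.ne'
  field_simp
  linarith


end Crest.Agent.R246.Brg657
end
end

-- ▼ part R246/Low_348
section

/-!
# The lower bound for odd families (Borsuk-Ulam + kernel inequality)
-/

set_option autoImplicit false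
set_option linter.unusedSectionVars false
set_option linter.unusedSimpArgs false
noncomputable section
open MeasureTheory Set Filter Topology Metric
open scoped RealInnerProductSpace ContDiff NNReal

namespace Crest.Agent.R246.Low348

open Fam348 Psi348 C378
open Crest.GeometryTopology.SphereImmersion

/-! ### generalities -/

section gen

variable {E : Type*} [NormedAddCommGroup E] [InnerProductSpace ℝ E]

/-- `Φ(u) = u - u³/3`. -/
def phiC (u : C(sphere (0 : E) 1, ℝ)) : C(sphere (0 : E) 1, ℝ) :=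
  u - (1 / 3 : ℝ) • (u * (u * u))

@[simp] lemma phiC_apply (u : C(sphere (0 : E) 1, ℝ)) (y : sphere (0 : E) 1) :
    phiC u y = u y - 1 / 3 * (u y * (u y * u y)) := by
  simp [phiC]

lemma phiC_neg (u : C(sphere (0 : E) 1, ℝ)) : phiC (-u) = - phiC u := by
  ext y
  simp only [phiC_apply, ContinuousMap.neg_apply]
  ring

lemma ext_phiC (u : C(sphere (0 : E) 1, ℝ)) (x : E) :
    ext (phiC u) x = ext u x - 1 / 3 * (ext u x * (ext u x * ext u x)) := by
  by_cases hx : x = 0
  · rw [hx, ext_zero, ext_zero]; ring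
  · rw [ext_of_ne _ hx, ext_of_ne _ hx, phiC_apply]

variable [FiniteDimensional ℝ E] [MeasurableSpace E] [BorelSpace E]

lemma continuous_phiC : Continuous fun u : C(sphere (0 : E) 1, ℝ) => phiC u := by
  have h : Continuous fun u : C(sphere (0 : E) 1, ℝ) => u := continuous_id
  exact h.sub ((h.mul (h.mul h)).const_smul (1 / 3 : ℝ))

lemma C1_phiC {u : C(sphere (0 : E) 1, ℝ)} (hu : C1 u) : C1 (phiC u) := by
  unfold C1 at hu ⊢
  have : ext (phiC u) = fun x => ext u x - 1 / 3 * (ext u x * (ext u x * ext u x)) := by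
    funext x; exact ext_phiC u x
  rw [this]
  exact hu.sub (contDiffOn_const.mul (hu.mul (hu.mul hu)))

lemma gradient_phiC {u : C(sphere (0 : E) 1, ℝ)} (hu : C1 u) (y : sphere (0 : E) 1) :
    gradient (ext (phiC u)) (y : E) = (1 - u y ^ 2) • gradient (ext u) (y : E) := by
  have h1 : ext (phiC u) = fun x => ext u x - 1 / 3 * (ext u x * (ext u x * ext u x)) := by
    funext x; exact ext_phiC u x
  have hd := (hu.differentiableAt y).hasFDerivAt
  have h2 : HasFDerivAt (fun x => ext u x - 1 / 3 * (ext u x * (ext u x * ext u x)))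
      (fderiv ℝ (ext u) y - (1 / 3 : ℝ) • (ext u y • (ext u y • fderiv ℝ (ext u) y +
        ext u y • fderiv ℝ (ext u) y) + (ext u y * ext u y) • fderiv ℝ (ext u) y)) (y : E) :=
    hd.sub ((hd.mul (hd.mul hd)).const_mul (1 / 3 : ℝ))
  unfold gradient
  rw [h1, h2.fderiv, ext_coe, ← map_smul]
  congr 1
  ext v
  simp only [sub_apply, smul_apply,
    add_apply, smul_eq_mul]
  ring

/-- continuity of the moments -/
lemma continuous_moment {F : Type*} [NormedAddCommGroup F] [NormedSpace ℝ F] [CompleteSpace F]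
    (g : sphere (0 : E) 1 → F) (hg : Continuous g) (hg1 : ∀ y, ‖g y‖ ≤ 1) :
    Continuous fun f : C(sphere (0 : E) 1, ℝ) => ∫ y : sphere (0 : E) 1, f y • g y ∂(sg E) := by
  refine (LipschitzWith.of_dist_le_mul (K := ((sg E).real univ).toNNReal)
    fun f h => ?_).continuous
  have hi : ∀ f : C(sphere (0 : E) 1, ℝ), Integrable (fun y => f y • g y) (sg E) := by
    intro f
    have hc : Continuous fun y => f y • g y := f.continuous.smul hg
    have h2 := hc.continuousOn.integrableOn_compact (μ := sg E) isCompact_univ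
    rwa [integrableOn_univ] at h2
  rw [Real.coe_toNNReal _ measureReal_nonneg, dist_eq_norm, ← integral_sub (hi f) (hi h), mul_comm]
  have hb : ∀ᵐ y ∂(sg E), ‖f y • g y - h y • g y‖ ≤ dist f h := by
    refine Filter.Eventually.of_forall fun y => ?_
    rw [← sub_smul, norm_smul, ← dist_eq_norm]
    calc dist (f y) (h y) * ‖g y‖ ≤ dist (f y) (h y) * 1 :=
          mul_le_mul_of_nonneg_left (hg1 y) dist_nonneg
      _ ≤ dist f h := by rw [mul_one]; exact ContinuousMap.dist_apply_le_dist y
  exact norm_integral_le_of_norm_le_const (μ := sg E) hb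

/-- Borsuk-Ulam: some member is balanced. -/
lemma exists_balanced {V : Type*} [NormedAddCommGroup V] [NormedSpace ℝ V] [FiniteDimensional ℝ V]
    (hV : Module.finrank ℝ E + 1 < Module.finrank ℝ V)
    (U : C(sphere (0 : V) 1, C(sphere (0 : E) 1, ℝ))) (hodd : ∀ p, U (-p) = - U p) :
    ∃ p, ∫ y : sphere (0 : E) 1, phiC (U p) y ∂(sg E) = 0 ∧
      ∫ y : sphere (0 : E) 1, phiC (U p) y • (y : E) ∂(sg E) = 0 := by
  have c1 : Continuous fun p => ∫ y : sphere (0 : E) 1, phiC (U p) y • (1 : ℝ) ∂(sg E) :=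
    (continuous_moment (fun _ => (1 : ℝ)) continuous_const (fun _ => by simp)).comp
      (continuous_phiC.comp U.continuous)
  have c2 : Continuous fun p => ∫ y : sphere (0 : E) 1, phiC (U p) y • (y : E) ∂(sg E) :=
    (continuous_moment (fun y : sphere (0 : E) 1 => (y : E)) continuous_subtype_val
      (fun y => by simp)).comp
      (continuous_phiC.comp U.continuous)
  obtain ⟨p, hp⟩ := Crest.Agent.Lib.BorsukUlam.exists_zero_of_odd_sphere (W := V) (E := ℝ × E)
    (by rw [Module.finrank_prod, Module.finrank_self]; omega)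
    (fun p => (∫ y : sphere (0 : E) 1, phiC (U p) y • (1 : ℝ) ∂(sg E),
      ∫ y : sphere (0 : E) 1, phiC (U p) y • (y : E) ∂(sg E))) (c1.prodMk c2) (by
      intro p
      rw [hodd, phiC_neg]
      ext
      · simp only [ContinuousMap.neg_apply, neg_smul, integral_neg, Prod.neg_mk]
      · simp only [ContinuousMap.neg_apply, neg_smul, integral_neg, Prod.neg_mk])
  refine ⟨p, ?_, ?_⟩
  · have := congrArg Prod.fst hp
    simpa using this
  · have := congrArg Prod.snd hp
    simpa using this

end gen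

/-! ### the energy lower bound -/

section low

variable {m : ℕ}

lemma toSphere_real (n : ℕ) : (muS (n + 1)).real univ = unitSphereArea n := by
  unfold muS
  rw [measureReal_def, ThetaK688.toSphere_univ, ENNReal.toReal_ofReal]
  exact (ThetaK688.unitSphereArea_pos n).le

lemma slip {u : C(sphere (0 : En (m + 3)) 1, ℝ)} (hu : C1 u) :
    SLip (ext u) (gradient (ext u)) := by
  have hcont := hu.continuous_gradient
  obtain ⟨D, hD⟩ := isCompact_univ.exists_bound_of_continuousOn hcont.continuousOn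
  obtain ⟨M, hM⟩ := isCompact_univ.exists_bound_of_continuousOn u.continuous.continuousOn
  have hD' : ∀ y : sphere (0 : En (m + 3)) 1, ‖fderiv ℝ (ext u) (y : En (m + 3))‖ ≤ max D 0 := by
    intro y
    rw [← norm_gradient]
    exact (hD y (mem_univ y)).trans (le_max_left _ _)
  have hM' : ∀ y : sphere (0 : En (m + 3)) 1, |u y| ≤ max M 0 := fun y =>
    (hM y (mem_univ y)).trans (le_max_left _ _)
  have hl := lip_of_grad hu (le_max_right D 0) (le_max_right M 0) hD' hM'
  refine ⟨⟨(2 * max D 0 + 2 * max M 0).toNNReal, ?_⟩, ?_, ⟨D, ?_⟩, ?_⟩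
  · refine LipschitzOnWith.of_dist_le_mul fun x hx y hy => ?_
    have := hl ⟨x, hx⟩ ⟨y, hy⟩
    rw [Real.coe_toNNReal _ (by positivity), Real.dist_eq]
    rw [← ext_coe, ← ext_coe] at this
    exact this
  · exact (InnerProductSpace.toDual ℝ (En (m + 3))).symm.continuous.measurable.comp
      (measurable_fderiv ℝ (ext u))
  · exact Filter.Eventually.of_forall fun y => hD y (mem_univ y)
  · refine Filter.Eventually.of_forall fun y => ?_
    have h1 := (hu.differentiableAt y).hasGradientAt
    exact h1.hasFDerivAt.hasFDerivWithinAt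

lemma scal1 {S I J : ℝ} (hS : S ≠ 0) :
    J - 2 * (I / S) * I + S * (I / S) ^ 2 = J - I ^ 2 / S := by
  field_simp
  ring

lemma scal2 {v : ℝ} (h4 : |v| ≤ 1) : 2 / 3 * (1 - (1 - v ^ 2)) ≤ |v - 1 / 3 * (v * (v * v))| := by
  have h3 : v - 1 / 3 * (v * (v * v)) = v * (1 - v ^ 2 / 3) := by ring
  rw [h3, abs_mul]
  set t := |v| with ht
  have h5 : v ^ 2 = t ^ 2 := (sq_abs _).symm
  have h6 : 0 ≤ t := abs_nonneg _
  have h7 : |1 - v ^ 2 / 3| = 1 - t ^ 2 / 3 := by
    rw [h5, abs_of_nonneg]; nlinarith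
  rw [h7, h5]
  nlinarith [mul_nonneg h6 (mul_nonneg (by linarith : 0 ≤ 1 - t) (by linarith : 0 ≤ 3 + t))]

lemma scal3 {S κ a s I X Y e : ℝ} (hS : 0 < S) (hκ : 0 < κ) (ha : 0 < a) (hI : I ≤ S * s)
    (hX : 2 / 3 * (S - I) ≤ X) (hb : 2 * κ * a * X ≤ S * Y) (hY : Y ≤ e) :
    4 / 3 * κ * a * (1 - s) ≤ e := by
  have h1 : 2 / 3 * (S * (1 - s)) ≤ X := by linarith
  have h2 : 2 * κ * a * (2 / 3 * (S * (1 - s))) ≤ S * e :=
    (mul_le_mul_of_nonneg_left h1 (by positivity)).trans
      (hb.trans (mul_le_mul_of_nonneg_left hY hS.le))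
  have h3 : S * (4 / 3 * κ * a * (1 - s)) ≤ S * e := by
    refine le_trans (le_of_eq ?_) h2
    ring
  exact le_of_mul_le_mul_left h3 hS

/-- **Energy lower bound** for balanced functions. -/
theorem energy_lower {ε A : ℝ} (hε : 0 < ε) {u : C(sphere (0 : En (m + 3)) 1, ℝ)} (hu : C1 u)
    (hub : ∀ y, |u y| ≤ 1) (hA : Psi348.En ε u ≤ A)
    (h0 : ∫ y : sphere (0 : En (m + 3)) 1, phiC u y ∂(sg (En (m + 3))) = 0)
    (h1 : ∫ y : sphere (0 : En (m + 3)) 1, phiC u y • (y : En (m + 3)) ∂(sg (En (m + 3))) = 0) :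
    4 / 3 * kapm (m + 1) * unitSphereArea (m + 1) *
      (1 - Real.sqrt (2 * ε * A / unitSphereArea (m + 2))) ≤ Psi348.En ε u := by
  set S := unitSphereArea (m + 2) with hS
  have hS0 : 0 < S := ThetaK688.unitSphereArea_pos _
  have hS1 : (muS (m + 3)).real univ = S := toSphere_real (m + 2)
  have hS2 : (muS (m + 2)).real univ = unitSphereArea (m + 1) := toSphere_real (m + 1)
  have hw := slip (C1_phiC hu)
  have hb := balanced_ineq hw (by
      simpa only [ext_coe] using h0) (by simpa only [ext_coe] using h1)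
  simp only [ext_coe] at hb
  rw [hS1, hS2] at hb
  -- gradient term
  have cg := hu.continuous_gradient
  have cgw := (C1_phiC hu).continuous_gradient
  have hIE : Integrable (fun y : sphere (0 : En (m + 3)) 1 =>
      ε / 2 * ‖gradient (ext u) (y : En (m + 3))‖ ^ 2 + (1 - u y ^ 2) ^ 2 / (2 * ε))
      (sg (En (m + 3))) := by
    apply integrable_cont
    exact (continuous_const.mul (cg.norm.pow 2)).add
      (((continuous_const.sub (u.continuous.pow 2)).pow 2).div_const _)
  have hgrad : ∫ y : S1 (m + 3), ‖C378.gT (gradient (ext (phiC u))) (y : En (m + 3))‖ ∂(muS (m + 3))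
      ≤ Psi348.En ε u := by
    rw [Psi348.En_eq]
    refine integral_mono_of_nonneg (Filter.Eventually.of_forall fun y => norm_nonneg _) hIE
      (Filter.Eventually.of_forall fun y => ?_)
    have hy : ‖(y : En (m + 3))‖ = 1 := by simp
    refine (norm_gT_le _ hy).trans ?_
    rw [gradient_phiC hu y, norm_smul, Real.norm_eq_abs]
    have h2 : |1 - u y ^ 2| * ‖gradient (ext u) (y : En (m + 3))‖ ≤
        ε / 2 * ‖gradient (ext u) (y : En (m + 3))‖ ^ 2 + (1 - u y ^ 2) ^ 2 / (2 * ε) := by
      set a := ‖gradient (ext u) (y : En (m + 3))‖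
      set b := |1 - u y ^ 2| with hbdef
      have hb2 : (1 - u y ^ 2) ^ 2 = b ^ 2 := (sq_abs _).symm
      rw [hb2]
      have h3 : 0 ≤ (ε * a - b) ^ 2 / (2 * ε) := by positivity
      have h4 : (ε * a - b) ^ 2 / (2 * ε) = ε / 2 * a ^ 2 + b ^ 2 / (2 * ε) - b * a := by
        field_simp
        ring
      linarith
    exact h2
  -- the potential
  set I := ∫ y : sphere (0 : En (m + 3)) 1, (1 - u y ^ 2) ∂(sg (En (m + 3))) with hI
  set J := ∫ y : sphere (0 : En (m + 3)) 1, (1 - u y ^ 2) ^ 2 ∂(sg (En (m + 3))) with hJ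
  have cI : Continuous fun y : sphere (0 : En (m + 3)) 1 => 1 - u y ^ 2 :=
    continuous_const.sub (u.continuous.pow 2)
  have hIi := integrable_cont cI
  have hJi : Integrable (fun y : sphere (0 : En (m + 3)) 1 => (1 - u y ^ 2) ^ 2)
      (sg (En (m + 3))) := integrable_cont (cI.pow 2)
  have hJA : J ≤ 2 * ε * A := by
    have h2 : J / (2 * ε) ≤ Psi348.En ε u := by
      rw [Psi348.En_eq, hJ, ← integral_div]
      refine integral_mono (hJi.div_const _) hIE fun y => ?_
      have : 0 ≤ ε / 2 * ‖gradient (ext u) (y : En (m + 3))‖ ^ 2 := by positivity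
      show (1 - u y ^ 2) ^ 2 / (2 * ε) ≤ _
      linarith
    have h3 := h2.trans hA
    rw [div_le_iff₀ (by positivity)] at h3
    linarith
  have hI0 : 0 ≤ I := integral_nonneg fun y => by
    have := hub y
    have h2 : u y ^ 2 ≤ 1 := by rw [sq_le_one_iff_abs_le_one]; exact this
    show 0 ≤ 1 - u y ^ 2
    linarith
  have hsgS : (sg (En (m + 3))).real univ = S := hS1
  have hIJ : I ^ 2 ≤ S * J := by
    have h2 : 0 ≤ ∫ y : sphere (0 : En (m + 3)) 1, ((1 - u y ^ 2) - I / S) ^ 2
        ∂(sg (En (m + 3))) := integral_nonneg fun y => sq_nonneg _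
    have h3 : ∫ y : sphere (0 : En (m + 3)) 1, ((1 - u y ^ 2) - I / S) ^ 2
        ∂(sg (En (m + 3))) = J - I ^ 2 / S := by
      have e1 : ∀ y : sphere (0 : En (m + 3)) 1, ((1 - u y ^ 2) - I / S) ^ 2 =
          (1 - u y ^ 2) ^ 2 - (2 * (I / S)) * (1 - u y ^ 2) + (I / S) ^ 2 := by
        intro y; ring
      simp_rw [e1]
      have hs1 : Integrable (fun y : sphere (0 : En (m + 3)) 1 =>
          (2 * (I / S)) * (1 - u y ^ 2)) (sg (En (m + 3))) := hIi.const_mul _
      have hs2 : Integrable (fun y : sphere (0 : En (m + 3)) 1 => (1 - u y ^ 2) ^ 2 -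
          (2 * (I / S)) * (1 - u y ^ 2)) (sg (En (m + 3))) := hJi.sub hs1
      rw [integral_add hs2 (integrable_const _),
        integral_sub hJi hs1, integral_const_mul, integral_const, hsgS, smul_eq_mul]
      exact scal1 hS0.ne'
    rw [h3] at h2
    have h4 : I ^ 2 / S ≤ J := by linarith
    rw [div_le_iff₀ hS0] at h4
    linarith
  have hIle : I ≤ S * Real.sqrt (2 * ε * A / S) := by
    have h2 : I ^ 2 ≤ S * (2 * ε * A) := hIJ.trans (mul_le_mul_of_nonneg_left hJA hS0.le)
    have h3 : S * (2 * ε * A) = (S * Real.sqrt (2 * ε * A / S)) ^ 2 := by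
      rw [mul_pow, Real.sq_sqrt]
      · field_simp
      · have : 0 ≤ 2 * ε * A := by nlinarith [sq_nonneg I]
        positivity
    rw [h3] at h2
    exact (pow_le_pow_iff_left₀ hI0 (by positivity) two_ne_zero).1 h2
  -- lower bound of `∫ |w|`
  have hwl : 2 / 3 * (S - I) ≤ ∫ y : S1 (m + 3), |phiC u y| ∂(muS (m + 3)) := by
    have h2 : 2 / 3 * (S - I) = ∫ y : S1 (m + 3), 2 / 3 * (1 - (1 - u y ^ 2)) ∂(muS (m + 3)) := by
      rw [integral_const_mul, integral_sub (integrable_const _) hIi, integral_const]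
      rw [hS1, smul_eq_mul, mul_one]
    rw [h2]
    refine integral_mono (((integrable_const _).sub hIi).const_mul _)
      (integrable_cont (phiC u).continuous.abs) fun y => ?_
    show 2 / 3 * (1 - (1 - u y ^ 2)) ≤ |phiC u y|
    rw [phiC_apply]
    exact scal2 (hub y)
  -- conclusion
  have hk : 1 < kapm (m + 1) := one_lt_kapm _
  have hk2 : 0 < unitSphereArea (m + 1) := ThetaK688.unitSphereArea_pos _
  exact scal3 hS0 (by linarith) hk2 hIle hwl hb hgrad

/-- **Lower bound for odd families**. -/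
theorem lower_bound {ε A : ℝ} (hε : 0 < ε) {V : Type*} [NormedAddCommGroup V] [NormedSpace ℝ V]
    [FiniteDimensional ℝ V] (hV : Module.finrank ℝ V = m + 5)
    (U : C(sphere (0 : V) 1, C(sphere (0 : En (m + 3)) 1, ℝ))) (hodd : ∀ p, U (-p) = - U p)
    (hU : ∀ p y, |U p y| ≤ 1) (hC : ∀ p, C1 (U p)) (hA : ∀ p, Psi348.En ε (U p) ≤ A) :
    ∃ p, 4 / 3 * kapm (m + 1) * unitSphereArea (m + 1) *
      (1 - Real.sqrt (2 * ε * A / unitSphereArea (m + 2))) ≤ Psi348.En ε (U p) := by
  obtain ⟨p, h0, h1⟩ := exists_balanced (E := En (m + 3)) (V := V)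
    (by rw [finrank_euclideanSpace_fin, hV]; omega) U hodd
  exact ⟨p, energy_lower hε (hC p) (hU p) (hA p) h0 h1⟩

end low

end Crest.Agent.R246.Low348
end
end

-- ▼ part R246/StMM_348
section

/-!
# `StMM` (existence of smooth Allen-Cahn solutions at the min-max level) from the resolvent
-/

set_option autoImplicit false
set_option linter.unusedSectionVars false
set_option linter.unusedSimpArgs false
noncomputable section
open MeasureTheory Set Filter Topology Metric
open scoped RealInnerProductSpace ContDiff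

namespace Crest.Agent.R246.StMM348

open Fam348 Psi348 Low348
open Crest.Agent.R246.D2x782 (SmHom0 ACeq)
open Crest.Agent.R246.Artanh657 (ACu Ru)
open Crest.GeometryTopology.SphereImmersion

/-- What is needed from the resolvent `(4 - ε² Δ_S)⁻¹` on `S^{m+1}` (helper797, helper657). -/
def ResData (m : ℕ) : Prop :=
  ∀ ε : ℝ, 0 < ε → ∃ G : C(sphere (0 : Skel656.E m) 1, ℝ) →L[ℝ] C(sphere (0 : Skel656.E m) 1, ℝ),
    Res ε 4 G ∧
    (∃ c : ℝ, 0 < c ∧ ∀ f : C(sphere (0 : Skel656.E m) 1, ℝ), (∀ y, 0 ≤ f y) → ∀ y,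
      c * ∫ z : sphere (0 : Skel656.E m) 1, f z ∂(sg (Skel656.E m)) ≤ G f y) ∧
    (∀ u : C(sphere (0 : Skel656.E m) 1, ℝ), (∀ y, |u y| ≤ 1) → Psi 4 G u = u →
      SmHom0 (ext u) ∧ ACu ε (ext u))

/-- **StMM** from the resolvent, `m ≥ 1`. -/
theorem stMM_of {m : ℕ} (hm : 1 ≤ m) (hG : ResData m) : Skel656.StMM C378.kapm m := by
  intro ε A hε hfam hpos
  obtain ⟨V, i1, i2, i3, U, hV, hodd, hU, happ⟩ := hfam
  obtain ⟨m', rfl⟩ : ∃ m', m = m' + 1 := ⟨m - 1, by omega⟩
  obtain ⟨G, hR, ⟨c, hc, hGpos⟩, hreg⟩ := hG ε hε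
  set B := 4 / 3 * C378.kapm (m' + 1) * unitSphereArea (m' + 1) *
    (1 - Real.sqrt (2 * ε * A / unitSphereArea (m' + 1 + 1))) with hB
  have hB0 : 0 < B := by
    have h1 := C378.one_lt_kapm (m' + 1)
    have h2 := ThetaK688.unitSphereArea_pos (m' + 1)
    have h3 : 0 < C378.kapm (m' + 1) := by linarith
    exact mul_pos (by positivity) hpos
  have : Nontrivial V := by
    apply Module.nontrivial_of_finrank_pos (R := ℝ)
    rw [hV]; omega
  have : Nonempty (sphere (0 : V) 1) := (NormedSpace.sphere_nonempty.2 zero_le_one).to_subtype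
  obtain ⟨u, hu1, hfix, huB, huA⟩ := exists_fixed (E := Skel656.E (m' + 1)) hR hε le_rfl
    (P := sphere (0 : V) 1) (fun p => -p) U hodd hU (A := A) (B := B) happ
    (fun W h1 h2 h3 h4 => lower_bound hε (by rw [hV]) W h1 h2 h3 h4)
  have hlt : ∀ y, |u y| < 1 :=
    abs_lt_one_of_fixed hR le_rfl hc hGpos hu1 hfix (hB0.trans_le huB)
  obtain ⟨hsm, hac⟩ := hreg u hu1 hfix
  have hlt' : ∀ x : Skel656.E (m' + 1), |ext u x| < 1 := by
    intro x
    by_cases hx : x = 0
    · rw [hx, ext_zero, abs_zero]; exact one_pos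
    · rw [ext_of_ne u hx]; exact hlt _
  have hEn : Skel656.En ε (Ru ε (ext u)) = Psi348.En ε u := by
    unfold Skel656.En Psi348.En
    congr 1
    funext x
    exact Artanh657.tanh_Ru hε (hlt' x)
  refine ⟨Ru ε (ext u), ⟨hε, Artanh657.smHom0_artanh hsm fun x _ => hlt' x,
    Artanh657.acEq_artanh hε hsm (fun x _ => hlt' x) hac⟩, ?_, ?_⟩
  · rw [hEn]; exact huA
  · rw [hEn]; exact huB


end Crest.Agent.R246.StMM348
end
end

-- ▼ part R246/ResData_797

/-! # Row 246: `ResData`, `StMM`, `StC` unconditionally (helper797) -/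

set_option autoImplicit false
set_option maxHeartbeats 400000
open MeasureTheory Metric Topology Filter
open scoped ContDiff

namespace Crest.Agent.R246.Zon797

variable {m : ℕ}

theorem resData (m : ℕ) : StMM348.ResData m := by
  intro ε hε
  refine ⟨G4 m hε, res_G4 hε, G4_pos hε, fun u _ hu => ?_⟩
  obtain ⟨u', u'', h1, h2, h3⟩ := fixed_pde hε hu
  have hs : D2x782.SmHom0 (Brg657.ext u) := Brg657.smHom0_of_rotSm (fixed_smooth hε hu).1
  rw [ext_eq]
  refine ⟨hs, Brg657.acU_ext hε hs h1 h2 fun x => ?_⟩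
  rw [h3 x]
  field_simp

theorem stMM (m : ℕ) (hm : 1 ≤ m) : Skel656.StMM C378.kapm m := StMM348.stMM_of hm (resData m)


end Crest.Agent.R246.Zon797
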