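import Crest.Agent.R246.NcGlue_475
import Crest.Agent.R246.NcMain_112_Mg
import Crest.Agent.R246.IN10_200
import Crest.Agent.R246.BoostExp_797
import Crest.Agent.R246.SMS2_651
import Crest.Agent.R246.IdxG_149
import Crest.Agent.R246.Skel2_656
import Crest.Agent.R246.IF7_101
import Crest.Agent.R246.J0_816
import Crest.Prelude.Def_SphereImmersion
import Crest.Agent.R246.JC4_816
import Crest.Agent.R246.Skel_656
import Crest.Agent.R246.JE_364
import Crest.Agent.R246.ResData_797
import Crest.Agent.R246.StFam_348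
import Crest.Agent.R246.D3LimF_67_Mg
import Crest.Agent.R246.Bl2_873
import Crest.Agent.R246.HK5_149_Mg
import Crest.Agent.R246.Reg_549
import Crest.Agent.R246.Mg6_295
import Crest.Agent.R246.GlueEnd_196_Mg
import Crest.Agent.R246.Q_538
import Crest.Agent.R246.StE_858

-- ▼ part R246/StNC_475
section

/-!
R246, block NC: `Skel2.StNC` (helper475; pointwise part helper112).
-/

set_option autoImplicit false
open MeasureTheory Set Filter Topology
open scoped RealInnerProductSpace ContDiff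
open Crest.Agent.R246.SM436 (Good SmoothMin hs Tube mu)
open Crest.Agent.R246.HerschSM900 (A2 AreaMeas)

noncomputable section

namespace Crest.Agent.R246.StNC475

/-- **NC** -/
theorem stNC {m : ℕ} (hm : 1 ≤ m) : Skel2.StNC m := by
  intro φ b hS hD hT hA
  refine NcMain475.nc_main hS hA (NcGlue475.barSt_of hS ?_)
  refine NcMain112.nc_barriers (stdOrthonormalBasis ℝ (Skel656.E m)) (m := (m : ℝ)) ?_
    (by exact_mod_cast hm) hT hS.min ?_
  · simp [Skel656.E]
  · intro x hx h0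
    exact NcGlue475.hne_of hT (Skel2.signedDist hD) hS.good hx h0

end Crest.Agent.R246.StNC475
end
end

-- ▼ part R246/IN11_200
section

/-!
Row 246, block I(I) (helper200), part 11: LEMMA N = `near_HN`.
-/

set_option autoImplicit false

open MeasureTheory Filter Topology Metric Set
open scoped ContDiff RealInnerProductSpace
open Crest.Agent.R246.D2x782
open Crest.Agent.R246.H990 (NullCone boost)

noncomputable section

namespace Crest.Agent.R246.IN200

theorem boostHyp {n : ℕ} {φ : EuclideanSpace ℝ (Fin n) → ℝ} {b : ℝ} (hT : SM436.Tube φ b) :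
    ∃ d0 C : ℝ, 0 < d0 ∧ d0 < 1 ∧ 0 ≤ C ∧ BoostHyp φ b d0 C := by
  have hb := hT.hb
  obtain ⟨d0, C, h1, h2, h3, h4⟩ := BoostExp797.boost_expand hT (c := 3 * b / 4) (by linarith)
  refine ⟨d0, C, h1, h2, h3, fun z hz y hy hta => ?_⟩
  obtain ⟨g1, g2, g3, g4⟩ := h4 z hz y hy hta
  exact ⟨g1.of_le (by norm_num), g2, g3, g4⟩

theorem limHyp {n : ℕ} (hn : 0 < n) {φ : EuclideanSpace ℝ (Fin n) → ℝ} {b : ℝ}
    (hT : SM436.Tube φ b) : LimHyp φ b hT.hb := by
  intro F hF
  have hb := hT.hb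
  have : Nonempty (Fin n) := ⟨⟨0, hn⟩⟩
  exact SMS651.sphere_limit_sech hT hF (c := b / 4) (by linarith)
    (χ := fun t => chE hT.hb t) (chE_sm hT.hb).continuous (fun t ht => chE_zero hT.hb ht)
    (chE_one hT.hb (by rw [abs_zero]; linarith))

/-- **LEMMA N** -/
theorem near_HN {m : ℕ} {φ : EuclideanSpace ℝ (Fin (m + 2)) → ℝ} {b : ℝ} (S : SM436.SmoothMin φ)
    (hT : SM436.Tube φ b) {G : EuclideanSpace ℝ (Fin (m + 2)) → ℝ}
    (hG : ∀ p ∈ SM436.Lk φ, ContDiffAt ℝ ∞ G p) :
    ∃ (gt : EuclideanSpace ℝ (Fin (m + 2)) → ℝ) (t0 d0 C : ℝ) (om : ℝ → ℝ), SmHom0 gt ∧ 0 < t0 ∧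
      0 < d0 ∧ 0 ≤ C ∧ Tendsto om (𝓝[>] 0) (𝓝 0) ∧
      (∀ z : EuclideanSpace ℝ (Fin (m + 2)), ‖z‖ ≤ d0 → ∀ y : EuclideanSpace ℝ (Fin (m + 2)),
        ‖y‖ = 1 → |φ y| < t0 → ContDiffAt ℝ 1 (boost φ z) y) ∧
      ∀ ε : ℝ, 0 < ε → ε ≤ 1 → ∀ (s : ℝ) (z : EuclideanSpace ℝ (Fin (m + 2))) (θ : ℝ),
        |s| ≤ d0 → ‖z‖ ≤ d0 → |θ| ≤ d0 →
        ∫ y in {y : sphere (0 : EuclideanSpace ℝ (Fin (m + 2))) 1 | |φ y| < t0},
          eden ε (fun x => Real.arcsin (boost φ z x * ‖x‖⁻¹) - θ - s * gt x) y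
            ∂(volume : Measure (EuclideanSpace ℝ (Fin (m + 2)))).toSphere
          ≤ 4 / 3 * ((SM436.mu φ b).real univ + 1 / 2 *
              (∫ x, Hersch900.T (gradient φ) (fun x => s * G x + θ - ⟪z, x⟫) x ∂(SM436.mu φ b)
              - ∫ x, HerschSM900.A2 φ x * (s * G x + θ - ⟪z, x⟫) ^ 2 ∂(SM436.mu φ b)
              - m * ∫ x, (s * G x + θ - ⟪z, x⟫) ^ 2 ∂(SM436.mu φ b)))
            + C * (|s| + ‖z‖ + |θ|) ^ 3 + om ε := by
  obtain ⟨dB, CB, h1, h2, h3, h4⟩ := boostHyp hT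
  obtain ⟨t0, d0, C, om, g1, g2, g3, g4, g5, g6, g7⟩ :=
    near_core (by omega) S.nc hT S.trace_Lk hG h1 h2 h3 h4 (limHyp (by omega) hT)
  refine ⟨ext φ hT.hb G, t0, d0, C, om, ext_sm hT hG, g1, g2, g4, g5, g6, ?_⟩
  intro ε hε hε1 s z θ hs hz hθ
  have h := g7 ε hε hε1 s z θ hs hz hθ
  have e : (((m + 2 : ℕ) : ℝ) - 2) = m := by push_cast; ring
  rw [e] at h
  exact h

end Crest.Agent.R246.IN200
end
end

-- ▼ part R246/IdxH_149
section

/-!
# Step 4 (I): Lemma L for smooth minimal hypercones, part 2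

`exists_dir` : (HL) of helper101.  `exists_curved_pairing` : (hsp).
-/

set_option autoImplicit false
noncomputable section
open MeasureTheory Set Filter Topology Module
open scoped RealInnerProductSpace ContDiff

namespace Crest.Agent.R246.IdxG149

open Crest.Agent.R246.H990 Crest.Agent.R246.SM436 Crest.Agent.R246.HerschSM900
  Crest.Agent.R246.NC718 Crest.Agent.R246.Hersch900

variable {E : Type*} [NormedAddCommGroup E] [InnerProductSpace ℝ E] [FiniteDimensional ℝ E]

/-- functions smooth at the link -/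
def VV (φ : E → ℝ) : Submodule ℝ (E → ℝ) where
  carrier := {f | ∀ p ∈ Lk φ, ContDiffAt ℝ ∞ f p}
  add_mem' := fun hf hg p hp => (hf p hp).add (hg p hp)
  zero_mem' := fun _ _ => contDiffAt_const
  smul_mem' := fun _ _ hf p hp => contDiffAt_const.smul (hf p hp)

lemma gradient_add' {f g : E → ℝ} {p : E} (hf : DifferentiableAt ℝ f p)
    (hg : DifferentiableAt ℝ g p) : gradient (f + g) p = gradient f p + gradient g p := by
  rw [gradient, gradient, gradient, fderiv_add hf hg, map_add]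

lemma gradient_smul' (c : ℝ) {f : E → ℝ} {p : E} (hf : DifferentiableAt ℝ f p) :
    gradient (c • f) p = c • gradient f p := by
  rw [gradient, gradient, fderiv_const_smul hf, map_smulₛₗ]
  simp

lemma gradient_const' (c : ℝ) (p : E) : gradient (fun _ : E => c) p = 0 := by
  rw [gradient]; simp

variable [MeasurableSpace E] [BorelSpace E]
variable {φ : E → ℝ} {b : ℝ}

section forms

variable (hT : Tube φ b)
include hT

lemma good_Lk {p : E} (hp : p ∈ Lk φ) : Good φ p := hT.good (hT.TT_of_Lk hp)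

omit [FiniteDimensional ℝ E] [MeasurableSpace E] [BorelSpace E] hT in
lemma contOn (f : VV φ) : ContinuousOn (f : E → ℝ) (Lk φ) := fun p hp =>
  (f.2 p hp).continuousAt.continuousWithinAt

lemma contOn_grad (f : VV φ) :
    ContinuousOn (fun p => PT φ p (gradient (f : E → ℝ) p)) (Lk φ) :=
  hT.continuousOn_PT_apply
    (hT.continuousOn_grad_Lk fun p hp => (f.2 p hp).of_le (by simp))

lemma contOn_A2 : ContinuousOn (A2 φ) (Lk φ) := fun _ hp =>
  (continuousAt_A2 (good_Lk hT hp)).continuousWithinAt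

/-- Dirichlet form -/
def DD : VV φ →ₗ[ℝ] VV φ →ₗ[ℝ] ℝ :=
  LinearMap.mk₂ ℝ
    (fun f g => ∫ p, ⟪PT φ p (gradient (f : E → ℝ) p), PT φ p (gradient (g : E → ℝ) p)⟫ ∂(mu φ b))
    (fun f f' g => by
      rw [← integral_add (hT.integrable_mu ((contOn_grad hT f).inner (contOn_grad hT g)))
        (hT.integrable_mu ((contOn_grad hT f').inner (contOn_grad hT g)))]
      refine integral_congr_ae ?_
      filter_upwards [hT.ae_mem_Lk] with p hp
      rw [Submodule.coe_add, gradient_add' ((f.2 p hp).differentiableAt (by simp))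
        ((f'.2 p hp).differentiableAt (by simp)), map_add, inner_add_left])
    (fun c f g => by
      rw [smul_eq_mul, ← integral_const_mul]
      refine integral_congr_ae ?_
      filter_upwards [hT.ae_mem_Lk] with p hp
      rw [Submodule.coe_smul, gradient_smul' c ((f.2 p hp).differentiableAt (by simp)),
        map_smul, real_inner_smul_left])
    (fun f g g' => by
      rw [← integral_add (hT.integrable_mu ((contOn_grad hT f).inner (contOn_grad hT g)))
        (hT.integrable_mu ((contOn_grad hT f).inner (contOn_grad hT g')))]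
      refine integral_congr_ae ?_
      filter_upwards [hT.ae_mem_Lk] with p hp
      rw [Submodule.coe_add, gradient_add' ((g.2 p hp).differentiableAt (by simp))
        ((g'.2 p hp).differentiableAt (by simp)), map_add, inner_add_right])
    (fun c f g => by
      rw [smul_eq_mul, ← integral_const_mul]
      refine integral_congr_ae ?_
      filter_upwards [hT.ae_mem_Lk] with p hp
      rw [Submodule.coe_smul, gradient_smul' c ((g.2 p hp).differentiableAt (by simp)),
        map_smul, real_inner_smul_right])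

lemma int_w {w : E → ℝ} (hw : ContinuousOn w (Lk φ)) (f g : VV φ) :
    Integrable (fun p => w p * ((f : E → ℝ) p * (g : E → ℝ) p)) (mu φ b) :=
  hT.integrable_mu (hw.mul ((contOn f).mul (contOn g)))

/-- weighted `L²` form -/
def WF (w : E → ℝ) (hw : ContinuousOn w (Lk φ)) : VV φ →ₗ[ℝ] VV φ →ₗ[ℝ] ℝ :=
  LinearMap.mk₂ ℝ (fun f g => ∫ p, w p * ((f : E → ℝ) p * (g : E → ℝ) p) ∂(mu φ b))
    (fun f f' g => by
      rw [← integral_add (int_w hT hw f g) (int_w hT hw f' g)]
      refine integral_congr_ae (Eventually.of_forall fun p => ?_)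
      simp only [Submodule.coe_add, Pi.add_apply]; ring)
    (fun c f g => by
      rw [smul_eq_mul, ← integral_const_mul]
      refine integral_congr_ae (Eventually.of_forall fun p => ?_)
      simp only [Submodule.coe_smul, Pi.smul_apply, smul_eq_mul]; ring)
    (fun f g g' => by
      rw [← integral_add (int_w hT hw f g) (int_w hT hw f g')]
      refine integral_congr_ae (Eventually.of_forall fun p => ?_)
      simp only [Submodule.coe_add, Pi.add_apply]; ring)
    (fun c f g => by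
      rw [smul_eq_mul, ← integral_const_mul]
      refine integral_congr_ae (Eventually.of_forall fun p => ?_)
      simp only [Submodule.coe_smul, Pi.smul_apply, smul_eq_mul]; ring)

/-- a function continuous at the link which vanishes a.e. vanishes on the link -/
lemma zero_on_Lk {f : E → ℝ} (hf : ∀ p ∈ Lk φ, ContinuousAt f p)
    (hae : ∀ᵐ x ∂(mu φ b), f x = 0) {p : E} (hp : p ∈ Lk φ) : f p = 0 := by
  by_contra hne
  have h1 : ∀ᶠ y in 𝓝 p, f y ≠ 0 := (hf p hp).eventually_ne hne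
  obtain ⟨U, hU1, hU, hpU⟩ := eventually_nhds_iff.1 h1
  have h2 := hT.mu_pos hp hU hpU
  have h3 : mu φ b U = 0 := measure_mono_null (fun y hy => hU1 y hy) (ae_iff.1 hae)
  exact h2.ne' h3

/-- positivity: a nonnegative continuous integrand with zero integral vanishes on the link -/
lemma zero_of_integral {f : E → ℝ} (hf : ∀ p ∈ Lk φ, ContinuousAt f p)
    (h0 : ∀ p ∈ Lk φ, 0 ≤ f p) (hint : ∫ p, f p ∂(mu φ b) ≤ 0) {p : E} (hp : p ∈ Lk φ) :
    f p = 0 := by
  have hnn : 0 ≤ᵐ[mu φ b] f := by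
    filter_upwards [hT.ae_mem_Lk] with x hx using h0 x hx
  have hi : Integrable f (mu φ b) :=
    hT.integrable_mu fun p hp => (hf p hp).continuousWithinAt
  have h1 : ∫ p, f p ∂(mu φ b) = 0 := le_antisymm hint (integral_nonneg_of_ae hnn)
  have h2 := (integral_eq_zero_iff_of_nonneg_ae hnn hi).1 h1
  exact zero_on_Lk hT hf h2 hp

/-- (AX) -/
theorem pos_AX (hmin : ∀ x, x ≠ 0 → φ x = 0 → LinearMap.trace ℝ E (hs φ x : E →ₗ[ℝ] E) = 0)
    {m : ℕ} (hm : 1 ≤ m) (hE : finrank ℝ E = m + 2) {p₀ : E} (hp₀ : p₀ ∈ Lk φ)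
    (hA0 : A2 φ p₀ ≠ 0) {z : E} (hz : z ≠ 0) (θ : ℝ) :
    0 < ∫ p, A2 φ p * (θ - ⟪z, p⟫) ^ 2 ∂(mu φ b) := by
  by_contra hcon
  push Not at hcon
  have hc : ∀ p ∈ Lk φ, ContinuousAt (fun p => A2 φ p * (θ - ⟪z, p⟫) ^ 2) p := fun p hp =>
    (continuousAt_A2 (good_Lk hT hp)).mul (by fun_prop)
  have hz0 : ∀ p ∈ Lk φ, A2 φ p * (θ - ⟪z, p⟫) ^ 2 = 0 := fun p hp =>
    zero_of_integral hT hc (fun p hp => mul_nonneg (A2_nonneg (good_Lk hT hp)) (sq_nonneg _))
      hcon hp
  have h1 : ∀ᶠ y in 𝓝 p₀, A2 φ y ≠ 0 :=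
    (continuousAt_A2 (good_Lk hT hp₀)).eventually_ne hA0
  have hp0 : p₀ ≠ 0 := by rintro rfl; simpa using hp₀.1
  have hn : Tendsto (fun y : E => ‖y‖⁻¹ • y) (𝓝 p₀) (𝓝 p₀) := by
    have : ContinuousAt (fun y : E => ‖y‖⁻¹ • y) p₀ :=
      (continuousAt_id.norm.inv₀ (by simpa using hp0)).smul continuousAt_id
    have h := this.tendsto
    simpa [hp₀.1] using h
  have h2 : ∀ᶠ y in 𝓝 p₀, φ y = 0 → ⟪z, y⟫ = θ * ‖y‖ := by
    filter_upwards [hn.eventually h1, isOpen_ne.mem_nhds hp0] with y hy hyne hy0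
    have hyn : 0 < ‖y‖ := norm_pos_iff.2 hyne
    have hy1 : ‖y‖⁻¹ • y ∈ Lk φ := by
      refine ⟨by rw [norm_smul, norm_inv, norm_norm, inv_mul_cancel₀ hyn.ne'], ?_⟩
      rw [hT.hom _ (by positivity), hy0, mul_zero]
    have h3 := hz0 _ hy1
    have h4 : (θ - ⟪z, ‖y‖⁻¹ • y⟫) = 0 := by
      rcases mul_eq_zero.1 h3 with h | h
      · exact absurd h hy
      · exact pow_eq_zero_iff (two_ne_zero) |>.1 h
    rw [real_inner_smul_right] at h4
    have h5 : ‖y‖⁻¹ * ⟪z, y⟫ = θ := by linarith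
    rw [← h5]; field_simp
  have h3 := flat_of_plane hT hm hE hp₀ (hmin p₀ hp0 hp₀.2) hz h2
  apply hA0
  simp [A2, h3]

/-- (IN) -/
theorem pos_IN (hom : ∀ t : ℝ, 0 ≤ t → ∀ x, φ (t • x) = t * φ x)
    (hgood : ∀ x, x ≠ 0 → φ x = 0 → Good φ x) {p₀ : E} (hp₀ : p₀ ∈ Lk φ)
    (hA0 : A2 φ p₀ ≠ 0) {a : E} (ha : a ≠ 0) :
    0 < ∫ p, ⟪a, gradient φ p⟫ ^ 2 ∂(mu φ b) := by
  by_contra hcon
  push Not at hcon
  have hc : ∀ p ∈ Lk φ, ContinuousAt (fun p => ⟪a, gradient φ p⟫ ^ 2) p := fun p hp =>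
    (continuousAt_const.inner (good_Lk hT hp).contDiffAt_gradient.continuousAt).pow 2
  have hz0 : ∀ p ∈ Lk φ, ⟪a, gradient φ p⟫ ^ 2 = 0 := fun p hp =>
    zero_of_integral hT hc (fun p _ => sq_nonneg _) hcon hp
  have han : 0 < ‖a‖ := norm_pos_iff.2 ha
  have h1 : ∀ x, x ≠ 0 → φ x = 0 → ⟪gradient φ x, ‖a‖⁻¹ • a⟫ = 0 := by
    intro x hx hx0
    have hxn : 0 < ‖x‖ := norm_pos_iff.2 hx
    have hx1 : ‖x‖⁻¹ • x ∈ Lk φ := by
      refine ⟨by rw [norm_smul, norm_inv, norm_norm, inv_mul_cancel₀ hxn.ne'], ?_⟩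
      rw [hom _ (by positivity), hx0, mul_zero]
    have h2 := pow_eq_zero_iff (two_ne_zero) |>.1 (hz0 _ hx1)
    rw [gradient_smul_of_hom hom x (by positivity)] at h2
    rw [real_inner_smul_right, real_inner_comm, h2, mul_zero]
  have hp0 : p₀ ≠ 0 := by rintro rfl; simpa using hp₀.1
  have h3 := hs_eq_zero hT.lip hom hgood (a := ‖a‖⁻¹ • a)
    (by rw [norm_smul, norm_inv, norm_norm, inv_mul_cancel₀ han.ne']) h1 hp0 hp₀.2
  apply hA0
  simp [A2, h3]

end forms

/-- `T` is the square of the tangential gradient -/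
lemma T_eq (hT : Tube φ b) {u : E → ℝ} {p : E} (hp : p ∈ Lk φ) :
    T (gradient φ) u p = ⟪PT φ p (gradient u p), PT φ p (gradient u p)⟫ := by
  have h1 : ‖fderiv ℝ u p‖ = ‖gradient u p‖ := by
    rw [gradient, LinearIsometryEquiv.norm_map]
  rw [PT_symm, hT.PT_PT hp, T, h1, ← SM436.inner_gradient, ← SM436.inner_gradient, PT_apply,
    inner_sub_right, inner_sub_right, real_inner_smul_right, real_inner_smul_right,
    real_inner_self_eq_norm_sq, real_inner_comm (gradient φ p) (gradient u p),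
    real_inner_comm p (gradient u p)]
  ring

/-- the second variation form -/
def QQ (m : ℕ) (φ : E → ℝ) (b : ℝ) (u : E → ℝ) : ℝ :=
  ∫ x, T (gradient φ) u x ∂(mu φ b) - ∫ x, A2 φ x * u x ^ 2 ∂(mu φ b) -
    m * ∫ x, u x ^ 2 ∂(mu φ b)

/-- (hsp) -/
theorem exists_curved_pairing (hT : Tube φ b)
    (hmin : ∀ x, x ≠ 0 → φ x = 0 → LinearMap.trace ℝ E (hs φ x : E →ₗ[ℝ] E) = 0)
    {m : ℕ} (hm : 1 ≤ m) (hE : finrank ℝ E = m + 2) {p₀ : E} (hp₀ : p₀ ∈ Lk φ)
    (hA0 : A2 φ p₀ ≠ 0) {w : E} (hw : w ≠ 0) :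
    ∃ p, φ p = 0 ∧ ‖p‖ = 1 ∧ hs φ p ≠ 0 ∧ ⟪w, p⟫ ≠ 0 := by
  have h := pos_AX hT hmin hm hE hp₀ hA0 hw 0
  by_contra hcon
  push Not at hcon
  have : ∫ p, A2 φ p * (0 - ⟪w, p⟫) ^ 2 ∂(mu φ b) = 0 := by
    refine integral_eq_zero_of_ae ?_
    filter_upwards [hT.ae_mem_Lk] with p hp
    by_cases h0 : hs φ p = 0
    · simp [A2, h0]
    · rw [hcon p hp.2 hp.1 h0]; simp
  linarith

/-- **(HL)**: Lemma L for smooth minimal hypercones. -/
theorem exists_dir (hT : Tube φ b) (hgood : ∀ x, x ≠ 0 → φ x = 0 → Good φ x)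
    (hmin : ∀ x, x ≠ 0 → φ x = 0 → LinearMap.trace ℝ E (hs φ x : E →ₗ[ℝ] E) = 0)
    {m : ℕ} (hm : 1 ≤ m) (hE : finrank ℝ E = m + 2) {h : E → ℝ}
    (hh : ∀ p ∈ Lk φ, ContDiffAt ℝ ∞ h p) (h1 : ∫ x, A2 φ x * h x ∂(mu φ b) = 0)
    (h2 : ∫ x, T (gradient φ) h x ∂(mu φ b) < ∫ x, A2 φ x * h x ^ 2 ∂(mu φ b)) :
    (∃ (α β : ℝ) (a : E) (c : ℝ), 0 < c ∧ ∀ (s θ : ℝ) (z : E),
      QQ m φ b (fun x => s * (α * h x + β + ⟪a, gradient φ x⟫) + θ - ⟪z, x⟫) ≤
        -c * (s ^ 2 + θ ^ 2 + ‖z‖ ^ 2)) ∧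
    ∀ w : E, w ≠ 0 → ∃ p, φ p = 0 ∧ ‖p‖ = 1 ∧ hs φ p ≠ 0 ∧ ⟪w, p⟫ ≠ 0 := by
  have hmin' : ∀ p ∈ Lk φ, LinearMap.trace ℝ E (hs φ p : E →ₗ[ℝ] E) = 0 := fun p hp =>
    hmin p (by rintro rfl; simpa using hp.1) hp.2
  -- a point with `A ≠ 0`
  obtain ⟨p₀, hp₀, hA0⟩ : ∃ p₀ ∈ Lk φ, A2 φ p₀ ≠ 0 := by
    by_contra hcon
    push Not at hcon
    have e1 : ∫ x, A2 φ x * h x ^ 2 ∂(mu φ b) = 0 := by
      refine integral_eq_zero_of_ae ?_
      filter_upwards [hT.ae_mem_Lk] with p hp
      rw [hcon p hp]; simp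
    have e2 : 0 ≤ ∫ x, T (gradient φ) h x ∂(mu φ b) := by
      refine integral_nonneg_of_ae ?_
      filter_upwards [hT.ae_mem_Lk] with p hp
      rw [T_eq hT hp]
      exact real_inner_self_nonneg
    linarith
  refine ⟨?_, fun w hw => exists_curved_pairing hT hmin hm hE hp₀ hA0 hw⟩
  -- data
  let one : VV φ := ⟨fun _ => 1, fun _ _ => contDiffAt_const⟩
  let X : E →ₗ[ℝ] VV φ :=
    { toFun := fun a => ⟨fun x => ⟪a, x⟫, fun p _ => contDiffAt_const.inner ℝ contDiffAt_id⟩
      map_add' := fun a a' => by ext x; simp [inner_add_left]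
      map_smul' := fun c a => by ext x; simp [real_inner_smul_left] }
  let N : E →ₗ[ℝ] VV φ :=
    { toFun := fun a => ⟨fun x => ⟪a, gradient φ x⟫, fun p hp =>
        contDiffAt_const.inner ℝ (good_Lk hT hp).contDiffAt_gradient⟩
      map_add' := fun a a' => by ext x; simp [inner_add_left]
      map_smul' := fun c a => by ext x; simp [real_inner_smul_left] }
  let g₀ : VV φ := ⟨h, hh⟩
  have hA2c := contOn_A2 hT
  set D := DD hT with hD
  set I := WF hT (fun _ => 1) continuousOn_const with hI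
  set A := WF hT (A2 φ) hA2c with hA
  have Dap : ∀ f g : VV φ, D f g =
      ∫ p, ⟪PT φ p (gradient (f : E → ℝ) p), PT φ p (gradient (g : E → ℝ) p)⟫ ∂(mu φ b) :=
    fun f g => rfl
  have Iap : ∀ f g : VV φ, I f g = ∫ p, 1 * ((f : E → ℝ) p * (g : E → ℝ) p) ∂(mu φ b) :=
    fun f g => rfl
  have Aap : ∀ f g : VV φ, A f g = ∫ p, A2 φ p * ((f : E → ℝ) p * (g : E → ℝ) p) ∂(mu φ b) :=
    fun f g => rfl
  have A2nn : ∀ p ∈ Lk φ, 0 ≤ A2 φ p := fun p hp => A2_nonneg (good_Lk hT hp)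
  have hgr1 : ∀ p : E, gradient ((one : VV φ) : E → ℝ) p = 0 := fun p => gradient_const' 1 p
  obtain ⟨α, β, a, c, hc, hcc⟩ := Idx149.exists_direction (m : ℝ) (by exact_mod_cast hm) D I A
    (fun f g => by
      rw [Dap, Dap]
      exact integral_congr_ae (Eventually.of_forall fun p => real_inner_comm _ _))
    (fun f g => by
      rw [Iap, Iap]
      exact integral_congr_ae (Eventually.of_forall fun p => by simp only [mul_comm]))
    (fun f g => by
      rw [Aap, Aap]
      refine integral_congr_ae (Eventually.of_forall fun p => ?_)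
      simp only; ring)
    (fun f => by
      rw [Iap]
      exact integral_nonneg fun p => mul_nonneg zero_le_one (mul_self_nonneg _))
    (fun f => by
      rw [Aap]
      refine integral_nonneg_of_ae ?_
      filter_upwards [hT.ae_mem_Lk] with p hp
      exact mul_nonneg (A2nn p hp) (mul_self_nonneg _))
    one X N
    (fun f => by
      rw [Dap]
      refine integral_eq_zero_of_ae (Eventually.of_forall fun p => ?_)
      simp only [hgr1, map_zero, inner_zero_left, Pi.zero_apply])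
    (fun a f => by
      have hgr := hT.green hE hmin' (f := (f : E → ℝ)) (g := fun x : E => ⟪a, x⟫)
        (fun p hp => (f.2 p hp).of_le (by simp))
        (fun p _ => contDiffAt_const.inner ℝ contDiffAt_id)
      have e1 : D (X a) f = ∫ p, ⟪PT φ p (gradient (f : E → ℝ) p),
          PT φ p (gradient (fun x : E => ⟪a, x⟫) p)⟫ ∂(mu φ b) := by
        rw [Dap]
        exact integral_congr_ae (Eventually.of_forall fun p => real_inner_comm _ _)
      have e2 : ∫ p, (f : E → ℝ) p * Lap m φ (fun x : E => ⟪a, x⟫) p ∂(mu φ b) =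
          - (m * I (X a) f) := by
        rw [Iap, ← integral_const_mul, ← integral_neg]
        refine integral_congr_ae (Eventually.of_forall fun p => ?_)
        simp only [lap_lin]
        change (f : E → ℝ) p * -((m : ℝ) * ⟪a, p⟫) = -((m : ℝ) * (1 * (⟪a, p⟫ * (f : E → ℝ) p)))
        ring
      rw [e2, ← e1] at hgr
      linarith)
    (fun a f => by
      have hgr := hT.green hE hmin' (f := (f : E → ℝ)) (g := fun x : E => ⟪a, gradient φ x⟫)
        (fun p hp => (f.2 p hp).of_le (by simp))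
        (fun p hp => ((N a).2 p hp).of_le (WithTop.coe_le_coe.2 (le_top : (2 : ℕ∞) ≤ ⊤)))
      have e1 : D (N a) f = ∫ p, ⟪PT φ p (gradient (f : E → ℝ) p),
          PT φ p (gradient (fun x : E => ⟪a, gradient φ x⟫) p)⟫ ∂(mu φ b) := by
        rw [Dap]
        exact integral_congr_ae (Eventually.of_forall fun p => real_inner_comm _ _)
      have e2 : ∫ p, (f : E → ℝ) p * Lap m φ (fun x : E => ⟪a, gradient φ x⟫) p ∂(mu φ b) =
          - A (N a) f := by
        rw [Aap, ← integral_neg]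
        refine integral_congr_ae ?_
        filter_upwards [hT.ae_mem_Lk] with p hp
        rw [lap_nu hT hmin hp]
        change (f : E → ℝ) p * -(A2 φ p * ⟪a, gradient φ p⟫) =
          -(A2 φ p * (⟪a, gradient φ p⟫ * (f : E → ℝ) p))
        ring
      rw [e2, ← e1] at hgr
      linarith)
    (by
      by_contra hcon
      push Not at hcon
      rw [Iap] at hcon
      have := zero_of_integral hT (f := fun p : E => (1 : ℝ) * (1 * 1))
        (fun p _ => continuousAt_const) (fun p _ => by norm_num) hcon hp₀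
      norm_num at this)
    (by
      by_contra hcon
      push Not at hcon
      rw [Aap] at hcon
      have := zero_of_integral hT (f := fun p : E => A2 φ p * (1 * 1))
        (fun p hp => (continuousAt_A2 (good_Lk hT hp)).mul continuousAt_const)
        (fun p hp => by simpa using A2nn p hp) hcon hp₀
      apply hA0
      simpa using this)
    (fun a ha => by
      rw [Iap]
      have := pos_IN hT hT.hom hgood hp₀ hA0 ha
      convert this using 2
      ext p
      change 1 * (⟪a, gradient φ p⟫ * ⟪a, gradient φ p⟫) = ⟪a, gradient φ p⟫ ^ 2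
      ring)
    (fun z hz θ => by
      rw [Aap]
      have := pos_AX hT hmin hm hE hp₀ hA0 hz θ
      convert this using 2
      ext p
      change A2 φ p * ((θ * 1 - ⟪z, p⟫) * (θ * 1 - ⟪z, p⟫)) = A2 φ p * (θ - ⟪z, p⟫) ^ 2
      ring)
    g₀
    (by
      rw [Aap, ← h1]
      refine integral_congr_ae (Eventually.of_forall fun p => ?_)
      change A2 φ p * (1 * h p) = A2 φ p * h p
      ring)
    (by
      rw [Dap, Aap]
      have e1 : ∫ p, ⟪PT φ p (gradient (g₀ : E → ℝ) p), PT φ p (gradient (g₀ : E → ℝ) p)⟫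
          ∂(mu φ b) = ∫ x, T (gradient φ) h x ∂(mu φ b) := by
        refine integral_congr_ae ?_
        filter_upwards [hT.ae_mem_Lk] with p hp
        rw [T_eq hT hp]
      have e2 : ∫ p, A2 φ p * ((g₀ : E → ℝ) p * (g₀ : E → ℝ) p) ∂(mu φ b) =
          ∫ x, A2 φ x * h x ^ 2 ∂(mu φ b) := by
        refine integral_congr_ae (Eventually.of_forall fun p => ?_)
        change A2 φ p * (h p * h p) = A2 φ p * h p ^ 2
        ring
      rw [e1, e2]
      exact h2)
  refine ⟨α, β, a, c, hc, fun s θ z => ?_⟩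
  have hk := hcc s θ z
  simp only at hk
  set u : VV φ := s • (α • g₀ + β • one + N a) + (θ • one - X z) with hu
  have hu' : (u : E → ℝ) = fun x => s * (α * h x + β + ⟪a, gradient φ x⟫) + θ - ⟪z, x⟫ := by
    funext x
    change s * (α * h x + β * 1 + ⟪a, gradient φ x⟫) + (θ * 1 - ⟪z, x⟫) = _
    ring
  have e1 : D u u = ∫ x, T (gradient φ) (u : E → ℝ) x ∂(mu φ b) := by
    rw [Dap]
    refine integral_congr_ae ?_
    filter_upwards [hT.ae_mem_Lk] with p hp
    rw [T_eq hT hp]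
  have e2 : A u u = ∫ x, A2 φ x * (u : E → ℝ) x ^ 2 ∂(mu φ b) := by
    rw [Aap]
    refine integral_congr_ae (Eventually.of_forall fun p => ?_)
    simp only; ring
  have e3 : I u u = ∫ x, (u : E → ℝ) x ^ 2 ∂(mu φ b) := by
    rw [Iap]
    refine integral_congr_ae (Eventually.of_forall fun p => ?_)
    simp only; ring
  rw [e1, e2, e3, hu'] at hk
  exact hk

end Crest.Agent.R246.IdxG149
end
end

-- ▼ part R246/StIdx_656
section

/-!
# R246: `StIdx` from 200's near lemma, 149's direction lemma and 101's assembly (helper656, glue)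
-/

set_option autoImplicit false
open scoped ContDiff Topology RealInnerProductSpace
open MeasureTheory Filter Metric Set
open Crest.Agent.R246.H990 (NullCone VB cV)
open Crest.Agent.R246.G873
open Crest.Agent.R246.SM436 (Good SmoothMin hs Tube mu Lk)
open Crest.Agent.R246.Hersch900 (SmS T)
open Crest.Agent.R246.HerschSM900 (A2 AreaMeas)
open Crest.Agent.R246.Skel656 Crest.Agent.R246.Skel2

noncomputable section

namespace Crest.Agent.R246.StIdx656

theorem stIdx {m : ℕ} (hm : 1 ≤ m) : StIdx m := by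
  intro φ b S hD hT hA hV h hh hh0 hlt
  have hfE : Module.finrank ℝ (E m) = m + 2 := by simp [E]
  have hfin := hA.fin
  obtain ⟨⟨α, β, a, c, hc, hQ⟩, hsp⟩ := IdxG149.exists_dir hT S.good S.min hm hfE
    (fun p hp => hh p hp.1) hh0 hlt
  -- positivity of the area
  have hV0 : 0 < (mu φ b).real univ := by
    by_contra hcon
    have h0 : (mu φ b).real univ = 0 := le_antisymm (not_lt.1 hcon) measureReal_nonneg
    have h1 : mu φ b = 0 := by
      have h2 : mu φ b univ = 0 := by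
        rcases (ENNReal.toReal_eq_zero_iff _).1 h0 with h3 | h3
        · exact h3
        · exact absurd h3 (measure_ne_top _ _)
      exact Measure.measure_univ_eq_zero.1 h2
    rw [h1] at hlt
    simp at hlt
  set G : E m → ℝ := fun x => α * h x + β + ⟪a, gradient φ x⟫ with hG
  have hGs : ∀ p ∈ Lk φ, ContDiffAt ℝ ∞ G p := by
    intro p hp
    have hp0 : p ≠ 0 := by
      rintro rfl
      simpa using hp.1
    have h1 := (S.good p hp0 hp.2).contDiffAt_gradient
    exact (((contDiffAt_const.mul (hh p hp.1)).add contDiffAt_const).add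
      (contDiffAt_const.inner ℝ h1))
  obtain ⟨gt, t0, d0, C, om, hgt, ht0, hd0, hC, hom, hC1, hen⟩ := IN200.near_HN S hT hGs
  refine IF101.hasFam_of_near hm S hV hV0 (fun w hw => ?_) hgt ht0 hd0 hC hc hom hC1 ?_
  · obtain ⟨p, h1, h2, h3, h4⟩ := hsp w hw
    exact ⟨p, ⟨h1, h2, h3⟩, h4⟩
  · intro ε hε hε1 s z θ hs hz hθ
    refine (hen ε hε hε1 s z θ hs hz hθ).trans ?_
    have h1 := hQ s θ z
    unfold IdxG149.QQ at h1
    have h2 : 4 / 3 * ((mu φ b).real univ + 1 / 2 *
        (∫ x, T (gradient φ) (fun x => s * G x + θ - ⟪z, x⟫) x ∂(mu φ b)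
        - ∫ x, A2 φ x * (s * G x + θ - ⟪z, x⟫) ^ 2 ∂(mu φ b)
        - m * ∫ x, (s * G x + θ - ⟪z, x⟫) ^ 2 ∂(mu φ b))) ≤
        4 / 3 * ((mu φ b).real univ - c / 2 * (s ^ 2 + θ ^ 2 + ‖z‖ ^ 2)) := by
      have h3 := h1
      simp only [hG]
      linarith
    linarith

end Crest.Agent.R246.StIdx656
end
end

-- ▼ part R246/J1_816
section

/-!
Row 246, part J, file J1: from the hypotheses of S0380 to `Imm` and `ProjBound`.
-/

set_option autoImplicit false

open scoped ContDiff Manifold Topology ENNReal NNReal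
open Bundle MeasureTheory Set Crest.GeometryTopology.CoordMetric
  Crest.GeometryTopology.ChartCurvature Crest.GeometryTopology.SphereImmersion

noncomputable section

namespace Crest.Agent.R246.J816

universe u

variable {m : ℕ} {M : Type u}

section Smooth

variable [TopologicalSpace M] [ChartedSpace (EuclideanSpace ℝ (Fin m)) M]
  [IsManifold 𝓘(ℝ, EuclideanSpace ℝ (Fin m)) ∞ M]
  [RiemannianBundle (fun x : M => TangentSpace 𝓘(ℝ, EuclideanSpace ℝ (Fin m)) x)]
  [IsContMDiffRiemannianBundle 𝓘(ℝ, EuclideanSpace ℝ (Fin m)) ∞ (EuclideanSpace ℝ (Fin m))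
      (fun x : M => TangentSpace 𝓘(ℝ, EuclideanSpace ℝ (Fin m)) x)]

/-- smoothness of the coordinate expression. -/
theorem loc_contDiffAt {F : M → Eu (m + 2)}
    (hF : ContMDiff 𝓘(ℝ, EuclideanSpace ℝ (Fin m)) 𝓘(ℝ, EuclideanSpace ℝ (Fin (m + 2))) ∞ F)
    (x : M) {y : Eu m} (hy : y ∈ (chartAt (Eu m) x).target) :
    ContDiffAt ℝ ∞ (loc F x) y := by
  have h1 : ContMDiffOn 𝓘(ℝ, EuclideanSpace ℝ (Fin m)) 𝓘(ℝ, EuclideanSpace ℝ (Fin m)) ∞
      (chartAt (Eu m) x).symm (chartAt (Eu m) x).target := contMDiffOn_chart_symm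
  have h2 : ContMDiffOn 𝓘(ℝ, EuclideanSpace ℝ (Fin m)) 𝓘(ℝ, EuclideanSpace ℝ (Fin (m + 2))) ∞
      (F ∘ (chartAt (Eu m) x).symm) (chartAt (Eu m) x).target :=
    hF.comp_contMDiffOn h1
  exact (contMDiffOn_iff_contDiffOn.1 h2).contDiffAt
    ((chartAt (Eu m) x).open_target.mem_nhds hy)

/-- chain rule for the coordinate expression. -/
theorem fderiv_loc {F : M → Eu (m + 2)}
    (hF : ContMDiff 𝓘(ℝ, EuclideanSpace ℝ (Fin m)) 𝓘(ℝ, EuclideanSpace ℝ (Fin (m + 2))) ∞ F)
    (x : M) {y : Eu m} (hy : y ∈ (chartAt (Eu m) x).target) (v : Eu m) :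
    fderiv ℝ (loc F x) y v =
      mfderiv 𝓘(ℝ, EuclideanSpace ℝ (Fin m)) 𝓘(ℝ, EuclideanSpace ℝ (Fin (m + 2))) F
        ((chartAt (Eu m) x).symm y)
        (mfderiv 𝓘(ℝ, EuclideanSpace ℝ (Fin m)) 𝓘(ℝ, EuclideanSpace ℝ (Fin m))
          (chartAt (EuclideanSpace ℝ (Fin m)) x).symm y v) := by
  have h1 : MDifferentiableAt 𝓘(ℝ, EuclideanSpace ℝ (Fin m)) 𝓘(ℝ, EuclideanSpace ℝ (Fin m))
      (chartAt (Eu m) x).symm y :=
    (mdifferentiable_chart (I := 𝓘(ℝ, EuclideanSpace ℝ (Fin m))) x).mdifferentiableAt_symm hy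
  have h2 : MDifferentiableAt 𝓘(ℝ, EuclideanSpace ℝ (Fin m))
      𝓘(ℝ, EuclideanSpace ℝ (Fin (m + 2))) F ((chartAt (Eu m) x).symm y) :=
    (hF _).mdifferentiableAt (by simp)
  have h3 := mfderiv_comp y h2 h1
  rw [mfderiv_eq_fderiv] at h3
  have h4 := congrArg (fun L => L v) h3
  exact h4

/-- the chart metric is the Gram matrix of the coordinate expression. -/
theorem chartMetric_eq {F : M → Eu (m + 2)}
    (hF : ContMDiff 𝓘(ℝ, EuclideanSpace ℝ (Fin m)) 𝓘(ℝ, EuclideanSpace ℝ (Fin (m + 2))) ∞ F)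
    (hiso : IsIsometricMap m (m + 2) M F)
    (x : M) {y : Eu m} (hy : y ∈ (chartAt (Eu m) x).target) (i j : Fin m) :
    chartMetric m M x y i j =
      inner ℝ (fderiv ℝ (loc F x) y (EuclideanSpace.single i 1))
        (fderiv ℝ (loc F x) y (EuclideanSpace.single j 1)) := by
  rw [fderiv_loc hF x hy, fderiv_loc hF x hy]
  exact hiso _ _ _

theorem loc_inj {F : M → Eu (m + 2)}
    (hF : ContMDiff 𝓘(ℝ, EuclideanSpace ℝ (Fin m)) 𝓘(ℝ, EuclideanSpace ℝ (Fin (m + 2))) ∞ F)
    (hiso : IsIsometricMap m (m + 2) M F)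
    (x : M) {y : Eu m} (hy : y ∈ (chartAt (Eu m) x).target) :
    Function.Injective (fderiv ℝ (loc F x) y) := by
  refine (injective_iff_map_eq_zero _).2 fun v hv => ?_
  rw [fderiv_loc hF x hy] at hv
  set w := mfderiv 𝓘(ℝ, EuclideanSpace ℝ (Fin m)) 𝓘(ℝ, EuclideanSpace ℝ (Fin m))
          (chartAt (EuclideanSpace ℝ (Fin m)) x).symm y v with hw
  have h1 := hiso _ w w
  have h2 : inner ℝ w w = 0 := by
    rw [h1, hv]
    exact inner_zero_left _
  have h3 : w = 0 := inner_self_eq_zero.1 h2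
  have h4 := (mdifferentiable_chart (I := 𝓘(ℝ, EuclideanSpace ℝ (Fin m))) x).comp_symm_deriv hy
  have h5 := congrArg (fun L => L v) h4
  have h6 : mfderiv 𝓘(ℝ, EuclideanSpace ℝ (Fin m)) 𝓘(ℝ, EuclideanSpace ℝ (Fin m))
      (chartAt (Eu m) x) ((chartAt (Eu m) x).symm y) w = v := h5
  rw [h3, map_zero] at h6
  exact h6.symm

theorem imm_of {F : M → Eu (m + 2)}
    (hF : ContMDiff 𝓘(ℝ, EuclideanSpace ℝ (Fin m)) 𝓘(ℝ, EuclideanSpace ℝ (Fin (m + 2))) ∞ F)
    (hS : ∀ x, ‖F x‖ = 1) (hiso : IsIsometricMap m (m + 2) M F) : Imm F :=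
  ⟨hF.continuous, hS, fun x _ hy => loc_contDiffAt hF x hy, fun x _ hy => loc_inj hF hiso x hy⟩

end Smooth

section Lip

variable [MetricSpace M] [ChartedSpace (EuclideanSpace ℝ (Fin m)) M]
  [IsManifold 𝓘(ℝ, EuclideanSpace ℝ (Fin m)) ∞ M]
  [RiemannianBundle (fun x : M => TangentSpace 𝓘(ℝ, EuclideanSpace ℝ (Fin m)) x)]
  [IsContMDiffRiemannianBundle 𝓘(ℝ, EuclideanSpace ℝ (Fin m)) ∞ (EuclideanSpace ℝ (Fin m))
      (fun x : M => TangentSpace 𝓘(ℝ, EuclideanSpace ℝ (Fin m)) x)]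
  [IsRiemannianManifold 𝓘(ℝ, EuclideanSpace ℝ (Fin m)) M]

theorem enorm_mfderiv_eq {F : M → Eu (m + 2)} (hiso : IsIsometricMap m (m + 2) M F) (x : M)
    (v : TangentSpace 𝓘(ℝ, EuclideanSpace ℝ (Fin m)) x) (w : EuclideanSpace ℝ (Fin (m + 2)))
    (hw : w = mfderiv 𝓘(ℝ, EuclideanSpace ℝ (Fin m)) 𝓘(ℝ, EuclideanSpace ℝ (Fin (m + 2))) F x v) :
    ‖w‖ₑ = ‖v‖ₑ := by
  have h1 : inner ℝ v v = inner ℝ w w := by
    rw [hw]
    exact hiso x v v
  have h2 : ‖v‖ ^ 2 = ‖w‖ ^ 2 := by
    rw [← real_inner_self_eq_norm_sq, ← real_inner_self_eq_norm_sq]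
    exact h1
  have h3 : ‖v‖ = ‖w‖ := by
    rw [← abs_of_nonneg (norm_nonneg v), ← Real.sqrt_sq_eq_abs, h2, Real.sqrt_sq (norm_nonneg _)]
  rw [← ofReal_norm, ← ofReal_norm, h3]

attribute [local instance] normedAddCommGroupTangentSpaceVectorSpace
attribute [local instance] normedSpaceTangentSpaceVectorSpace

set_option backward.isDefEq.respectTransparency false in
theorem lipschitz_of {F : M → Eu (m + 2)}
    (hF : ContMDiff 𝓘(ℝ, EuclideanSpace ℝ (Fin m)) 𝓘(ℝ, EuclideanSpace ℝ (Fin (m + 2))) ∞ F)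
    (hiso : IsIsometricMap m (m + 2) M F) : LipschitzWith 1 F := by
  intro x y
  rw [ENNReal.coe_one, one_mul]
  rw [IsRiemannianManifold.out (I := 𝓘(ℝ, EuclideanSpace ℝ (Fin m))) x y]
  refine le_of_forall_gt fun δ hδ => ?_
  obtain ⟨γ, hγ0, hγ1, γ_smooth, hγ⟩ := Manifold.exists_lt_of_riemannianEDist_lt hδ
  refine lt_of_le_of_lt ?_ hγ
  let γ' := F ∘ γ
  have hF1 : ContMDiff 𝓘(ℝ, EuclideanSpace ℝ (Fin m)) 𝓘(ℝ, EuclideanSpace ℝ (Fin (m + 2))) 1 F :=
    hF.of_le (by simp)
  have hC : ContMDiffOn 𝓘(ℝ, ℝ) 𝓘(ℝ, EuclideanSpace ℝ (Fin (m + 2))) 1 γ' (Icc 0 1) :=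
    hF1.comp_contMDiffOn γ_smooth
  have key : ‖γ' 1 - γ' 0‖ₑ ≤
      Manifold.pathELength 𝓘(ℝ, EuclideanSpace ℝ (Fin m)) γ 0 1 := by
    calc
      ‖γ' 1 - γ' 0‖ₑ
    _ ≤ ∫⁻ t' in Icc 0 1, ‖derivWithin γ' (Icc 0 1) t'‖ₑ := by
      apply enorm_sub_le_lintegral_derivWithin_Icc_of_contDiffOn_Icc _ zero_le_one
      rwa [← contMDiffOn_iff_contDiffOn]
    _ = ∫⁻ t' in Icc 0 1, ‖mfderivWithin 𝓘(ℝ, ℝ) 𝓘(ℝ, EuclideanSpace ℝ (Fin (m + 2)))
          γ' (Icc 0 1) t' 1‖ₑ := by
      simp_rw [← fderivWithin_derivWithin, mfderivWithin_eq_fderivWithin]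
      rfl
    _ ≤ ∫⁻ t' in Icc 0 1, ‖mfderivWithin 𝓘(ℝ, ℝ) 𝓘(ℝ, EuclideanSpace ℝ (Fin m))
          γ (Icc 0 1) t' 1‖ₑ := by
      apply setLIntegral_mono' measurableSet_Icc (fun t' ht' ↦ ?_)
      have h1 : mfderivWithin 𝓘(ℝ, ℝ) 𝓘(ℝ, EuclideanSpace ℝ (Fin (m + 2))) γ' (Icc 0 1) t' =
          (mfderiv 𝓘(ℝ, EuclideanSpace ℝ (Fin m)) 𝓘(ℝ, EuclideanSpace ℝ (Fin (m + 2)))
            F (γ t')) ∘L
          (mfderivWithin 𝓘(ℝ, ℝ) 𝓘(ℝ, EuclideanSpace ℝ (Fin m)) γ (Icc 0 1) t') := by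
        apply mfderiv_comp_mfderivWithin
        · exact (hF _).mdifferentiableAt (by simp)
        · exact γ_smooth.mdifferentiableOn one_ne_zero _ ht'
        · rw [uniqueMDiffWithinAt_iff_uniqueDiffWithinAt]
          exact uniqueDiffOn_Icc zero_lt_one _ ht'
      have h2 : mfderivWithin 𝓘(ℝ, ℝ) 𝓘(ℝ, EuclideanSpace ℝ (Fin (m + 2))) γ' (Icc 0 1) t' 1 =
          (mfderiv 𝓘(ℝ, EuclideanSpace ℝ (Fin m)) 𝓘(ℝ, EuclideanSpace ℝ (Fin (m + 2)))
            F (γ t'))
          (mfderivWithin 𝓘(ℝ, ℝ) 𝓘(ℝ, EuclideanSpace ℝ (Fin m)) γ (Icc 0 1) t' 1) :=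
        congr($h1 1)
      exact (enorm_mfderiv_eq hiso _ _ _ h2).le
    _ = Manifold.pathELength 𝓘(ℝ, EuclideanSpace ℝ (Fin m)) γ 0 1 := by
      rw [Manifold.pathELength_eq_lintegral_mfderivWithin_Icc]
  rw [← hγ0, ← hγ1, edist_comm, edist_eq_enorm_sub]
  exact key

end Lip

section Proj

variable [MetricSpace M] [MeasurableSpace M] [BorelSpace M]

/-- Lipschitz maps with constant `1` do not increase the Euclidean Hausdorff measure. -/
theorem euclideanHausdorff_image_le {G : M → Eu m} (hG : LipschitzWith 1 G) (s : Set M) :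
    Measure.euclideanHausdorffMeasure m (G '' s) ≤ Measure.euclideanHausdorffMeasure m s := by
  rw [Measure.euclideanHausdorffMeasure_def, Measure.euclideanHausdorffMeasure_def,
    Measure.smul_apply, Measure.smul_apply]
  have h := hG.hausdorffMeasure_image_le (d := (m : ℝ)) (Nat.cast_nonneg m) s
  rw [ENNReal.coe_one, ENNReal.one_rpow, one_mul] at h
  gcongr

theorem projBound_of {F : M → Eu (m + 2)} (hF : LipschitzWith 1 F) :
    ProjBound F (Measure.euclideanHausdorffMeasure m) := by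
  intro p hp P _
  have h1 : LipschitzWith 1 (fun x => p (F x)) := by
    have h2 : LipschitzWith ‖p‖₊ p := p.lipschitz
    have h3 : LipschitzWith 1 p := h2.weaken (by exact_mod_cast hp)
    have h5 := h3.comp hF
    rw [mul_one] at h5
    exact h5
  have h4 := euclideanHausdorff_image_le h1 P
  rw [EuclideanSpace.euclideanHausdorffMeasure_eq_volume] at h4
  rwa [Set.image_image]

end Proj

end Crest.Agent.R246.J816
end
end

-- ▼ part R246/J2_816
section

/-!
Row 246, part J, file J2: from the hypotheses of S0380 to `MinAt`; great hyperspheres are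
totally geodesic.
-/

set_option autoImplicit false

open scoped ContDiff Manifold Topology ENNReal NNReal
open Bundle MeasureTheory Set Crest.GeometryTopology.CoordMetric
  Crest.GeometryTopology.ChartCurvature Crest.GeometryTopology.SphereImmersion

noncomputable section

namespace Crest.Agent.R246.J816

variable {m : ℕ}

/-- standard basis vector. -/
abbrev eb (i : Fin m) : Eu m := EuclideanSpace.single i (1:ℝ)

theorem eu_sum (v : Eu m) : v = ∑ i, v i • eb i := by
  ext j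
  simp [Finset.sum_apply, Pi.single_apply]

theorem bilin_sum {W : Type*} [NormedAddCommGroup W] [NormedSpace ℝ W]
    (D : Eu m →L[ℝ] Eu m →L[ℝ] W) (v w : Eu m) :
    D v w = ∑ i, ∑ j, (v i * w j) • D (eb i) (eb j) := by
  have h1 : D v = ∑ i, v i • D (eb i) := by
    conv_lhs => rw [eu_sum v]
    rw [map_sum]
    exact Finset.sum_congr rfl fun i _ => map_smul _ _ _
  rw [h1, _root_.sum_apply]
  refine Finset.sum_congr rfl fun i _ => ?_
  rw [_root_.smul_apply]
  conv_lhs => rw [eu_sum w]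
  rw [map_sum, Finset.smul_sum]
  refine Finset.sum_congr rfl fun j _ => ?_
  rw [map_smul, smul_smul]

/-- Gram matrix field of a parametrisation. -/
def gram (f : Eu m → Eu (m + 2)) : MetricField m := fun y =>
  Matrix.of fun i j => inner ℝ (fderiv ℝ f y (eb i)) (fderiv ℝ f y (eb j))

theorem gram_apply (f : Eu m → Eu (m + 2)) (y : Eu m) (i j : Fin m) :
    gram f y i j = inner ℝ (fderiv ℝ f y (eb i)) (fderiv ℝ f y (eb j)) := rfl

theorem inner_fderiv_gram (f : Eu m → Eu (m + 2)) (y v w : Eu m) :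
    inner ℝ (fderiv ℝ f y v) (fderiv ℝ f y w) = ∑ i, ∑ j, v i * (gram f y i j * w j) := by
  conv_lhs => rw [eu_sum v, eu_sum w]
  rw [map_sum, map_sum, sum_inner]
  refine Finset.sum_congr rfl fun i _ => ?_
  rw [inner_sum]
  refine Finset.sum_congr rfl fun j _ => ?_
  rw [map_smul, map_smul, real_inner_smul_left, real_inner_smul_right, gram_apply]
  ring

/-- an orthonormal family of the tangent space and the inverse Gram matrix. -/
theorem exists_onf {f : Eu m → Eu (m + 2)} {t : Eu m}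
    (hinj : Function.Injective (fderiv ℝ f t)) :
    ∃ ξ : Fin m → Eu m, Orthonormal ℝ (fun k => fderiv ℝ f t (ξ k)) ∧
      0 < (gram f t).det ∧ ∀ i j, (gram f t)⁻¹ i j = ∑ k, ξ k i * ξ k j := by
  set L : Eu m →ₗ[ℝ] Eu (m + 2) := (fderiv ℝ f t : Eu m →ₗ[ℝ] Eu (m + 2)) with hL
  have hfr : Module.finrank ℝ (LinearMap.range L) = m := by
    rw [LinearMap.finrank_range_of_inj hinj, finrank_euclideanSpace_fin]
  let ob : OrthonormalBasis (Fin m) ℝ (LinearMap.range L) :=
    (stdOrthonormalBasis ℝ (LinearMap.range L)).reindex (finCongr hfr)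
  have hex : ∀ k, ∃ v : Eu m, L v = ob k := fun k => (ob k).2
  choose ξ hξ using hex
  have hon : Orthonormal ℝ (fun k => fderiv ℝ f t (ξ k)) := by
    have h1 := ob.orthonormal
    rw [orthonormal_iff_ite] at h1 ⊢
    intro i j
    have h2 := h1 i j
    rw [← h2]
    show inner ℝ (L (ξ i)) (L (ξ j)) = _
    rw [hξ, hξ]
    rfl
  -- the matrix identity
  set Ξ : Matrix (Fin m) (Fin m) ℝ := Matrix.of fun i k => ξ k i with hΞ
  have hmat : Ξ.transpose * (gram f t * Ξ) = 1 := by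
    ext k l
    rw [Matrix.one_apply, Matrix.mul_apply]
    have h3 := (orthonormal_iff_ite.1 hon) k l
    rw [inner_fderiv_gram] at h3
    rw [← h3]
    refine Finset.sum_congr rfl fun i _ => ?_
    rw [Matrix.mul_apply, Matrix.transpose_apply, Finset.mul_sum]
    rfl
  have hmat2 : gram f t * (Ξ * Ξ.transpose) = 1 := by
    rw [← Matrix.mul_assoc]
    exact mul_eq_one_comm.1 hmat
  refine ⟨ξ, hon, ?_, ?_⟩
  · have h4 := congrArg Matrix.det hmat2
    rw [Matrix.det_mul, Matrix.det_mul, Matrix.det_transpose, Matrix.det_one] at h4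
    by_contra hcon
    push Not at hcon
    nlinarith [mul_self_nonneg Ξ.det]
  · intro i j
    rw [Matrix.inv_eq_right_inv hmat2, Matrix.mul_apply]
    rfl

theorem contDiffAt_gram {f : Eu m → Eu (m + 2)} {t : Eu m} (hf : ContDiffAt ℝ ∞ f t)
    (i j : Fin m) : ContDiffAt ℝ ∞ (fun y => gram f y i j) t := by
  have h1 : ContDiffAt ℝ ∞ (fderiv ℝ f) t := hf.fderiv_right (by simp)
  exact (h1.clm_apply contDiffAt_const).inner ℝ (h1.clm_apply contDiffAt_const)

theorem contDiffAt_inv {A : Eu m → Matrix (Fin m) (Fin m) ℝ} {t : Eu m}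
    (hA : ∀ i j, ContDiffAt ℝ ∞ (fun y => A y i j) t) (hdet : (A t).det ≠ 0) (i j : Fin m) :
    ContDiffAt ℝ ∞ (fun y => (A y)⁻¹ i j) t := by
  have h1 : ContDiffAt ℝ ∞ (fun y => (A y).det) t := contDiffAt_det hA
  have h2 : ContDiffAt ℝ ∞ (fun y => (A y).adjugate i j) t := by
    have h3 : (fun y => (A y).adjugate i j) =
        fun y => ((A y).updateRow j (Pi.single i 1)).det := by
      ext y
      rw [Matrix.adjugate_apply]
    rw [h3]
    refine contDiffAt_det fun k l => ?_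
    by_cases hk : k = j
    · subst hk
      simp only [Matrix.updateRow_self]
      exact contDiffAt_const
    · simp only [Matrix.updateRow_ne hk]
      exact hA k l
  have h4 : (fun y => (A y)⁻¹ i j) = fun y => ((A y).det)⁻¹ * (A y).adjugate i j := by
    ext y
    rw [Matrix.inv_def, Matrix.smul_apply, smul_eq_mul, Ring.inverse_eq_inv']
  rw [h4]
  exact (h1.inv hdet).mul h2

/-- coordinate derivative of a component. -/
theorem pderiv_comp {f : Eu m → Eu (m + 2)} {y : Eu m} (hf : DifferentiableAt ℝ f y)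
    (j : Fin m) (a : Fin (m + 2)) : pderiv j (fun z => f z a) y = (fderiv ℝ f y (eb j)) a := by
  have h1 : HasFDerivAt (fun z => f z a)
      ((EuclideanSpace.proj a : Eu (m + 2) →L[ℝ] ℝ).comp (fderiv ℝ f y)) y :=
    (EuclideanSpace.proj a : Eu (m + 2) →L[ℝ] ℝ).hasFDerivAt.comp y hf.hasFDerivAt
  rw [pderiv, h1.fderiv]
  rfl

theorem pderiv_pderiv {f : Eu m → Eu (m + 2)} {t : Eu m} (hf : ContDiffAt ℝ ∞ f t)
    (i j : Fin m) (a : Fin (m + 2)) :
    pderiv i (fun y => pderiv j (fun z => f z a) y) t =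
      (fderiv ℝ (fderiv ℝ f) t (eb i) (eb j)) a := by
  have h1 : (fun y => pderiv j (fun z => f z a) y) =ᶠ[𝓝 t]
      fun y => (fderiv ℝ f y (eb j)) a := by
    filter_upwards [(hf.of_le (m := 1) (by exact_mod_cast le_top)).eventually (by norm_num)] with y hy
    exact pderiv_comp (hy.differentiableAt (by simp)) j a
  have h2 : HasFDerivAt (fderiv ℝ f) (fderiv ℝ (fderiv ℝ f) t) t :=
    ((hf.fderiv_right (m := ∞) (by simp)).differentiableAt (by simp)).hasFDerivAt
  have h3 : HasFDerivAt (fun y => (fderiv ℝ f y (eb j)) a)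
      ((EuclideanSpace.proj a : Eu (m + 2) →L[ℝ] ℝ).comp
        ((ContinuousLinearMap.apply ℝ (Eu (m + 2)) (eb j)).comp (fderiv ℝ (fderiv ℝ f) t))) t :=
    (EuclideanSpace.proj a : Eu (m + 2) →L[ℝ] ℝ).hasFDerivAt.comp t
      ((ContinuousLinearMap.apply ℝ (Eu (m + 2)) (eb j)).hasFDerivAt.comp t h2)
  rw [pderiv, h1.fderiv_eq, h3.fderiv]
  rfl

/-- expansion of the Laplace–Beltrami operator at a point, with first order coefficients
independent of the component. -/
theorem exists_laplace {f : Eu m → Eu (m + 2)} {t : Eu m} (hf : ContDiffAt ℝ ∞ f t)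
    (hinj : Function.Injective (fderiv ℝ f t)) {g : MetricField m}
    (hg : ∀ᶠ y in 𝓝 t, g y = gram f y) :
    ∃ B : Eu m, ∀ a : Fin (m + 2), laplaceBeltrami g (fun y => f y a) t =
      (fderiv ℝ f t B) a +
        ∑ i, ∑ j, (gram f t)⁻¹ i j * (fderiv ℝ (fderiv ℝ f) t (eb i) (eb j)) a := by
  obtain ⟨ξ, -, hdet, -⟩ := exists_onf hinj
  set A : Fin m → Fin m → Eu m → ℝ := fun i j y =>
    Real.sqrt (gram f y).det * (gram f y)⁻¹ i j with hA
  have hAd : ∀ i j, DifferentiableAt ℝ (A i j) t := by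
    intro i j
    have h1 : ContDiffAt ℝ ∞ (fun y => (gram f y).det) t :=
      contDiffAt_det (contDiffAt_gram hf)
    have h2 := contDiffAt_inv (contDiffAt_gram hf) hdet.ne' i j
    exact ((h1.sqrt hdet.ne').mul h2).differentiableAt (by simp)
  set s := Real.sqrt (gram f t).det with hs
  have hs0 : s ≠ 0 := (Real.sqrt_pos.2 hdet).ne'
  refine ⟨WithLp.toLp 2 fun j => (1 / s) * ∑ i, pderiv i (A i j) t, fun a => ?_⟩
  have h3 : ∀ i, pderiv i (fun y => Real.sqrt (g y).det *
      ∑ j, inverseField g y i j * pderiv j (fun z => f z a) y) t =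
      ∑ j, (pderiv i (A i j) t * (fderiv ℝ f t (eb j)) a +
        A i j t * (fderiv ℝ (fderiv ℝ f) t (eb i) (eb j)) a) := by
    intro i
    have e1 : (fun y => Real.sqrt (g y).det *
        ∑ j, inverseField g y i j * pderiv j (fun z => f z a) y) =ᶠ[𝓝 t]
        fun y => ∑ j, A i j y * (fderiv ℝ f y (eb j)) a := by
      filter_upwards [hg, (hf.of_le (m := 1) (by exact_mod_cast le_top)).eventually (by norm_num)] with y hy hy2
      rw [hy, Finset.mul_sum]
      refine Finset.sum_congr rfl fun j _ => ?_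
      rw [pderiv_comp (hy2.differentiableAt (by simp)) j a, inverseField, hy, ← mul_assoc]
    have h2 : HasFDerivAt (fderiv ℝ f) (fderiv ℝ (fderiv ℝ f) t) t :=
      ((hf.fderiv_right (m := ∞) (by simp)).differentiableAt (by simp)).hasFDerivAt
    have h4 : ∀ j, HasFDerivAt (fun y => (fderiv ℝ f y (eb j)) a)
        ((EuclideanSpace.proj a : Eu (m + 2) →L[ℝ] ℝ).comp
          ((ContinuousLinearMap.apply ℝ (Eu (m + 2)) (eb j)).comp
            (fderiv ℝ (fderiv ℝ f) t))) t := fun j =>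
      (EuclideanSpace.proj a : Eu (m + 2) →L[ℝ] ℝ).hasFDerivAt.comp t
        ((ContinuousLinearMap.apply ℝ (Eu (m + 2)) (eb j)).hasFDerivAt.comp t h2)
    have h5 : HasFDerivAt (fun y => ∑ j, A i j y * (fderiv ℝ f y (eb j)) a) _ t :=
      HasFDerivAt.fun_sum fun j (_ : j ∈ Finset.univ) => (hAd i j).hasFDerivAt.mul (h4 j)
    rw [pderiv, e1.fderiv_eq, h5.fderiv]
    simp only [_root_.sum_apply, _root_.add_apply,
      _root_.smul_apply, ContinuousLinearMap.comp_apply, smul_eq_mul]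
    refine Finset.sum_congr rfl fun j _ => ?_
    rw [pderiv]
    simp only [ContinuousLinearMap.apply_apply, PiLp.proj_apply]
    ring
  have hgt : g t = gram f t := hg.self_of_nhds
  have e4 : (fderiv ℝ f t (WithLp.toLp 2 fun j => (1 / s) * ∑ i, pderiv i (A i j) t)) a =
      ∑ j, ((1 / s) * ∑ i, pderiv i (A i j) t) * (fderiv ℝ f t (eb j)) a := by
    rw [eu_sum (WithLp.toLp 2 fun j => (1 / s) * ∑ i, pderiv i (A i j) t), map_sum]
    simp
  rw [laplaceBeltrami, hgt, ← hs, e4]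
  simp only [h3]
  simp only [Finset.sum_add_distrib, mul_add, Finset.mul_sum, Finset.sum_mul]
  congr 1
  · rw [Finset.sum_comm]
    refine Finset.sum_congr rfl fun j _ => Finset.sum_congr rfl fun i _ => by ring
  · refine Finset.sum_congr rfl fun i _ => Finset.sum_congr rfl fun j _ => ?_
    simp only [hA]
    rw [← hs]
    field_simp

section Man

universe u

variable {M : Type u} [TopologicalSpace M] [ChartedSpace (EuclideanSpace ℝ (Fin m)) M]
  [IsManifold 𝓘(ℝ, EuclideanSpace ℝ (Fin m)) ∞ M]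
  [Bundle.RiemannianBundle (fun x : M => TangentSpace 𝓘(ℝ, EuclideanSpace ℝ (Fin m)) x)]
  [IsContMDiffRiemannianBundle 𝓘(ℝ, EuclideanSpace ℝ (Fin m)) ∞ (EuclideanSpace ℝ (Fin m))
      (fun x : M => TangentSpace 𝓘(ℝ, EuclideanSpace ℝ (Fin m)) x)]

theorem eventually_chartMetric {F : M → Eu (m + 2)}
    (hF : ContMDiff 𝓘(ℝ, EuclideanSpace ℝ (Fin m)) 𝓘(ℝ, EuclideanSpace ℝ (Fin (m + 2))) ∞ F)
    (hiso : IsIsometricMap m (m + 2) M F) (x : M) :
    ∀ᶠ y in 𝓝 (ctr x : Eu m), chartMetric m M x y = gram (loc F x) y := by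
  filter_upwards [(chartAt (Eu m) x).open_target.mem_nhds (mem_chart_target (Eu m) x)] with y hy
  ext i j
  exact chartMetric_eq hF hiso x hy i j

/-- minimality in the orthonormal form. -/
theorem minAt_of {F : M → Eu (m + 2)}
    (hF : ContMDiff 𝓘(ℝ, EuclideanSpace ℝ (Fin m)) 𝓘(ℝ, EuclideanSpace ℝ (Fin (m + 2))) ∞ F)
    (hiso : IsIsometricMap m (m + 2) M F) (hmin : IsMinimalInSphere m (m + 2) M F) (x : M) :
    MinAt F x := by
  have ht : (ctr x : Eu m) ∈ (chartAt (Eu m) x).target := mem_chart_target (Eu m) x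
  have hf := loc_contDiffAt hF x ht
  have hinj := loc_inj hF hiso x ht
  obtain ⟨B, hB⟩ := exists_laplace hf hinj (eventually_chartMetric hF hiso x)
  obtain ⟨ξ, hon, -, hinv⟩ := exists_onf hinj
  refine ⟨ξ, -B, hon, ?_⟩
  ext a
  have h1 := hmin x a
  rw [sphereTension] at h1
  have h2 : laplaceBeltrami (chartMetric m M x) (chartComponent m (m + 2) M F x a)
      (chartCentre m M x) = laplaceBeltrami (chartMetric m M x) (fun y => loc F x y a)
        (ctr x) := rfl
  rw [h2, hB a] at h1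
  have h3 : ∑ k, fderiv ℝ (fderiv ℝ (loc F x)) (ctr x) (ξ k) (ξ k) =
      ∑ i, ∑ j, (gram (loc F x) (ctr x))⁻¹ i j •
        fderiv ℝ (fderiv ℝ (loc F x)) (ctr x) (eb i) (eb j) := by
    have h4 : ∀ k, fderiv ℝ (fderiv ℝ (loc F x)) (ctr x) (ξ k) (ξ k) =
        ∑ i, ∑ j, (ξ k i * ξ k j) •
          fderiv ℝ (fderiv ℝ (loc F x)) (ctr x) (eb i) (eb j) := by
      intro k
      exact bilin_sum _ _ _
    simp only [h4, hinv, Finset.sum_smul]
    rw [Finset.sum_comm]
    refine Finset.sum_congr rfl fun i _ => ?_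
    rw [Finset.sum_comm]
  rw [h3, map_neg]
  simp only [PiLp.add_apply, PiLp.smul_apply, PiLp.neg_apply, smul_eq_mul]
  have h5 : (∑ i, ∑ j, (gram (loc F x) (ctr x))⁻¹ i j •
        fderiv ℝ (fderiv ℝ (loc F x)) (ctr x) (eb i) (eb j)) a =
      ∑ i, ∑ j, (gram (loc F x) (ctr x))⁻¹ i j *
        (fderiv ℝ (fderiv ℝ (loc F x)) (ctr x) (eb i) (eb j)) a := by
    simp
  rw [h5]
  linarith

end Man

end Crest.Agent.R246.J816
end
end

-- ▼ part R246/J3_816
section

/-!
Row 246, part J, file J3: an immersion whose image lies in a great hypersphere is totally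
geodesic.
-/

set_option autoImplicit false

open scoped ContDiff Manifold Topology ENNReal NNReal
open Bundle MeasureTheory Set Crest.GeometryTopology.CoordMetric
  Crest.GeometryTopology.ChartCurvature Crest.GeometryTopology.SphereImmersion

noncomputable section

namespace Crest.Agent.R246.J816

variable {m : ℕ}

theorem hasFDerivAt_fderiv_apply {f : Eu m → Eu (m + 2)} {t : Eu m} (hf : ContDiffAt ℝ ∞ f t)
    (v : Eu m) : HasFDerivAt (fun y => fderiv ℝ f y v)
      ((ContinuousLinearMap.apply ℝ (Eu (m + 2)) v).comp (fderiv ℝ (fderiv ℝ f) t)) t := by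
  have h2 : HasFDerivAt (fderiv ℝ f) (fderiv ℝ (fderiv ℝ f) t) t :=
    ((hf.fderiv_right (m := ∞) (by simp)).differentiableAt (by simp)).hasFDerivAt
  exact (ContinuousLinearMap.apply ℝ (Eu (m + 2)) v).hasFDerivAt.comp t h2

theorem pderiv_gram {f : Eu m → Eu (m + 2)} {t : Eu m} (hf : ContDiffAt ℝ ∞ f t)
    (i j l : Fin m) : pderiv i (fun y => gram f y j l) t =
      inner ℝ (fderiv ℝ (fderiv ℝ f) t (eb i) (eb j)) (fderiv ℝ f t (eb l)) +
        inner ℝ (fderiv ℝ f t (eb j)) (fderiv ℝ (fderiv ℝ f) t (eb i) (eb l)) := by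
  have h1 := (hasFDerivAt_fderiv_apply hf (eb j)).inner ℝ (hasFDerivAt_fderiv_apply hf (eb l))
  have h2 : (fun y => gram f y j l) =
      fun y => inner ℝ (fderiv ℝ f y (eb j)) (fderiv ℝ f y (eb l)) := rfl
  rw [pderiv, h2, h1.fderiv]
  simp only [ContinuousLinearMap.comp_apply, ContinuousLinearMap.prod_apply,
    fderivInnerCLM_apply, ContinuousLinearMap.apply_apply]
  ring

section Man

universe u

variable {M : Type u} [TopologicalSpace M] [ChartedSpace (EuclideanSpace ℝ (Fin m)) M]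
  [IsManifold 𝓘(ℝ, EuclideanSpace ℝ (Fin m)) ∞ M]
  [RiemannianBundle (fun x : M => TangentSpace 𝓘(ℝ, EuclideanSpace ℝ (Fin m)) x)]
  [IsContMDiffRiemannianBundle 𝓘(ℝ, EuclideanSpace ℝ (Fin m)) ∞ (EuclideanSpace ℝ (Fin m))
      (fun x : M => TangentSpace 𝓘(ℝ, EuclideanSpace ℝ (Fin m)) x)]

theorem tg_of_hyper {F : M → Eu (m + 2)}
    (hF : ContMDiff 𝓘(ℝ, EuclideanSpace ℝ (Fin m)) 𝓘(ℝ, EuclideanSpace ℝ (Fin (m + 2))) ∞ F)
    (hS : ∀ x, ‖F x‖ = 1) (hiso : IsIsometricMap m (m + 2) M F)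
    {e : Eu (m + 2)} (he : ‖e‖ = 1) (hFe : ∀ x, inner ℝ (F x) e = 0) :
    IsTotallyGeodesicInSphere m (m + 2) M F := by
  intro x i j a
  have hImm := imm_of hF hS hiso
  have ht : (ctr x : Eu m) ∈ (chartAt (Eu m) x).target := mem_chart_target (Eu m) x
  set f := loc F x with hf
  set t : Eu m := ctr x with htdef
  have hg : GoodAt f t := hImm.goodAt x ht
  have hsm := hg.smooth
  obtain ⟨ξ, -, hdet, -⟩ := exists_onf hg.inj
  have hgr := eventually_chartMetric hF hiso x
  have hgrt : chartMetric m M x t = gram f t := hgr.self_of_nhds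
  set D2 := fderiv ℝ (fderiv ℝ f) t with hD2
  have hft : f t = F x := by
    show F ((chartAt (Eu m) x).symm (chartAt (Eu m) x x)) = F x
    rw [(chartAt (Eu m) x).left_inv (mem_chart_source (Eu m) x)]
  -- symmetry of the second derivative
  have hsymm : ∀ v w, D2 v w = D2 w v := by
    have h1 : IsSymmSndFDerivAt ℝ f t := hsm.isSymmSndFDerivAt (by simp; decide)
    exact fun v w => h1.eq v w
  -- the Christoffel symbols
  have hchr : ∀ k, christoffel (chartMetric m M x) t k i j =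
      ∑ l, (gram f t)⁻¹ k l * inner ℝ (D2 (eb i) (eb j)) (fderiv ℝ f t (eb l)) := by
    intro k
    have hpd : ∀ i j l : Fin m, pderiv i (fun y => chartMetric m M x y j l) t =
        inner ℝ (D2 (eb i) (eb j)) (fderiv ℝ f t (eb l)) +
          inner ℝ (fderiv ℝ f t (eb j)) (D2 (eb i) (eb l)) := by
      intro i j l
      have h1 : (fun y => chartMetric m M x y j l) =ᶠ[𝓝 t] fun y => gram f y j l := by
        filter_upwards [hgr] with y hy
        rw [hy]
      rw [pderiv, h1.fderiv_eq]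
      exact pderiv_gram hsm i j l
    rw [christoffel, Finset.mul_sum]
    refine Finset.sum_congr rfl fun l _ => ?_
    rw [hpd, hpd, hpd, inverseField, hgrt, hsymm (eb j) (eb i), hsymm (eb l) (eb i),
      hsymm (eb l) (eb j), real_inner_comm (fderiv ℝ f t (eb j)) (D2 (eb i) (eb l))]
    generalize (gram f t)⁻¹ k l = G
    generalize inner ℝ ((D2 (eb i)) (eb j)) ((fderiv ℝ f t) (eb l)) = a1
    generalize inner ℝ ((fderiv ℝ f t) (eb j)) ((D2 (eb i)) (eb l)) = a2
    generalize inner ℝ ((fderiv ℝ f t) (eb i)) ((D2 (eb j)) (eb l)) = a3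
    ring
  -- the residual vector
  set w := D2 (eb i) (eb j) - ∑ k, christoffel (chartMetric m M x) t k i j •
    fderiv ℝ f t (eb k) + gram f t i j • F x with hw
  have hdf_f : ∀ v, inner ℝ (fderiv ℝ f t v) (F x) = 0 := by
    intro v
    rw [← hft, real_inner_comm]
    exact hg.orth v
  -- orthogonality to `f t`
  have hD2f : inner ℝ (D2 (eb i) (eb j)) (F x) = - gram f t i j := by
    have h1 : HasFDerivAt (fun y => inner ℝ (f y) (fderiv ℝ f y (eb j))) _ t :=
      hg.differentiableAt.hasFDerivAt.inner ℝ (hasFDerivAt_fderiv_apply hsm (eb j))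
    have h2 : (fun y => inner ℝ (f y) (fderiv ℝ f y (eb j))) =ᶠ[𝓝 t] fun _ => (0:ℝ) := by
      filter_upwards [(chartAt (Eu m) x).open_target.mem_nhds ht] with y hy
      exact (hImm.goodAt x hy).orth (eb j)
    have h3 := (h1.congr_of_eventuallyEq h2.symm).unique (hasFDerivAt_const (0:ℝ) t)
    have h4 := DFunLike.congr_fun h3 (eb i)
    simp only [ContinuousLinearMap.comp_apply, ContinuousLinearMap.prod_apply,
      fderivInnerCLM_apply, ContinuousLinearMap.apply_apply, _root_.zero_apply] at h4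
    rw [hft] at h4
    rw [gram_apply, real_inner_comm]
    linarith
  have hw1 : inner ℝ (f t) w = 0 := by
    rw [hft, real_inner_comm, hw, inner_add_left, inner_sub_left, sum_inner, hD2f,
      real_inner_smul_left, real_inner_self_eq_norm_sq, hS]
    simp only [real_inner_smul_left, hdf_f]
    simp
  -- orthogonality to the tangent space
  have hw2' : ∀ l, inner ℝ (fderiv ℝ f t (eb l)) w = 0 := by
    intro l
    have h1 : ∑ k, christoffel (chartMetric m M x) t k i j * gram f t k l =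
        inner ℝ (D2 (eb i) (eb j)) (fderiv ℝ f t (eb l)) := by
      simp only [hchr, Finset.sum_mul]
      rw [Finset.sum_comm]
      have h2 : ∀ l', ∑ k, (gram f t)⁻¹ k l' *
          inner ℝ (D2 (eb i) (eb j)) (fderiv ℝ f t (eb l')) * gram f t k l =
          inner ℝ (D2 (eb i) (eb j)) (fderiv ℝ f t (eb l')) *
            (if l = l' then 1 else 0) := by
        intro l'
        have h3 : ∑ k, gram f t l k * (gram f t)⁻¹ k l' = if l = l' then 1 else 0 := by
          have h4 := Matrix.mul_nonsing_inv (gram f t) (isUnit_iff_ne_zero.2 hdet.ne')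
          have h5 := congrFun (congrFun h4 l) l'
          rw [Matrix.mul_apply, Matrix.one_apply] at h5
          exact h5
        rw [← h3, Finset.mul_sum]
        refine Finset.sum_congr rfl fun k _ => ?_
        have h6 : gram f t k l = gram f t l k := by
          rw [gram_apply, gram_apply, real_inner_comm]
        rw [h6]
        ring
      simp only [h2]
      simp
    rw [real_inner_comm, hw, inner_add_left, inner_sub_left, sum_inner, real_inner_smul_left,
      real_inner_comm (fderiv ℝ f t (eb l)) (F x), hdf_f]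
    simp only [real_inner_smul_left]
    have h7 : ∑ k, christoffel (chartMetric m M x) t k i j *
        inner ℝ (fderiv ℝ f t (eb k)) (fderiv ℝ f t (eb l)) =
        ∑ k, christoffel (chartMetric m M x) t k i j * gram f t k l := rfl
    rw [h7, h1]
    ring
  have hw2 : ∀ v, inner ℝ (fderiv ℝ f t v) w = 0 := by
    intro v
    rw [eu_sum v, map_sum, sum_inner]
    refine Finset.sum_eq_zero fun l _ => ?_
    rw [map_smul, real_inner_smul_left, hw2', mul_zero]
  -- orthogonality to `e`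
  have hfe : ∀ y ∈ (chartAt (Eu m) x).target, ∀ v, inner ℝ (fderiv ℝ f y v) e = 0 := by
    intro y hy v
    have h1 : HasFDerivAt (fun z => inner ℝ (f z) e)
        ((fderivInnerCLM ℝ (f y, e)).comp ((fderiv ℝ f y).prod 0)) y :=
      (hImm.goodAt x hy).differentiableAt.hasFDerivAt.inner ℝ (hasFDerivAt_const e y)
    have h2 : (fun z => inner ℝ (f z) e) = fun _ => (0:ℝ) := by
      ext z
      exact hFe _
    rw [h2] at h1
    have h3 := h1.unique (hasFDerivAt_const (0:ℝ) y)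
    have h4 := DFunLike.congr_fun h3 v
    simp only [ContinuousLinearMap.comp_apply, ContinuousLinearMap.prod_apply,
      fderivInnerCLM_apply, _root_.zero_apply, inner_zero_right, zero_add] at h4
    exact h4
  have hD2e : inner ℝ (D2 (eb i) (eb j)) e = 0 := by
    have h1 : HasFDerivAt (fun y => inner ℝ (fderiv ℝ f y (eb j)) e) _ t :=
      (hasFDerivAt_fderiv_apply hsm (eb j)).inner ℝ (hasFDerivAt_const e t)
    have h2 : (fun y => inner ℝ (fderiv ℝ f y (eb j)) e) =ᶠ[𝓝 t] fun _ => (0:ℝ) := by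
      filter_upwards [(chartAt (Eu m) x).open_target.mem_nhds ht] with y hy
      exact hfe y hy _
    have h3 := (h1.congr_of_eventuallyEq h2.symm).unique (hasFDerivAt_const (0:ℝ) t)
    have h4 := DFunLike.congr_fun h3 (eb i)
    simp only [ContinuousLinearMap.comp_apply, ContinuousLinearMap.prod_apply,
      fderivInnerCLM_apply, ContinuousLinearMap.apply_apply, _root_.zero_apply,
      inner_zero_right, zero_add] at h4
    exact h4
  have hwe : inner ℝ w e = 0 := by
    rw [hw, inner_add_left, inner_sub_left, sum_inner, real_inner_smul_left, hD2e, hFe]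
    simp only [real_inner_smul_left, hfe t ht]
    simp
  -- conclusion
  have hee := hg.eq_smul_nrm (w := e) (by rw [hft]; exact hFe x) (hfe t ht)
  have hww := hg.eq_smul_nrm hw1 hw2
  have hw0 : w = 0 := by
    have h1 : inner ℝ (nrm f t) e ≠ 0 := by
      intro h
      rw [h, zero_smul] at hee
      rw [hee, norm_zero] at he
      norm_num at he
    rw [hww, hee, real_inner_smul_left, real_inner_smul_right, real_inner_self_eq_norm_sq,
      hg.norm_nrm] at hwe
    have h2 : inner ℝ (nrm f t) w = 0 := by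
      rw [one_pow, mul_one] at hwe
      exact (mul_eq_zero.1 hwe).resolve_right h1
    rw [hww, h2, zero_smul]
  have hcomp : w a = 0 := by rw [hw0]; rfl
  rw [hw] at hcomp
  have hsum : (∑ k, christoffel (chartMetric m M x) t k i j • fderiv ℝ f t (eb k)) a =
      ∑ k, christoffel (chartMetric m M x) t k i j * (fderiv ℝ f t (eb k)) a := by
    simp
  simp only [PiLp.add_apply, PiLp.sub_apply, PiLp.smul_apply, smul_eq_mul, hsum] at hcomp
  have e1 : pderiv i (fun y => pderiv j (chartComponent m (m + 2) M F x a) y)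
      (chartCentre m M x) = (D2 (eb i) (eb j)) a := pderiv_pderiv hsm i j a
  have e2 : ∀ k, pderiv k (chartComponent m (m + 2) M F x a) (chartCentre m M x) =
      (fderiv ℝ f t (eb k)) a := fun k => pderiv_comp hg.differentiableAt k a
  have e3 : chartMetric m M x (chartCentre m M x) i j = gram f t i j := by
    have : chartMetric m M x (chartCentre m M x) = gram f t := hgrt
    rw [this]
  have e4 : (chartCentre m M x : Eu m) = t := rfl
  rw [e1, e3]
  simp only [e2]
  rw [e4]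
  linarith

end Man

end Crest.Agent.R246.J816
end
end

-- ▼ part R246/J4_816
section

/-!
Row 246, part J, file J4: the hypotheses of S0380 give all the inputs of the interface `J0_816`.
-/

set_option autoImplicit false

open scoped ContDiff Manifold Topology ENNReal NNReal
open Bundle MeasureTheory Set Crest.GeometryTopology.CoordMetric
  Crest.GeometryTopology.ChartCurvature Crest.GeometryTopology.SphereImmersion

noncomputable section

namespace Crest.Agent.R246.J816

universe u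

theorem data_of (m : ℕ) (M : Type u) [MetricSpace M]
    [ChartedSpace (EuclideanSpace ℝ (Fin m)) M]
    [IsManifold 𝓘(ℝ, EuclideanSpace ℝ (Fin m)) ∞ M]
    [RiemannianBundle (fun x : M => TangentSpace 𝓘(ℝ, EuclideanSpace ℝ (Fin m)) x)]
    [IsContMDiffRiemannianBundle 𝓘(ℝ, EuclideanSpace ℝ (Fin m)) ∞ (EuclideanSpace ℝ (Fin m))
      (fun x : M => TangentSpace 𝓘(ℝ, EuclideanSpace ℝ (Fin m)) x)]
    [IsRiemannianManifold 𝓘(ℝ, EuclideanSpace ℝ (Fin m)) M] [MeasurableSpace M] [BorelSpace M]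
    (F : M → EuclideanSpace ℝ (Fin (m + 2)))
    (hF : ContMDiff 𝓘(ℝ, EuclideanSpace ℝ (Fin m)) 𝓘(ℝ, EuclideanSpace ℝ (Fin (m + 2))) ∞ F)
    (hS : ∀ x, ‖F x‖ = 1) (hiso : IsIsometricMap m (m + 2) M F)
    (hmin : IsMinimalInSphere m (m + 2) M F) (hntg : ¬ IsTotallyGeodesicInSphere m (m + 2) M F) :
    Imm F ∧ (∀ x, MinAt F x) ∧ ProjBound F (Measure.euclideanHausdorffMeasure m) ∧
      ¬ ∃ e : Eu (m + 2), ‖e‖ = 1 ∧ ∀ x, inner ℝ (F x) e = 0 :=
  ⟨imm_of hF hS hiso, fun x => minAt_of hF hiso hmin x, projBound_of (lipschitz_of hF hiso),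
    fun ⟨_, he, h⟩ => hntg (tg_of_hyper hF hS hiso he h)⟩

end Crest.Agent.R246.J816
end
end

-- ▼ part R246/StJ_364
section

/-!
Row 246, part J: the final statement `StJ`.
-/

set_option autoImplicit false

open scoped ContDiff Manifold Topology
open Bundle Crest.GeometryTopology.CoordMetric Crest.GeometryTopology.ChartCurvature
  Crest.GeometryTopology.SphereImmersion
open MeasureTheory Filter Metric Set

noncomputable section

namespace Crest.Agent.R246.JE364

universe u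

/-- **J-final.** -/
theorem stJ (m : ℕ) (hm : 2 ≤ m) : Crest.Agent.R246.Skel656.StJ.{u} m := by
  intro M _ _ _ _ _ _ _ _ _ _ F hF hS hiso hmin hntg hfin
  obtain ⟨h1, h2, h3, h4⟩ := Crest.Agent.R246.J816.data_of m M F hF hS hiso hmin hntg
  haveI : IsFiniteMeasure (Measure.euclideanHausdorffMeasure m : Measure M) :=
    ⟨lt_top_iff_ne_top.2 hfin⟩
  exact stJE hm M F (Measure.euclideanHausdorffMeasure m) h1 h2 h4 h3

end Crest.Agent.R246.JE364
end
end

-- ▼ part R246/Fin_656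

/-!
# Row 246: closing the fields of `Skel2.Inputs` (helper656, integration)

`inputs` = all inputs of the induction; `final` = the statement of S0380.
-/

set_option autoImplicit false
open scoped ContDiff Manifold Topology
open Bundle Crest.GeometryTopology.CoordMetric Crest.GeometryTopology.ChartCurvature
  Crest.GeometryTopology.SphereImmersion
open MeasureTheory Filter Metric Set
open Crest.Agent.R246.Skel656 Crest.Agent.R246.Skel2
open Crest.Agent.R246.MS852 (StMS)

noncomputable section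

namespace Crest.Agent.R246.Fin656

/-- **H2** (295 H2a, 622 H2b and H2c, 549). -/
theorem stH2 (m : ℕ) : StH2 m := by
  intro φ _ hD _ p _ hp0 ρ hρ C hE
  have : Nontrivial (E m) := by
    apply Module.nontrivial_of_finrank_pos (R := ℝ)
    simp [E]
  exact Reg549.good_of_expn (Mg295.stH2a (E m)) (fun e _ => H2x622.stH2c (ℝ ∙ e)ᗮ) hD hp0 hρ (by norm_num) (by norm_num) hE

/-- **all inputs are theorems** -/
theorem inputs {m : ℕ} (hm : 2 ≤ m) : Inputs m where
  fam := StFam348.stFam (by omega)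
  mm := Zon797.stMM m (by omega)
  e := StE858.stE hm
  dich := Dich67.stDich (by omega)
  flat := Flatx992.stFlat (by omega) (MS852.stMS _ (m + 1))
  eqp := Lim538.stEqp (by omega)
  g := G873.stG (E m) (E (m - 1))
  br := GlueReg549.stBr (by omega) (MS852.stMS (E m) (m + 1))
  h1 := H1x105.stH1 m
  h2 := stH2 m
  sm := GlueEnd196.stSM (by omega)
  idx := StIdx656.stIdx (by omega)
  nc := StNC475.stNC (by omega)
  eqb := NC718.stEqb m
  hk := HK149.stHK hm

/-- **S0380**: the Solomon-Yau conjecture. -/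
theorem final
    (m : ℕ) (hm : 2 ≤ m)
    (M : Type*) [MetricSpace M] [ChartedSpace (EuclideanSpace ℝ (Fin m)) M]
    [IsManifold 𝓘(ℝ, EuclideanSpace ℝ (Fin m)) ∞ M] [CompactSpace M] [ConnectedSpace M]
    [RiemannianBundle (fun x : M => TangentSpace 𝓘(ℝ, EuclideanSpace ℝ (Fin m)) x)]
    [IsContMDiffRiemannianBundle 𝓘(ℝ, EuclideanSpace ℝ (Fin m)) ∞ (EuclideanSpace ℝ (Fin m))
      (fun x : M => TangentSpace 𝓘(ℝ, EuclideanSpace ℝ (Fin m)) x)]
    [IsRiemannianManifold 𝓘(ℝ, EuclideanSpace ℝ (Fin m)) M] [MeasurableSpace M] [BorelSpace M]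
    (F : M → EuclideanSpace ℝ (Fin (m + 2)))
    (hF : ContMDiff 𝓘(ℝ, EuclideanSpace ℝ (Fin m)) 𝓘(ℝ, EuclideanSpace ℝ (Fin (m + 2))) ∞ F)
    (hS : ∀ x, ‖F x‖ = 1) (hiso : IsIsometricMap m (m + 2) M F)
    (hmin : IsMinimalInSphere m (m + 2) M F) (hntg : ¬ IsTotallyGeodesicInSphere m (m + 2) M F) :
    ∃ k : ℕ, 1 ≤ k ∧ k < m ∧
      ENNReal.ofReal (cliffordVolume m k) ≤
        MeasureTheory.Measure.euclideanHausdorffMeasure m (Set.univ : Set M) :=
  top1 hm (all_Tm C378.stC_final (fun _ hn => inputs hn) m (by omega))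
    (JE364.stJ m hm) M F hF hS hiso hmin hntg

end Crest.Agent.R246.Fin656
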