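import Mathlib.Analysis.Calculus.Rademacher
import Mathlib.Analysis.Calculus.Gradient.Basic
import Mathlib.MeasureTheory.Integral.IntervalIntegral.AbsolutelyContinuousFun
import Mathlib.MeasureTheory.Measure.Haar.InnerProductSpace
import Mathlib.Analysis.Calculus.FDeriv.Measurable
import Mathlib.MeasureTheory.Function.SpecialFunctions.Inner

/-!
R246, helper105.  Calculus of Lipschitz functions in weak form; Caccioppoli inequality for
signed distance functions.
-/

set_option autoImplicit false
set_option linter.unusedSectionVars false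

namespace Crest.Agent.R246.Flat105

open MeasureTheory Filter Topology Metric Set
open scoped NNReal Gradient RealInnerProductSpace

variable {E : Type*} [NormedAddCommGroup E] [InnerProductSpace ℝ E] [FiniteDimensional ℝ E]
  [MeasurableSpace E] [BorelSpace E]

/-- compactly supported nonnegative Lipschitz test functions -/
structure Test (V : Set E) (ζ : E → ℝ) : Prop where
  lip : ∃ C : ℝ≥0, LipschitzWith C ζ
  cpt : HasCompactSupport ζ
  sub : tsupport ζ ⊆ V
  nonneg : ∀ x, 0 ≤ ζ x

/-- `1`-Lipschitz eikonal functions, superharmonic where positive and subharmonic where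
negative. -/
structure DistFun (U : Set E) (φ : E → ℝ) : Prop where
  lip : LipschitzWith 1 φ
  eik : ∀ᵐ x, x ∈ U → ‖∇ φ x‖ = 1
  sup : ∀ ζ, Test (U ∩ {x | 0 < φ x}) ζ → 0 ≤ ∫ x, ⟪∇ φ x, ∇ ζ x⟫
  sub : ∀ ζ, Test (U ∩ {x | φ x < 0}) ζ → ∫ x, ⟪∇ φ x, ∇ ζ x⟫ ≤ 0

theorem inner_grad {f : E → ℝ} (x v : E) : ⟪∇ f x, v⟫ = fderiv ℝ f x v := by
  rw [gradient, InnerProductSpace.toDual_symm_apply]

theorem norm_grad (f : E → ℝ) (x : E) : ‖∇ f x‖ = ‖fderiv ℝ f x‖ := by
  rw [gradient, LinearIsometryEquiv.norm_map]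

theorem norm_grad_le {f : E → ℝ} {C : ℝ≥0} (hf : LipschitzWith C f) (x : E) : ‖∇ f x‖ ≤ C := by
  rw [norm_grad]; exact norm_fderiv_le_of_lipschitz ℝ hf

theorem meas_grad (f : E → ℝ) : Measurable (fun x => ∇ f x) := by
  have h := measurable_fderiv ℝ f
  exact (InnerProductSpace.toDual ℝ E).symm.continuous.measurable.comp h

theorem grad_zero_of_notMem {f : E → ℝ} {x : E} (hx : x ∉ tsupport f) : ∇ f x = 0 := by
  have h : f =ᶠ[𝓝 x] fun _ => 0 := notMem_tsupport_iff_eventuallyEq.mp hx
  rw [h.gradient_eq, gradient_fun_const]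

theorem grad_of_hasFDerivAt {f : E → ℝ} {x g : E}
    (h : HasFDerivAt f (innerSL ℝ g) x) : ∇ f x = g := by
  apply ext_inner_right ℝ
  intro v
  rw [inner_grad, h.fderiv, innerSL_apply_apply]

theorem grad_sub {f g : E → ℝ} {x : E} (hf : DifferentiableAt ℝ f x)
    (hg : DifferentiableAt ℝ g x) : ∇ (fun y => f y - g y) x = ∇ f x - ∇ g x := by
  apply ext_inner_right ℝ
  intro v
  rw [inner_sub_left, inner_grad, inner_grad, inner_grad, fderiv_fun_sub hf hg]
  rfl

theorem grad_mul {f g : E → ℝ} {x : E} (hf : DifferentiableAt ℝ f x)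
    (hg : DifferentiableAt ℝ g x) : ∇ (fun y => f y * g y) x = f x • ∇ g x + g x • ∇ f x := by
  apply ext_inner_right ℝ
  intro v
  rw [inner_add_left, inner_smul_left, inner_smul_left, inner_grad, inner_grad, inner_grad,
    fderiv_fun_mul hf hg]
  simp

theorem grad_inner (e x : E) : ∇ (fun y => ⟪e, y⟫) x = e := by
  apply grad_of_hasFDerivAt
  exact (innerSL ℝ e).hasFDerivAt

theorem lip_inner (e : E) : LipschitzWith ‖e‖₊ (fun y : E => ⟪e, y⟫) := by
  apply LipschitzWith.of_dist_le_mul
  intro x y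
  rw [Real.dist_eq, ← inner_sub_right, dist_eq_norm]
  exact abs_real_inner_le_norm _ _

/-- integration by parts -/
theorem ibp {f g : E → ℝ} {C D : ℝ≥0} (hf : LipschitzWith C f) (hg : LipschitzWith D g)
    (hgc : HasCompactSupport g) (v : E) :
    ∫ x, ⟪∇ f x, v⟫ * g x = -∫ x, ⟪∇ g x, v⟫ * f x := by
  have h := hf.integral_lineDeriv_mul_eq (μ := volume) hg hgc v
  have h1 : ∫ x, ⟪∇ f x, v⟫ * g x = ∫ x, lineDeriv ℝ f x v * g x := by
    apply integral_congr_ae
    filter_upwards [hf.ae_differentiableAt] with x hx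
    rw [hx.lineDeriv_eq_fderiv, inner_grad]
  have h2 : ∫ x, lineDeriv ℝ g x (-v) * f x = -∫ x, ⟪∇ g x, v⟫ * f x := by
    rw [← integral_neg]
    apply integral_congr_ae
    filter_upwards [hg.ae_differentiableAt] with x hx
    rw [hx.lineDeriv_eq_fderiv, inner_grad, map_neg]; ring
  rw [h1, h, h2]


theorem integrable_of_bdd_supp {f : E → ℝ} (hm : AEStronglyMeasurable f volume) {C : ℝ}
    (hb : ∀ x, |f x| ≤ C) {K : Set E} (hK : IsCompact K) (h0 : ∀ x, x ∉ K → f x = 0) :
    Integrable f := by
  have h1 : IntegrableOn f K := by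
    refine Measure.integrableOn_of_bounded (M := C) hK.measure_lt_top.ne hm ?_
    exact Filter.Eventually.of_forall fun x => hb x
  rw [← integrableOn_univ]
  exact (integrableOn_iff_integrable_of_support_subset (s := K) (fun x hx => by
    by_contra h; exact hx (h0 x h))).mp h1 |>.integrableOn

/-- product of bounded Lipschitz functions -/
theorem lip_mul {f g : E → ℝ} {C D : ℝ≥0} (hf : LipschitzWith C f) (hg : LipschitzWith D g)
    {A B : ℝ≥0} (hA : ∀ x, |f x| ≤ A) (hB : ∀ x, |g x| ≤ B) :
    LipschitzWith (A * D + B * C) (fun x => f x * g x) := by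
  apply LipschitzWith.of_dist_le_mul
  intro x y
  have h1 := hf.dist_le_mul x y
  have h2 := hg.dist_le_mul x y
  rw [Real.dist_eq] at *
  have h3 : f x * g x - f y * g y = f x * (g x - g y) + (f x - f y) * g y := by ring
  calc |f x * g x - f y * g y| = |f x * (g x - g y) + (f x - f y) * g y| := by rw [h3]
    _ ≤ |f x * (g x - g y)| + |(f x - f y) * g y| := abs_add_le _ _
    _ = |f x| * |g x - g y| + |f x - f y| * |g y| := by rw [abs_mul, abs_mul]
    _ ≤ A * (D * dist x y) + (C * dist x y) * B := by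
        gcongr
        · exact hA x
        · exact hB y
    _ = _ := by push_cast; ring

/-- clamp -/
noncomputable def clamp (t : ℝ) (s : ℝ) : ℝ := max (-t) (min t s)

theorem lip_clamp (t : ℝ) : LipschitzWith 1 (clamp t) :=
  (LipschitzWith.id.const_min t).const_max (-t)

theorem abs_clamp_le {t : ℝ} (ht : 0 ≤ t) (s : ℝ) : |clamp t s| ≤ t := by
  unfold clamp
  rw [abs_le]
  constructor
  · exact le_max_left _ _
  · apply max_le (by linarith) (min_le_left _ _)

theorem clamp_eq {t s : ℝ} (h : |s| ≤ t) : clamp t s = s := by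
  unfold clamp
  rw [abs_le] at h
  rw [min_eq_right h.2, max_eq_right h.1]

theorem tsupport_mul_left_subset' {f g : E → ℝ} : tsupport (fun x => f x * g x) ⊆ tsupport f :=
  closure_mono fun x hx => by
    simp only [Function.mem_support] at hx ⊢
    exact left_ne_zero_of_mul hx


end Crest.Agent.R246.Flat105
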