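import Crest.Agent.R246.Slice_105
import Crest.Agent.R246.Flat2_105

-- ▼ part R246/Ex1_105
section

/-!
R246, helper105.  Excess estimate, preliminaries: the flux of `∇|⟨e,x⟩|` against `(1-|x|²)₊²`,
and the bound for `∫ ⟨∇f, X⟩` with a Lipschitz field `X`.
-/

set_option autoImplicit false
set_option linter.unusedSectionVars false

namespace Crest.Agent.R246.Flat105

open MeasureTheory Filter Topology Metric Set
open scoped NNReal Gradient RealInnerProductSpace

/-- one dimensional integral -/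
theorem integral_abs_posPart (b : ℝ) : ∫ t : ℝ, |t| * max 0 (b - t ^ 2) = (max 0 b) ^ 2 / 2 := by
  have h1 := integral_comp_abs (f := fun t : ℝ => t * max 0 (b - t ^ 2))
  simp only [sq_abs] at h1
  rw [h1]
  have h2 : ∀ t : ℝ, HasDerivAt (fun s : ℝ => -((max 0 (b - s ^ 2)) ^ 2 / 4))
      (t * max 0 (b - t ^ 2)) t := by
    intro t
    have h3 : HasDerivAt (fun s : ℝ => b - s ^ 2) (-(2 * t)) t := by
      have := (hasDerivAt_pow 2 t).const_sub b
      simpa using this
    have h4 := ((hasDerivAt_posPow (n := 2) le_rfl (b - t ^ 2)).comp t h3).div_const 4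
    have h5 := h4.neg
    refine h5.congr_deriv ?_
    simp
    ring
  have h3 : Tendsto (fun s : ℝ => -((max 0 (b - s ^ 2)) ^ 2 / 4)) atTop (𝓝 0) := by
    refine tendsto_const_nhds.congr' ?_
    filter_upwards [eventually_ge_atTop (max 1 b)] with s hs
    have h4 : 1 ≤ s := (le_max_left _ _).trans hs
    have h5 : b ≤ s := (le_max_right _ _).trans hs
    rw [max_eq_left (by nlinarith)]
    simp
  have h4 := integral_Ioi_of_hasDerivAt_of_nonneg (a := 0) (h2 0).continuousAt.continuousWithinAt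
    (fun x _ => h2 x) (fun x hx => mul_nonneg (le_of_lt hx) (le_max_left _ _)) h3
  rw [h4]
  simp
  ring

variable {E : Type*} [NormedAddCommGroup E] [InnerProductSpace ℝ E] [FiniteDimensional ℝ E]
  [MeasurableSpace E] [BorelSpace E]

theorem grad_qb_sq (x : E) : ∇ (fun y => qb y ^ 2) x = (-(4 * qb x)) • x := by
  apply grad_of_hasFDerivAt
  have h := hasFDerivAt_qbPow (n := 2) le_rfl (0 : E) 1 x
  simp only [sub_zero, one_smul] at h
  have h1 : -(2 * ((2 : ℕ) : ℝ) * 1 ^ 2 * qb x ^ (2 - 1)) = -(4 * qb x) := by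
    norm_num
  rwa [h1] at h

theorem grad_abs_inner_flux (e x : E) :
    ⟪∇ (fun y => |⟪e, y⟫|) x, ∇ (fun y => qb y ^ 2) x⟫ = -4 * (|⟪e, x⟫| * qb x) := by
  rw [grad_qb_sq]
  have d1 : HasFDerivAt (fun y : E => ⟪e, y⟫) (innerSL ℝ e) x := (innerSL ℝ e).hasFDerivAt
  rcases lt_trichotomy ⟪e, x⟫ 0 with h | h | h
  · have h1 : (fun y : E => |⟪e, y⟫|) =ᶠ[𝓝 x] fun y => -⟪e, y⟫ := by
      have : ∀ᶠ y in 𝓝 x, ⟪e, y⟫ < 0 :=
        (d1.continuousAt.tendsto).eventually_lt_const h
      filter_upwards [this] with y hy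
      exact abs_of_neg hy
    have h2 : ∇ (fun y : E => |⟪e, y⟫|) x = -e := by
      apply grad_of_hasFDerivAt
      rw [map_neg]
      exact (d1.neg).congr_of_eventuallyEq h1
    rw [h2, abs_of_neg h, inner_neg_left, inner_smul_right]
    ring
  · have h2 : ∇ (fun y : E => |⟪e, y⟫|) x = 0 := by
      have h3 : IsLocalMin (fun y : E => |⟪e, y⟫|) x :=
        Filter.Eventually.of_forall fun y => by
          show |⟪e, x⟫| ≤ |⟪e, y⟫|
          rw [h, abs_zero]; exact abs_nonneg _
      rw [gradient, h3.fderiv_eq_zero, map_zero]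
    rw [h2, h, inner_zero_left]
    simp
  · have h1 : (fun y : E => |⟪e, y⟫|) =ᶠ[𝓝 x] fun y => ⟪e, y⟫ := by
      have : ∀ᶠ y in 𝓝 x, 0 < ⟪e, y⟫ :=
        (d1.continuousAt.tendsto).eventually_const_lt h
      filter_upwards [this] with y hy
      exact abs_of_pos hy
    have h2 : ∇ (fun y : E => |⟪e, y⟫|) x = e := by
      apply grad_of_hasFDerivAt
      exact d1.congr_of_eventuallyEq h1
    rw [h2, abs_of_pos h, inner_smul_right]
    ring

/-- **The flux of `∇|⟨e,x⟩|`.** -/
theorem flux_abs {d : ℕ} (hd : Module.finrank ℝ E = d + 1) {e : E} (he : ‖e‖ = 1) :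
    ∫ x, ⟪∇ (fun y => |⟪e, y⟫|) x, ∇ (fun y => qb y ^ 2) x⟫ =
      -2 * ∫ y : EuclideanSpace ℝ (Fin d), qb y ^ 2 := by
  obtain ⟨ι, hι, hmp⟩ := slice hd he
  simp only [grad_abs_inner_flux]
  rw [integral_const_mul]
  have hg : Continuous (fun x : E => |⟪e, x⟫| * qb x) := by
    have := continuous_qb (E := E)
    fun_prop
  have hgi : Integrable (fun x : E => |⟪e, x⟫| * qb x) := by
    refine hg.integrable_of_hasCompactSupport ?_
    have h1 := cpt_qb (0 : E) one_pos (n := 1) le_rfl
    simp only [sub_zero, one_smul, pow_one] at h1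
    exact h1.mul_left
  have h1 : ∫ x : E, |⟪e, x⟫| * qb x =
      ∫ p : ℝ × EuclideanSpace ℝ (Fin d), |⟪e, p.1 • e + ι p.2⟫| * qb (p.1 • e + ι p.2)
        ∂(volume.prod volume) := by
    conv_lhs => rw [← hmp.map_eq]
    rw [integral_map hmp.measurable.aemeasurable hg.aestronglyMeasurable]
  have hgi2 : Integrable (fun p : ℝ × EuclideanSpace ℝ (Fin d) =>
      |⟪e, p.1 • e + ι p.2⟫| * qb (p.1 • e + ι p.2)) (volume.prod volume) :=
    (hmp.integrable_comp hg.aestronglyMeasurable).mpr hgi
  have hee : ⟪e, e⟫ = (1 : ℝ) := by rw [real_inner_self_eq_norm_sq, he]; norm_num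
  have h2 : ∀ (t : ℝ) (y : EuclideanSpace ℝ (Fin d)),
      |⟪e, t • e + ι y⟫| * qb (t • e + ι y) = |t| * max 0 ((1 - ‖y‖ ^ 2) - t ^ 2) := by
    intro t y
    have h3 : ⟪e, t • e + ι y⟫ = t := by
      rw [inner_add_right, inner_smul_right, hee, hι, mul_one, add_zero]
    have h4 : ‖t • e + ι y‖ ^ 2 = t ^ 2 + ‖y‖ ^ 2 := by
      rw [@norm_add_sq_real, real_inner_smul_left, hι, norm_smul, he, mul_one, Real.norm_eq_abs,
        sq_abs, LinearIsometry.norm_map]
      ring
    rw [h3, qb, h4]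
    congr 2
    ring
  rw [h1, integral_prod_symm _ hgi2]
  simp only [h2, integral_abs_posPart]
  rw [integral_div]
  simp only [qb]
  ring

end Crest.Agent.R246.Flat105
end

-- ▼ part R246/Ex2_105
section

/-!
R246, helper105.  Excess estimate.
-/

set_option autoImplicit false
set_option linter.unusedSectionVars false

namespace Crest.Agent.R246.Flat105

open MeasureTheory Filter Topology Metric Set
open scoped NNReal Gradient RealInnerProductSpace

variable {E : Type*} [NormedAddCommGroup E] [InnerProductSpace ℝ E] [FiniteDimensional ℝ E]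
  [MeasurableSpace E] [BorelSpace E]

theorem tsupport_qb_sq_subset : tsupport (fun y : E => qb y ^ 2) ⊆ closedBall 0 1 := by
  have h := tsupport_qb_subset (0 : E) one_pos (n := 2) (by norm_num)
  simpa using h

theorem cpt_qb_sq : HasCompactSupport (fun y : E => qb y ^ 2) := by
  have h := cpt_qb (0 : E) one_pos (n := 2) (by norm_num)
  simpa using h

theorem lip_qb_sq : ∃ D : ℝ≥0, LipschitzWith D (fun y : E => qb y ^ 2) := by
  have h := lip_qbPow (0 : E) 1 2
  simpa using h

theorem norm_grad_qb_sq_le (x : E) : ‖∇ (fun y => qb y ^ 2) x‖ ≤ 4 := by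
  rw [grad_qb_sq, norm_smul, norm_neg, Real.norm_eq_abs, abs_mul, abs_of_pos (by norm_num : (0:ℝ) < 4)]
  by_cases hx : ‖x‖ ≤ 1
  · have := abs_qb_le x
    calc 4 * |qb x| * ‖x‖ ≤ 4 * 1 * 1 := by gcongr
      _ = 4 := by norm_num
  · push Not at hx
    rw [qb_eq_zero hx.le]; simp

theorem grad_qb_sq_eq_zero {x : E} (h : 1 ≤ ‖x‖) : ∇ (fun y => qb y ^ 2) x = 0 := by
  rw [grad_qb_sq, qb_eq_zero h]; simp

/-- **Bound for the divergence.** -/
theorem div_bound {f : E → ℝ} {C : ℝ≥0} (hf : LipschitzWith C f) {δ : ℝ}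
    (hb : ∀ x, ‖x‖ ≤ 1 → |f x| ≤ δ) :
    |∫ x, ⟪∇ f x, ∇ (fun y => qb y ^ 2) x⟫| ≤
      12 * Module.finrank ℝ E * volume.real (closedBall (0 : E) 1) * δ := by
  set b := stdOrthonormalBasis ℝ E with hbdef
  set g : Fin (Module.finrank ℝ E) → E → ℝ := fun i x => (-4) * (qb x * clamp 1 ⟪b i, x⟫) with hg
  have hgL : ∀ i, LipschitzWith 12 (g i) := by
    intro i
    have h1 : LipschitzWith (1 * ‖b i‖₊) (fun x : E => clamp 1 ⟪b i, x⟫) :=
      (lip_clamp 1).comp (lip_inner (b i))
    have h2 := lip_mul (lip_qb (E := E)) h1 (A := 1) (B := 1) (fun x => by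
      simpa using abs_qb_le x) (fun x => by simpa using abs_clamp_le (t := 1) zero_le_one _)
    have h3 : ‖b i‖₊ = 1 := by
      ext; simp
    rw [h3] at h2
    apply LipschitzWith.of_dist_le_mul
    intro x y
    have h4 := h2.dist_le_mul x y
    simp only [Real.dist_eq] at h4 ⊢
    simp only [hg]
    rw [← mul_sub, abs_mul, abs_neg, abs_of_pos (by norm_num : (0 : ℝ) < 4)]
    push_cast at h4 ⊢
    linarith
  have hg0 : ∀ i x, 1 ≤ ‖x‖ → g i x = 0 := fun i x hx => by
    simp only [hg]; rw [qb_eq_zero hx]; ring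
  have hgB : ∀ i x, |g i x| ≤ 4 := fun i x => by
    simp only [hg]
    rw [abs_mul, abs_neg, abs_of_pos (by norm_num : (0 : ℝ) < 4), abs_mul]
    have h1 := abs_qb_le x
    have h2 := abs_clamp_le (t := 1) zero_le_one ⟪b i, x⟫
    calc 4 * (|qb x| * |clamp 1 ⟪b i, x⟫|) ≤ 4 * (1 * 1) := by gcongr
      _ = 4 := by norm_num
  have hgs : ∀ i, tsupport (g i) ⊆ closedBall 0 1 := by
    intro i
    refine closure_minimal ?_ isClosed_closedBall
    intro x hx
    rw [Function.mem_support] at hx
    rw [mem_closedBall, dist_zero_right]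
    by_contra h
    push Not at h
    exact hx (hg0 i x h.le)
  have hK : IsCompact (closedBall (0 : E) 1) := isCompact_closedBall 0 1
  have hgc : ∀ i, HasCompactSupport (g i) := fun i =>
    hK.of_isClosed_subset (isClosed_tsupport _) (hgs i)
  have hpt : ∀ x, ⟪∇ f x, ∇ (fun y => qb y ^ 2) x⟫ = ∑ i, ⟪∇ f x, b i⟫ * g i x := by
    intro x
    rw [grad_qb_sq, inner_smul_right, ← b.sum_inner_mul_inner (∇ f x) x, Finset.mul_sum]
    refine Finset.sum_congr rfl fun i _ => ?_
    simp only [hg]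
    by_cases hx : ‖x‖ ≤ 1
    · have h1 : |⟪b i, x⟫| ≤ 1 := by
        refine (abs_real_inner_le_norm _ _).trans ?_
        simpa using hx
      rw [clamp_eq h1]; ring
    · push Not at hx
      rw [qb_eq_zero hx.le]; ring
  have hgi : ∀ i, Integrable (fun x => ⟪∇ f x, b i⟫ * g i x) := by
    intro i
    refine integrable_of_bdd_supp (((meas_grad f).inner measurable_const).mul
      (hgL i).continuous.measurable).aestronglyMeasurable (C := (C * 1) * 4) (fun x => ?_) hK
      (fun x hx => ?_)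
    · rw [abs_mul]
      have h1 : |⟪∇ f x, b i⟫| ≤ C * 1 := by
        refine (abs_real_inner_le_norm _ _).trans ?_
        gcongr
        · exact norm_grad_le hf x
        · simp
      gcongr
      exact hgB i x
    · rw [mem_closedBall, dist_zero_right] at hx
      push Not at hx
      rw [hg0 i x hx.le, mul_zero]
  simp only [hpt]
  rw [integral_finsetSum _ fun i _ => hgi i]
  have hone : ∀ i, |∫ x, ⟪∇ f x, b i⟫ * g i x| ≤ 12 * volume.real (closedBall (0 : E) 1) * δ := by
    intro i
    rw [ibp hf (hgL i) (hgc i) (b i), abs_neg]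
    have h1 : ∀ x, ‖⟪∇ (g i) x, b i⟫ * f x‖ ≤
        (closedBall (0 : E) 1).indicator (fun _ => 12 * δ) x := by
      intro x
      by_cases hx : x ∈ closedBall (0 : E) 1
      · rw [indicator_of_mem hx, norm_mul, Real.norm_eq_abs, Real.norm_eq_abs]
        have h2 : |⟪∇ (g i) x, b i⟫| ≤ 12 * 1 := by
          refine (abs_real_inner_le_norm _ _).trans ?_
          gcongr
          · simpa using norm_grad_le (hgL i) x
          · simp
        rw [mem_closedBall, dist_zero_right] at hx
        have h3 := hb x hx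
        rw [mul_one] at h2
        gcongr
      · rw [indicator_of_notMem hx, grad_zero_of_notMem (fun h => hx (hgs i h)), inner_zero_left,
          zero_mul, norm_zero]
    have h2 : Integrable ((closedBall (0 : E) 1).indicator (fun _ => 12 * δ)) :=
      (integrable_indicator_iff measurableSet_closedBall).mpr
        (integrableOn_const (measure_closedBall_lt_top.ne))
    have h3 := norm_integral_le_of_norm_le h2 (Eventually.of_forall h1)
    rw [integral_indicator measurableSet_closedBall, setIntegral_const, smul_eq_mul,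
      Real.norm_eq_abs] at h3
    linarith
  calc _ ≤ ∑ i, |∫ x, ⟪∇ f x, b i⟫ * g i x| := Finset.abs_sum_le_sum_abs _ _
    _ ≤ ∑ _i : Fin (Module.finrank ℝ E), 12 * volume.real (closedBall (0 : E) 1) * δ :=
        Finset.sum_le_sum fun i _ => hone i
    _ = _ := by rw [Finset.sum_const, Finset.card_univ, Fintype.card_fin, nsmul_eq_mul]; ring

theorem lip_abs {f : E → ℝ} {C : ℝ≥0} (hf : LipschitzWith C f) :
    LipschitzWith C (fun y => |f y|) := by
  apply LipschitzWith.of_dist_le_mul
  intro x y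
  refine le_trans ?_ (hf.dist_le_mul x y)
  rw [Real.dist_eq, Real.dist_eq]
  exact abs_abs_sub_abs_le_abs_sub _ _

/-- helper873's `VAR`, unfolded -/
def VarIneq (φ : E → ℝ) (μ : Measure E) (U : Set E) : Prop :=
  ∀ ζ η : E → ℝ, (∃ C : ℝ≥0, LipschitzWith C ζ) → (∃ C : ℝ≥0, LipschitzWith C η) →
    HasCompactSupport ζ → HasCompactSupport η → (∀ x, |ζ x| ≤ η x) → tsupport η ⊆ U →
    (∫ x, ⟪∇ φ x, ∇ ζ x⟫) - (∫ x, ⟪∇ (fun y => |φ y|) x, ∇ η x⟫) ≤ 2 * ∫ x, η x ∂μ

theorem grad_const_mul (c : ℝ) {f : E → ℝ} {x : E} (hf : DifferentiableAt ℝ f x) :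
    ∇ (fun y => c * f y) x = c • ∇ f x := by
  apply ext_inner_right ℝ
  intro v
  rw [inner_smul_left, inner_grad, inner_grad, fderiv_const_mul hf]
  simp

/-- **Excess estimate** (unit scale). -/
theorem excess {φ : E → ℝ} (hφ : LipschitzWith 1 φ) (eik : ∀ᵐ x : E, ‖∇ φ x‖ = 1)
    {μ : Measure E} {e : E} (he : ‖e‖ = 1) {δ : ℝ} (hδ : 0 < δ)
    (hflat : ∀ x, ‖x‖ ≤ 1 → |φ x - ⟪e, x⟫| ≤ δ) (hvar : VarIneq φ μ (closedBall 0 1))
    {d : ℕ} (hd : Module.finrank ℝ E = d + 1) {κ : ℝ}
    (hT : ∫ x, qb x ^ 2 ∂μ ≤ (1 + κ) * ∫ y : EuclideanSpace ℝ (Fin d), qb y ^ 2) :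
    ∫ x, qb x ^ 2 * (1 - ⟪∇ φ x, e⟫) ≤
      2 * κ * (∫ y : EuclideanSpace ℝ (Fin d), qb y ^ 2) * δ +
        15 * Module.finrank ℝ E * volume.real (closedBall (0 : E) 1) * δ ^ 2 := by
  set c := ∫ y : EuclideanSpace ℝ (Fin d), qb y ^ 2 with hc
  set NV := (Module.finrank ℝ E : ℝ) * volume.real (closedBall (0 : E) 1) with hNV
  set v : E → ℝ := fun x => φ x - ⟪e, x⟫ with hv
  have hvL : LipschitzWith (1 + ‖e‖₊) v := hφ.sub (lip_inner e)
  set w : E → ℝ := fun x => clamp (2 * δ) (v x) with hw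
  have hwL : LipschitzWith (1 * (1 + ‖e‖₊)) w := (lip_clamp (2 * δ)).comp hvL
  have hwB : ∀ x, |w x| ≤ ((2 * δ).toNNReal : ℝ≥0) := fun x => by
    rw [Real.coe_toNNReal _ (by linarith)]
    exact abs_clamp_le (by linarith) _
  obtain ⟨W, hww⟩ : ∃ W : ℝ≥0, LipschitzWith W (fun x => w x * w x) :=
    ⟨_, lip_mul hwL hwL hwB hwB⟩
  obtain ⟨D, hD⟩ := lip_qb_sq (E := E)
  have hq0 : ∀ x : E, 0 ≤ qb x ^ 2 := fun x => by positivity
  have hq1 : ∀ x : E, |qb x ^ 2| ≤ (1 : ℝ≥0) := fun x => by
    rw [abs_pow]; exact pow_le_one₀ (abs_nonneg _) (abs_qb_le x)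
  have hξL : LipschitzWith _ (fun x => qb x ^ 2 * w x) := lip_mul hD hwL hq1 hwB
  have hK : IsCompact (closedBall (0 : E) 1) := isCompact_closedBall 0 1
  have hηL : ∃ C : ℝ≥0, LipschitzWith C (fun x : E => 2 * δ * qb x ^ 2) := by
    refine ⟨(2 * δ).toNNReal * D, ?_⟩
    apply LipschitzWith.of_dist_le_mul
    intro x y
    have h9 := hD.dist_le_mul x y
    rw [Real.dist_eq] at h9 ⊢
    have h8 : ((2 * δ).toNNReal : ℝ) = 2 * δ := Real.coe_toNNReal _ (by positivity)
    rw [← mul_sub, abs_mul, abs_of_nonneg (by positivity : 0 ≤ 2 * δ), NNReal.coe_mul, h8,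
      mul_assoc (2 * δ)]
    exact mul_le_mul_of_nonneg_left h9 (by positivity)
  have hξs : tsupport (fun x => qb x ^ 2 * w x) ⊆ closedBall 0 1 :=
    tsupport_mul_left_subset'.trans tsupport_qb_sq_subset
  have hηs : tsupport (fun x : E => 2 * δ * qb x ^ 2) ⊆ closedBall 0 1 := by
    refine (closure_mono fun x hx => ?_).trans tsupport_qb_sq_subset
    simp only [Function.mem_support] at hx ⊢
    exact right_ne_zero_of_mul hx
  have hmain := hvar (fun x => qb x ^ 2 * w x) (fun x => 2 * δ * qb x ^ 2) ⟨_, hξL⟩ hηL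
    (hK.of_isClosed_subset (isClosed_tsupport _) hξs)
    (hK.of_isClosed_subset (isClosed_tsupport _) hηs)
    (fun x => by
      rw [abs_mul, abs_of_nonneg (hq0 x), mul_comm]
      gcongr
      exact abs_clamp_le (by linarith) _) hηs
  -- inside the ball, `w = v`
  have hvc : Continuous v := hvL.continuous
  have hin : ∀ x : E, ‖x‖ < 1 → w =ᶠ[𝓝 x] v := by
    intro x hx
    have h3 : ∀ᶠ y in 𝓝 x, |v y| < 2 * δ :=
      (hvc.abs.tendsto x).eventually_lt_const (by
        have : |v x| ≤ δ := hflat x hx.le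
        linarith)
    filter_upwards [h3] with y hy
    simp only [hw, clamp_eq hy.le]
  have hgw : ∀ x : E, ‖x‖ < 1 → DifferentiableAt ℝ φ x → ∇ w x = ∇ φ x - e := by
    intro x hx dφ
    have dinner : DifferentiableAt ℝ (fun y : E => ⟪e, y⟫) x :=
      ((innerSL ℝ e).hasFDerivAt (x := x)).differentiableAt
    rw [(hin x hx).gradient_eq, hv, grad_sub dφ dinner, grad_inner]
  have dq : ∀ x : E, DifferentiableAt ℝ (fun y : E => qb y ^ 2) x := fun x => by
    have h := (hasFDerivAt_qbPow (n := 2) le_rfl (0 : E) 1 x).differentiableAt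
    simpa using h
  -- measurability / integrability
  have mφ := meas_grad φ
  have mw := meas_grad w
  have mq := meas_grad (fun y : E => qb y ^ 2)
  have cq : Continuous (fun y : E => qb y ^ 2) := continuous_qb.pow 2
  have i1 : Integrable (fun x => qb x ^ 2 * (1 - ⟪∇ φ x, e⟫)) := by
    refine integrable_of_bdd_supp (cq.measurable.mul (measurable_const.sub
      (mφ.inner measurable_const))).aestronglyMeasurable (C := 1 * (1 + 1 * ‖e‖)) (fun x => ?_) hK
      (fun x hx => ?_)
    · rw [abs_mul]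
      have h1 : |⟪∇ φ x, e⟫| ≤ 1 * ‖e‖ := by
        refine (abs_real_inner_le_norm _ _).trans ?_
        gcongr
        simpa using norm_grad_le hφ x
      have h2 : |1 - ⟪∇ φ x, e⟫| ≤ 1 + 1 * ‖e‖ := by
        refine (abs_sub _ _).trans ?_
        rw [abs_one]; gcongr
      have h3 := hq1 x
      push_cast at h3
      gcongr
    · rw [mem_closedBall, dist_zero_right] at hx
      push Not at hx
      rw [qb_eq_zero hx.le]; ring
  have i2 : Integrable (fun x => ⟪∇ (fun y => w y * w y) x, ∇ (fun y => qb y ^ 2) x⟫) := by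
    refine integrable_of_bdd_supp ((meas_grad _).inner mq).aestronglyMeasurable
      (C := W * 4) (fun x => ?_) hK (fun x hx => ?_)
    · refine (abs_real_inner_le_norm _ _).trans ?_
      exact mul_le_mul (norm_grad_le hww x) (norm_grad_qb_sq_le x) (norm_nonneg _) (by positivity)
    · rw [mem_closedBall, dist_zero_right] at hx
      push Not at hx
      rw [grad_qb_sq_eq_zero hx.le, inner_zero_right]
  have i3 : Integrable (fun x => ⟪∇ (fun y => qb y ^ 2) x, e⟫ * w x) := by
    refine integrable_of_bdd_supp ((mq.inner measurable_const).mul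
      hwL.continuous.measurable).aestronglyMeasurable (C := (4 * ‖e‖) * (2 * δ)) (fun x => ?_) hK
      (fun x hx => ?_)
    · rw [abs_mul]
      have h1 : |⟪∇ (fun y => qb y ^ 2) x, e⟫| ≤ 4 * ‖e‖ := by
        refine (abs_real_inner_le_norm _ _).trans ?_
        gcongr
        exact norm_grad_qb_sq_le x
      have h2 : |w x| ≤ 2 * δ := abs_clamp_le (by linarith) _
      gcongr
    · rw [mem_closedBall, dist_zero_right] at hx
      push Not at hx
      rw [grad_qb_sq_eq_zero hx.le, inner_zero_left, zero_mul]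
  -- step A
  have hA : ∫ x, ⟪∇ φ x, ∇ (fun x => qb x ^ 2 * w x) x⟫ =
      2 * (∫ x, qb x ^ 2 * (1 - ⟪∇ φ x, e⟫)) +
        (1 / 2) * ∫ x, ⟪∇ (fun y => w y * w y) x, ∇ (fun y => qb y ^ 2) x⟫ := by
    have h1 : ∫ x, ⟪∇ φ x, ∇ (fun x => qb x ^ 2 * w x) x⟫ =
        ∫ x, (qb x ^ 2 * (1 - ⟪∇ φ x, e⟫) +
          (1 / 2) * ⟪∇ (fun y => w y * w y) x, ∇ (fun y => qb y ^ 2) x⟫ +
          ⟪∇ (fun y => qb y ^ 2) x, e⟫ * w x) := by
      apply integral_congr_ae
      filter_upwards [hφ.ae_differentiableAt, hwL.ae_differentiableAt, eik] with x dφ dw hx1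
      rw [grad_mul (dq x) dw, grad_mul dw dw]
      by_cases hx : ‖x‖ < 1
      · rw [hgw x hx dφ]
        simp only [inner_add_right, inner_smul_right, inner_add_left, inner_smul_left,
          inner_sub_right, inner_sub_left, real_inner_self_eq_norm_sq, hx1, conj_trivial]
        rw [real_inner_comm e (∇ (fun y => qb y ^ 2) x)]
        ring
      · push Not at hx
        rw [grad_qb_sq_eq_zero hx, qb_eq_zero hx]
        simp
    have h2 : ∫ x, ⟪∇ (fun y => qb y ^ 2) x, e⟫ * w x = ∫ x, qb x ^ 2 * (1 - ⟪∇ φ x, e⟫) := by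
      have h3 := ibp hwL hD cpt_qb_sq e
      have h4 : ∫ x, ⟪∇ w x, e⟫ * qb x ^ 2 = -∫ x, qb x ^ 2 * (1 - ⟪∇ φ x, e⟫) := by
        rw [← integral_neg]
        apply integral_congr_ae
        filter_upwards [hφ.ae_differentiableAt] with x dφ
        by_cases hx : ‖x‖ < 1
        · rw [hgw x hx dφ, inner_sub_left, real_inner_self_eq_norm_sq, he]
          ring
        · push Not at hx
          rw [qb_eq_zero hx]
          simp
      rw [h4] at h3
      linarith
    have i2' : Integrable (fun x =>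
        (1 / 2) * ⟪∇ (fun y => w y * w y) x, ∇ (fun y => qb y ^ 2) x⟫) := i2.const_mul _
    have i12 : Integrable (fun x => qb x ^ 2 * (1 - ⟪∇ φ x, e⟫) +
        (1 / 2) * ⟪∇ (fun y => w y * w y) x, ∇ (fun y => qb y ^ 2) x⟫) := i1.add i2'
    rw [h1, integral_add i12 i3, integral_add i1 i2', integral_const_mul, h2]
    ring
  -- step B
  have hφa : LipschitzWith 1 (fun y => |φ y|) := lip_abs hφ
  have hea : LipschitzWith ‖e‖₊ (fun y : E => |⟪e, y⟫|) := lip_abs (lip_inner e)
  have i4 : Integrable (fun x => ⟪∇ (fun y => |φ y| - |⟪e, y⟫|) x, ∇ (fun y => qb y ^ 2) x⟫) := by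
    refine integrable_of_bdd_supp ((meas_grad _).inner mq).aestronglyMeasurable
      (C := (1 + ‖e‖₊ : ℝ≥0) * 4) (fun x => ?_) hK (fun x hx => ?_)
    · refine (abs_real_inner_le_norm _ _).trans ?_
      exact mul_le_mul (norm_grad_le (hφa.sub hea) x) (norm_grad_qb_sq_le x) (norm_nonneg _)
        (by positivity)
    · rw [mem_closedBall, dist_zero_right] at hx
      push Not at hx
      rw [grad_qb_sq_eq_zero hx.le, inner_zero_right]
  have i5 : Integrable (fun x => ⟪∇ (fun y => |⟪e, y⟫|) x, ∇ (fun y => qb y ^ 2) x⟫) := by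
    refine integrable_of_bdd_supp ((meas_grad _).inner mq).aestronglyMeasurable
      (C := (‖e‖₊ : ℝ≥0) * 4) (fun x => ?_) hK (fun x hx => ?_)
    · refine (abs_real_inner_le_norm _ _).trans ?_
      exact mul_le_mul (norm_grad_le hea x) (norm_grad_qb_sq_le x) (norm_nonneg _)
        (by positivity)
    · rw [mem_closedBall, dist_zero_right] at hx
      push Not at hx
      rw [grad_qb_sq_eq_zero hx.le, inner_zero_right]
  have hB : ∫ x, ⟪∇ (fun y => |φ y|) x, ∇ (fun x => 2 * δ * qb x ^ 2) x⟫ ≤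
      2 * δ * (12 * NV * δ - 2 * c) := by
    have h1 : ∫ x, ⟪∇ (fun y => |φ y|) x, ∇ (fun x => 2 * δ * qb x ^ 2) x⟫ =
        2 * δ * ((∫ x, ⟪∇ (fun y => |φ y| - |⟪e, y⟫|) x, ∇ (fun y => qb y ^ 2) x⟫) +
          ∫ x, ⟪∇ (fun y => |⟪e, y⟫|) x, ∇ (fun y => qb y ^ 2) x⟫) := by
      rw [← integral_add i4 i5, ← integral_const_mul]
      apply integral_congr_ae
      filter_upwards [hφa.ae_differentiableAt, hea.ae_differentiableAt] with x d1 d2
      rw [grad_const_mul _ (dq x), grad_sub d1 d2, inner_smul_right, inner_sub_left]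
      ring
    rw [h1, flux_abs hd he]
    have h2 := div_bound (hφa.sub hea) (δ := δ) (fun x hx => by
      have h3 := hflat x hx
      exact (abs_abs_sub_abs_le_abs_sub _ _).trans h3)
    have h4 := (abs_le.mp h2).2
    rw [← hc]
    have h5 : 12 * (Module.finrank ℝ E : ℝ) * volume.real (closedBall (0 : E) 1) * δ = 12 * NV * δ := by
      rw [hNV]; ring
    rw [h5] at h4
    have h6 : 0 < 2 * δ := by positivity
    nlinarith
  -- step C
  have hC : |∫ x, ⟪∇ (fun y => w y * w y) x, ∇ (fun y => qb y ^ 2) x⟫| ≤ 12 * NV * δ ^ 2 := by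
    have h2 := div_bound hww (δ := δ ^ 2) (fun x hx => by
      have h3 := hflat x hx
      have h4 : w x = v x := by
        simp only [hw]
        exact clamp_eq (by
          have : |v x| ≤ δ := h3
          linarith)
      rw [h4, abs_mul, ← sq]
      gcongr)
    rw [hNV]
    refine h2.trans (le_of_eq ?_)
    ring
  have hμ : ∫ x, 2 * δ * qb x ^ 2 ∂μ ≤ 2 * δ * ((1 + κ) * c) := by
    rw [integral_const_mul]
    gcongr
  rw [hA] at hmain
  have h1 := (abs_le.mp hC).1
  have h2 : (15 : ℝ) * Module.finrank ℝ E * volume.real (closedBall (0 : E) 1) * δ ^ 2 =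
      15 * NV * δ ^ 2 := by rw [hNV]; ring
  rw [h2]
  nlinarith

end Crest.Agent.R246.Flat105
end

-- ▼ part R246/Gap1_105

/-!
R246, helper105.  The gap lemma: `φ - ⟨e,·⟩` is squeezed between two mollifications.
-/

set_option autoImplicit false
set_option linter.unusedSectionVars false

namespace Crest.Agent.R246.Flat105

open MeasureTheory Filter Topology Metric Set
open scoped NNReal Gradient RealInnerProductSpace

section
variable {E : Type*} [NormedAddCommGroup E] [InnerProductSpace ℝ E] [FiniteDimensional ℝ E]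
  [MeasurableSpace E] [BorelSpace E]

/-- `∇ qb²` is `12`-Lipschitz -/
theorem norm_grad_qb_sub_le (x y : E) :
    ‖∇ (fun z => qb z ^ 2) x - ∇ (fun z => qb z ^ 2) y‖ ≤ 12 * ‖x - y‖ := by
  rw [grad_qb_sq, grad_qb_sq]
  have h1 : ∀ x y : E, ‖y‖ ≤ 1 → ‖qb x • x - qb y • y‖ ≤ 3 * ‖x - y‖ := by
    intro x y hy
    have h2 : |qb x - qb y| ≤ 2 * ‖x - y‖ := by
      have := (lip_qb (E := E)).dist_le_mul x y
      rw [Real.dist_eq, dist_eq_norm] at this
      simpa using this
    have h3 : qb x • x - qb y • y = qb x • (x - y) + (qb x - qb y) • y := by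
      rw [smul_sub, sub_smul]; abel
    rw [h3]
    calc _ ≤ ‖qb x • (x - y)‖ + ‖(qb x - qb y) • y‖ := norm_add_le _ _
      _ = |qb x| * ‖x - y‖ + |qb x - qb y| * ‖y‖ := by
          rw [norm_smul, norm_smul, Real.norm_eq_abs, Real.norm_eq_abs]
      _ ≤ 1 * ‖x - y‖ + (2 * ‖x - y‖) * 1 := by
          gcongr
          exact abs_qb_le x
      _ = 3 * ‖x - y‖ := by ring
  have h4 : ∀ x y : E, ‖qb x • x - qb y • y‖ ≤ 3 * ‖x - y‖ := by
    intro x y
    by_cases hy : ‖y‖ ≤ 1
    · exact h1 x y hy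
    · by_cases hx : ‖x‖ ≤ 1
      · rw [norm_sub_rev, norm_sub_rev x y]
        exact h1 y x hx
      · push Not at hx hy
        rw [qb_eq_zero hx.le, qb_eq_zero hy.le, zero_smul, zero_smul, sub_zero, norm_zero]
        positivity
  have h5 : (-(4 * qb x)) • x - (-(4 * qb y)) • y = (-4 : ℝ) • (qb x • x - qb y • y) := by
    rw [smul_sub, smul_smul, smul_smul]
    congr 2 <;> ring
  rw [h5, norm_smul]
  have := h4 x y
  norm_num
  linarith

/-- second order Taylor estimate for the kernel -/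
theorem qb_taylor (a u : E) :
    |qb (a + u) ^ 2 - qb a ^ 2 - ⟪∇ (fun z => qb z ^ 2) a, u⟫| ≤ 12 * ‖u‖ ^ 2 := by
  set k : E → ℝ := fun z => qb z ^ 2 with hk
  have hd : ∀ x : E, HasFDerivAt k (innerSL ℝ (∇ k x)) x := by
    intro x
    have h := hasFDerivAt_qbPow (n := 2) le_rfl (0 : E) 1 x
    simp only [sub_zero, one_smul] at h
    have h1 : ∇ k x = (-(2 * ((2 : ℕ) : ℝ) * 1 ^ 2 * qb x ^ (2 - 1))) • x :=
      grad_of_hasFDerivAt h
    rw [h1]
    exact h
  set f : ℝ → ℝ := fun t => k (a + t • u) - ⟪∇ k a, t • u⟫ with hf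
  have hfd : ∀ t : ℝ, HasDerivAt f (⟪∇ k (a + t • u) - ∇ k a, u⟫) t := by
    intro t
    have h1 : HasDerivAt (fun t : ℝ => a + t • u) u t := by
      have := ((hasDerivAt_id t).smul_const u).const_add a
      simpa using this
    have h2 := (hd (a + t • u)).comp_hasDerivAt t h1
    have h3 : HasDerivAt (fun t : ℝ => ⟪∇ k a, t • u⟫) ⟪∇ k a, u⟫ t := by
      have h4 : HasDerivAt (fun t : ℝ => t • u) u t := by
        have := (hasDerivAt_id t).smul_const u
        simpa using this
      exact (innerSL ℝ (∇ k a)).hasFDerivAt.comp_hasDerivAt t h4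
    have h5 := h2.sub h3
    refine h5.congr_deriv ?_
    rw [inner_sub_left]
    rfl
  have hbd : ∀ t ∈ Icc (0 : ℝ) 1, ‖⟪∇ k (a + t • u) - ∇ k a, u⟫‖ ≤ 12 * ‖u‖ ^ 2 := by
    intro t ht
    refine (norm_inner_le_norm _ _).trans ?_
    have h1 := norm_grad_qb_sub_le (a + t • u) a
    rw [add_sub_cancel_left, norm_smul, Real.norm_eq_abs, abs_of_nonneg ht.1] at h1
    calc _ ≤ (12 * (t * ‖u‖)) * ‖u‖ := by gcongr
      _ ≤ (12 * (1 * ‖u‖)) * ‖u‖ := by
          gcongr
          exact ht.2
      _ = _ := by ring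
  have h := Convex.norm_image_sub_le_of_norm_hasDerivWithin_le
    (f := f) (f' := fun t => ⟪∇ k (a + t • u) - ∇ k a, u⟫) (s := Icc (0 : ℝ) 1)
    (C := 12 * ‖u‖ ^ 2) (fun t _ => (hfd t).hasDerivWithinAt) hbd (convex_Icc 0 1)
    (left_mem_Icc.mpr zero_le_one) (right_mem_Icc.mpr zero_le_one)
  simp only [hf, one_smul, zero_smul, add_zero, inner_zero_right, sub_zero, norm_one, mul_one,
    Real.norm_eq_abs] at h
  have h6 : qb (a + u) ^ 2 - qb a ^ 2 - ⟪∇ k a, u⟫ = k (a + u) - ⟪∇ k a, u⟫ - k a := by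
    simp only [hk]; ring
  rw [h6]
  exact h

/-- The vertical gap between two mollifications is controlled by the excess. -/
theorem gap_le {φ : E → ℝ} (hφ : LipschitzWith 1 φ) {e : E} (he : ‖e‖ = 1) {s t₀ : ℝ}
    (hs : 0 < s) (ht₀ : 0 < t₀) {x' : E} (hx' : ‖x'‖ + t₀ + s ≤ 1 / 2) :
    (∫ y, (φ (x' + (-t₀) • e + s • y) + t₀) * qb y ^ 2) -
      (∫ y, (φ (x' + t₀ • e + s • y) - t₀) * qb y ^ 2) ≤
      2 * t₀ * (16 / 9) * (s ^ Module.finrank ℝ E)⁻¹ * ∫ x, qb x ^ 2 * (1 - ⟪∇ φ x, e⟫) := by
  set X := ∫ x, qb x ^ 2 * (1 - ⟪∇ φ x, e⟫) with hX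
  have hc : Continuous φ := hφ.continuous
  have hcq : HasCompactSupport (fun y : E => qb y ^ 2) := cpt_qb_sq
  have cq : Continuous (fun y : E => qb y ^ 2) := continuous_qb.pow 2
  have i0 : Integrable (fun y : E => qb y ^ 2) := cq.integrable_of_hasCompactSupport hcq
  have i1 : Integrable (fun y => (φ (x' + (-t₀) • e + s • y) + t₀) * qb y ^ 2) := by
    have h9 : Continuous (fun y : E => (φ (x' + (-t₀) • e + s • y) + t₀) * qb y ^ 2) :=
      ((hc.comp (by fun_prop)).add continuous_const).mul cq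
    exact h9.integrable_of_hasCompactSupport hcq.mul_left
  have i2 : Integrable (fun y => (φ (x' + t₀ • e + s • y) - t₀) * qb y ^ 2) := by
    have h9 : Continuous (fun y : E => (φ (x' + t₀ • e + s • y) - t₀) * qb y ^ 2) :=
      ((hc.comp (by fun_prop)).sub continuous_const).mul cq
    exact h9.integrable_of_hasCompactSupport hcq.mul_left
  rw [← integral_sub i1 i2]
  -- fundamental theorem of calculus along `e`
  have hint : ∀ y : E, (φ (x' + (-t₀) • e + s • y) + t₀) * qb y ^ 2 -
      (φ (x' + t₀ • e + s • y) - t₀) * qb y ^ 2 =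
      ∫ t in (-t₀)..t₀, (1 - lineDeriv ℝ φ (x' + s • y + t • e) e) * qb y ^ 2 := by
    intro y
    have hI : IntervalIntegrable (fun t => lineDeriv ℝ φ (x' + s • y + t • e) e) volume
        (-t₀) t₀ := by
      rw [intervalIntegrable_iff]
      refine Measure.integrableOn_of_bounded (M := 1) (by simp) ?_ ?_
      · have h1 : Measurable (fun p : E × E => lineDeriv ℝ φ p.1 p.2) :=
          measurable_lineDeriv_uncurry hc
        have h2 : Measurable (fun t : ℝ => ((x' + s • y + t • e : E), (e : E))) :=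
          Continuous.measurable (by fun_prop)
        exact (h1.comp h2).aestronglyMeasurable
      · refine Filter.Eventually.of_forall fun t => ?_
        have := norm_lineDeriv_le_of_lipschitz ℝ hφ (x₀ := x' + s • y + t • e) (v := e)
        simpa [he] using this
    rw [intervalIntegral.integral_mul_const, intervalIntegral.integral_sub
      intervalIntegrable_const hI, line_ftc hφ, intervalIntegral.integral_const]
    have e1 : x' + (-t₀) • e + s • y = x' + s • y + (-t₀) • e := by abel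
    have e2 : x' + t₀ • e + s • y = x' + s • y + t₀ • e := by abel
    rw [e1, e2]
    simp only [smul_eq_mul]
    ring
  simp only [hint]
  -- Fubini
  have hmeas : Measurable (fun p : ℝ × E =>
      (1 - lineDeriv ℝ φ (x' + s • p.2 + p.1 • e) e) * qb p.2 ^ 2) := by
    have h1 : Measurable (fun p : E × E => lineDeriv ℝ φ p.1 p.2) :=
      measurable_lineDeriv_uncurry hc
    have h2 : Measurable (fun p : ℝ × E => ((x' + s • p.2 + p.1 • e : E), (e : E))) :=
      Continuous.measurable (by fun_prop)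
    exact (measurable_const.sub (h1.comp h2)).mul
      (((continuous_qb).comp continuous_snd).pow 2).measurable
  have hbd : ∀ (t : ℝ) (y : E), |(1 - lineDeriv ℝ φ (x' + s • y + t • e) e) * qb y ^ 2| ≤
      (closedBall (0 : E) 1).indicator (fun _ => (2 : ℝ)) y := by
    intro t y
    by_cases hy : ‖y‖ ≤ 1
    · rw [indicator_of_mem (by simpa using hy), abs_mul, abs_pow]
      have h1 : |lineDeriv ℝ φ (x' + s • y + t • e) e| ≤ 1 := by
        have := norm_lineDeriv_le_of_lipschitz ℝ hφ (x₀ := x' + s • y + t • e) (v := e)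
        simpa [he] using this
      have h2 : |qb y| ^ 2 ≤ 1 := pow_le_one₀ (abs_nonneg _) (abs_qb_le y)
      have h3 : |1 - lineDeriv ℝ φ (x' + s • y + t • e) e| ≤ 2 := by
        rw [abs_le] at h1 ⊢
        constructor <;> linarith [h1.1, h1.2]
      calc _ ≤ (2 : ℝ) * 1 := by gcongr
        _ = 2 := mul_one _
    · rw [indicator_of_notMem (by simpa using hy)]
      push Not at hy
      rw [qb_eq_zero hy.le]; simp
  have hI2 : Integrable (fun p : ℝ × E =>
      (1 - lineDeriv ℝ φ (x' + s • p.2 + p.1 • e) e) * qb p.2 ^ 2)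
      ((volume.restrict (Ioc (-t₀) t₀)).prod volume) := by
    have h1 : Integrable (fun p : ℝ × E => (closedBall (0 : E) 1).indicator
        (fun _ => (2 : ℝ)) p.2) ((volume.restrict (Ioc (-t₀) t₀)).prod volume) := by
      have h2 : Integrable ((closedBall (0 : E) 1).indicator (fun _ => (2 : ℝ))) :=
        (integrable_indicator_iff measurableSet_closedBall).mpr
          (integrableOn_const (measure_closedBall_lt_top.ne))
      exact h2.comp_snd _
    refine h1.mono' hmeas.aestronglyMeasurable ?_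
    exact Filter.Eventually.of_forall fun p => by
      rw [Real.norm_eq_abs]; exact hbd p.1 p.2
  have hswap : ∫ y, (∫ t in (-t₀)..t₀, (1 - lineDeriv ℝ φ (x' + s • y + t • e) e) * qb y ^ 2) =
      ∫ t in (-t₀)..t₀, ∫ y, (1 - lineDeriv ℝ φ (x' + s • y + t • e) e) * qb y ^ 2 := by
    simp only [intervalIntegral.integral_of_le (by linarith : -t₀ ≤ t₀)]
    exact (integral_integral_swap hI2).symm
  rw [hswap]
  -- the slices
  have iX : Integrable (fun x => qb x ^ 2 * (1 - ⟪∇ φ x, e⟫)) := by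
    refine integrable_of_bdd_supp (cq.measurable.mul (measurable_const.sub
      ((meas_grad φ).inner measurable_const))).aestronglyMeasurable (C := 1 * (1 + 1 * ‖e‖))
      (fun x => ?_) (isCompact_closedBall (0 : E) 1) (fun x hx => ?_)
    · rw [abs_mul]
      have h1 : |⟪∇ φ x, e⟫| ≤ 1 * ‖e‖ := by
        refine (abs_real_inner_le_norm _ _).trans ?_
        gcongr
        simpa using norm_grad_le hφ x
      have h2 : |1 - ⟪∇ φ x, e⟫| ≤ 1 + 1 * ‖e‖ := by
        refine (abs_sub _ _).trans ?_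
        rw [abs_one]; gcongr
      have h3 : |qb x ^ 2| ≤ 1 := by
        rw [abs_pow]; exact pow_le_one₀ (abs_nonneg _) (abs_qb_le x)
      gcongr
    · rw [mem_closedBall, dist_zero_right] at hx
      push Not at hx
      rw [qb_eq_zero hx.le]; ring
  have hslice : ∀ t ∈ Ioc (-t₀) t₀,
      ∫ y, (1 - lineDeriv ℝ φ (x' + s • y + t • e) e) * qb y ^ 2 ≤
        (s ^ Module.finrank ℝ E)⁻¹ * ((16 / 9) * X) := by
    intro t ht
    set a : E := x' + t • e with ha
    set f : E → ℝ := fun z => (1 - lineDeriv ℝ φ (a + z) e) * qb (s⁻¹ • z) ^ 2 with hf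
    have h1 : ∫ y, (1 - lineDeriv ℝ φ (x' + s • y + t • e) e) * qb y ^ 2 =
        |(s ^ Module.finrank ℝ E)⁻¹| • ∫ z, f z := by
      rw [← Measure.integral_comp_smul volume f s]
      apply integral_congr_ae
      refine Filter.Eventually.of_forall fun y => ?_
      simp only [hf, smul_smul, inv_mul_cancel₀ hs.ne', one_smul]
      have : x' + s • y + t • e = a + s • y := by rw [ha]; abel
      rw [this]
    have h2 : ∫ z, f z = ∫ x, f (x - a) := (integral_sub_right_eq_self f a).symm
    have hat : ‖a‖ + s ≤ 1 / 2 := by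
      have : ‖a‖ ≤ ‖x'‖ + t₀ := by
        refine (norm_add_le _ _).trans ?_
        rw [norm_smul, he, mul_one, Real.norm_eq_abs]
        gcongr
        rw [abs_le]; exact ⟨ht.1.le, ht.2⟩
      linarith
    have h3 : ∫ x, f (x - a) ≤ ∫ x, (16 / 9) * (qb x ^ 2 * (1 - ⟪∇ φ x, e⟫)) := by
      have hpt : ∀ᵐ x, f (x - a) ≤ (16 / 9) * (qb x ^ 2 * (1 - ⟪∇ φ x, e⟫)) := by
        filter_upwards [hφ.ae_differentiableAt] with x dx
        simp only [hf]
        rw [add_sub_cancel, dx.lineDeriv_eq_fderiv, ← inner_grad]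
        have h4 : 0 ≤ 1 - ⟪∇ φ x, e⟫ := by
          have h5 : |⟪∇ φ x, e⟫| ≤ 1 := by
            refine (abs_real_inner_le_norm _ _).trans ?_
            rw [he, mul_one]
            simpa using norm_grad_le hφ x
          linarith [(abs_le.mp h5).2]
        have h5 : qb (s⁻¹ • (x - a)) ^ 2 ≤ (16 / 9) * qb x ^ 2 := by
          by_cases hx : ‖s⁻¹ • (x - a)‖ < 1
          · have h6 : ‖x‖ ≤ 1 / 2 := by
              rw [norm_smul, norm_inv, Real.norm_eq_abs, abs_of_pos hs] at hx
              have h7 : ‖x - a‖ < s := by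
                rw [inv_mul_lt_iff₀ hs] at hx
                linarith
              have h8 : x = (x - a) + a := by abel
              rw [h8]
              exact (norm_add_le _ _).trans (by linarith)
            have h7 : 3 / 4 ≤ qb x := by
              unfold qb
              refine le_trans ?_ (le_max_right _ _)
              nlinarith [norm_nonneg x]
            have h8 : qb (s⁻¹ • (x - a)) ^ 2 ≤ 1 := pow_le_one₀ (qb_nonneg _) (qb_le_one _)
            nlinarith
          · push Not at hx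
            rw [qb_eq_zero hx]
            have := sq_nonneg (qb x)
            simpa using this
        calc _ ≤ (1 - ⟪∇ φ x, e⟫) * ((16 / 9) * qb x ^ 2) := by gcongr
          _ = _ := by ring
      have hmf : Measurable (fun x => f (x - a)) := by
        have h1 : Measurable (fun p : E × E => lineDeriv ℝ φ p.1 p.2) :=
          measurable_lineDeriv_uncurry hc
        have h2 : Measurable (fun x : E => ((a + (x - a) : E), (e : E))) :=
          Continuous.measurable (by fun_prop)
        exact (measurable_const.sub (h1.comp h2)).mul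
          (((continuous_qb).comp (by fun_prop : Continuous fun x : E => s⁻¹ • (x - a))).pow
            2).measurable
      have hif : Integrable (fun x => f (x - a)) := by
        refine integrable_of_bdd_supp hmf.aestronglyMeasurable (C := 2) (fun x => ?_)
          (isCompact_closedBall a s) (fun x hx => ?_)
        · simp only [hf]
          rw [abs_mul, abs_pow]
          have h1 : |lineDeriv ℝ φ (a + (x - a)) e| ≤ 1 := by
            have := norm_lineDeriv_le_of_lipschitz ℝ hφ (x₀ := a + (x - a)) (v := e)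
            simpa [he] using this
          have h2 : |qb (s⁻¹ • (x - a))| ^ 2 ≤ 1 := pow_le_one₀ (abs_nonneg _) (abs_qb_le _)
          have h3 : |1 - lineDeriv ℝ φ (a + (x - a)) e| ≤ 2 := by
            rw [abs_le] at h1 ⊢
            constructor <;> linarith [h1.1, h1.2]
          calc _ ≤ (2 : ℝ) * 1 := by gcongr
            _ = 2 := mul_one _
        · simp only [hf]
          rw [mem_closedBall, dist_eq_norm] at hx
          push Not at hx
          rw [qb_eq_zero, zero_pow (by norm_num), mul_zero]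
          rw [norm_smul, norm_inv, Real.norm_eq_abs, abs_of_pos hs]
          rw [le_inv_mul_iff₀ hs]
          linarith
      exact integral_mono_ae hif (iX.const_mul _) hpt
    rw [h1, h2, smul_eq_mul, abs_of_pos (by positivity)]
    rw [integral_const_mul] at h3
    gcongr
  have hmono : ∫ t in (-t₀)..t₀, ∫ y, (1 - lineDeriv ℝ φ (x' + s • y + t • e) e) * qb y ^ 2 ≤
      ∫ _t in (-t₀)..t₀, (s ^ Module.finrank ℝ E)⁻¹ * ((16 / 9) * X) := by
    rw [intervalIntegral.integral_of_le (by linarith), intervalIntegral.integral_of_le (by linarith)]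
    refine setIntegral_mono_on ?_ ?_ measurableSet_Ioc hslice
    · exact hI2.integral_prod_left
    · exact integrableOn_const (by simp)
  refine hmono.trans (le_of_eq ?_)
  rw [intervalIntegral.integral_const, smul_eq_mul]
  ring

end

end Crest.Agent.R246.Flat105
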