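import Crest.Agent.R246.D2Energy_782

-- ▼ part R246/IN1_200
section

/-!
Row 246, block I(I) (helper200), part 1: calculus on the sphere with a tube function.
Profile functions `GG ε` (approximate delta function `ε⁻¹ sech⁴(t/ε)`), its primitive `XX ε`, the bilinear
form `sdot` (product and chain rules), the tube bound (TB).
-/

set_option autoImplicit false

open MeasureTheory Filter Topology Metric Set
open scoped ContDiff
open Crest.GeometryTopology.CoordMetric Crest.GeometryTopology.AffineMaximal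
open Crest.Agent.R236.Jet Crest.Agent.R202.SphDiv Crest.Agent.R246.D2x782

noncomputable section

namespace Crest.Agent.R246.IN200

/-! ### profile functions -/

/-- `ε⁻¹ sech⁴(t/ε)` -/
def GG (ε t : ℝ) : ℝ := 1 / ε * (1 - Real.tanh (t / ε) ^ 2) ^ 2

/-- primitive of `GG ε` -/
def XX (ε t : ℝ) : ℝ := Real.tanh (t / ε) - Real.tanh (t / ε) ^ 3 / 3

theorem GG_nonneg {ε : ℝ} (hε : 0 < ε) (t : ℝ) : 0 ≤ GG ε t := by
  unfold GG; positivity

theorem tanh_mono : Monotone Real.tanh :=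
  monotone_of_deriv_nonneg (fun t => (hasDerivAt_tanh t).differentiableAt) fun t => by
    rw [(hasDerivAt_tanh t).deriv]; have := tanh_sq_lt_one t; linarith

theorem tanh_nonneg {s : ℝ} (hs : 0 ≤ s) : 0 ≤ Real.tanh s := by
  have := tanh_mono hs
  simpa using this

theorem hasDerivAt_tdiv {ε : ℝ} (t : ℝ) :
    HasDerivAt (fun s : ℝ => Real.tanh (s / ε)) ((1 - Real.tanh (t / ε) ^ 2) * (1 / ε)) t := by
  have h2 : HasDerivAt (fun t : ℝ => t / ε) (1 / ε) t := (hasDerivAt_id _).div_const ε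
  exact HasDerivAt.comp (h₂ := Real.tanh) (h := fun t : ℝ => t / ε) t (hasDerivAt_tanh (t / ε)) h2

theorem hasDerivAt_XX {ε : ℝ} (t : ℝ) : HasDerivAt (XX ε) (GG ε t) t := by
  have h3 := hasDerivAt_tdiv (ε := ε) t
  have h4 := h3.fun_sub ((h3.fun_pow 3).div_const 3)
  refine h4.congr_deriv ?_
  unfold GG
  push_cast
  ring

theorem XX_mono {ε : ℝ} (hε : 0 < ε) : Monotone (XX ε) :=
  monotone_of_deriv_nonneg (fun t => (hasDerivAt_XX t).differentiableAt) fun t => by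
    rw [(hasDerivAt_XX t).deriv]; exact GG_nonneg hε t

theorem XX_neg (ε t : ℝ) : XX ε (-t) = - XX ε t := by
  unfold XX
  rw [neg_div, Real.tanh_neg]
  ring

theorem XX_le {ε : ℝ} (t : ℝ) : XX ε t ≤ 2 / 3 := by
  have h := abs_lt.1 (abs_tanh_lt_one (t / ε))
  unfold XX
  nlinarith [mul_nonneg (sq_nonneg (1 - Real.tanh (t / ε)))
    (by linarith : 0 ≤ 2 + Real.tanh (t / ε))]

theorem XX_abs_le (ε t : ℝ) : |XX ε t| ≤ 2 / 3 := by
  rw [abs_le]
  have h1 := XX_le (ε := ε) t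
  have h2 := XX_le (ε := ε) (-t)
  rw [XX_neg] at h2
  constructor <;> linarith

theorem one_sub_tanh_le {s : ℝ} (hs : 0 < s) : 1 - Real.tanh s ≤ 1 / s := by
  have hc := Real.cosh_pos s
  have h1 : 1 - Real.tanh s = Real.exp (-s) / Real.cosh s := by
    rw [Real.tanh_eq_sinh_div_cosh, ← Real.cosh_sub_sinh]
    field_simp
  rw [h1, div_le_div_iff₀ hc hs]
  have h2 : Real.exp (-s) * s ≤ 1 := by
    have h3 : s ≤ Real.exp s := by linarith [Real.add_one_le_exp s]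
    have h4 : Real.exp (-s) * Real.exp s = 1 := by rw [← Real.exp_add]; simp
    have h5 : 0 < Real.exp (-s) := Real.exp_pos _
    nlinarith
  linarith [Real.one_le_cosh s]

/-- `2/3 - Ξ(t) ≤ ε / t` -/
theorem XX_tail {ε t : ℝ} (hε : 0 < ε) (ht : 0 < t) : 2 / 3 - XX ε t ≤ ε / t := by
  have h := abs_lt.1 (abs_tanh_lt_one (t / ε))
  have h1 := one_sub_tanh_le (div_pos ht hε)
  have h2 : 1 / (t / ε) = ε / t := by rw [one_div_div]
  rw [h2] at h1
  have h3 : 2 / 3 - XX ε t = (1 - Real.tanh (t / ε)) ^ 2 * (2 + Real.tanh (t / ε)) / 3 := by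
    unfold XX; ring
  have h4 : 0 ≤ 1 - Real.tanh (t / ε) := by linarith
  have hp : 0 ≤ Real.tanh (t / ε) := tanh_nonneg (div_pos ht hε).le
  rw [h3]
  nlinarith [mul_nonneg h4 h4]

/-- `t² G_ε(t) ≤ ε sech²(t/ε)` -/
theorem sq_GG_le {ε : ℝ} (hε : 0 < ε) (t : ℝ) :
    t ^ 2 * GG ε t ≤ ε * (1 - Real.tanh (t / ε) ^ 2) := by
  set s := t / ε with hs
  have ht : t = s * ε := by rw [hs]; field_simp
  have h1 : 1 - Real.tanh s ^ 2 = 1 / Real.cosh s ^ 2 := by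
    rw [Real.tanh_eq_sinh_div_cosh]
    have hc := (Real.cosh_pos s).ne'
    have h2 := Real.cosh_sq s
    field_simp
    linarith
  have h3 : s ^ 2 * (1 - Real.tanh s ^ 2) ≤ 1 := by
    rw [h1, mul_one_div, div_le_one (pow_pos (Real.cosh_pos s) 2)]
    have h4 : |s| ≤ Real.cosh s := by
      rw [← Real.cosh_abs]
      have h5 : |s| ≤ Real.sinh |s| := Real.self_le_sinh_iff.2 (abs_nonneg s)
      have h6 : Real.sinh |s| < Real.cosh |s| := Real.sinh_lt_cosh _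
      linarith
    calc s ^ 2 = |s| ^ 2 := (sq_abs s).symm
      _ ≤ Real.cosh s ^ 2 := by gcongr
  have h0 : 0 ≤ 1 - Real.tanh s ^ 2 := by have := tanh_sq_lt_one s; linarith
  unfold GG
  rw [← hs]
  calc t ^ 2 * (1 / ε * (1 - Real.tanh s ^ 2) ^ 2)
      = ε * (1 - Real.tanh s ^ 2) * (s ^ 2 * (1 - Real.tanh s ^ 2)) := by
        rw [ht]; field_simp
    _ ≤ ε * (1 - Real.tanh s ^ 2) * 1 := by gcongr
    _ = ε * (1 - Real.tanh s ^ 2) := mul_one _

theorem GG_even (ε t : ℝ) : GG ε (-t) = GG ε t := by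
  unfold GG
  rw [neg_div, Real.tanh_neg]
  ring

theorem GG_anti {ε a b : ℝ} (hε : 0 < ε) (ha : 0 ≤ a) (hab : a ≤ b) : GG ε b ≤ GG ε a := by
  have h1 : 0 ≤ Real.tanh (a / ε) := tanh_nonneg (div_nonneg ha hε.le)
  have h2 : Real.tanh (a / ε) ≤ Real.tanh (b / ε) := tanh_mono (by gcongr)
  have h3 : Real.tanh (a / ε) ^ 2 ≤ Real.tanh (b / ε) ^ 2 := by gcongr
  have h4 := tanh_sq_lt_one (b / ε)
  unfold GG
  have h5 : 0 ≤ 1 - Real.tanh (b / ε) ^ 2 := by linarith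
  gcongr

theorem GG_abs (ε t : ℝ) : GG ε |t| = GG ε t := by
  rcases abs_choice t with h | h <;> rw [h]
  exact GG_even ε t

/-- window of `Ξ` -/
def WW (ε b t : ℝ) : ℝ := XX ε (t + b) - XX ε (t - b)

theorem WW_nonneg {ε b : ℝ} (hε : 0 < ε) (hb : 0 ≤ b) (t : ℝ) : 0 ≤ WW ε b t :=
  sub_nonneg.2 (XX_mono hε (by linarith))

theorem abs_XX_sub_le {ε b : ℝ} (hε : 0 < ε) {s t : ℝ} (h : |s - t| ≤ b) :
    |XX ε s - XX ε t| ≤ WW ε b t := by
  rw [abs_le] at h ⊢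
  have hm := XX_mono hε
  have h1 : XX ε s ≤ XX ε (t + b) := hm (by linarith)
  have h2 : XX ε (t - b) ≤ XX ε s := hm (by linarith)
  have h3 : XX ε t ≤ XX ε (t + b) := hm (by linarith)
  have h4 : XX ε (t - b) ≤ XX ε t := hm (by linarith)
  unfold WW
  constructor <;> linarith

/-- `t² W(t) ≤ 4 b² W(t) + 8 b ε sech²(t/(2ε))` -/
theorem sq_WW_le {ε b : ℝ} (hε : 0 < ε) (hb : 0 ≤ b) (t : ℝ) :
    t ^ 2 * WW ε b t ≤ 4 * b ^ 2 * WW ε b t + 8 * b * (ε * (1 - Real.tanh (t / (2 * ε)) ^ 2)) := by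
  have hW := WW_nonneg hε hb t
  have h0 : 0 ≤ 1 - Real.tanh (t / (2 * ε)) ^ 2 := by
    have := tanh_sq_lt_one (t / (2 * ε)); linarith
  by_cases ht : |t| ≤ 2 * b
  · have h1 : t ^ 2 ≤ 4 * b ^ 2 := by
      calc t ^ 2 = |t| ^ 2 := (sq_abs t).symm
        _ ≤ (2 * b) ^ 2 := by gcongr
        _ = 4 * b ^ 2 := by ring
    have h2 : t ^ 2 * WW ε b t ≤ 4 * b ^ 2 * WW ε b t := by gcongr
    have h3 : 0 ≤ 8 * b * (ε * (1 - Real.tanh (t / (2 * ε)) ^ 2)) := by positivity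
    linarith
  · push Not at ht
    -- mean value theorem
    have h1 : WW ε b t ≤ 2 * b * GG ε (t / 2) := by
      rcases hb.eq_or_lt with hb0 | hb0
      · rw [← hb0]; simp [WW]
      obtain ⟨ξ, hξ, h2⟩ := exists_hasDerivAt_eq_slope (XX ε) (GG ε)
        (show t - b < t + b by linarith)
        (fun x _ => (hasDerivAt_XX x).continuousAt.continuousWithinAt)
        (fun x _ => hasDerivAt_XX x)
      have h3 : WW ε b t = 2 * b * GG ε ξ := by
        unfold WW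
        rw [h2, show t + b - (t - b) = 2 * b by ring]
        field_simp
      have h4 : |t| / 2 ≤ |ξ| := by
        have h5 : |t| - |ξ| ≤ |t - ξ| := abs_sub_abs_le_abs_sub t ξ
        have h6 : |t - ξ| ≤ b := by rw [abs_le]; constructor <;> linarith [hξ.1, hξ.2]
        linarith
      have h7 : GG ε ξ ≤ GG ε (t / 2) := by
        rw [← GG_abs ε ξ, ← GG_abs ε (t / 2)]
        refine GG_anti hε (abs_nonneg _) ?_
        rw [abs_div, abs_two]; exact h4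
      rw [h3]
      gcongr
    have h2 := sq_GG_le hε (t / 2)
    have h3 : t / 2 / ε = t / (2 * ε) := by rw [div_div]
    rw [h3] at h2
    have h4 : t ^ 2 * WW ε b t ≤ t ^ 2 * (2 * b * GG ε (t / 2)) := by gcongr
    have h5 : t ^ 2 * (2 * b * GG ε (t / 2)) = 8 * b * ((t / 2) ^ 2 * GG ε (t / 2)) := by ring
    have h6 : 8 * b * ((t / 2) ^ 2 * GG ε (t / 2))
        ≤ 8 * b * (ε * (1 - Real.tanh (t / (2 * ε)) ^ 2)) := by gcongr
    have h7 : 0 ≤ 4 * b ^ 2 * WW ε b t := by positivity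
    linarith

/-- bounded primitive of the window -/
theorem exists_prim_WW {ε b : ℝ} (hb : 0 ≤ b) :
    ∃ P : ℝ → ℝ, (∀ t, HasDerivAt P (WW ε b t) t) ∧ ∀ t, |P t| ≤ 4 / 3 * b := by
  set Q : ℝ → ℝ := fun t => ∫ s in (0 : ℝ)..t, XX ε s with hQ
  have hc : Continuous (XX ε) :=
    continuous_iff_continuousAt.2 fun t => (hasDerivAt_XX t).continuousAt
  have hQd : ∀ t, HasDerivAt Q (XX ε t) t := fun t =>
    (hc.integral_hasStrictDerivAt 0 t).hasDerivAt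
  refine ⟨fun t => Q (t + b) - Q (t - b), fun t => ?_, fun t => ?_⟩
  · have h1 : HasDerivAt (fun t => Q (t + b)) (XX ε (t + b)) t := (hQd (t + b)).comp_add_const t b
    have h2 : HasDerivAt (fun t => Q (t - b)) (XX ε (t - b)) t := (hQd (t - b)).comp_sub_const t b
    exact h1.fun_sub h2
  · have h1 : ‖Q (t + b) - Q (t - b)‖ ≤ 2 / 3 * ‖(t + b) - (t - b)‖ := by
      refine Convex.norm_image_sub_le_of_norm_hasDerivWithin_le (s := univ)
        (fun x _ => (hQd x).hasDerivWithinAt) (fun x _ => ?_) convex_univ (mem_univ _) (mem_univ _)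
      exact XX_abs_le ε x
    rw [Real.norm_eq_abs, Real.norm_eq_abs, show (t + b) - (t - b) = 2 * b by ring,
      abs_of_nonneg (by linarith : (0 : ℝ) ≤ 2 * b)] at h1
    show |Q (t + b) - Q (t - b)| ≤ 4 / 3 * b
    linarith

end Crest.Agent.R246.IN200
end
end

-- ▼ part R246/IN2_200
section

/-!
Row 246, block I(I) (helper200), part 2: the bilinear form `sdot` and the TUBE BOUND.
-/

set_option autoImplicit false

open MeasureTheory Filter Topology Metric Set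
open scoped ContDiff
open Crest.GeometryTopology.CoordMetric Crest.GeometryTopology.AffineMaximal
open Crest.Agent.R236.Jet Crest.Agent.R202.SphDiv Crest.Agent.R246.D2x782

noncomputable section

namespace Crest.Agent.R246.IN200

variable {n : ℕ}

local notation "EE" => EuclideanSpace ℝ (Fin n)

/-- `C¹` away from the origin -/
def C1 (f : EuclideanSpace ℝ (Fin n) → ℝ) : Prop :=
  ∀ x : EuclideanSpace ℝ (Fin n), x ≠ 0 → ContDiffAt ℝ 1 f x

theorem C1.diff {f : EE → ℝ} (h : C1 f) {x : EE} (hx : x ≠ 0) : DifferentiableAt ℝ f x :=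
  (h x hx).differentiableAt one_ne_zero

theorem C1.cont {f : EE → ℝ} (h : C1 f) {x : EE} (hx : x ≠ 0) : ContinuousAt f x :=
  (h x hx).continuousAt

theorem C1.cont_pderiv {f : EE → ℝ} (h : C1 f) {x : EE} (hx : x ≠ 0) (j : Fin n) :
    ContinuousAt (fun y => pderiv j f y) x := by
  have h1 : ContDiffAt ℝ 0 (fderiv ℝ f) x := (h x hx).fderiv_right (by norm_num)
  exact (h1.clm_apply contDiffAt_const).continuousAt

theorem C1.cont_sdot {f g : EE → ℝ} (h : C1 f) (hg : C1 g) {x : EE} (hx : x ≠ 0) :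
    ContinuousAt (sdot f g) x := by
  refine ((smooth_nsq x).continuousAt).mul ?_
  exact tendsto_finsetSum _ fun j _ => (h.cont_pderiv hx j).mul (hg.cont_pderiv hx j)

theorem C1.mul {f g : EE → ℝ} (h : C1 f) (hg : C1 g) : C1 (fun x => f x * g x) :=
  fun x hx => (h x hx).mul (hg x hx)

theorem C1.add {f g : EE → ℝ} (h : C1 f) (hg : C1 g) : C1 (fun x => f x + g x) :=
  fun x hx => (h x hx).add (hg x hx)

theorem C1.sub {f g : EE → ℝ} (h : C1 f) (hg : C1 g) : C1 (fun x => f x - g x) :=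
  fun x hx => (h x hx).sub (hg x hx)

theorem C1.const (c : ℝ) : C1 (fun _ : EE => c) := fun _ _ => contDiffAt_const

theorem C1.comp {f : EE → ℝ} (h : C1 f) {F : ℝ → ℝ} (hF : ContDiff ℝ 1 F) :
    C1 (fun x => F (f x)) := fun x hx => hF.contDiffAt.comp x (h x hx)

theorem _root_.Crest.Agent.R246.D2x782.SmHom0.c1 {R : EE → ℝ} (h : SmHom0 R) : C1 R :=
  fun x hx => (h.smooth x hx).of_le (by exact_mod_cast le_top)

theorem _root_.Crest.Agent.R246.D2x782.SmHom0.c1_slap {R : EE → ℝ} (h : SmHom0 R) :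
    C1 (slap R) := fun x hx => (h.smooth_slap hx).of_le (by exact_mod_cast le_top)

/-! ### algebra of `sdot` -/

theorem sdot_comm (a b : EE → ℝ) (x : EE) : sdot a b x = sdot b a x := by
  unfold sdot
  congr 1
  exact Finset.sum_congr rfl fun j _ => mul_comm _ _

theorem sgsq_eq (a : EE → ℝ) (x : EE) : sgsq a x = sdot a a x := rfl

theorem sdot_mul {a b c : EE → ℝ} {x : EE} (ha : DifferentiableAt ℝ a x)
    (hb : DifferentiableAt ℝ b x) :
    sdot (fun y => a y * b y) c x = a x * sdot b c x + b x * sdot a c x := by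
  unfold sdot
  rw [show a x * (nsq x * ∑ j, pderiv j b x * pderiv j c x)
      + b x * (nsq x * ∑ j, pderiv j a x * pderiv j c x)
    = nsq x * (∑ j, (a x * (pderiv j b x * pderiv j c x) + b x * (pderiv j a x * pderiv j c x))) by
      rw [Finset.sum_add_distrib, ← Finset.mul_sum, ← Finset.mul_sum]; ring]
  congr 1
  refine Finset.sum_congr rfl fun j _ => ?_
  rw [pderiv_mul ha hb]
  ring

theorem sdot_add {a b c : EE → ℝ} {x : EE} (ha : DifferentiableAt ℝ a x)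
    (hb : DifferentiableAt ℝ b x) :
    sdot (fun y => a y + b y) c x = sdot a c x + sdot b c x := by
  unfold sdot
  rw [← mul_add, ← Finset.sum_add_distrib]
  congr 1
  refine Finset.sum_congr rfl fun j _ => ?_
  rw [pderiv_add ha hb]
  ring

theorem sdot_sub {a b c : EE → ℝ} {x : EE} (ha : DifferentiableAt ℝ a x)
    (hb : DifferentiableAt ℝ b x) :
    sdot (fun y => a y - b y) c x = sdot a c x - sdot b c x := by
  unfold sdot
  rw [← mul_sub, ← Finset.sum_sub_distrib]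
  congr 1
  refine Finset.sum_congr rfl fun j _ => ?_
  rw [pderiv_sub ha hb]
  ring

theorem sdot_comp {F : ℝ → ℝ} {F' : ℝ} {a c : EE → ℝ} {x : EE} (hF : HasDerivAt F F' (a x))
    (ha : DifferentiableAt ℝ a x) :
    sdot (fun y => F (a y)) c x = F' * sdot a c x := by
  unfold sdot
  rw [show F' * (nsq x * ∑ j, pderiv j a x * pderiv j c x)
    = nsq x * ∑ j, F' * pderiv j a x * pderiv j c x by
      rw [← mul_assoc, mul_comm F', mul_assoc, Finset.mul_sum]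
      congr 1
      exact Finset.sum_congr rfl fun j _ => by ring]
  congr 1
  refine Finset.sum_congr rfl fun j _ => ?_
  rw [pderiv_comp (φ := F) hF ha]

theorem sdot_const (k : ℝ) (c : EE → ℝ) (x : EE) : sdot (fun _ => k) c x = 0 := by
  unfold sdot
  simp [pderiv_const]

theorem sdot_smul {k : ℝ} {a c : EE → ℝ} {x : EE} (ha : DifferentiableAt ℝ a x) :
    sdot (fun y => k * a y) c x = k * sdot a c x := by
  have h := sdot_mul (c := c) (differentiableAt_const k : DifferentiableAt ℝ (fun _ : EE => k) x) ha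
  rw [h, sdot_const]
  ring

theorem sdot_sq_le (a b : EE → ℝ) (x : EE) : sdot a b x ^ 2 ≤ sgsq a x * sgsq b x := by
  unfold sdot sgsq gsq
  have h := Finset.sum_mul_sq_le_sq_mul_sq Finset.univ (fun j => pderiv j a x)
    (fun j => pderiv j b x)
  have h1 : 0 ≤ nsq x ^ 2 := sq_nonneg _
  calc (nsq x * ∑ j, pderiv j a x * pderiv j b x) ^ 2
      = nsq x ^ 2 * (∑ j, pderiv j a x * pderiv j b x) ^ 2 := by ring
    _ ≤ nsq x ^ 2 * ((∑ j, pderiv j a x ^ 2) * ∑ j, pderiv j b x ^ 2) := by gcongr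
    _ = _ := by
      simp only [← sq]
      ring

theorem sdot_abs_le {a b : EE → ℝ} {x : EE} {α β : ℝ} (hα : 0 ≤ α) (hβ : 0 ≤ β)
    (ha : sgsq a x ≤ α ^ 2) (hb : sgsq b x ≤ β ^ 2) : |sdot a b x| ≤ α * β := by
  refine abs_le_of_sq_le_sq ?_ (mul_nonneg hα hβ)
  have h := sdot_sq_le a b x
  have h1 : 0 ≤ sgsq b x := by
    rw [sgsq_eq]; unfold sdot
    rw [nsq_eq]
    exact mul_nonneg (sq_nonneg _) (Finset.sum_nonneg fun _ _ => mul_self_nonneg _)
  calc sdot a b x ^ 2 ≤ sgsq a x * sgsq b x := h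
    _ ≤ α ^ 2 * β ^ 2 := by gcongr
    _ = (α * β) ^ 2 := by ring

theorem sgsq_nonneg (a : EE → ℝ) (x : EE) : 0 ≤ sgsq a x := by
  rw [sgsq_eq]; unfold sdot
  rw [nsq_eq]
  exact mul_nonneg (sq_nonneg _) (Finset.sum_nonneg fun _ _ => mul_self_nonneg _)

/-- continuous functions on the sphere are bounded -/
theorem exists_bound {f : EE → ℝ} (hf : ∀ x : EE, x ≠ 0 → ContinuousAt f x) :
    ∃ K : ℝ, 0 ≤ K ∧ ∀ z : Sph n, |f z| ≤ K := by
  have h1 : Continuous fun z : Sph n => |f (z : EE)| := (continuous_sph hf).abs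
  rcases isEmpty_or_nonempty (Sph n) with h | h
  · exact ⟨0, le_rfl, fun z => (h.false z).elim⟩
  · obtain ⟨z, -, hz⟩ := isCompact_univ.exists_isMaxOn univ_nonempty h1.continuousOn
    exact ⟨|f z|, abs_nonneg _, fun w => hz (mem_univ w)⟩

/-! ### the tube -/

/-- Data of a tube around `{r = 0}`: `r` is eikonal on the region `T`, `η` is a cut-off supported in
`T`, its gradient lives where `|r| ≥ t1`, and `Δ_S r = - q r + O(r²)` there. -/
structure Tube (r η q : EuclideanSpace ℝ (Fin n) → ℝ) (T : Set (EuclideanSpace ℝ (Fin n)))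
    (t1 K : ℝ) : Prop where
  r_sm : SmHom0 r
  η_sm : SmHom0 η
  q_sm : C1 q
  t1_pos : 0 < t1
  K_nonneg : 0 ≤ K
  η_nonneg : ∀ z : Sph n, 0 ≤ η z
  η_le : ∀ z : Sph n, η z ≤ 1
  supp : ∀ z : Sph n, (z : EuclideanSpace ℝ (Fin n)) ∉ T → η z = 0
  supp' : ∀ z : Sph n, (z : EuclideanSpace ℝ (Fin n)) ∉ T → ∀ j, pderiv j η z = 0
  eik : ∀ z : Sph n, (z : EuclideanSpace ℝ (Fin n)) ∈ T → sgsq r z = 1
  far : ∀ z : Sph n, (z : EuclideanSpace ℝ (Fin n)) ∈ T → |r z| < t1 → ∀ j, pderiv j η z = 0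
  ric : ∀ z : Sph n, (z : EuclideanSpace ℝ (Fin n)) ∈ T → |slap r z + q z * r z| ≤ K * r z ^ 2

variable {r η q : EuclideanSpace ℝ (Fin n) → ℝ} {T : Set (EuclideanSpace ℝ (Fin n))} {t1 K : ℝ}

theorem Tube.sdot_η_zero (h : Tube r η q T t1 K) {z : Sph n} (hz : (z : EE) ∉ T)
    (c : EE → ℝ) : sdot η c z = 0 := by
  unfold sdot
  simp [h.supp' z hz]

theorem Tube.sdot_η_near (h : Tube r η q T t1 K) {z : Sph n} (hz : (z : EE) ∈ T)
    (hr : |r z| < t1) (c : EE → ℝ) : sdot η c z = 0 := by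
  unfold sdot
  simp [h.far z hz hr]

/-- the constant of the tube bound -/
def TBc (r η : EuclideanSpace ℝ (Fin n) → ℝ) : ℝ :=
  ∫ z : Sph n, |η z * slap r z + sdot η r z| ∂(sig n)

theorem TBc_nonneg (r η : EE → ℝ) : 0 ≤ TBc r η := integral_nonneg fun _ => abs_nonneg _

/-- TUBE BOUND -/
theorem Tube.bound (h : Tube r η q T t1 K) (hn : 0 < n) {ρ : EE → ℝ} (hρ : C1 ρ)
    (hρr : ∀ z : Sph n, (z : EE) ∈ T → 1 / 2 ≤ sdot ρ r z) {F P : ℝ → ℝ} {B : ℝ}
    (hF : ∀ t, 0 ≤ F t) (hFc : Continuous F) (hP : ∀ t, HasDerivAt P (F t) t) (hB : ∀ t, |P t| ≤ B) :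
    ∫ z : Sph n, η z * F (ρ z) ∂(sig n) ≤ 2 * B * TBc r η := by
  have hPC : ContDiff ℝ 1 P := by
    rw [contDiff_one_iff_deriv]
    refine ⟨fun t => (hP t).differentiableAt, ?_⟩
    rwa [show deriv P = F from funext fun t => (hP t).deriv]
  have hζ : C1 (fun x => η x * P (ρ x)) := h.η_sm.c1.mul (hρ.comp hPC)
  have hibp := sphere_ibp hn h.r_sm (ζ := fun x => η x * P (ρ x)) hζ
  have hpt : ∀ z : Sph n, (η z * P (ρ z)) * slap r z + sdot (fun x => η x * P (ρ x)) r z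
      = P (ρ z) * (η z * slap r z + sdot η r z) + η z * F (ρ z) * sdot ρ r z := by
    intro z
    have hz := sph_ne z
    rw [sdot_mul (h.η_sm.c1.diff hz) ((hρ.comp hPC).diff hz), sdot_comp (hP (ρ z)) (hρ.diff hz)]
    ring
  have hηc : ∀ x : EE, x ≠ 0 → ContinuousAt η x := fun x hx => h.η_sm.c1.cont hx
  have c1 : ∀ x : EE, x ≠ 0 → ContinuousAt (fun x => η x * slap r x + sdot η r x) x :=
    fun x hx => ((hηc x hx).mul (h.r_sm.c1_slap.cont hx)).add (h.η_sm.c1.cont_sdot h.r_sm.c1 hx)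
  have c2 : ∀ x : EE, x ≠ 0 → ContinuousAt (fun x => P (ρ x)) x :=
    fun x hx => (hρ.comp hPC).cont hx
  have c3 : ∀ x : EE, x ≠ 0 → ContinuousAt (fun x => F (ρ x)) x :=
    fun x hx => (hFc.continuousAt).comp (hρ.cont hx)
  have i1 : Integrable (fun z : Sph n => P (ρ z) * (η z * slap r z + sdot η r z)) (sig n) :=
    integrable_sph (f := fun x => P (ρ x) * (η x * slap r x + sdot η r x))
      fun x hx => (c2 x hx).mul (c1 x hx)
  have i2 : Integrable (fun z : Sph n => η z * F (ρ z) * sdot ρ r z) (sig n) :=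
    integrable_sph (f := fun x => η x * F (ρ x) * sdot ρ r x)
      fun x hx => ((hηc x hx).mul (c3 x hx)).mul (hρ.cont_sdot h.r_sm.c1 hx)
  have i3 : Integrable (fun z : Sph n => |η z * slap r z + sdot η r z|) (sig n) :=
    integrable_sph (f := fun x => |η x * slap r x + sdot η r x|) fun x hx => (c1 x hx).abs
  have i4 : Integrable (fun z : Sph n => η z * F (ρ z)) (sig n) :=
    integrable_sph (f := fun x => η x * F (ρ x)) fun x hx => (hηc x hx).mul (c3 x hx)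
  have e1 : ∫ z : Sph n, η z * F (ρ z) * sdot ρ r z ∂(sig n)
      = - ∫ z : Sph n, P (ρ z) * (η z * slap r z + sdot η r z) ∂(sig n) := by
    have e2 : ∫ z : Sph n, (P (ρ z) * (η z * slap r z + sdot η r z)
        + η z * F (ρ z) * sdot ρ r z) ∂(sig n) = 0 := by
      rw [← hibp]
      exact integral_congr_ae (Eventually.of_forall fun z => (hpt z).symm)
    rw [integral_add i1 i2] at e2
    linarith
  have e3 : |∫ z : Sph n, P (ρ z) * (η z * slap r z + sdot η r z) ∂(sig n)| ≤ B * TBc r η := by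
    have e4 : ∀ z : Sph n, |P (ρ z) * (η z * slap r z + sdot η r z)|
        ≤ B * |η z * slap r z + sdot η r z| := fun z => by
      rw [abs_mul]
      exact mul_le_mul_of_nonneg_right (hB _) (abs_nonneg _)
    calc |∫ z : Sph n, P (ρ z) * (η z * slap r z + sdot η r z) ∂(sig n)|
        ≤ ∫ z : Sph n, |P (ρ z) * (η z * slap r z + sdot η r z)| ∂(sig n) :=
          abs_integral_le_integral_abs
      _ ≤ ∫ z : Sph n, B * |η z * slap r z + sdot η r z| ∂(sig n) :=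
          integral_mono i1.abs (i3.const_mul B) e4
      _ = B * TBc r η := integral_const_mul _ _
  have e5 : ∫ z : Sph n, η z * F (ρ z) ∂(sig n)
      ≤ ∫ z : Sph n, 2 * (η z * F (ρ z) * sdot ρ r z) ∂(sig n) := by
    refine integral_mono i4 (i2.const_mul 2) fun z => ?_
    show η z * F (ρ z) ≤ 2 * (η z * F (ρ z) * sdot ρ r z)
    by_cases hz : (z : EE) ∈ T
    · have h1 := hρr z hz
      have h2 : 0 ≤ η z * F (ρ z) := mul_nonneg (h.η_nonneg z) (hF _)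
      nlinarith
    · rw [h.supp z hz]; simp
  rw [integral_const_mul, e1] at e5
  have e6 := (abs_le.1 e3).1
  linarith

theorem Tube.bound_GG (h : Tube r η q T t1 K) (hn : 0 < n) {ρ : EE → ℝ} (hρ : C1 ρ)
    (hρr : ∀ z : Sph n, (z : EE) ∈ T → 1 / 2 ≤ sdot ρ r z) {ε : ℝ} (hε : 0 < ε) :
    ∫ z : Sph n, η z * GG ε (ρ z) ∂(sig n) ≤ 4 / 3 * TBc r η := by
  have hc : Continuous (GG ε) := by
    unfold GG
    have h1 : Continuous fun t : ℝ => Real.tanh (t / ε) :=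
      continuous_iff_continuousAt.2 fun t => (hasDerivAt_tdiv t).continuousAt
    fun_prop
  have := h.bound hn hρ hρr (GG_nonneg hε) hc hasDerivAt_XX (XX_abs_le ε)
  linarith

theorem Tube.bound_sech (h : Tube r η q T t1 K) (hn : 0 < n) {ρ : EE → ℝ} (hρ : C1 ρ)
    (hρr : ∀ z : Sph n, (z : EE) ∈ T → 1 / 2 ≤ sdot ρ r z) {ε : ℝ} (hε : 0 < ε) :
    ∫ z : Sph n, η z * (ε * (1 - Real.tanh (ρ z / ε) ^ 2)) ∂(sig n) ≤ 2 * ε ^ 2 * TBc r η := by
  have h1 : Continuous fun t : ℝ => Real.tanh (t / ε) :=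
    continuous_iff_continuousAt.2 fun t => (hasDerivAt_tdiv t).continuousAt
  refine h.bound hn hρ hρr (F := fun t => ε * (1 - Real.tanh (t / ε) ^ 2))
    (P := fun t => ε ^ 2 * Real.tanh (t / ε)) ?_ (by fun_prop) ?_ ?_
  · intro t
    have := tanh_sq_lt_one (t / ε)
    have h1 : 0 ≤ 1 - Real.tanh (t / ε) ^ 2 := by linarith
    positivity
  · intro t
    refine ((hasDerivAt_tdiv t).const_mul (ε ^ 2)).congr_deriv ?_
    field_simp
  · intro t
    rw [abs_mul, abs_of_nonneg (sq_nonneg ε)]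
    have := (abs_tanh_lt_one (t / ε)).le
    nlinarith [sq_nonneg ε]

end Crest.Agent.R246.IN200
end
end

-- ▼ part R246/IN3_200
section

/-!
Row 246, block I(I) (helper200), part 3: LEMMA N, the second order expansion of the Allen–Cahn energy of
`tanh ((r - f + h)/ε)` in a tube around a minimal hypersurface `{r = 0}`.
-/

set_option autoImplicit false

open MeasureTheory Filter Topology Metric Set
open scoped ContDiff
open Crest.GeometryTopology.CoordMetric Crest.GeometryTopology.AffineMaximal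
open Crest.Agent.R236.Jet Crest.Agent.R202.SphDiv Crest.Agent.R246.D2x782

noncomputable section

namespace Crest.Agent.R246.IN200

variable {n : ℕ}

local notation "EE" => EuclideanSpace ℝ (Fin n)

/-- smallness of the deformation `r ↦ r - f + h` on the region `T` -/
structure Small (T : Set (EuclideanSpace ℝ (Fin n))) (δ : ℝ)
    (r f h : EuclideanSpace ℝ (Fin n) → ℝ) : Prop where
  f_sm : SmHom0 f
  h_c1 : C1 h
  perp : ∀ z : Sph n, (z : EuclideanSpace ℝ (Fin n)) ∈ T → sdot f r z = 0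
  f0 : ∀ z : Sph n, (z : EuclideanSpace ℝ (Fin n)) ∈ T → |f z| ≤ δ
  f1 : ∀ z : Sph n, (z : EuclideanSpace ℝ (Fin n)) ∈ T → sgsq f z ≤ δ ^ 2
  f2 : ∀ z : Sph n, (z : EuclideanSpace ℝ (Fin n)) ∈ T → |slap f z| ≤ δ
  f3 : ∀ z : Sph n, (z : EuclideanSpace ℝ (Fin n)) ∈ T → sgsq (slap f) z ≤ δ ^ 2
  h0 : ∀ z : Sph n, (z : EuclideanSpace ℝ (Fin n)) ∈ T → |h z| ≤ δ ^ 2
  h1 : ∀ z : Sph n, (z : EuclideanSpace ℝ (Fin n)) ∈ T → sgsq h z ≤ δ ^ 4

theorem eden_eq {ε : ℝ} (R : EE → ℝ) (x : EE) :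
    eden ε R x = GG ε (R x) * ((1 + sgsq R x) / 2) := by
  unfold eden GG
  by_cases h : ε = 0
  · simp [h]
  · field_simp

/-- real estimate for the difference `a - F` -/
theorem est_aF {q r f L δ Kq : ℝ} (hδ : 0 ≤ δ) (hq : |q| ≤ Kq) (hf : |f| ≤ δ) (hL : |L| ≤ δ) :
    |-(q * r ^ 2 + r * L) / 2 - -(q * f ^ 2 + f * L) / 2|
      ≤ |r - f| * (Kq * (|r - f| + 2 * δ) + δ) / 2 := by
  have hK : 0 ≤ Kq := (abs_nonneg q).trans hq
  have h1 : -(q * r ^ 2 + r * L) / 2 - -(q * f ^ 2 + f * L) / 2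
      = -((r - f) * (q * (r + f) + L)) / 2 := by ring
  rw [h1, abs_div, abs_neg, abs_mul, abs_two]
  have h2 : |q * (r + f) + L| ≤ Kq * (|r - f| + 2 * δ) + δ := by
    calc |q * (r + f) + L| ≤ |q * (r + f)| + |L| := abs_add_le _ _
      _ = |q| * |r + f| + |L| := by rw [abs_mul]
      _ ≤ Kq * (|r - f| + 2 * δ) + δ := by
        have h3 : |r + f| ≤ |r - f| + 2 * δ := by
          calc |r + f| = |(r - f) + 2 * f| := by ring_nf
            _ ≤ |r - f| + |2 * f| := abs_add_le _ _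
            _ ≤ |r - f| + 2 * δ := by rw [abs_mul, abs_two]; linarith
        have h4 := mul_le_mul hq h3 (abs_nonneg _) hK
        linarith
  gcongr

/-- the tail of `Ξ` differences -/
theorem XX_far {ε t1 s t : ℝ} (hε : 0 < ε) (ht1 : 0 < t1) (ht : t1 ≤ |t|)
    (hst : |s - t| ≤ t1 / 2) : |XX ε s - XX ε t| ≤ 2 * ε / t1 := by
  have key : ∀ s t : ℝ, t1 ≤ t → |s - t| ≤ t1 / 2 → |XX ε s - XX ε t| ≤ 2 * ε / t1 := by
    intro s t ht hst
    rw [abs_le] at hst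
    have h1 := XX_tail hε (show 0 < s by linarith)
    have h2 := XX_tail hε (show 0 < t by linarith)
    have h3 := XX_le (ε := ε) s
    have h4 := XX_le (ε := ε) t
    have h5 : ε / s ≤ 2 * ε / t1 := by
      rw [div_le_div_iff₀ (by linarith) ht1]
      nlinarith
    have h6 : ε / t ≤ 2 * ε / t1 := by
      rw [div_le_div_iff₀ (by linarith) ht1]
      nlinarith
    rw [abs_le]
    constructor <;> linarith
  rcases le_abs.1 ht with h | h
  · exact key s t h hst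
  · have h1 := key (-s) (-t) h (by rw [show -s - -t = -(s - t) by ring, abs_neg]; exact hst)
    rw [XX_neg, XX_neg, show -XX ε s - -XX ε t = -(XX ε s - XX ε t) by ring, abs_neg] at h1
    exact h1

theorem continuous_XX (ε : ℝ) : Continuous (XX ε) :=
  continuous_iff_continuousAt.2 fun t => (hasDerivAt_XX t).continuousAt

theorem continuous_GG (ε : ℝ) : Continuous (GG ε) := by
  unfold GG
  have h1 : Continuous fun t : ℝ => Real.tanh (t / ε) :=
    continuous_iff_continuousAt.2 fun t => (hasDerivAt_tdiv t).continuousAt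
  fun_prop

theorem contDiff_XX (ε : ℝ) : ContDiff ℝ 1 (XX ε) := by
  rw [contDiff_one_iff_deriv]
  refine ⟨fun t => (hasDerivAt_XX t).differentiableAt, ?_⟩
  rw [show deriv (XX ε) = GG ε from funext fun t => (hasDerivAt_XX t).deriv]
  exact continuous_GG ε

variable {r η q : EuclideanSpace ℝ (Fin n) → ℝ} {T : Set (EuclideanSpace ℝ (Fin n))} {t1 K : ℝ}

/-- moment bounds -/
theorem Tube.moment (h : Tube r η q T t1 K) (hn : 0 < n) {ρ : EE → ℝ} (hρ : C1 ρ)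
    (hρr : ∀ z : Sph n, (z : EE) ∈ T → 1 / 2 ≤ sdot ρ r z) {ε δ : ℝ} (hε : 0 < ε) (hε1 : ε ≤ 1)
    (hδ : 0 ≤ δ) :
    ∫ z : Sph n, η z * GG ε (ρ z) * (ρ z ^ 2 + |ρ z| + δ) ∂(sig n)
      ≤ 4 * TBc r η * (ε + δ) := by
  have hT := TBc_nonneg r η
  have hηc : ∀ x : EE, x ≠ 0 → ContinuousAt η x := fun x hx => h.η_sm.c1.cont hx
  have cG : ∀ x : EE, x ≠ 0 → ContinuousAt (fun x => GG ε (ρ x)) x :=
    fun x hx => ((continuous_GG ε).continuousAt).comp (hρ.cont hx)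
  have cS : ∀ x : EE, x ≠ 0 → ContinuousAt (fun x => ε * (1 - Real.tanh (ρ x / ε) ^ 2)) x := by
    intro x hx
    have h1 : Continuous fun t : ℝ => ε * (1 - Real.tanh (t / ε) ^ 2) := by
      have h1 : Continuous fun t : ℝ => Real.tanh (t / ε) :=
        continuous_iff_continuousAt.2 fun t => (hasDerivAt_tdiv t).continuousAt
      fun_prop
    exact (h1.continuousAt).comp (hρ.cont hx)
  have i1 : Integrable (fun z : Sph n => η z * GG ε (ρ z)) (sig n) :=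
    integrable_sph (f := fun x => η x * GG ε (ρ x)) fun x hx => (hηc x hx).mul (cG x hx)
  have i2 : Integrable (fun z : Sph n => η z * (ε * (1 - Real.tanh (ρ z / ε) ^ 2))) (sig n) :=
    integrable_sph (f := fun x => η x * (ε * (1 - Real.tanh (ρ x / ε) ^ 2)))
      fun x hx => (hηc x hx).mul (cS x hx)
  have i3 : Integrable (fun z : Sph n => η z * GG ε (ρ z) * (ρ z ^ 2 + |ρ z| + δ)) (sig n) :=
    integrable_sph (f := fun x => η x * GG ε (ρ x) * (ρ x ^ 2 + |ρ x| + δ)) fun x hx =>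
      ((hηc x hx).mul (cG x hx)).mul
        ((((hρ.cont hx).pow 2).add (hρ.cont hx).abs).add continuousAt_const)
  have b1 := h.bound_GG hn hρ hρr hε
  have b2 := h.bound_sech hn hρ hρr hε
  have hpt : ∀ z : Sph n, η z * GG ε (ρ z) * (ρ z ^ 2 + |ρ z| + δ)
      ≤ (ε / 2 + δ) * (η z * GG ε (ρ z))
        + (1 + 1 / (2 * ε)) * (η z * (ε * (1 - Real.tanh (ρ z / ε) ^ 2))) := by
    intro z
    have h1 := sq_GG_le hε (ρ z)
    have h2 : |ρ z| ≤ ε / 2 + ρ z ^ 2 / (2 * ε) := by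
      have h3 : 0 ≤ (|ρ z| - ε) ^ 2 := sq_nonneg _
      have h4 : |ρ z| ^ 2 = ρ z ^ 2 := sq_abs _
      rw [div_add_div _ _ two_ne_zero (by positivity), le_div_iff₀ (by positivity)]
      nlinarith
    have h5 := GG_nonneg hε (ρ z)
    have h6 := h.η_nonneg z
    have h7 : GG ε (ρ z) * (ρ z ^ 2 + |ρ z| + δ)
        ≤ (ε / 2 + δ) * GG ε (ρ z) + (1 + 1 / (2 * ε)) * (ε * (1 - Real.tanh (ρ z / ε) ^ 2)) := by
      calc GG ε (ρ z) * (ρ z ^ 2 + |ρ z| + δ)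
          ≤ GG ε (ρ z) * (ρ z ^ 2 + (ε / 2 + ρ z ^ 2 / (2 * ε)) + δ) := by gcongr
        _ = (ε / 2 + δ) * GG ε (ρ z) + (1 + 1 / (2 * ε)) * (ρ z ^ 2 * GG ε (ρ z)) := by ring
        _ ≤ _ := by gcongr
    calc η z * GG ε (ρ z) * (ρ z ^ 2 + |ρ z| + δ)
        = η z * (GG ε (ρ z) * (ρ z ^ 2 + |ρ z| + δ)) := by ring
      _ ≤ η z * ((ε / 2 + δ) * GG ε (ρ z)
          + (1 + 1 / (2 * ε)) * (ε * (1 - Real.tanh (ρ z / ε) ^ 2))) := by gcongr
      _ = _ := by ring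
  have e1 := integral_mono i3 ((i1.const_mul (ε / 2 + δ)).add (i2.const_mul (1 + 1 / (2 * ε)))) hpt
  rw [integral_add' (i1.const_mul (ε / 2 + δ)) (i2.const_mul (1 + 1 / (2 * ε))),
    integral_const_mul, integral_const_mul] at e1
  have e2 : (ε / 2 + δ) * ∫ z : Sph n, η z * GG ε (ρ z) ∂(sig n)
      ≤ (ε / 2 + δ) * (4 / 3 * TBc r η) := by gcongr
  have e3 : (1 + 1 / (2 * ε)) * ∫ z : Sph n, η z * (ε * (1 - Real.tanh (ρ z / ε) ^ 2)) ∂(sig n)
      ≤ (1 + 1 / (2 * ε)) * (2 * ε ^ 2 * TBc r η) := by gcongr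
  have e4 : (1 + 1 / (2 * ε)) * (2 * ε ^ 2 * TBc r η) = (2 * ε ^ 2 + ε) * TBc r η := by
    field_simp
  have e5 : (2 * ε ^ 2 + ε) * TBc r η ≤ 3 * ε * TBc r η := by
    have : 2 * ε ^ 2 + ε ≤ 3 * ε := by nlinarith
    gcongr
  calc _ ≤ _ := e1
    _ ≤ (ε / 2 + δ) * (4 / 3 * TBc r η) + 3 * ε * TBc r η := by linarith
    _ ≤ 4 * TBc r η * (ε + δ) := by nlinarith [mul_nonneg hT hε.le, mul_nonneg hT hδ]

/-- window bound -/
theorem Tube.window (h : Tube r η q T t1 K) (hn : 0 < n) {ε δ : ℝ} (hε : 0 < ε) (hε1 : ε ≤ 1)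
    (hδ : 0 ≤ δ) (hδ1 : δ ≤ 1) :
    ∫ z : Sph n, η z * (WW ε (2 * δ) (r z) * (r z ^ 2 + δ ^ 2)) ∂(sig n)
      ≤ 160 * TBc r η * (δ ^ 3 + ε) := by
  have hT := TBc_nonneg r η
  have hr : ∀ z : Sph n, (z : EE) ∈ T → 1 / 2 ≤ sdot r r z := fun z hz => by
    rw [← sgsq_eq, h.eik z hz]; norm_num
  obtain ⟨P, hP, hPb⟩ := exists_prim_WW (ε := ε) (b := 2 * δ) (by linarith)
  have cW : Continuous (WW ε (2 * δ)) := by
    unfold WW
    have := continuous_XX ε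
    fun_prop
  have b1 := h.bound hn h.r_sm.c1 hr (WW_nonneg hε (by linarith : (0 : ℝ) ≤ 2 * δ)) cW hP hPb
  have b2 := h.bound_sech hn h.r_sm.c1 hr (show 0 < 2 * ε by linarith)
  have hηc : ∀ x : EE, x ≠ 0 → ContinuousAt η x := fun x hx => h.η_sm.c1.cont hx
  have hrc : ∀ x : EE, x ≠ 0 → ContinuousAt r x := fun x hx => h.r_sm.c1.cont hx
  have i1 : Integrable (fun z : Sph n => η z * WW ε (2 * δ) (r z)) (sig n) :=
    integrable_sph (f := fun x => η x * WW ε (2 * δ) (r x))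
      fun x hx => (hηc x hx).mul ((cW.continuousAt).comp (hrc x hx))
  have cS : ∀ x : EE, x ≠ 0 →
      ContinuousAt (fun x => 2 * ε * (1 - Real.tanh (r x / (2 * ε)) ^ 2)) x := by
    intro x hx
    have h1 : Continuous fun t : ℝ => 2 * ε * (1 - Real.tanh (t / (2 * ε)) ^ 2) := by
      have h1 : Continuous fun t : ℝ => Real.tanh (t / (2 * ε)) :=
        continuous_iff_continuousAt.2 fun t => (hasDerivAt_tdiv t).continuousAt
      fun_prop
    exact (h1.continuousAt).comp (hrc x hx)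
  have i2 : Integrable (fun z : Sph n => η z * (2 * ε * (1 - Real.tanh (r z / (2 * ε)) ^ 2)))
      (sig n) :=
    integrable_sph (f := fun x => η x * (2 * ε * (1 - Real.tanh (r x / (2 * ε)) ^ 2)))
      fun x hx => (hηc x hx).mul (cS x hx)
  have i3 : Integrable (fun z : Sph n => η z * (WW ε (2 * δ) (r z) * (r z ^ 2 + δ ^ 2))) (sig n) :=
    integrable_sph (f := fun x => η x * (WW ε (2 * δ) (r x) * (r x ^ 2 + δ ^ 2))) fun x hx =>
      (hηc x hx).mul (((cW.continuousAt).comp (hrc x hx)).mul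
        (((hrc x hx).pow 2).add continuousAt_const))
  have hpt : ∀ z : Sph n, η z * (WW ε (2 * δ) (r z) * (r z ^ 2 + δ ^ 2))
      ≤ 17 * δ ^ 2 * (η z * WW ε (2 * δ) (r z))
        + 8 * δ * (η z * (2 * ε * (1 - Real.tanh (r z / (2 * ε)) ^ 2))) := by
    intro z
    have h1 := sq_WW_le hε (by linarith : (0 : ℝ) ≤ 2 * δ) (r z)
    have h6 := h.η_nonneg z
    have h7 : WW ε (2 * δ) (r z) * (r z ^ 2 + δ ^ 2) ≤ 17 * δ ^ 2 * WW ε (2 * δ) (r z)
        + 8 * δ * (2 * ε * (1 - Real.tanh (r z / (2 * ε)) ^ 2)) := by linarith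
    calc _ ≤ η z * (17 * δ ^ 2 * WW ε (2 * δ) (r z)
        + 8 * δ * (2 * ε * (1 - Real.tanh (r z / (2 * ε)) ^ 2))) := by gcongr
      _ = _ := by ring
  have e1 := integral_mono i3 ((i1.const_mul (17 * δ ^ 2)).add (i2.const_mul (8 * δ))) hpt
  rw [integral_add' (i1.const_mul (17 * δ ^ 2)) (i2.const_mul (8 * δ)),
    integral_const_mul, integral_const_mul] at e1
  have e2 : 17 * δ ^ 2 * ∫ z : Sph n, η z * WW ε (2 * δ) (r z) ∂(sig n)
      ≤ 17 * δ ^ 2 * (2 * (4 / 3 * (2 * δ)) * TBc r η) := by gcongr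
  have e3 : 8 * δ * ∫ z : Sph n, η z * (2 * ε * (1 - Real.tanh (r z / (2 * ε)) ^ 2)) ∂(sig n)
      ≤ 8 * δ * (2 * (2 * ε) ^ 2 * TBc r η) := by gcongr
  have e4 : 8 * δ * (2 * (2 * ε) ^ 2 * TBc r η) ≤ 64 * ε * TBc r η := by
    have h1 : δ * ε ^ 2 ≤ ε := by
      have : δ * ε ^ 2 ≤ 1 * (1 * ε) := by
        have h2 : ε ^ 2 ≤ 1 * ε := by nlinarith
        gcongr
      linarith
    calc 8 * δ * (2 * (2 * ε) ^ 2 * TBc r η) = 64 * (δ * ε ^ 2) * TBc r η := by ring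
      _ ≤ 64 * ε * TBc r η := by gcongr
  have h3 : 0 ≤ TBc r η * δ ^ 3 := by positivity
  have h4 : 0 ≤ TBc r η * ε := by positivity
  nlinarith

end Crest.Agent.R246.IN200
end
end

-- ▼ part R246/IN4_200

/-!
Row 246, block I(I) (helper200), part 4: LEMMA N (energy expansion).
-/

set_option autoImplicit false

open MeasureTheory Filter Topology Metric Set
open scoped ContDiff
open Crest.GeometryTopology.CoordMetric Crest.GeometryTopology.AffineMaximal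
open Crest.Agent.R236.Jet Crest.Agent.R202.SphDiv Crest.Agent.R246.D2x782

noncomputable section

namespace Crest.Agent.R246.IN200

variable {n : ℕ}

local notation "EE" => EuclideanSpace ℝ (Fin n)

/-- first error term -/
theorem est1 {Kq δ ρ r f hv q Lf hr hh hf : ℝ} (hK : 1 ≤ Kq) (hδ : 0 ≤ δ) (hδ1 : δ ≤ 1)
    (hq : |q| ≤ Kq) (hf0 : |f| ≤ δ) (hL : |Lf| ≤ δ) (hρ : ρ = r - f + hv) (hhv : |hv| ≤ δ ^ 2)
    (hhr : |hr| ≤ δ ^ 2) (hhh0 : 0 ≤ hh) (hhh : hh ≤ δ ^ 4) (hhf : |hf| ≤ δ ^ 2 * δ) :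
    |(-(q * r ^ 2 + r * Lf) / 2 - -(q * f ^ 2 + f * Lf) / 2) * (1 + hr) + hh / 2 - hf / 2|
      ≤ (4 * Kq + 2) * (ρ ^ 2 + |ρ| + δ ^ 3) := by
  have h1 := est_aF (r := r) hδ hq hf0 hL
  set A := -(q * r ^ 2 + r * Lf) / 2 - -(q * f ^ 2 + f * Lf) / 2
  have hd2 : δ ^ 2 ≤ 1 := by nlinarith
  have hrf : |r - f| ≤ |ρ| + δ ^ 2 := by
    calc |r - f| = |ρ - hv| := by rw [hρ]; ring_nf
      _ ≤ |ρ| + |hv| := abs_sub _ _
      _ ≤ |ρ| + δ ^ 2 := by linarith
  have hp := abs_nonneg ρ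
  have h2 : |1 + hr| ≤ 2 := by
    have := abs_le.1 hhr
    rw [abs_le]; constructor <;> linarith
  have h3 : |A * (1 + hr)| ≤ (|ρ| + δ ^ 2) * (Kq * (|ρ| + δ ^ 2 + 2 * δ) + δ) := by
    rw [abs_mul]
    have h4 : |A| ≤ (|ρ| + δ ^ 2) * (Kq * (|ρ| + δ ^ 2 + 2 * δ) + δ) / 2 := by
      refine h1.trans ?_
      have hK0 : 0 ≤ Kq := by linarith
      gcongr
    calc |A| * |1 + hr| ≤ ((|ρ| + δ ^ 2) * (Kq * (|ρ| + δ ^ 2 + 2 * δ) + δ) / 2) * 2 := by
          gcongr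
      _ = _ := by ring
  have h5 : (|ρ| + δ ^ 2) * (Kq * (|ρ| + δ ^ 2 + 2 * δ) + δ)
      ≤ (4 * Kq + 1) * (ρ ^ 2 + |ρ| + δ ^ 3) := by
    have e1 : Kq * (|ρ| + δ ^ 2 + 2 * δ) + δ ≤ Kq * |ρ| + (3 * Kq + 1) * δ := by
      nlinarith [mul_nonneg hδ (by linarith : 0 ≤ 1 - δ)]
    have e2 : (|ρ| + δ ^ 2) * (Kq * |ρ| + (3 * Kq + 1) * δ)
        = Kq * ρ ^ 2 + ((3 * Kq + 1) * δ + Kq * δ ^ 2) * |ρ| + (3 * Kq + 1) * δ ^ 3 := by
      have : |ρ| ^ 2 = ρ ^ 2 := sq_abs ρ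
      rw [← this]; ring
    have e3 : (3 * Kq + 1) * δ + Kq * δ ^ 2 ≤ 4 * Kq + 1 := by nlinarith
    have e4 : ((3 * Kq + 1) * δ + Kq * δ ^ 2) * |ρ| ≤ (4 * Kq + 1) * |ρ| := by gcongr
    have e5 : 0 ≤ ρ ^ 2 := sq_nonneg _
    have e6 : 0 ≤ δ ^ 3 := by positivity
    calc _ ≤ (|ρ| + δ ^ 2) * (Kq * |ρ| + (3 * Kq + 1) * δ) := by gcongr
      _ ≤ _ := by rw [e2]; nlinarith
  have h6 : |hh / 2| ≤ δ ^ 3 / 2 := by
    rw [abs_of_nonneg (by linarith)]
    have : δ ^ 4 ≤ δ ^ 3 := by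
      calc δ ^ 4 = δ ^ 3 * δ := by ring
        _ ≤ δ ^ 3 * 1 := by gcongr
        _ = _ := mul_one _
    linarith
  have h7 : |hf / 2| ≤ δ ^ 3 / 2 := by
    rw [abs_div, abs_two]
    have : δ ^ 2 * δ = δ ^ 3 := by ring
    linarith
  have h8 : |A * (1 + hr) + hh / 2 - hf / 2| ≤ |A * (1 + hr)| + |hh / 2| + |hf / 2| :=
    (abs_sub _ _).trans (add_le_add (abs_add_le _ _) le_rfl)
  have e5 : 0 ≤ ρ ^ 2 := sq_nonneg _
  nlinarith

/-- second error term -/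
theorem est2 {Kq δ r q Lf : ℝ} (hK : 1 ≤ Kq) (hδ1 : δ ≤ 1) (hq : |q| ≤ Kq) (hL : |Lf| ≤ δ) :
    |-(q * r ^ 2 + r * Lf) / 2| ≤ Kq * (r ^ 2 + |r|) := by
  rw [abs_div, abs_neg, abs_two]
  have h1 : |q * r ^ 2 + r * Lf| ≤ Kq * r ^ 2 + |r| * 1 := by
    calc |q * r ^ 2 + r * Lf| ≤ |q * r ^ 2| + |r * Lf| := abs_add_le _ _
      _ = |q| * r ^ 2 + |r| * |Lf| := by rw [abs_mul, abs_mul, abs_of_nonneg (sq_nonneg r)]
      _ ≤ Kq * r ^ 2 + |r| * 1 := by gcongr; linarith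
  have h2 := abs_nonneg r
  have h3 := sq_nonneg r
  nlinarith

/-- third error term -/
theorem est3 {Kq K δ r f q L Lf qr sr : ℝ} (hK : 1 ≤ Kq) (hK0 : 0 ≤ K) (hδ : 0 ≤ δ)
    (hq : |q| ≤ Kq) (hqr : |qr| ≤ Kq) (hLL : |L| ≤ Kq) (hf0 : |f| ≤ δ) (hL : |Lf| ≤ δ)
    (hsr : |sr| ≤ δ) (hric : |L + q * r| ≤ K * r ^ 2) :
    |(L + q * r) + (r ^ 2 - f ^ 2) * qr / 2 + (r - f) * sr / 2
        - (-(q * r ^ 2 + r * Lf) / 2 - -(q * f ^ 2 + f * Lf) / 2) * L|
      ≤ (K + 5 * Kq ^ 2 + 2) * (r ^ 2 + δ ^ 2) := by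
  have h1 := est_aF (r := r) hδ hq hf0 hL
  set A := -(q * r ^ 2 + r * Lf) / 2 - -(q * f ^ 2 + f * Lf) / 2
  have hr := abs_nonneg r
  have hrf : |r - f| ≤ |r| + δ := (abs_sub _ _).trans (by linarith)
  have hr2 : |r| ^ 2 = r ^ 2 := sq_abs r
  have hsum : (|r| + δ) ^ 2 ≤ 2 * (r ^ 2 + δ ^ 2) := by nlinarith [sq_nonneg (|r| - δ)]
  have h2 : |A| ≤ 4 * Kq * (r ^ 2 + δ ^ 2) := by
    have e1 : |r - f| * (Kq * (|r - f| + 2 * δ) + δ) / 2
        ≤ (|r| + δ) * (4 * Kq * (|r| + δ)) / 2 := by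
      have e2 : Kq * (|r - f| + 2 * δ) + δ ≤ 4 * Kq * (|r| + δ) := by
        have e3 : Kq * (|r - f| + 2 * δ) ≤ Kq * ((|r| + δ) + 2 * δ) := by gcongr
        nlinarith [mul_nonneg (by linarith : 0 ≤ Kq) hr, mul_nonneg (by linarith : 0 ≤ Kq - 1) hδ]
      have e4 : 0 ≤ Kq * (|r - f| + 2 * δ) + δ := by positivity
      gcongr
    have e5 : (|r| + δ) * (4 * Kq * (|r| + δ)) / 2 = 2 * Kq * (|r| + δ) ^ 2 := by ring
    have e6 : 2 * Kq * (|r| + δ) ^ 2 ≤ 2 * Kq * (2 * (r ^ 2 + δ ^ 2)) := by gcongr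
    linarith
  have h3 : |A * L| ≤ 4 * Kq ^ 2 * (r ^ 2 + δ ^ 2) := by
    rw [abs_mul]
    calc |A| * |L| ≤ (4 * Kq * (r ^ 2 + δ ^ 2)) * Kq := by
          gcongr
      _ = _ := by ring
  have h4 : |(r ^ 2 - f ^ 2) * qr / 2| ≤ Kq ^ 2 * (r ^ 2 + δ ^ 2) := by
    rw [abs_div, abs_mul, abs_two]
    have e1 : |r ^ 2 - f ^ 2| ≤ r ^ 2 + δ ^ 2 := by
      have e2 : f ^ 2 ≤ δ ^ 2 := by
        rw [← sq_abs f]; gcongr
      have e3 := sq_nonneg f
      have e4 := sq_nonneg r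
      rw [abs_le]; constructor <;> nlinarith
    have e5 : |r ^ 2 - f ^ 2| * |qr| ≤ (r ^ 2 + δ ^ 2) * Kq := by gcongr
    have e6 : 0 ≤ r ^ 2 + δ ^ 2 := by positivity
    nlinarith [mul_nonneg e6 (by nlinarith : 0 ≤ Kq ^ 2 - Kq)]
  have h5 : |(r - f) * sr / 2| ≤ r ^ 2 + δ ^ 2 := by
    rw [abs_div, abs_mul, abs_two]
    have e1 : |r - f| * |sr| ≤ (|r| + δ) * δ := by gcongr
    nlinarith [sq_nonneg (|r| - δ)]
  have h6 : |(L + q * r) + (r ^ 2 - f ^ 2) * qr / 2 + (r - f) * sr / 2 - A * L|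
      ≤ |L + q * r| + |(r ^ 2 - f ^ 2) * qr / 2| + |(r - f) * sr / 2| + |A * L| :=
    (abs_sub _ _).trans (add_le_add ((abs_add_le _ _).trans
      (add_le_add (abs_add_le _ _) le_rfl)) le_rfl)
  have e6 : 0 ≤ K * δ ^ 2 := by positivity
  have e7 : 0 ≤ r ^ 2 + δ ^ 2 := by positivity
  nlinarith

/-- fourth error term -/
theorem est4 {Kq δ r f q Lf ηr ηf : ℝ} (hK : 1 ≤ Kq) (hδ : 0 ≤ δ) (hδ1 : δ ≤ 1)
    (hq : |q| ≤ Kq) (hr : |r| ≤ Kq) (hf0 : |f| ≤ δ) (hL : |Lf| ≤ δ)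
    (h1 : |ηr| ≤ Kq) (h2 : |ηf| ≤ Kq) :
    |(1 - -(q * r ^ 2 + r * Lf) / 2 + -(q * f ^ 2 + f * Lf) / 2) * ηr - ηf / 2|
      ≤ 6 * Kq ^ 4 := by
  have ha := est2 (r := r) hK hδ1 hq hL
  have hF : |-(q * f ^ 2 + f * Lf) / 2| ≤ Kq * (f ^ 2 + |f|) := est2 hK hδ1 hq hL
  have hf2 : f ^ 2 ≤ 1 := by rw [← sq_abs f]; nlinarith [abs_nonneg f]
  have hr2 : r ^ 2 ≤ Kq ^ 2 := by rw [← sq_abs r]; nlinarith [abs_nonneg r]
  set a := -(q * r ^ 2 + r * Lf) / 2
  set F := -(q * f ^ 2 + f * Lf) / 2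
  have e1 : |1 - a + F| ≤ 1 + Kq * (Kq ^ 2 + Kq) + Kq * (1 + 1) := by
    calc |1 - a + F| ≤ |1 - a| + |F| := abs_add_le _ _
      _ ≤ (|(1 : ℝ)| + |a|) + |F| := add_le_add (abs_sub _ _) le_rfl
      _ ≤ (1 + Kq * (Kq ^ 2 + Kq)) + Kq * (1 + 1) := by
        rw [abs_one]
        have e2 : Kq * (r ^ 2 + |r|) ≤ Kq * (Kq ^ 2 + Kq) := by gcongr
        have e3 : Kq * (f ^ 2 + |f|) ≤ Kq * (1 + 1) := by gcongr; linarith
        linarith
  have e2 : |(1 - a + F) * ηr - ηf / 2|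
      ≤ (1 + Kq * (Kq ^ 2 + Kq) + Kq * (1 + 1)) * Kq + Kq / 2 := by
    refine (abs_sub _ _).trans ?_
    rw [abs_mul, abs_div, abs_two]
    gcongr
  have k2 : Kq ≤ Kq ^ 2 := by nlinarith
  have k3 : Kq ^ 2 ≤ Kq ^ 3 := by nlinarith [mul_nonneg (sq_nonneg Kq) (by linarith : 0 ≤ Kq - 1)]
  have k4 : Kq ^ 3 ≤ Kq ^ 4 := by
    nlinarith [mul_nonneg (by positivity : 0 ≤ Kq ^ 3) (by linarith : 0 ≤ Kq - 1)]
  nlinarith

/-- the deformed function -/
def rhoF (r f hh : EuclideanSpace ℝ (Fin n) → ℝ) (x : EuclideanSpace ℝ (Fin n)) : ℝ :=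
  r x - f x + hh x

/-- difference of primitives -/
def DF (ε : ℝ) (r f hh : EuclideanSpace ℝ (Fin n) → ℝ) (x : EuclideanSpace ℝ (Fin n)) : ℝ :=
  XX ε (rhoF r f hh x) - XX ε (r x)

/-- second order correction -/
def aF (q f g : EuclideanSpace ℝ (Fin n) → ℝ) (x : EuclideanSpace ℝ (Fin n)) : ℝ :=
  -1 / 2 * (q x * (g x * g x) + g x * slap f x)

/-- coefficient of the calibrating field -/
def bF (q r f : EuclideanSpace ℝ (Fin n) → ℝ) (x : EuclideanSpace ℝ (Fin n)) : ℝ :=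
  1 - aF q f r x + aF q f f x

/-- first divergence -/
def I1 (ε : ℝ) (η q r f hh : EuclideanSpace ℝ (Fin n) → ℝ) (x : EuclideanSpace ℝ (Fin n)) : ℝ :=
  (η x * (DF ε r f hh x * bF q r f x)) * slap r x
    + sdot (fun x => η x * (DF ε r f hh x * bF q r f x)) r x

/-- second divergence -/
def I2 (ε : ℝ) (η r f hh : EuclideanSpace ℝ (Fin n) → ℝ) (x : EuclideanSpace ℝ (Fin n)) : ℝ :=
  (η x * DF ε r f hh x) * slap f x + sdot (fun x => η x * DF ε r f hh x) f x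

/-- third integrand -/
def J3 (ε : ℝ) (η q r f : EuclideanSpace ℝ (Fin n) → ℝ) (x : EuclideanSpace ℝ (Fin n)) : ℝ :=
  η x * GG ε (r x) * (q x * f x ^ 2 + f x * slap f x)

theorem c1_rhoF {r f hh : EE → ℝ} (rc : C1 r) (fc : C1 f) (hc : C1 hh) : C1 (rhoF r f hh) :=
  (rc.sub fc).add hc

theorem c1_DF {ε : ℝ} {r f hh : EE → ℝ} (rc : C1 r) (fc : C1 f) (hc : C1 hh) :
    C1 (DF ε r f hh) := ((c1_rhoF rc fc hc).comp (contDiff_XX ε)).sub (rc.comp (contDiff_XX ε))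

theorem c1_aF {q f g : EE → ℝ} (qc : C1 q) (Lc : C1 (slap f)) (gc : C1 g) : C1 (aF q f g) :=
  (C1.const (-1 / 2)).mul ((qc.mul (gc.mul gc)).add (gc.mul Lc))

theorem c1_bF {q r f : EE → ℝ} (qc : C1 q) (rc : C1 r) (fc : C1 f) (Lc : C1 (slap f)) :
    C1 (bF q r f) := ((C1.const 1).sub (c1_aF qc Lc rc)).add (c1_aF qc Lc fc)

theorem sdot_aF {q f g r : EE → ℝ} (qc : C1 q) (Lc : C1 (slap f)) (gc : C1 g) {x : EE}
    (hx : x ≠ 0) : sdot (aF q f g) r x = -1 / 2 * (q x * (2 * g x * sdot g r x)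
      + g x * g x * sdot q r x + (g x * sdot (slap f) r x + slap f x * sdot g r x)) := by
  have h1 : sdot (aF q f g) r x
      = -1 / 2 * sdot (fun x => q x * (g x * g x) + g x * slap f x) r x :=
    sdot_smul (((qc.mul (gc.mul gc)).add (gc.mul Lc)).diff hx)
  rw [h1, sdot_add ((qc.mul (gc.mul gc)).diff hx) ((gc.mul Lc).diff hx),
    sdot_mul (qc.diff hx) ((gc.mul gc).diff hx), sdot_mul (gc.diff hx) (gc.diff hx),
    sdot_mul (gc.diff hx) (Lc.diff hx)]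
  ring

theorem sdot_bF {q r f : EE → ℝ} (qc : C1 q) (rc : C1 r) (fc : C1 f) (Lc : C1 (slap f)) {x : EE}
    (hx : x ≠ 0) : sdot (bF q r f) r x = - sdot (aF q f r) r x + sdot (aF q f f) r x := by
  have h1 : sdot (bF q r f) r x = sdot (fun x => 1 - aF q f r x) r x + sdot (aF q f f) r x :=
    sdot_add (((C1.const 1).sub (c1_aF qc Lc rc)).diff hx) ((c1_aF qc Lc fc).diff hx)
  rw [h1, sdot_sub ((C1.const 1).diff hx) ((c1_aF qc Lc rc).diff hx), sdot_const]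
  ring

theorem sdot_rhoF {r f hh : EE → ℝ} (rc : C1 r) (fc : C1 f) (hc : C1 hh) {x : EE} (hx : x ≠ 0)
    (c : EE → ℝ) : sdot (rhoF r f hh) c x = sdot r c x - sdot f c x + sdot hh c x := by
  have h1 : sdot (rhoF r f hh) c x = sdot (fun x => r x - f x) c x + sdot hh c x :=
    sdot_add ((rc.sub fc).diff hx) (hc.diff hx)
  rw [h1, sdot_sub (rc.diff hx) (fc.diff hx)]

theorem sdot_DF {ε : ℝ} {r f hh : EE → ℝ} (rc : C1 r) (fc : C1 f) (hc : C1 hh) {x : EE}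
    (hx : x ≠ 0) (c : EE → ℝ) : sdot (DF ε r f hh) c x
      = GG ε (rhoF r f hh x) * sdot (rhoF r f hh) c x - GG ε (r x) * sdot r c x := by
  have h1 : sdot (DF ε r f hh) c x
      = sdot (fun x => XX ε (rhoF r f hh x)) c x - sdot (fun x => XX ε (r x)) c x :=
    sdot_sub (((c1_rhoF rc fc hc).comp (contDiff_XX ε)).diff hx)
      ((rc.comp (contDiff_XX ε)).diff hx)
  rw [h1, sdot_comp (hasDerivAt_XX _) ((c1_rhoF rc fc hc).diff hx),
    sdot_comp (hasDerivAt_XX (r x)) (rc.diff hx)]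

/-- the pointwise identity -/
theorem key_identity {ε : ℝ} {η q r f hh : EE → ℝ} (ηc : C1 η) (qc : C1 q) (rc : C1 r) (fc : C1 f)
    (Lc : C1 (slap f)) (hc : C1 hh) {x : EE} (hx : x ≠ 0) (srr : sdot r r x = 1)
    (sfr : sdot f r x = 0) :
    η x * eden ε (rhoF r f hh) x - η x * eden ε r x + 1 / 2 * J3 ε η q r f x
        - I1 ε η q r f hh x + 1 / 2 * I2 ε η r f hh x
      = η x * GG ε (rhoF r f hh x) * ((-(q x * r x ^ 2 + r x * slap f x) / 2
            - -(q x * f x ^ 2 + f x * slap f x) / 2) * (1 + sdot hh r x) + sdot hh hh x / 2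
              - sdot hh f x / 2)
          - η x * GG ε (r x) * (-(q x * r x ^ 2 + r x * slap f x) / 2)
          - η x * DF ε r f hh x * ((slap r x + q x * r x) + (r x ^ 2 - f x ^ 2) * sdot q r x / 2
              + (r x - f x) * sdot (slap f) r x / 2
              - (-(q x * r x ^ 2 + r x * slap f x) / 2
                - -(q x * f x ^ 2 + f x * slap f x) / 2) * slap r x)
          - DF ε r f hh x * ((1 - -(q x * r x ^ 2 + r x * slap f x) / 2
              + -(q x * f x ^ 2 + f x * slap f x) / 2) * sdot η r x - sdot η f x / 2) := by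
  have bc := c1_bF qc rc fc Lc
  have Dc := c1_DF (ε := ε) rc fc hc
  have srf : sdot r f x = 0 := by rw [sdot_comm]; exact sfr
  have srh : sdot r hh x = sdot hh r x := sdot_comm _ _ _
  have sfh : sdot f hh x = sdot hh f x := sdot_comm _ _ _
  have e1 : sgsq (rhoF r f hh) x = 1 + sdot f f x + sdot hh hh x
        + 2 * sdot hh r x - 2 * sdot hh f x := by
    rw [sgsq_eq, sdot_rhoF rc fc hc hx, sdot_comm r, sdot_comm f, sdot_comm hh,
      sdot_rhoF rc fc hc hx, sdot_rhoF rc fc hc hx, sdot_rhoF rc fc hc hx, srr, sfr, srf, srh, sfh]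
    ring
  unfold J3 I1 I2
  rw [eden_eq, eden_eq, e1, sgsq_eq r, srr, sdot_mul (ηc.diff hx) ((Dc.mul bc).diff hx),
    sdot_mul (ηc.diff hx) (Dc.diff hx), sdot_mul (Dc.diff hx) (bc.diff hx),
    sdot_DF rc fc hc hx, sdot_DF rc fc hc hx, sdot_rhoF rc fc hc hx, sdot_rhoF rc fc hc hx,
    sdot_bF qc rc fc Lc hx, sdot_aF qc Lc rc hx, sdot_aF qc Lc fc hx, srr, sfr, srf]
  unfold bF aF
  ring

variable {r η q : EuclideanSpace ℝ (Fin n) → ℝ} {T : Set (EuclideanSpace ℝ (Fin n))} {t1 K : ℝ}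

/-- pointwise error bound inside the region, with all constants explicit -/
theorem Tube.err_in (h : Tube r η q T t1 K) {Kq ε δ : ℝ} {f hh : EE → ℝ} (hK1 : 1 ≤ Kq)
    (hε : 0 < ε) (hδ : 0 ≤ δ) (hδ1 : δ ≤ 1) (hδt : δ ≤ t1 / 4) (hS : Small T δ r f hh)
    {z : Sph n} (hz : (z : EE) ∈ T)
    (bq : |q z| ≤ Kq) (bqr : |sdot q r z| ≤ Kq) (bL : |slap r z| ≤ Kq) (br : |r z| ≤ Kq)
    (bηr : |sdot η r z| ≤ Kq) (bη : sgsq η z ≤ Kq) :
    |η z * eden ε (rhoF r f hh) z - η z * eden ε r z + 1 / 2 * J3 ε η q r f z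
        - I1 ε η q r f hh z + 1 / 2 * I2 ε η r f hh z|
      ≤ (4 * Kq + 2) * (η z * GG ε (rhoF r f hh z)
          * (rhoF r f hh z ^ 2 + |rhoF r f hh z| + δ ^ 3))
        + Kq * (η z * GG ε (r z) * (r z ^ 2 + |r z| + 0))
        + (K + 5 * Kq ^ 2 + 2) * (η z * (WW ε (2 * δ) (r z) * (r z ^ 2 + δ ^ 2)))
        + 12 * Kq ^ 4 / t1 * ε := by
  have hz0 := sph_ne z
  have ht1 := h.t1_pos
  have hK0 := h.K_nonneg
  rw [key_identity h.η_sm.c1 h.q_sm h.r_sm.c1 hS.f_sm.c1 hS.f_sm.c1_slap hS.h_c1 hz0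
    (h.eik z hz) (hS.perp z hz)]
  have hG1 := GG_nonneg hε (rhoF r f hh z)
  have hG0 := GG_nonneg hε (r z)
  have hη := h.η_nonneg z
  have hWW := WW_nonneg hε (by linarith : (0 : ℝ) ≤ 2 * δ) (r z)
  have htail : 0 ≤ 12 * Kq ^ 4 / t1 * ε := by positivity
  have hd2 : δ ^ 2 ≤ δ := by nlinarith
  have bηf : |sdot η f z| ≤ Kq := by
    have h1 := sdot_sq_le η f z
    have h3 : sgsq f z ≤ 1 := (hS.f1 z hz).trans (by nlinarith)
    have h4 := sgsq_nonneg η z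
    have h5 := sgsq_nonneg f z
    refine abs_le_of_sq_le_sq ?_ (by linarith)
    have h6 : sgsq η z * sgsq f z ≤ Kq * 1 := by gcongr
    have h7 : Kq ≤ Kq ^ 2 := by nlinarith
    linarith
  have bhr : |sdot hh r z| ≤ δ ^ 2 := by
    have h1 := sdot_abs_le (a := hh) (b := r) (x := z) (α := δ ^ 2) (β := 1) (sq_nonneg _)
      zero_le_one (by rw [← pow_mul]; exact hS.h1 z hz) (by rw [h.eik z hz]; norm_num)
    linarith
  have bf := hS.f0 z hz
  have bLf := hS.f2 z hz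
  have bh := hS.h0 z hz
  have bsr : |sdot (slap f) r z| ≤ δ := by
    have := sdot_abs_le (a := slap f) (b := r) (x := z) (α := δ) (β := 1) hδ
      zero_le_one (hS.f3 z hz) (by rw [h.eik z hz]; norm_num)
    linarith
  have bhf : |sdot hh f z| ≤ δ ^ 2 * δ :=
    sdot_abs_le (sq_nonneg _) hδ (by rw [← pow_mul]; exact hS.h1 z hz) (hS.f1 z hz)
  have bhh : sdot hh hh z ≤ δ ^ 4 := hS.h1 z hz
  have bhh0 : 0 ≤ sdot hh hh z := sgsq_nonneg hh z
  have hρz : rhoF r f hh z = r z - f z + hh z := rfl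
  have E1 := est1 hK1 hδ hδ1 bq bf bLf hρz bh bhr bhh0 bhh bhf
  have E2 := est2 (r := r z) hK1 hδ1 bq bLf
  have E3 := est3 hK1 hK0 hδ bq bqr bL bf bLf bsr (h.ric z hz)
  have E4 := est4 hK1 hδ hδ1 bq br bf bLf bηr bηf
  have hdiff : |rhoF r f hh z - r z| ≤ 2 * δ := by
    rw [hρz, show r z - f z + hh z - r z = hh z - f z by ring]
    exact (abs_sub _ _).trans (by linarith)
  have hDW : |DF ε r f hh z| ≤ WW ε (2 * δ) (r z) := abs_XX_sub_le hε hdiff
  have hDt : t1 ≤ |r z| → |DF ε r f hh z| ≤ 2 * ε / t1 := fun hr =>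
    XX_far hε ht1 hr (hdiff.trans (by linarith))
  generalize (-(q z * r z ^ 2 + r z * slap f z) / 2
            - -(q z * f z ^ 2 + f z * slap f z) / 2) * (1 + sdot hh r z) + sdot hh hh z / 2
              - sdot hh f z / 2 = t1' at E1 ⊢
  generalize (slap r z + q z * r z) + (r z ^ 2 - f z ^ 2) * sdot q r z / 2
              + (r z - f z) * sdot (slap f) r z / 2
              - (-(q z * r z ^ 2 + r z * slap f z) / 2
                - -(q z * f z ^ 2 + f z * slap f z) / 2) * slap r z = t3' at E3 ⊢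
  have F4 : |DF ε r f hh z * ((1 - -(q z * r z ^ 2 + r z * slap f z) / 2
      + -(q z * f z ^ 2 + f z * slap f z) / 2) * sdot η r z
      - sdot η f z / 2)| ≤ 12 * Kq ^ 4 / t1 * ε := by
    by_cases hr : |r z| < t1
    · rw [h.sdot_η_near hz hr r, h.sdot_η_near hz hr f]
      simpa using htail
    · push Not at hr
      rw [abs_mul]
      calc |DF ε r f hh z| * _ ≤ (2 * ε / t1) * (6 * Kq ^ 4) := by
            gcongr
            exact hDt hr
        _ = _ := by ring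
  generalize (1 - -(q z * r z ^ 2 + r z * slap f z) / 2
      + -(q z * f z ^ 2 + f z * slap f z) / 2) * sdot η r z
      - sdot η f z / 2 = t4' at F4 ⊢
  generalize -(q z * r z ^ 2 + r z * slap f z) / 2 = t2' at E2 ⊢
  generalize rhoF r f hh z = ρz at *
  generalize DF ε r f hh z = Dz at *
  have F1 : |η z * GG ε ρz * t1'| ≤ (4 * Kq + 2) * (η z * GG ε ρz * (ρz ^ 2 + |ρz| + δ ^ 3)) := by
    rw [abs_mul, abs_of_nonneg (mul_nonneg hη hG1)]
    calc η z * GG ε ρz * |t1'| ≤ η z * GG ε ρz * ((4 * Kq + 2) * (ρz ^ 2 + |ρz| + δ ^ 3)) := by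
          gcongr
      _ = _ := by ring
  have F2 : |η z * GG ε (r z) * t2'| ≤ Kq * (η z * GG ε (r z) * (r z ^ 2 + |r z| + 0)) := by
    rw [abs_mul, abs_of_nonneg (mul_nonneg hη hG0), add_zero]
    calc η z * GG ε (r z) * |t2'| ≤ η z * GG ε (r z) * (Kq * (r z ^ 2 + |r z|)) := by
          gcongr
      _ = _ := by ring
  have F3 : |η z * Dz * t3'|
      ≤ (K + 5 * Kq ^ 2 + 2) * (η z * (WW ε (2 * δ) (r z) * (r z ^ 2 + δ ^ 2))) := by
    rw [abs_mul, abs_mul, abs_of_nonneg hη]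
    calc η z * |Dz| * |t3'|
        ≤ η z * WW ε (2 * δ) (r z) * ((K + 5 * Kq ^ 2 + 2) * (r z ^ 2 + δ ^ 2)) := by
          gcongr
      _ = _ := by ring
  refine (abs_sub _ _).trans ?_
  refine le_trans (add_le_add (abs_sub _ _) le_rfl) ?_
  refine le_trans (add_le_add (add_le_add (abs_sub _ _) le_rfl) le_rfl) ?_
  exact add_le_add (add_le_add (add_le_add F1 F2) F3) F4

/-- off the region everything vanishes -/
theorem Tube.err_out (h : Tube r η q T t1 K) {ε : ℝ} {f hh : EE → ℝ} (fc : C1 f)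
    (Lc : C1 (slap f)) (hc : C1 hh) {z : Sph n} (hz : (z : EE) ∉ T) :
    η z * eden ε (rhoF r f hh) z - η z * eden ε r z + 1 / 2 * J3 ε η q r f z
        - I1 ε η q r f hh z + 1 / 2 * I2 ε η r f hh z = 0 := by
  have hz0 := sph_ne z
  have rc := h.r_sm.c1
  have ηc := h.η_sm.c1
  have bc := c1_bF h.q_sm rc fc Lc
  have Dc := c1_DF (ε := ε) rc fc hc
  have e0 : η z = 0 := h.supp z hz
  unfold J3 I1 I2
  rw [sdot_mul (ηc.diff hz0) ((Dc.mul bc).diff hz0), sdot_mul (ηc.diff hz0) (Dc.diff hz0),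
    h.sdot_η_zero hz, h.sdot_η_zero hz, e0]
  ring

end Crest.Agent.R246.IN200
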