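import Crest.Agent.R246.LimO1_538
import Crest.Agent.R246.Mass_872
import Crest.Agent.R246.D3LimB_67

-- ▼ part R246/LimO2_538
section

/-!
Row 246, block E3 (helper538): locally bounded masses, trace defect, homogeneity, mass and
concentration of the limit measure.
-/

set_option autoImplicit false

open Filter Topology Metric Set MeasureTheory
open scoped ContDiff RealInnerProductSpace
open Crest.GeometryTopology.CoordMetric Crest.GeometryTopology.AffineMaximal
open Crest.Agent.R236.Jet Crest.Agent.R246.D2x782 Crest.Agent.R246.G873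
open Crest.Agent.R246.Stress638
open Crest.Agent.R246.H990 (cV cV_pos)

noncomputable section

namespace Crest.Agent.R246.Lim538

variable {n : ℕ}

local notation "EE" => EuclideanSpace ℝ (Fin n)

theorem hcs_smul_id {E : Type*} [NormedAddCommGroup E] [InnerProductSpace ℝ E] {f : E → ℝ}
    (hc : HasCompactSupport f) :
    HasCompactSupport (fun x => f x • ContinuousLinearMap.id ℝ E) := hc.smul_right

theorem den_eq_wq (R : EE → ℝ) (ε : ℝ) (x : EE) : Vb872.den R ε x = wq R ε x := by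
  unfold Vb872.den wq hw
  ring

theorem mu_eq (R : EE → ℝ) (ε : ℝ) : Sol.mu R ε = Vb872.mu R ε := by
  unfold Sol.mu Vb872.mu
  congr 1
  funext x
  rw [den_eq_wq]

/-- spherical energy -/
def sen (R : EuclideanSpace ℝ (Fin n) → ℝ) (ε : ℝ) : ℝ :=
  ∫ z, eden ε R (z : EuclideanSpace ℝ (Fin n)) ∂(Crest.Agent.R246.H990.sig (EuclideanSpace ℝ (Fin n)))

/-- equipartition defect, the interface (Q) -/
def Qd (R : EuclideanSpace ℝ (Fin n) → ℝ) (ε : ℝ) : ℝ :=
  ∫ x, Real.exp (-‖x‖ ^ 2) * (‖x‖ * (sg R ε x * (hw x - gsq R x)))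

section one

variable {R : EuclideanSpace ℝ (Fin n) → ℝ} {ε : ℝ}

theorem Qd_eq (R : EE → ℝ) (ε : ℝ) : Qd R ε = 8 / 3 * ∫ x, Real.exp (-‖x‖ ^ 2) * wd R ε x := by
  unfold Qd
  rw [← integral_const_mul]
  refine integral_congr_ae (Eventually.of_forall fun x => ?_)
  simp only [wd]; ring

namespace Sol

theorem sen_nonneg (H : Sol R ε) : 0 ≤ sen R ε :=
  integral_nonneg fun _ => Vb872.eden_nonneg H.pos R _

theorem mu_closedBall_le (hn : 2 ≤ n) (H : Sol R ε) (ρ : ℝ) :
    mu R ε (closedBall 0 ρ) ≤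
      ENNReal.ofReal (Real.exp (ρ ^ 2) * (cV EE * (3 / 4 * sen R ε))) := by
  rw [mu_eq]
  exact Vb872.mu_closedBall_le hn H.pos H.sm ρ

theorem integral_exp_le (hn : 2 ≤ n) (H : Sol R ε) {f : EE → ℝ} (hf : Continuous f)
    (hf0 : ∀ x, 0 ≤ f x) (hf1 : ∀ x, f x ≤ Real.exp (-‖x‖ ^ 2)) :
    ∫ x, wq R ε x * f x ≤ cV EE * (3 / 4 * sen R ε) := by
  rw [← H.integral_mu, mu_eq]
  exact Vb872.integral_exp_le hn H.pos H.sm hf hf0 hf1

theorem wd_le_wq (H : Sol R ε) (x : EE) : wd R ε x ≤ wq R ε x := by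
  rw [wq_eq]
  have := H.ws_nonneg x
  have := gsq_nonneg R x
  nlinarith [mul_nonneg (H.ws_nonneg x) (gsq_nonneg R x)]

theorem integrable_exp_wd (hn : 2 ≤ n) (H : Sol R ε) :
    Integrable fun x : EE => Real.exp (-‖x‖ ^ 2) * wd R ε x := by
  have hfin : 2 ≤ Module.finrank ℝ EE := by simpa using hn
  have h1 := (Crest.Agent.R246.Vb872.integrable_gauss_radial hfin (b := 1) one_pos).const_mul
    (3 / (4 * ε))
  refine h1.mono' ?_ (Eventually.of_forall fun x => ?_)
  · exact ((Real.measurable_exp.comp (measurable_norm.pow_const 2).neg).mul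
      H.measurable_wd).aestronglyMeasurable
  · have h2 := H.wd_nonneg x
    have h3 := (H.wd_le_wq x).trans (H.wq_le x)
    have h4 := H.pos
    have h5 : 0 < Real.exp (-‖x‖ ^ 2) := Real.exp_pos _
    have h6 : 0 ≤ ‖x‖⁻¹ := by positivity
    have h7 : 0 ≤ ‖x‖ := norm_nonneg x
    rw [Real.norm_eq_abs, abs_of_nonneg (mul_nonneg h5.le h2)]
    calc Real.exp (-‖x‖ ^ 2) * wd R ε x ≤ Real.exp (-‖x‖ ^ 2) * (3 / (4 * ε) * ‖x‖⁻¹) := by
          gcongr
      _ ≤ Real.exp (-‖x‖ ^ 2) * (3 / (4 * ε) * (2 * ‖x‖⁻¹ + 1 + ‖x‖)) := by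
          gcongr; linarith
      _ = 3 / (4 * ε) * (Real.exp (-1 * ‖x‖ ^ 2) * (2 * ‖x‖⁻¹ + 1 + ‖x‖)) := by
          rw [neg_one_mul]; ring

/-- any function dominated by the Gaussian, integrated against the discrepancy -/
theorem abs_integral_wd_le (hn : 2 ≤ n) (H : Sol R ε) {g : EE → ℝ} {M : ℝ}
    (hg : ∀ x, |g x| ≤ M * Real.exp (-‖x‖ ^ 2)) :
    |∫ x, wd R ε x * g x| ≤ M * (3 / 8 * Qd R ε) := by
  have hi := (H.integrable_exp_wd hn).const_mul M
  have h1 : |∫ x, wd R ε x * g x| ≤ ∫ x, M * (Real.exp (-‖x‖ ^ 2) * wd R ε x) := by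
    have := norm_integral_le_of_norm_le hi (f := fun x => wd R ε x * g x)
      (Eventually.of_forall fun x => by
        rw [Real.norm_eq_abs, abs_mul, abs_of_nonneg (H.wd_nonneg x)]
        calc wd R ε x * |g x| ≤ wd R ε x * (M * Real.exp (-‖x‖ ^ 2)) := by
              have := H.wd_nonneg x
              have := hg x
              gcongr
          _ = _ := by ring)
    simpa [Real.norm_eq_abs] using this
  rw [integral_const_mul] at h1
  rw [Qd_eq]
  calc _ ≤ _ := h1
    _ = _ := by ring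


theorem pgv_S (hn : 2 ≤ n) (H : Sol R ε) (F : EE → EE →L[ℝ] EE) :
    (H.pgv hn).S F = ∫ x, ws R ε x * ⟪F x (gradient R x), gradient R x⟫ := rfl

theorem pgv_μ (hn : 2 ≤ n) (H : Sol R ε) : (H.pgv hn).μ = mu R ε := rfl

/-- the integrand of `S (f • id)` -/
theorem trace_defect (hn : 2 ≤ n) (H : Sol R ε) {f : EE → ℝ} (hf : Continuous f)
    (hc : HasCompactSupport f) :
    (H.pgv hn).S (fun x => f x • ContinuousLinearMap.id ℝ EE) - ∫ x, f x ∂(H.pgv hn).μ
      = - ∫ x, wd R ε x * f x := by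
  have hF : Continuous (fun x => f x • ContinuousLinearMap.id ℝ EE) := hf.smul continuous_const
  have hcF : HasCompactSupport (fun x => f x • ContinuousLinearMap.id ℝ EE) := hcs_smul_id hc
  rw [pgv_S, pgv_μ, H.integral_mu, ← integral_sub (H.integrable_integrand hn hF hcF) (H.integrable_wq_mul hn hf hc),
    ← integral_neg]
  refine integral_congr_ae (Eventually.of_forall fun x => ?_)
  simp only [smul_apply, ContinuousLinearMap.id_apply, real_inner_smul_left,
    real_inner_self_eq_norm_sq, norm_gradient_sq]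
  rw [wq_eq]; ring

/-- homogeneity of the weight measures -/
theorem integral_wq_dil (hn : 2 ≤ n) (H : Sol R ε) (f : EE → ℝ) {t : ℝ} (ht : 0 < t) :
    ∫ x, wq R ε x * f (t⁻¹ • x) = t ^ (n - 1) * ∫ x, wq R ε x * f x := by
  have h1 := Measure.integral_comp_smul_of_nonneg (μ := (volume : Measure EE))
    (fun x : EE => wq R ε x * f (t⁻¹ • x)) t (hR := ht.le)
  simp only [finrank_euclideanSpace, Fintype.card_fin, smul_eq_mul] at h1
  have h2 : ∫ x : EE, wq R ε (t • x) * f (t⁻¹ • (t • x)) = t⁻¹ * ∫ x : EE, wq R ε x * f x := by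
    rw [← integral_const_mul]
    refine integral_congr_ae (Eventually.of_forall fun x => ?_)
    simp only
    rw [smul_smul, inv_mul_cancel₀ ht.ne', one_smul, H.wq_smul ht]
    ring
  rw [h2] at h1
  have h3 : (t ^ n) = t ^ (n - 1) * t := by
    rw [← pow_succ]; congr 1; omega
  have h4 : ∫ x : EE, wq R ε x * f (t⁻¹ • x) = t ^ n * (t⁻¹ * ∫ x : EE, wq R ε x * f x) := by
    rw [h1]; field_simp
  rw [h4, h3]; field_simp

end Sol

end one

/-! ### sequences -/

section seq

variable {ι : Type*} {l : Filter ι} {R : ι → EuclideanSpace ℝ (Fin n) → ℝ} {ε : ι → ℝ}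

/-- `μ` is the limit measure along `l`. -/
def MLim (l : Filter ι) (R : ι → EuclideanSpace ℝ (Fin n) → ℝ) (ε : ι → ℝ)
    (μ : Measure (EuclideanSpace ℝ (Fin n))) : Prop :=
  ∀ f : EuclideanSpace ℝ (Fin n) → ℝ, Continuous f → HasCompactSupport f →
    Tendsto (fun k => ∫ x, wq (R k) (ε k) x * f x) l (𝓝 (∫ x, f x ∂μ))

theorem locBdd (U : Ultrafilter ι) (hn : 2 ≤ n) (H : ∀ k, Sol (R k) (ε k)) {C : ℝ}
    (hC : ∀ᶠ k in (U : Filter ι), sen (R k) (ε k) ≤ C) :
    LocBdd U (fun k => (H k).pgv hn) := by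
  intro K hK
  obtain ⟨ρ, hρ⟩ := hK.isBounded.subset_closedBall 0
  refine ⟨Real.exp (ρ ^ 2) * (cV EE * (3 / 4 * max C 0)), ?_⟩
  filter_upwards [hC] with k hk
  have hcV := cV_pos EE
  have h0 : 0 ≤ Real.exp (ρ ^ 2) * (cV EE * (3 / 4 * max C 0)) := by
    have : 0 ≤ max C 0 := le_max_right _ _
    positivity
  apply ENNReal.toReal_le_of_le_ofReal h0
  refine (measure_mono hρ).trans (((H k).mu_closedBall_le hn ρ).trans ?_)
  apply ENNReal.ofReal_le_ofReal
  have : sen (R k) (ε k) ≤ max C 0 := hk.trans (le_max_left _ _)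
  gcongr

theorem gauss_dom {f : EE → ℝ} (hf : Continuous f) (hc : HasCompactSupport f) :
    ∃ M : ℝ, 0 ≤ M ∧ ∀ x, |f x| ≤ M * Real.exp (-‖x‖ ^ 2) := by
  obtain ⟨C, hC⟩ := hf.bounded_above_of_compact_support hc
  obtain ⟨ρ, hρ⟩ := hc.isCompact.isBounded.subset_closedBall 0
  have hC0 : 0 ≤ C := (norm_nonneg _).trans (hC 0)
  refine ⟨C * Real.exp (ρ ^ 2), by positivity, fun x => ?_⟩
  by_cases hx : x ∈ tsupport f
  · have h1 := hρ hx
    rw [mem_closedBall, dist_zero_right] at h1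
    have h2 : (1 : ℝ) ≤ Real.exp (ρ ^ 2) * Real.exp (-‖x‖ ^ 2) := by
      rw [← Real.exp_add]
      apply Real.one_le_exp
      have : ‖x‖ ^ 2 ≤ ρ ^ 2 := by gcongr
      linarith
    calc |f x| ≤ C * 1 := by rw [mul_one]; exact hC x
      _ ≤ C * (Real.exp (ρ ^ 2) * Real.exp (-‖x‖ ^ 2)) := by gcongr
      _ = _ := by ring
  · rw [image_eq_zero_of_notMem_tsupport hx, abs_zero]; positivity

/-- discrepancies against test functions tend to zero -/
theorem tendsto_wd (hn : 2 ≤ n) (H : ∀ k, Sol (R k) (ε k))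
    (hQ : Tendsto (fun k => Qd (R k) (ε k)) l (𝓝 0)) {f : EE → ℝ} (hf : Continuous f)
    (hc : HasCompactSupport f) :
    Tendsto (fun k => ∫ x, wd (R k) (ε k) x * f x) l (𝓝 0) := by
  obtain ⟨M, hM, hfM⟩ := gauss_dom hf hc
  have h1 : Tendsto (fun k => M * (3 / 8 * Qd (R k) (ε k))) l (𝓝 (M * (3 / 8 * 0))) :=
    (hQ.const_mul _).const_mul _
  rw [mul_zero, mul_zero] at h1
  exact squeeze_zero_norm (fun k => (H k).abs_integral_wd_le hn hfM) h1

theorem trace_tendsto (hn : 2 ≤ n) (H : ∀ k, Sol (R k) (ε k))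
    (hQ : Tendsto (fun k => Qd (R k) (ε k)) l (𝓝 0)) (f : EE → ℝ) (hf : Continuous f)
    (hc : HasCompactSupport f) :
    Tendsto (fun k => ((H k).pgv hn).S (fun x => f x • ContinuousLinearMap.id ℝ EE)
      - ∫ x, f x ∂((H k).pgv hn).μ) l (𝓝 0) := by
  have h1 := (tendsto_wd hn H hQ hf hc).neg
  rw [neg_zero] at h1
  exact h1.congr fun k => ((H k).trace_defect hn hf hc).symm

/-- the ultralimit -/
theorem exists_GV (U : Ultrafilter ι) (hn : 2 ≤ n) (H : ∀ k, Sol (R k) (ε k)) {C : ℝ}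
    (hC : ∀ᶠ k in (U : Filter ι), sen (R k) (ε k) ≤ C)
    (hQ : Tendsto (fun k => Qd (R k) (ε k)) (U : Filter ι) (𝓝 0)) :
    ∃ G : GV EE, MLim (U : Filter ι) R ε G.μ ∧
      ∀ F : EE → EE →L[ℝ] EE, Continuous F → HasCompactSupport F →
        Tendsto (fun k => ∫ x, ws (R k) (ε k) x * ⟪F x (gradient (R k) x), gradient (R k) x⟫)
          (U : Filter ι) (𝓝 (G.S F)) := by
  obtain ⟨G, h1, h2⟩ := exists_ultralimit U (fun k => (H k).pgv hn) (locBdd U hn H hC)
    (trace_tendsto hn H hQ)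
  refine ⟨G, fun f hf hc => ?_, h2⟩
  exact (h1 f hf hc).congr fun k => (H k).integral_mu f

variable [l.NeBot]

theorem MLim.homμ {μ : Measure EE} (hM : MLim l R ε μ) (hn : 2 ≤ n) (H : ∀ k, Sol (R k) (ε k))
    {t : ℝ} (ht : 0 < t) {f : EE → ℝ} (hf : Continuous f) (hc : HasCompactSupport f) :
    ∫ x, f (t⁻¹ • x) ∂μ = t ^ (n - 1) * ∫ x, f x ∂μ := by
  have hf' : Continuous fun x : EE => f (t⁻¹ • x) := hf.comp (continuous_const_smul _)
  have hc' : HasCompactSupport fun x : EE => f (t⁻¹ • x) :=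
    hc.comp_homeomorph (Homeomorph.smulOfNeZero t⁻¹ (inv_ne_zero ht.ne'))
  have h1 := hM _ hf' hc'
  have h2 := (hM f hf hc).const_mul (t ^ (n - 1))
  exact tendsto_nhds_unique h1 (h2.congr fun k => ((H k).integral_wq_dil hn f ht).symm)

theorem MLim.mass {μ : Measure EE} [IsFiniteMeasureOnCompacts μ] (hM : MLim l R ε μ)
    (hn : 2 ≤ n) (H : ∀ k, Sol (R k) (ε k)) {a : ℝ}
    (ha : Tendsto (fun k => 3 / 4 * sen (R k) (ε k)) l (𝓝 a)) :
    ∫⁻ x, ENNReal.ofReal (Real.exp (-‖x‖ ^ 2)) ∂μ ≤ ENNReal.ofReal (a * cV EE) := by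
  apply Vb872.mass_le_of_tests
  intro f hf hc hf0 hf1
  have h2 : Tendsto (fun k => cV EE * (3 / 4 * sen (R k) (ε k))) l (𝓝 (cV EE * a)) :=
    ha.const_mul _
  rw [mul_comm a]
  exact le_of_tendsto_of_tendsto' (hM f hf hc) h2 fun k => (H k).integral_exp_le hn hf hf0 hf1

/-- no mass on the open set where `|r|` stays away from zero -/
theorem MLim.zero_of_compact {μ : Measure EE} [IsFiniteMeasureOnCompacts μ] (hM : MLim l R ε μ)
    (H : ∀ k, Sol (R k) (ε k)) (hε : Tendsto ε l (𝓝 0)) {K : Set EE} (hK : IsCompact K)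
    (h0 : (0 : EE) ∉ K) {δ : ℝ} (hδ : 0 < δ) (hR : ∀ᶠ k in l, ∀ x ∈ K, δ ≤ |R k x|)
    {f : EE → ℝ} (hf : Continuous f) (hf0 : ∀ x, 0 ≤ f x) (hfK : ∀ x, x ∉ K → f x = 0) :
    ∫ x, f x ∂μ = 0 := by
  have hc : HasCompactSupport f := HasCompactSupport.intro hK hfK
  obtain ⟨C, hC⟩ := hf.bounded_above_of_compact_support hc
  have hC0 : 0 ≤ C := (norm_nonneg _).trans (hC 0)
  -- lower bound of the norm on `K`
  obtain ⟨c, hc0, hcK⟩ : ∃ c : ℝ, 0 < c ∧ ∀ x ∈ K, c ≤ ‖x‖ := by
    rcases K.eq_empty_or_nonempty with hE | hne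
    · exact ⟨1, one_pos, by simp [hE]⟩
    · obtain ⟨y, hy, hmin⟩ := hK.exists_isMinOn hne continuous_norm.continuousOn
      refine ⟨‖y‖, norm_pos_iff.2 fun h => h0 (h ▸ hy), fun x hx => hmin hx⟩
  have hKv : volume K < ⊤ := hK.measure_lt_top
  -- bound
  have hb : ∀ᶠ k in l, |∫ x, wq (R k) (ε k) x * f x| ≤
      (12 * c⁻¹ * C * (volume K).toReal) * (1 / ε k * Real.exp (-(4 * δ / ε k))) := by
    filter_upwards [hR] with k hk
    have hek := (H k).pos
    have h1 : ∫ x, wq (R k) (ε k) x * f x = ∫ x in K, wq (R k) (ε k) x * f x := by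
      rw [setIntegral_eq_integral_of_forall_compl_eq_zero]
      intro x hx; rw [hfK x hx, mul_zero]
    rw [h1]
    have h2 := norm_setIntegral_le_of_norm_le_const hKv
      (f := fun x => wq (R k) (ε k) x * f x)
      (C := 12 * c⁻¹ * C * (1 / ε k * Real.exp (-(4 * δ / ε k)))) (fun x hx => by
        have hx0 : x ≠ 0 := fun h => h0 (h ▸ hx)
        have h3 := Mon638.qq_le_exp (H k).acsol (x := x) hx0 (hk x hx)
        have h4 : 0 < ‖x‖ := norm_pos_iff.2 hx0
        have h5 := hcK x hx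
        have h6 := hC x
        rw [Real.norm_eq_abs, abs_of_nonneg (hf0 x)] at h6
        rw [Real.norm_eq_abs, abs_of_nonneg (mul_nonneg ((H k).wq_nonneg x) (hf0 x))]
        have h7 : wq (R k) (ε k) x ≤ 12 * c⁻¹ * (1 / ε k * Real.exp (-(4 * δ / ε k))) := by
          unfold wq
          calc 3 / 4 * ‖x‖ * qq hw (R k) (ε k) x
              ≤ 3 / 4 * ‖x‖ * (16 / ε k * Real.exp (-(4 * δ / ε k)) * hw x) := by gcongr
            _ = 12 * ‖x‖⁻¹ * (1 / ε k * Real.exp (-(4 * δ / ε k))) := by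
                unfold hw; field_simp; ring
            _ ≤ _ := by gcongr
        calc wq (R k) (ε k) x * f x
            ≤ (12 * c⁻¹ * (1 / ε k * Real.exp (-(4 * δ / ε k)))) * C := by
              apply mul_le_mul h7 h6 (hf0 x); positivity
          _ = _ := by ring)
    rw [Real.norm_eq_abs] at h2
    refine h2.trans (le_of_eq ?_)
    simp only [Measure.real]
    ring
  -- the exponential factor tends to zero
  have hpos : ∀ k, 0 < ε k := fun k => (H k).pos
  have hinv : Tendsto (fun k => (ε k)⁻¹) l atTop := by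
    apply Tendsto.inv_tendsto_nhdsGT_zero
    exact tendsto_nhdsWithin_iff.2 ⟨hε, Eventually.of_forall fun k => hpos k⟩
  have hexp : Tendsto (fun s : ℝ => s ^ (1 : ℝ) * Real.exp (-(4 * δ) * s)) atTop (𝓝 0) :=
    tendsto_rpow_mul_exp_neg_mul_atTop_nhds_zero _ _ (by positivity)
  have h8 : Tendsto (fun k => 1 / ε k * Real.exp (-(4 * δ / ε k))) l (𝓝 0) := by
    refine (hexp.comp hinv).congr fun k => ?_
    simp only [Function.comp, Real.rpow_one, one_div]
    congr 2
    field_simp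
  have h9 := h8.const_mul (12 * c⁻¹ * C * (volume K).toReal)
  rw [mul_zero] at h9
  have h10 : Tendsto (fun k => ∫ x, wq (R k) (ε k) x * f x) l (𝓝 0) :=
    squeeze_zero_norm' (by simpa [Real.norm_eq_abs] using hb) h9
  exact tendsto_nhds_unique (hM f hf hc) h10

end seq

end Crest.Agent.R246.Lim538
end
end

-- ▼ part R246/LimO3_538
section

/-!
Row 246, block E3 (helper538): concentration of the limit measure on the zero set.
-/

set_option autoImplicit false

open Filter Topology Metric Set MeasureTheory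
open scoped ContDiff RealInnerProductSpace
open Crest.GeometryTopology.CoordMetric Crest.GeometryTopology.AffineMaximal
open Crest.Agent.R236.Jet Crest.Agent.R246.D2x782 Crest.Agent.R246.G873
open Crest.Agent.R246.Stress638
open Crest.Agent.R246.H990 (cV cV_pos)

noncomputable section

namespace Crest.Agent.R246.Lim538

variable {n : ℕ}

local notation "EE" => EuclideanSpace ℝ (Fin n)

theorem measure_zero_of_open {μ : Measure EE} [IsFiniteMeasureOnCompacts μ] {W : Set EE}
    (hW : IsOpen W)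
    (h : ∀ K : Set EE, IsCompact K → K ⊆ W → ∀ f : EE → ℝ, Continuous f → (∀ x, 0 ≤ f x) →
      (∀ x, x ∉ K → f x = 0) → ∫ x, f x ∂μ = 0) : μ W = 0 := by
  rw [hW.measure_eq_iSup_isCompact μ]
  simp only [ENNReal.iSup_eq_zero]
  intro K' hK'W hK'
  obtain ⟨K, hK, hK'K, hKW⟩ := exists_compact_between hK' hW hK'W
  obtain ⟨f, hf1, hf0, hfc, hf01⟩ := exists_continuous_one_zero_of_isCompact hK'
    (isOpen_interior (s := K)).isClosed_compl
    (Set.disjoint_compl_right_iff_subset.2 hK'K)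
  have h1 := h K hK hKW f f.continuous (fun x => (hf01 x).1)
    (fun x hx => hf0 (fun h => hx (interior_subset h)))
  have h2 := ofReal_integral_eq_lintegral_ofReal
    (f.continuous.integrable_of_hasCompactSupport (μ := μ) hfc)
    (Eventually.of_forall fun x => (hf01 x).1)
  rw [h1, ENNReal.ofReal_zero] at h2
  have h3 : μ K' ≤ ∫⁻ x, ENNReal.ofReal (f x) ∂μ := by
    rw [← lintegral_indicator_one hK'.measurableSet]
    refine lintegral_mono fun x => ?_
    by_cases hx : x ∈ K'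
    · rw [indicator_of_mem hx, Pi.one_apply, hf1 hx]; simp
    · rw [indicator_of_notMem hx]; exact zero_le
  rw [← h2] at h3
  exact le_antisymm h3 zero_le

section seq

variable {ι : Type*} {l : Filter ι} {R : ι → EuclideanSpace ℝ (Fin n) → ℝ} {ε : ι → ℝ}

/-- uniform convergence on the sphere gives uniform convergence of the 0-homogeneous extensions -/
theorem conv_cone {φ : EE → ℝ} (H : ∀ k, Sol (R k) (ε k))
    (hhom : ∀ t : ℝ, 0 ≤ t → ∀ x, φ (t • x) = t * φ x)
    (hconv : TendstoUniformlyOn (fun k x => Real.sin (R k x)) φ l (sphere (0 : EE) 1))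
    {δ : ℝ} (hδ : 0 < δ) : ∀ᶠ k in l, ∀ x : EE, x ≠ 0 → |‖x‖⁻¹ * φ x - Real.sin (R k x)| < δ := by
  filter_upwards [Metric.tendstoUniformlyOn_iff.1 hconv δ hδ] with k hk x hx
  have hx' : 0 < ‖x‖ := norm_pos_iff.2 hx
  have h1 : ‖x‖⁻¹ • x ∈ sphere (0 : EE) 1 := by
    rw [mem_sphere_zero_iff_norm, norm_smul, norm_inv, norm_norm, inv_mul_cancel₀ hx'.ne']
  have h2 := hk _ h1
  rw [hhom _ (inv_nonneg.2 hx'.le), (H k).sm.hom _ x (inv_pos.2 hx'), Real.dist_eq] at h2
  exact h2

variable [l.NeBot]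

theorem MLim.conc {μ : Measure EE} [IsFiniteMeasureOnCompacts μ] (hM : MLim l R ε μ)
    (H : ∀ k, Sol (R k) (ε k)) (hε : Tendsto ε l (𝓝 0)) {φ : EE → ℝ} (hφ : Continuous φ)
    (hhom : ∀ t : ℝ, 0 ≤ t → ∀ x, φ (t • x) = t * φ x)
    (hconv : TendstoUniformlyOn (fun k x => Real.sin (R k x)) φ l (sphere (0 : EE) 1)) :
    μ {x | φ x ≠ 0} = 0 := by
  have hφ0 : φ 0 = 0 := by
    have := hhom 0 le_rfl 0
    simpa using this
  refine measure_zero_of_open (isOpen_ne_fun hφ continuous_const) fun K hK hKW f hf hf0 hfK => ?_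
  have h0 : (0 : EE) ∉ K := fun h => hKW h hφ0
  obtain ⟨δ, hδ, hδK⟩ : ∃ δ : ℝ, 0 < δ ∧ ∀ x ∈ K, 2 * δ ≤ |‖x‖⁻¹ * φ x| := by
    rcases K.eq_empty_or_nonempty with hE | hne
    · exact ⟨1, one_pos, by simp [hE]⟩
    · have hc : ContinuousOn (fun x : EE => |‖x‖⁻¹ * φ x|) K := by
        intro x hx
        have hx0 : x ≠ 0 := fun h => h0 (h ▸ hx)
        exact (((continuous_norm.continuousAt.inv₀ (norm_ne_zero_iff.2 hx0)).mul
          hφ.continuousAt).abs).continuousWithinAt
      obtain ⟨y, hy, hmin⟩ := hK.exists_isMinOn hne hc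
      have hy0 : y ≠ 0 := fun h => h0 (h ▸ hy)
      have hp : 0 < |‖y‖⁻¹ * φ y| :=
        abs_pos.2 (mul_ne_zero (inv_ne_zero (norm_ne_zero_iff.2 hy0)) (hKW hy))
      refine ⟨|‖y‖⁻¹ * φ y| / 2, by linarith, fun x hx => ?_⟩
      have := hmin hx
      simp only [mem_ofPred_eq] at this
      linarith
  refine hM.zero_of_compact H hε hK h0 hδ ?_ hf hf0 hfK
  filter_upwards [conv_cone H hhom hconv hδ] with k hk x hx
  have hx0 : x ≠ 0 := fun h => h0 (h ▸ hx)
  have h1 := hk x hx0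
  have h2 := hδK x hx
  have h3 : |Real.sin (R k x)| ≤ |R k x| := by
    have := Real.lipschitzWith_sin.dist_le_mul (R k x) 0
    simpa [Real.dist_eq] using this
  have h4 := abs_sub_abs_le_abs_sub (‖x‖⁻¹ * φ x) (Real.sin (R k x))
  linarith

end seq

end Crest.Agent.R246.Lim538
end
end

-- ▼ part R246/LimO4_538

/-!
Row 246, block E3 (helper538): stationarity of the limit varifold off the origin.
-/

set_option autoImplicit false

open Filter Topology Metric Set MeasureTheory
open scoped ContDiff RealInnerProductSpace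
open Crest.GeometryTopology.CoordMetric Crest.GeometryTopology.AffineMaximal
open Crest.Agent.R236.Jet Crest.Agent.R246.D2x782 Crest.Agent.R246.G873
open Crest.Agent.R246.Stress638
open Crest.Agent.R246.D3Lim67 (pderiv_norm smooth_norm)

noncomputable section

namespace Crest.Agent.R246.Lim538

variable {n : ℕ}

local notation "EE" => EuclideanSpace ℝ (Fin n)

theorem pderiv_hw {x : EE} (hx : x ≠ 0) (i : Fin n) :
    pderiv i hw x = -2 * x i * (‖x‖⁻¹) ^ 4 := by
  have hn : ‖x‖ ≠ 0 := norm_ne_zero_iff.2 hx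
  have h1 : HasDerivAt (fun t : ℝ => (t ^ 2)⁻¹) (-(2 * ‖x‖) / (‖x‖ ^ 2) ^ 2) ‖x‖ := by
    have := ((hasDerivAt_pow 2 ‖x‖).fun_inv (pow_ne_zero 2 hn))
    refine this.congr_deriv ?_
    push_cast; ring
  have h2 := pderiv_comp h1 (sm_diff (smooth_norm hx)) i
  have e : (fun y : EE => (fun t : ℝ => (t ^ 2)⁻¹) ‖y‖) = hw := by funext y; rfl
  rw [e] at h2
  rw [h2, pderiv_norm hx]
  field_simp

theorem grad_apply (R : EE → ℝ) (x : EE) (i : Fin n) : (gradient R x) i = pderiv i R x := by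
  have h1 : ⟪gradient R x, EuclideanSpace.single i (1 : ℝ)⟫ =
      fderiv ℝ R x (EuclideanSpace.single i 1) := by
    unfold gradient
    exact InnerProductSpace.toDual_symm_apply
  rw [EuclideanSpace.inner_single_right] at h1
  simpa [pderiv] using h1

theorem grad_eq_sum (R : EE → ℝ) (x : EE) :
    gradient R x = ∑ j, pderiv j R x • EuclideanSpace.single j (1 : ℝ) := by
  ext i
  rw [grad_apply]
  simp [Finset.sum_apply, Pi.single_apply]

section field

variable {X : EuclideanSpace ℝ (Fin n) → EuclideanSpace ℝ (Fin n)}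

theorem pderiv_comp_i (hX : ContDiff ℝ 1 X) (i j : Fin n) (x : EE) :
    pderiv j (fun y => X y i) x = (fderiv ℝ X x (EuclideanSpace.single j 1)) i := by
  have h1 := (hX.differentiable one_ne_zero x).hasFDerivAt
  have h2 := (EuclideanSpace.proj (𝕜 := ℝ) i).hasFDerivAt.comp x h1
  unfold pderiv
  rw [show (fun y => X y i) = (EuclideanSpace.proj (𝕜 := ℝ) i) ∘ X from rfl, h2.fderiv]
  rfl

theorem dv_eq (hX : ContDiff ℝ 1 X) (x : EE) : dv X x = ∑ i, pderiv i (fun y => X y i) x := by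
  unfold dv
  rw [LinearMap.trace_eq_sum_inner _ (EuclideanSpace.basisFun (Fin n) ℝ)]
  refine Finset.sum_congr rfl fun i _ => ?_
  rw [pderiv_comp_i hX, EuclideanSpace.basisFun_apply, EuclideanSpace.inner_single_left]
  simp

theorem inner_fderiv_grad (hX : ContDiff ℝ 1 X) (R : EE → ℝ) (x : EE) :
    ⟪fderiv ℝ X x (gradient R x), gradient R x⟫ =
      ∑ i, ∑ j, (pderiv i R x * pderiv j R x) * pderiv j (fun y => X y i) x := by
  have h1 : ⟪fderiv ℝ X x (gradient R x), gradient R x⟫ =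
      ∑ i, (fderiv ℝ X x (gradient R x)) i * pderiv i R x := by
    rw [PiLp.inner_apply]
    refine Finset.sum_congr rfl fun i _ => ?_
    rw [grad_apply]; simp [mul_comm]
  rw [h1]
  refine Finset.sum_congr rfl fun i _ => ?_
  have h2 : (fderiv ℝ X x (gradient R x)) i = ∑ j, pderiv j R x * pderiv j (fun y => X y i) x := by
    conv_lhs => rw [grad_eq_sum R x]
    rw [map_sum, WithLp.ofLp_sum, Finset.sum_apply]
    refine Finset.sum_congr rfl fun j _ => ?_
    rw [map_smul, pderiv_comp_i hX]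
    simp
  rw [h2, Finset.sum_mul]
  refine Finset.sum_congr rfl fun j _ => ?_
  ring

theorem cut_comp (hX : ContDiff ℝ 1 X) (hc : HasCompactSupport X) (hs : tsupport X ⊆ {0}ᶜ)
    (i : Fin n) : Cut ({0}ᶜ : Set EE) (fun y => ‖y‖ * X y i) := by
  have hsup : tsupport (fun y => ‖y‖ * X y i) ⊆ tsupport X := by
    apply closure_minimal _ (isClosed_tsupport X)
    intro y hy
    apply subset_tsupport X
    intro h
    apply hy
    simp [h]
  refine ⟨?_, hc.of_isClosed_subset (isClosed_tsupport _) hsup, hsup.trans hs⟩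
  rw [contDiff_iff_contDiffAt]
  intro x
  by_cases hx : x = 0
  · have h0 : (fun y : EE => ‖y‖ * X y i) =ᶠ[𝓝 x] fun _ => 0 := by
      have : (tsupport X)ᶜ ∈ 𝓝 x := by
        apply (isClosed_tsupport X).isOpen_compl.mem_nhds
        intro h
        exact hs h hx
      filter_upwards [this] with y hy
      rw [image_eq_zero_of_notMem_tsupport hy]; simp
    exact contDiffAt_const.congr_of_eventuallyEq h0
  · have h1 : ContDiffAt ℝ 1 (fun y : EE => X y i) x :=
      ((EuclideanSpace.proj (𝕜 := ℝ) i).contDiff.comp hX).contDiffAt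
    exact ((smooth_norm hx).of_le (by simp)).mul h1

theorem pderiv_cut (hX : ContDiff ℝ 1 X) {x : EE} (hx : x ≠ 0) (i j : Fin n) :
    pderiv j (fun y => ‖y‖ * X y i) x =
      ‖x‖ * pderiv j (fun y => X y i) x + X x i * (x j * ‖x‖⁻¹) := by
  have h1 : DifferentiableAt ℝ (fun y : EE => X y i) x :=
    ((EuclideanSpace.proj (𝕜 := ℝ) i).contDiff.comp hX).differentiable one_ne_zero x
  rw [pderiv_mul (sm_diff (smooth_norm hx)) h1, pderiv_norm hx]

/-- the test function of the defect -/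
def gX (X : EuclideanSpace ℝ (Fin n) → EuclideanSpace ℝ (Fin n)) (x : EuclideanSpace ℝ (Fin n)) :
    ℝ := ⟪x, X x⟫ * (‖x‖ ^ 2)⁻¹

theorem gX_cs (hc : HasCompactSupport X) : HasCompactSupport (gX X) := by
  refine hc.mono' ?_
  intro x hx
  apply subset_tsupport X
  intro h
  apply hx
  simp [gX, h]

theorem gX_cont (hX : Continuous X) (hs : tsupport X ⊆ {0}ᶜ) : Continuous (gX X) := by
  rw [continuous_iff_continuousAt]
  intro x
  by_cases hx : x = 0
  · have h0 : gX X =ᶠ[𝓝 x] fun _ => 0 := by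
      have : (tsupport X)ᶜ ∈ 𝓝 x := by
        apply (isClosed_tsupport X).isOpen_compl.mem_nhds
        intro h
        exact hs h hx
      filter_upwards [this] with y hy
      unfold gX
      rw [image_eq_zero_of_notMem_tsupport hy]; simp
    exact (continuousAt_congr h0).2 continuousAt_const
  · have h1 : ContinuousAt (fun y : EE => (‖y‖ ^ 2)⁻¹) x :=
      (continuous_norm.continuousAt.pow 2).inv₀ (pow_ne_zero 2 (norm_ne_zero_iff.2 hx))
    unfold gX
    exact (continuousAt_id.inner hX.continuousAt).mul h1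

end field

namespace Sol

variable {R : EuclideanSpace ℝ (Fin n) → ℝ} {ε : ℝ}

theorem integrable_wd_mul (hn : 2 ≤ n) (H : Sol R ε) {f : EE → ℝ} (hf : Continuous f)
    (hc : HasCompactSupport f) : Integrable fun x => wd R ε x * f x := by
  refine (H.integrable_wq_mul hn hf hc).mono
    (H.measurable_wd.mul hf.measurable).aestronglyMeasurable (Eventually.of_forall fun x => ?_)
  simp only [norm_mul, Real.norm_eq_abs]
  rw [abs_of_nonneg (H.wd_nonneg x), abs_of_nonneg (H.wq_nonneg x)]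
  gcongr
  exact H.wd_le_wq x

/-- **first variation of the Allen–Cahn varifold** -/
theorem stat_defect (hn : 2 ≤ n) (H : Sol R ε) {X : EE → EE} (hX : ContDiff ℝ 1 X)
    (hc : HasCompactSupport X) (hs : tsupport X ⊆ {0}ᶜ) :
    (∫ x, wq R ε x * dv X x) - ∫ x, ws R ε x * ⟪fderiv ℝ X x (gradient R x), gradient R x⟫
      = ∫ x, wd R ε x * gX X x := by
  have key := stress_identity H.acsol (fun i => cut_comp hX hc hs i)
  have hF : Continuous (fderiv ℝ X) := hX.continuous_fderiv one_ne_zero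
  have hcF : HasCompactSupport (fderiv ℝ X) := hc.fderiv ℝ
  have hdv : Continuous (dv X) := by
    have : dv X = fun x => ∑ i, (fderiv ℝ X x (EuclideanSpace.single i 1)) i := by
      funext x; rw [dv_eq hX]; exact Finset.sum_congr rfl fun i _ => pderiv_comp_i hX i i x
    rw [this]
    refine continuous_finsetSum _ fun i _ => ?_
    exact (EuclideanSpace.proj (𝕜 := ℝ) i).continuous.comp (hF.clm_apply continuous_const)
  have hcdv : HasCompactSupport (dv X) := by
    refine hcF.mono' ?_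
    intro x hx
    apply subset_tsupport
    intro h
    apply hx
    simp [dv, h]
  have hg := gX_cont hX.continuous hs
  have hgc := gX_cs (X := X) hc
  have i1 := H.integrable_wq_mul hn hdv hcdv
  have i2 := H.integrable_integrand hn hF hcF
  have i3 := H.integrable_wq_mul hn hg hgc
  have i4 := H.integrable_wd_mul hn hg hgc
  have e1 : ∫ x, (qq hw R ε x * ∑ i, pderiv i (fun y => ‖y‖ * X y i) x
        - ∑ i, ∑ j, SS R ε i j x * pderiv j (fun y => ‖y‖ * X y i) x)
      = ∫ x, 4 / 3 * (wq R ε x * dv X x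
        - ws R ε x * ⟪fderiv ℝ X x (gradient R x), gradient R x⟫ + wq R ε x * gX X x) := by
    have hae : ∀ᵐ x ∂(volume : Measure EE), x ≠ 0 := by
      have : Nontrivial EE := by
        apply Module.nontrivial_of_finrank_pos (R := ℝ)
        simp; omega
      exact compl_mem_ae_iff.2 (measure_singleton 0)
    refine integral_congr_ae ?_
    filter_upwards [hae] with x hx
    have hx' : ‖x‖ ≠ 0 := norm_ne_zero_iff.2 hx
    have a1 : ∑ i, pderiv i (fun y => ‖y‖ * X y i) x = ‖x‖ * dv X x + ‖x‖⁻¹ * ⟪x, X x⟫ := by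
      rw [dv_eq hX, Finset.mul_sum, PiLp.inner_apply, Finset.mul_sum, ← Finset.sum_add_distrib]
      refine Finset.sum_congr rfl fun i _ => ?_
      rw [pderiv_cut hX hx]
      simp; ring
    have a2 : ∑ i, ∑ j, SS R ε i j x * pderiv j (fun y => ‖y‖ * X y i) x =
        sg R ε x * ‖x‖ * ⟪fderiv ℝ X x (gradient R x), gradient R x⟫ := by
      rw [inner_fderiv_grad hX, Finset.mul_sum]
      refine Finset.sum_congr rfl fun i _ => ?_
      have b1 : ∀ j, SS R ε i j x * pderiv j (fun y => ‖y‖ * X y i) x =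
          sg R ε x * ‖x‖ * (pderiv i R x * pderiv j R x * pderiv j (fun y => X y i) x)
          + sg R ε x * pderiv i R x * X x i * ‖x‖⁻¹ * (x j * pderiv j R x) := by
        intro j
        rw [pderiv_cut hX hx]; unfold SS; ring
      rw [Finset.sum_congr rfl fun j _ => b1 j, Finset.sum_add_distrib, ← Finset.mul_sum,
        ← Finset.mul_sum, H.sm.euler hx, mul_zero, add_zero]
    rw [a1, a2]
    unfold wq ws gX
    field_simp
    ring
  have e2 : ∫ x, 1 / 2 * sg R ε x * ∑ i, pderiv i hw x * (‖x‖ * X x i)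
      = ∫ x, -(4 / 3 * (wq R ε x * gX X x + wd R ε x * gX X x)) := by
    have hae : ∀ᵐ x ∂(volume : Measure EE), x ≠ 0 := by
      have : Nontrivial EE := by
        apply Module.nontrivial_of_finrank_pos (R := ℝ)
        simp; omega
      exact compl_mem_ae_iff.2 (measure_singleton 0)
    refine integral_congr_ae ?_
    filter_upwards [hae] with x hx
    have hx' : ‖x‖ ≠ 0 := norm_ne_zero_iff.2 hx
    have a1 : ∑ i, pderiv i hw x * (‖x‖ * X x i) = -2 * (‖x‖⁻¹) ^ 3 * ⟪x, X x⟫ := by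
      rw [PiLp.inner_apply, Finset.mul_sum]
      refine Finset.sum_congr rfl fun i _ => ?_
      rw [pderiv_hw hx]
      simp; field_simp
    rw [a1, wq_eq]
    unfold ws wd gX hw
    field_simp
    ring
  have i12 : Integrable fun x => wq R ε x * dv X x
      - ws R ε x * ⟪fderiv ℝ X x (gradient R x), gradient R x⟫ := i1.sub i2
  rw [e1, e2, integral_neg, neg_neg, integral_const_mul, integral_const_mul,
    integral_add i12 i3, integral_sub i1 i2, integral_add i3 i4] at key
  linarith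

end Sol

section seq

variable {ι : Type*} {l : Filter ι} {R : ι → EuclideanSpace ℝ (Fin n) → ℝ} {ε : ι → ℝ}

/-- **stationarity of the limit** -/
theorem statOn [l.NeBot] (hn : 2 ≤ n) (H : ∀ k, Sol (R k) (ε k))
    (hQ : Tendsto (fun k => Qd (R k) (ε k)) l (𝓝 0)) {G : GV EE} (hM : MLim l R ε G.μ)
    (hS : ∀ F : EE → EE →L[ℝ] EE, Continuous F → HasCompactSupport F →
      Tendsto (fun k => ∫ x, ws (R k) (ε k) x * ⟪F x (gradient (R k) x), gradient (R k) x⟫)
        l (𝓝 (G.S F))) : G.StatOn {0}ᶜ := by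
  intro X hX hc hs
  have hF : Continuous (fderiv ℝ X) := hX.continuous_fderiv one_ne_zero
  have hcF : HasCompactSupport (fderiv ℝ X) := hc.fderiv ℝ
  have hdv : Continuous (dv X) := by
    have : dv X = fun x => ∑ i, (fderiv ℝ X x (EuclideanSpace.single i 1)) i := by
      funext x; rw [dv_eq hX]; exact Finset.sum_congr rfl fun i _ => pderiv_comp_i hX i i x
    rw [this]
    refine continuous_finsetSum _ fun i _ => ?_
    exact (EuclideanSpace.proj (𝕜 := ℝ) i).continuous.comp (hF.clm_apply continuous_const)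
  have hcdv : HasCompactSupport (dv X) := by
    refine hcF.mono' ?_
    intro x hx
    apply subset_tsupport
    intro h
    apply hx
    simp [dv, h]
  have h1 := (hM _ hdv hcdv).sub (hS _ hF hcF)
  have h2 := tendsto_wd hn H hQ (gX_cont hX.continuous hs) (gX_cs hc)
  have h3 := h1.congr fun k => (H k).stat_defect hn hX hc hs
  have := tendsto_nhds_unique h3 h2
  linarith

end seq

end Crest.Agent.R246.Lim538
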