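import Crest.Agent.R246.MSBasic_852

-- ▼ part R246/MSMol_579
section

/-!
# R246-F (helper579): mollification tools for Lemma L5

`mol ρ F w = ∫ F y ρ(y - w) dy`: derivative in `w`, integration by parts, and the test function
`ρ(· - w)`.
-/

set_option autoImplicit false
set_option linter.unusedSectionVars false

namespace Crest.Agent.R246.L5x579

open MeasureTheory Metric Set InnerProductSpace Filter Topology
open scoped RealInnerProductSpace Gradient ContDiff
open Crest.Agent.R246.MS852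

section
variable {E : Type*} [NormedAddCommGroup E] [InnerProductSpace ℝ E] [FiniteDimensional ℝ E]
  [MeasurableSpace E] [BorelSpace E]

/-- differentiation under the integral sign, everything supported in a compact set -/
theorem hasDerivAt_int {Φ Φ' : ℝ → E → ℝ} {t0 : ℝ} {K : Set E} (hK : IsCompact K)
    (h0 : ∀ t ∈ Icc (t0 - 1) (t0 + 1), ∀ y, y ∉ K → Φ t y = 0)
    (h0' : ∀ t ∈ Icc (t0 - 1) (t0 + 1), ∀ y, y ∉ K → Φ' t y = 0)
    (hc : Continuous (Function.uncurry Φ)) (hc' : Continuous (Function.uncurry Φ'))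
    (hd : ∀ t y, HasDerivAt (fun s => Φ s y) (Φ' t y) t) :
    HasDerivAt (fun t => ∫ y, Φ t y) (∫ y, Φ' t0 y) t0 := by
  obtain ⟨C, hC⟩ := (isCompact_Icc.prod hK).exists_bound_of_continuousOn
    (f := Function.uncurry Φ') hc'.continuousOn (s := Icc (t0 - 1) (t0 + 1) ×ˢ K)
  have ht0 : t0 ∈ Icc (t0 - 1) (t0 + 1) := ⟨by linarith, by linarith⟩
  have hs : Icc (t0 - 1) (t0 + 1) ∈ 𝓝 t0 := Icc_mem_nhds (by linarith) (by linarith)
  have hct : ∀ t, Continuous (Φ t) := fun t => hc.comp (by fun_prop : Continuous fun y => (t, y))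
  have hct' : ∀ t, Continuous (Φ' t) := fun t => hc'.comp (by fun_prop : Continuous fun y => (t, y))
  refine (hasDerivAt_integral_of_dominated_loc_of_deriv_le (μ := volume) (F := Φ) (F' := Φ')
    (bound := K.indicator fun _ => |C|) hs ?_ ?_ ?_ ?_ ?_ ?_).2
  · exact Eventually.of_forall fun t => (hct t).aestronglyMeasurable
  · refine (hct t0).integrable_of_hasCompactSupport ?_
    exact HasCompactSupport.intro hK fun y hy => h0 t0 ht0 y hy
  · exact (hct' t0).aestronglyMeasurable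
  · refine Eventually.of_forall fun y t ht => ?_
    by_cases hy : y ∈ K
    · rw [indicator_of_mem hy]
      exact (hC (t, y) ⟨ht, hy⟩).trans (le_abs_self C)
    · rw [indicator_of_notMem hy, h0' t ht y hy, norm_zero]
  · exact (integrable_indicator_iff hK.measurableSet).2 (integrableOn_const hK.measure_lt_top.ne)
  · exact Eventually.of_forall fun y t _ => hd t y

/-- mollifier data -/
structure Ker (σ M0 M : ℝ) (ρ : E → ℝ) : Prop where
  cd : ContDiff ℝ 1 ρ
  nonneg : ∀ x, 0 ≤ ρ x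
  supp : tsupport ρ ⊆ closedBall 0 σ
  int : ∫ x, ρ x = 1
  le : ∀ x, ρ x ≤ M0
  grad : ∀ x, ‖fderiv ℝ ρ x‖ ≤ M
  hM0 : 0 ≤ M0
  hM : 0 ≤ M

theorem exists_ker {σ : ℝ} (hσ : 0 < σ) : ∃ (M0 M : ℝ) (ρ : E → ℝ), Ker σ M0 M ρ := by
  let f : ContDiffBump (0 : E) := ⟨σ / 2, σ, by linarith, by linarith⟩
  have hcd : ContDiff ℝ 1 (f.normed volume) := f.contDiff_normed (n := 1)
  have hcs : HasCompactSupport (f.normed volume) := f.hasCompactSupport_normed
  obtain ⟨M0, hM0⟩ := hcs.exists_bound_of_continuous hcd.continuous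
  obtain ⟨M, hM⟩ := (hcs.fderiv ℝ).exists_bound_of_continuous (hcd.continuous_fderiv one_ne_zero)
  refine ⟨M0, M, f.normed volume, hcd, f.nonneg_normed, ?_, f.integral_normed, ?_, hM, ?_, ?_⟩
  · rw [f.tsupport_normed_eq]
  · exact fun x => (le_abs_self _).trans (hM0 x)
  · exact (norm_nonneg _).trans (hM0 0)
  · exact (norm_nonneg _).trans (hM 0)

/-- `ρ(· - w)` -/
def tr (ρ : E → ℝ) (w : E) (y : E) : ℝ := ρ (y - w)

theorem tr_cd {ρ : E → ℝ} (h : ContDiff ℝ 1 ρ) (w : E) : ContDiff ℝ 1 (tr ρ w) := by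
  unfold tr; exact h.comp (contDiff_id.sub contDiff_const)

theorem fderiv_tr (ρ : E → ℝ) (w y : E) : fderiv ℝ (tr ρ w) y = fderiv ℝ ρ (y - w) := by
  show fderiv ℝ (fun y => ρ (y - w)) y = _
  rw [fderiv_comp_sub]

theorem tr_zero {ρ : E → ℝ} {σ : ℝ} (hs : tsupport ρ ⊆ closedBall 0 σ) {w y : E}
    (hy : y ∉ closedBall w σ) : tr ρ w y = 0 := by
  show ρ (y - w) = 0
  refine image_eq_zero_of_notMem_tsupport fun h => hy ?_
  have := hs h
  rwa [mem_closedBall_zero_iff, ← dist_eq_norm, ← mem_closedBall] at this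

theorem tr_tsupport {ρ : E → ℝ} {σ : ℝ} (hs : tsupport ρ ⊆ closedBall 0 σ) (w : E) :
    tsupport (tr ρ w) ⊆ closedBall w σ := by
  refine closure_minimal ?_ isClosed_closedBall
  intro y hy
  by_contra h
  exact hy (tr_zero hs h)

theorem fderiv_tr_zero {ρ : E → ℝ} {σ : ℝ} (hs : tsupport ρ ⊆ closedBall 0 σ) {w y : E}
    (hy : y ∉ closedBall w σ) : fderiv ℝ (tr ρ w) y = 0 := by
  have h1 : (fun z => tr ρ w z) =ᶠ[𝓝 y] fun _ => 0 := by
    filter_upwards [isClosed_closedBall.isOpen_compl.mem_nhds hy] with z hz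
    exact tr_zero hs hz
  have h2 := h1.fderiv_eq (𝕜 := ℝ)
  rw [show (fun z => tr ρ w z) = tr ρ w from rfl] at h2
  rw [h2]; simp

/-- mollification at `w` -/
noncomputable def mol (ρ F : E → ℝ) (w : E) : ℝ := ∫ y, F y * tr ρ w y

/-- derivative of the mollification along a line -/
theorem hasDerivAt_mol {ρ F : E → ℝ} {σ : ℝ} (hρ : ContDiff ℝ 1 ρ)
    (hs : tsupport ρ ⊆ closedBall 0 σ) (hF : Continuous F) (w v : E) (t : ℝ) :
    HasDerivAt (fun t => mol ρ F (w + t • v))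
      (- ∫ y, F y * fderiv ℝ (tr ρ (w + t • v)) y v) t := by
  have hf' : Continuous (fderiv ℝ ρ) := hρ.continuous_fderiv one_ne_zero
  have key := hasDerivAt_int (t0 := t) (K := closedBall (w + t • v) (σ + ‖v‖))
    (Φ := fun s y => F y * ρ (y - (w + s • v)))
    (Φ' := fun s y => F y * - fderiv ℝ ρ (y - (w + s • v)) v)
    (isCompact_closedBall _ _) ?_ ?_ ?_ ?_ ?_
  · refine key.congr_deriv ?_
    rw [← integral_neg]
    refine integral_congr_ae (Eventually.of_forall fun y => ?_)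
    show F y * -(fderiv ℝ ρ (y - (w + t • v))) v = -(F y * (fderiv ℝ (tr ρ (w + t • v)) y) v)
    rw [fderiv_tr]; ring
  · intro s hs' y hy
    have h1 : tr ρ (w + s • v) y = 0 := by
      refine tr_zero hs fun h => hy ?_
      rw [mem_closedBall] at h ⊢
      have h2 : dist (w + s • v) (w + t • v) ≤ ‖v‖ := by
        rw [dist_eq_norm, add_sub_add_left_eq_sub, ← sub_smul, norm_smul, Real.norm_eq_abs]
        have : |s - t| ≤ 1 := by rw [abs_le]; constructor <;> linarith [hs'.1, hs'.2]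
        nlinarith [norm_nonneg v]
      linarith [dist_triangle y (w + s • v) (w + t • v)]
    show F y * tr ρ (w + s • v) y = 0
    rw [h1, mul_zero]
  · intro s hs' y hy
    have h1 : fderiv ℝ (tr ρ (w + s • v)) y = 0 := by
      refine fderiv_tr_zero hs fun h => hy ?_
      rw [mem_closedBall] at h ⊢
      have h2 : dist (w + s • v) (w + t • v) ≤ ‖v‖ := by
        rw [dist_eq_norm, add_sub_add_left_eq_sub, ← sub_smul, norm_smul, Real.norm_eq_abs]
        have : |s - t| ≤ 1 := by rw [abs_le]; constructor <;> linarith [hs'.1, hs'.2]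
        nlinarith [norm_nonneg v]
      linarith [dist_triangle y (w + s • v) (w + t • v)]
    rw [fderiv_tr] at h1
    show F y * - fderiv ℝ ρ (y - (w + s • v)) v = 0
    rw [h1]; simp
  · show Continuous fun p : ℝ × E => F p.2 * ρ (p.2 - (w + p.1 • v))
    have := hρ.continuous
    fun_prop
  · show Continuous fun p : ℝ × E => F p.2 * - fderiv ℝ ρ (p.2 - (w + p.1 • v)) v
    refine (hF.comp continuous_snd).mul (Continuous.neg ?_)
    exact (hf'.comp (by fun_prop : Continuous fun p : ℝ × E => p.2 - (w + p.1 • v))).clm_apply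
      continuous_const
  · intro s y
    have h1 : HasDerivAt (fun s : ℝ => y - (w + s • v)) (-v) s := by
      have h2 : HasDerivAt (fun s : ℝ => s • v) ((1 : ℝ) • v) s := (hasDerivAt_id s).smul_const v
      rw [one_smul] at h2
      exact (h2.const_add w).const_sub y
    have h3 : HasFDerivAt ρ (fderiv ℝ ρ (y - (w + s • v))) (y - (w + s • v)) :=
      (hρ.differentiable one_ne_zero _).hasFDerivAt
    have h4 := (h3.comp_hasDerivAt s h1).const_mul (F y)
    refine h4.congr_deriv ?_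
    rw [map_neg]

/-- integration by parts for `C^1` functions, one of them with compact support -/
theorem ibp {F φ : E → ℝ} (hF : ContDiff ℝ 1 F) (hφ : ContDiff ℝ 1 φ) (hc : HasCompactSupport φ)
    (v : E) : ∫ x, F x * fderiv ℝ φ x v = - ∫ x, fderiv ℝ F x v * φ x := by
  have hF' := continuous_fderiv_apply' hF v
  have hφ' := continuous_fderiv_apply' hφ v
  apply integral_mul_fderiv_eq_neg_fderiv_mul_of_integrable
  · exact (hF'.mul hφ.continuous).integrable_of_hasCompactSupport hc.mul_left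
  · exact (hF.continuous.mul hφ').integrable_of_hasCompactSupport
      ((hc.fderiv_apply (𝕜 := ℝ) v).mul_left)
  · exact (hF.continuous.mul hφ.continuous).integrable_of_hasCompactSupport hc.mul_left
  · exact fun x _ => hF.differentiable one_ne_zero x
  · exact fun x _ => hφ.differentiable one_ne_zero x

theorem hcs_of_tsupport {φ : E → ℝ} {p : E} {L : ℝ} (h : tsupport φ ⊆ closedBall p L) :
    HasCompactSupport φ :=
  (isCompact_closedBall p L).of_isClosed_subset (isClosed_tsupport φ) h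

end

end Crest.Agent.R246.L5x579
end

-- ▼ part R246/MSL5a_579
section

/-!
# R246-F (helper579): Lemma L5, part a: `R` is close to an affine function of `⟨a, z⟩`
-/

set_option autoImplicit false
set_option linter.unusedSectionVars false

namespace Crest.Agent.R246.L5x579

open MeasureTheory Metric Set InnerProductSpace Filter Topology
open scoped RealInnerProductSpace Gradient ContDiff
open Crest.Agent.R246.MS852

section
variable {E : Type*} [NormedAddCommGroup E] [InnerProductSpace ℝ E] [FiniteDimensional ℝ E]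
  [MeasurableSpace E] [BorelSpace E]

/-- norm of the tangential gradient -/
noncomputable def tg (a : E) (R : E → ℝ) (x : E) : ℝ :=
  Real.sqrt (‖∇ R x‖ ^ 2 - (fderiv ℝ R x a) ^ 2)

theorem continuous_tg {a : E} {R : E → ℝ} (hR : ContDiff ℝ 1 R) : Continuous (tg a R) := by
  unfold tg
  exact ((continuous_grad hR).norm.pow 2 |>.sub ((continuous_fderiv_apply' hR a).pow 2)).sqrt

theorem tg_nonneg (a : E) (R : E → ℝ) (x : E) : 0 ≤ tg a R x := Real.sqrt_nonneg _

theorem tg_eq_norm {a : E} (ha : ‖a‖ = 1) (R : E → ℝ) (x : E) :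
    ‖∇ R x - (fderiv ℝ R x a) • a‖ = tg a R x := by
  unfold tg
  rw [← Real.sqrt_sq (norm_nonneg (∇ R x - (fderiv ℝ R x a) • a))]
  congr 1
  rw [@norm_sub_sq_real, real_inner_smul_right, norm_smul, ha, ← grad_eq, mul_one,
    Real.norm_eq_abs, sq_abs]
  ring

theorem tg_sq {a : E} (ha : ‖a‖ = 1) (R : E → ℝ) (x : E) :
    tg a R x ^ 2 = ‖∇ R x‖ ^ 2 - (fderiv ℝ R x a) ^ 2 := by
  unfold tg
  exact Real.sq_sqrt (by linarith [sq_fderiv_le ha R x])

theorem abs_fderiv_orth {a : E} (ha : ‖a‖ = 1) (R : E → ℝ) (x : E) {v : E} (hv : ⟪a, v⟫_ℝ = 0) :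
    |fderiv ℝ R x v| ≤ tg a R x * ‖v‖ := by
  have h1 : fderiv ℝ R x v = ⟪∇ R x - (fderiv ℝ R x a) • a, v⟫_ℝ := by
    rw [inner_sub_left, real_inner_smul_left, hv, mul_zero, sub_zero, grad_eq]
  rw [h1, ← tg_eq_norm ha]
  exact abs_real_inner_le_norm _ _

theorem abs_cross {a : E} (ha : ‖a‖ = 1) (R φ : E → ℝ) (x : E) :
    |fderiv ℝ φ x (∇ R x) - fderiv ℝ R x a * fderiv ℝ φ x a| ≤ tg a R x * ‖fderiv ℝ φ x‖ := by
  have h1 : fderiv ℝ φ x (∇ R x) - fderiv ℝ R x a * fderiv ℝ φ x a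
      = fderiv ℝ φ x (∇ R x - (fderiv ℝ R x a) • a) := by
    rw [map_sub, map_smul, smul_eq_mul]
  rw [h1, ← tg_eq_norm ha, mul_comm, ← Real.norm_eq_abs]
  exact ContinuousLinearMap.le_opNorm _ _

/-- bound of an integral of a function vanishing outside of a ball -/
theorem abs_int_le {f G : E → ℝ} {L C : ℝ} (hf : Continuous f) (hG : Continuous G)
    (h0 : ∀ x, x ∉ ball (0 : E) L → f x = 0) (h1 : ∀ x ∈ ball (0 : E) L, |f x| ≤ C * G x) :
    |∫ x, f x| ≤ C * ∫ x in ball (0 : E) L, G x := by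
  rw [← setIntegral_eq_integral_of_forall_compl_eq_zero h0, ← integral_const_mul]
  refine (abs_integral_le_integral_abs).trans ?_
  refine setIntegral_mono_on (integrableOn_ball hf.abs 0 L)
    (integrableOn_ball (hG.const_mul C) 0 L) measurableSet_ball h1

variable {a : E} {L τ σ M0 M : ℝ} {R ρ : E → ℝ}

/-- the total tangential gradient -/
theorem int_tg_le (H : HypL5 a L τ R) :
    ∫ x in ball (0 : E) L, tg a R x ≤ Real.sqrt τ * (volume.real (ball (0 : E) L) + 1) := by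
  have hs : 0 < Real.sqrt τ := Real.sqrt_pos.2 H.hτ
  have hss : Real.sqrt τ * Real.sqrt τ = τ := Real.mul_self_sqrt H.hτ.le
  have hct := continuous_tg (a := a) H.cR
  have h1 : ∀ x ∈ ball (0 : E) L, tg a R x ≤ Real.sqrt τ + (Real.sqrt τ)⁻¹ *
      (‖∇ R x‖ ^ 2 - (fderiv ℝ R x a) ^ 2) := by
    intro x _
    rw [← tg_sq H.ha]
    have h2 : 0 ≤ (Real.sqrt τ)⁻¹ * (tg a R x - Real.sqrt τ) ^ 2 := by positivity
    have h3 : (Real.sqrt τ)⁻¹ * (tg a R x - Real.sqrt τ) ^ 2
        = Real.sqrt τ + (Real.sqrt τ)⁻¹ * tg a R x ^ 2 - 2 * tg a R x := by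
      field_simp; ring
    have h4 := tg_nonneg a R x
    linarith
  have hcg : Continuous fun x => ‖∇ R x‖ ^ 2 - (fderiv ℝ R x a) ^ 2 :=
    ((continuous_grad H.cR).norm.pow 2).sub ((continuous_fderiv_apply' H.cR a).pow 2)
  have h2 := setIntegral_mono_on (μ := volume) (integrableOn_ball hct 0 L)
    (integrableOn_ball (continuous_const.add (hcg.const_mul (Real.sqrt τ)⁻¹)) 0 L)
    measurableSet_ball h1
  have h3 : ∫ x in ball (0 : E) L, (Real.sqrt τ + (Real.sqrt τ)⁻¹ *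
      (‖∇ R x‖ ^ 2 - (fderiv ℝ R x a) ^ 2)) = Real.sqrt τ * volume.real (ball (0 : E) L) +
      (Real.sqrt τ)⁻¹ * ∫ x in ball (0 : E) L, (‖∇ R x‖ ^ 2 - (fderiv ℝ R x a) ^ 2) := by
    rw [integral_add (integrableOn_ball continuous_const 0 L)
      (integrableOn_ball (hcg.const_mul (Real.sqrt τ)⁻¹) 0 L), integral_const_mul,
      setIntegral_const, smul_eq_mul]
    ring
  simp only [Pi.add_apply] at h2
  rw [h3] at h2
  have h4 : (Real.sqrt τ)⁻¹ * ∫ x in ball (0 : E) L, (‖∇ R x‖ ^ 2 - (fderiv ℝ R x a) ^ 2)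
      ≤ (Real.sqrt τ)⁻¹ * τ := mul_le_mul_of_nonneg_left H.tilt (by positivity)
  have h5 : (Real.sqrt τ)⁻¹ * τ = Real.sqrt τ := by
    nth_rewrite 2 [← hss]
    field_simp
  linarith [mul_add (Real.sqrt τ) (volume.real (ball (0 : E) L)) 1]

theorem tg_int_nonneg : 0 ≤ ∫ x in ball (0 : E) L, tg a R x :=
  integral_nonneg fun x => tg_nonneg a R x

theorem Ker.outside (K : Ker σ M0 M ρ) {w : E} (hw : closedBall w σ ⊆ ball (0 : E) L) {x : E}
    (hx : x ∉ ball (0 : E) L) : tr ρ w x = 0 := tr_zero K.supp fun h => hx (hw h)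

theorem Ker.fderiv_outside (K : Ker σ M0 M ρ) {w : E} (hw : closedBall w σ ⊆ ball (0 : E) L) {x : E}
    (hx : x ∉ ball (0 : E) L) : fderiv ℝ (tr ρ w) x = 0 := fderiv_tr_zero K.supp fun h => hx (hw h)

theorem Ker.hcs (K : Ker σ M0 M ρ) (w : E) : HasCompactSupport (tr ρ w) :=
  hcs_of_tsupport (tr_tsupport K.supp w)

theorem Ker.abs_le (K : Ker σ M0 M ρ) (w x : E) : |tr ρ w x| ≤ M0 := by
  unfold tr
  rw [abs_of_nonneg (K.nonneg _)]
  exact K.le _

theorem Ker.norm_fderiv_le (K : Ker σ M0 M ρ) (w x : E) : ‖fderiv ℝ (tr ρ w) x‖ ≤ M := by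
  rw [fderiv_tr]; exact K.grad _

/-- vertical second derivative of the mollification -/
theorem vert_le (H : HypL5 a L τ R) (K : Ker σ M0 M ρ) {w : E}
    (hw : closedBall w σ ⊆ ball (0 : E) L) :
    |∫ x, fderiv ℝ R x a * fderiv ℝ (tr ρ w) x a| ≤
      τ * M0 + M * ∫ x in ball (0 : E) L, tg a R x := by
  have hcd := tr_cd K.cd w
  have h1 := H.weak (tr ρ w) hcd ((tr_tsupport K.supp w).trans hw) M0 (K.abs_le w)
  have hc1 : Continuous fun x => fderiv ℝ (tr ρ w) x (∇ R x) :=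
    (hcd.continuous_fderiv one_ne_zero).clm_apply (continuous_grad H.cR)
  have hc2 : Continuous fun x => fderiv ℝ R x a * fderiv ℝ (tr ρ w) x a :=
    (continuous_fderiv_apply' H.cR a).mul (continuous_fderiv_apply' hcd a)
  have hi1 : Integrable fun x => fderiv ℝ (tr ρ w) x (∇ R x) := by
    refine hc1.integrable_of_hasCompactSupport ?_
    refine HasCompactSupport.intro (isCompact_closedBall w σ) fun x hx => ?_
    rw [fderiv_tr_zero K.supp hx]; simp
  have hi2 : Integrable fun x => fderiv ℝ R x a * fderiv ℝ (tr ρ w) x a := by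
    refine hc2.integrable_of_hasCompactSupport ?_
    refine HasCompactSupport.intro (isCompact_closedBall w σ) fun x hx => ?_
    rw [fderiv_tr_zero K.supp hx]; simp
  have h2 : |∫ x, (fderiv ℝ (tr ρ w) x (∇ R x) - fderiv ℝ R x a * fderiv ℝ (tr ρ w) x a)| ≤
      M * ∫ x in ball (0 : E) L, tg a R x := by
    refine abs_int_le (hc1.sub hc2) (continuous_tg H.cR) (fun x hx => ?_) fun x _ => ?_
    · rw [K.fderiv_outside hw hx]; simp
    · refine (abs_cross H.ha R (tr ρ w) x).trans ?_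
      rw [mul_comm]
      exact mul_le_mul_of_nonneg_right (K.norm_fderiv_le w x) (tg_nonneg a R x)
  rw [integral_sub hi1 hi2] at h2
  have h3 := abs_sub_abs_le_abs_sub (∫ x, fderiv ℝ R x a * fderiv ℝ (tr ρ w) x a)
    (∫ x, fderiv ℝ (tr ρ w) x (∇ R x))
  rw [abs_sub_comm] at h3
  linarith

/-- mean value inequality on `[0,1]` -/
theorem mvt01 {f f' : ℝ → ℝ} {C : ℝ} (hf : ∀ t, HasDerivAt f (f' t) t)
    (hb : ∀ t ∈ Icc (0 : ℝ) 1, |f' t| ≤ C) : |f 1 - f 0| ≤ C := by
  have := norm_image_sub_le_of_norm_deriv_le_segment_01' (f := f) (f' := f') (C := C)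
    (fun t _ => (hf t).hasDerivWithinAt) (fun t ht => hb t ⟨ht.1, ht.2.le⟩)
  exact this

/-- horizontal variation of the mollification -/
theorem mol_orth (H : HypL5 a L τ R) (K : Ker σ M0 M ρ) {w v : E} (hv : ⟪a, v⟫_ℝ = 0)
    (hw : ∀ t ∈ Icc (0 : ℝ) 1, closedBall (w + t • v) σ ⊆ ball (0 : E) L) :
    |mol ρ R (w + v) - mol ρ R w| ≤ M0 * ‖v‖ * ∫ x in ball (0 : E) L, tg a R x := by
  have h1 := mvt01 (f := fun t => mol ρ R (w + t • v))
    (f' := fun t => - ∫ y, R y * fderiv ℝ (tr ρ (w + t • v)) y v)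
    (C := M0 * ‖v‖ * ∫ x in ball (0 : E) L, tg a R x)
    (fun t => hasDerivAt_mol K.cd K.supp H.cR.continuous w v t) ?_
  · simpa using h1
  · intro t ht
    show |- ∫ y, R y * fderiv ℝ (tr ρ (w + t • v)) y v| ≤ _
    rw [ibp H.cR (tr_cd K.cd _) (K.hcs _) v, neg_neg]
    refine abs_int_le ((continuous_fderiv_apply' H.cR v).mul (tr_cd K.cd _).continuous)
      (continuous_tg H.cR) (fun x hx => ?_) fun x _ => ?_
    · rw [K.outside (hw t ht) hx, mul_zero]
    · rw [abs_mul]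
      have h2 := abs_fderiv_orth H.ha R x hv
      have h3 := K.abs_le (w + t • v) x
      calc |fderiv ℝ R x v| * |tr ρ (w + t • v) x| ≤ (tg a R x * ‖v‖) * M0 :=
            mul_le_mul h2 h3 (abs_nonneg _) (mul_nonneg (tg_nonneg a R x) (norm_nonneg _))
        _ = M0 * ‖v‖ * tg a R x := by ring

theorem cb_axis (ha : ‖a‖ = 1) {b t : ℝ} (hb : |b| + σ < L) (ht : t ∈ Icc (0 : ℝ) 1) :
    closedBall (t • (b • a)) σ ⊆ ball (0 : E) L := by
  intro y hy
  rw [mem_closedBall, dist_eq_norm] at hy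
  rw [mem_ball_zero_iff]
  have h1 : ‖t • (b • a)‖ ≤ |b| := by
    rw [norm_smul, norm_smul, ha, mul_one, Real.norm_eq_abs, Real.norm_eq_abs, abs_of_nonneg ht.1]
    exact mul_le_of_le_one_left (abs_nonneg b) ht.2
  have h2 : ‖y‖ ≤ ‖y - t • (b • a)‖ + ‖t • (b • a)‖ := by
    have := norm_add_le (y - t • (b • a)) (t • (b • a))
    rwa [sub_add_cancel] at this
  linarith

/-- variation of the vertical derivative along the axis -/
theorem mol_axis' (H : HypL5 a L τ R) (K : Ker σ M0 M ρ) {b : ℝ} (hb : |b| + σ < L) :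
    |mol ρ (fun x => fderiv ℝ R x a) (b • a) - mol ρ (fun x => fderiv ℝ R x a) 0| ≤
      |b| * (τ * M0 + M * ∫ x in ball (0 : E) L, tg a R x) := by
  have h1 := mvt01 (f := fun t => mol ρ (fun x => fderiv ℝ R x a) (0 + t • (b • a)))
    (f' := fun t => - ∫ y, fderiv ℝ R y a * fderiv ℝ (tr ρ (0 + t • (b • a))) y (b • a))
    (C := |b| * (τ * M0 + M * ∫ x in ball (0 : E) L, tg a R x))
    (fun t => hasDerivAt_mol K.cd K.supp (continuous_fderiv_apply' H.cR a) 0 (b • a) t) ?_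
  · simpa using h1
  · intro t ht
    show |- ∫ y, fderiv ℝ R y a * fderiv ℝ (tr ρ (0 + t • (b • a))) y (b • a)| ≤ _
    have h2 : ∀ y, fderiv ℝ R y a * fderiv ℝ (tr ρ (0 + t • (b • a))) y (b • a)
        = b * (fderiv ℝ R y a * fderiv ℝ (tr ρ (t • (b • a))) y a) := by
      intro y
      rw [map_smul, smul_eq_mul, zero_add]; ring
    simp only [h2]
    rw [integral_const_mul, abs_neg, abs_mul]
    exact mul_le_mul_of_nonneg_left (vert_le H K (cb_axis H.ha hb ht)) (abs_nonneg b)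

/-- affine behaviour of the mollification along the axis -/
theorem mol_axis (H : HypL5 a L τ R) (K : Ker σ M0 M ρ) {b : ℝ} (hb : |b| + σ < L) :
    |mol ρ R (b • a) - mol ρ R 0 - b * mol ρ (fun x => fderiv ℝ R x a) 0| ≤
      |b| * (|b| * (τ * M0 + M * ∫ x in ball (0 : E) L, tg a R x)) := by
  set β := mol ρ (fun x => fderiv ℝ R x a) 0 with hβ
  have h1 := mvt01 (f := fun t => mol ρ R (0 + t • (b • a)) - t * (b * β))
    (f' := fun t => (- ∫ y, R y * fderiv ℝ (tr ρ (0 + t • (b • a))) y (b • a)) - 1 * (b * β))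
    (C := |b| * (|b| * (τ * M0 + M * ∫ x in ball (0 : E) L, tg a R x)))
    (fun t => (hasDerivAt_mol K.cd K.supp H.cR.continuous 0 (b • a) t).sub
      ((hasDerivAt_id t).mul_const (b * β))) ?_
  · simp only [zero_add, one_smul, zero_smul, one_mul, zero_mul, sub_zero] at h1
    rw [show mol ρ R (b • a) - b * β - mol ρ R 0 = mol ρ R (b • a) - mol ρ R 0 - b * β by ring] at h1
    exact h1
  · intro t ht
    show |(- ∫ y, R y * fderiv ℝ (tr ρ (0 + t • (b • a))) y (b • a)) - 1 * (b * β)| ≤ _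
    rw [ibp H.cR (tr_cd K.cd _) (K.hcs _) (b • a), neg_neg]
    have h2 : ∀ y, fderiv ℝ R y (b • a) * tr ρ (0 + t • (b • a)) y
        = b * (fderiv ℝ R y a * tr ρ ((t * b) • a) y) := by
      intro y
      rw [map_smul, smul_eq_mul, zero_add, smul_smul]; ring
    simp only [h2]
    rw [integral_const_mul]
    have h3 : b * (∫ y, fderiv ℝ R y a * tr ρ ((t * b) • a) y) - 1 * (b * β)
        = b * (mol ρ (fun x => fderiv ℝ R x a) ((t * b) • a) - β) := by
      unfold mol; ring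
    rw [h3, abs_mul]
    have htb : |t * b| ≤ |b| := by
      rw [abs_mul, abs_of_nonneg ht.1]
      exact mul_le_of_le_one_left (abs_nonneg b) ht.2
    have h4 := mol_axis' H K (b := t * b) (by linarith)
    have h5 : 0 ≤ τ * M0 + M * ∫ x in ball (0 : E) L, tg a R x :=
      add_nonneg (mul_nonneg H.hτ.le K.hM0) (mul_nonneg K.hM tg_int_nonneg)
    exact mul_le_mul_of_nonneg_left (h4.trans (mul_le_mul_of_nonneg_right htb h5)) (abs_nonneg b)

theorem lip2 (H : HypL5 a L τ R) {x y : E} (hx : x ∈ ball (0 : E) L) (hy : y ∈ ball (0 : E) L) :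
    |R y - R x| ≤ 2 * ‖y - x‖ := by
  have h := Convex.norm_image_sub_le_of_norm_fderiv_le (𝕜 := ℝ) (f := R) (s := ball (0 : E) L)
    (C := 2) (fun z _ => H.cR.differentiable one_ne_zero z) (fun z hz => ?_) (convex_ball _ _) hx hy
  · exact h
  · rw [← norm_grad]
    have := H.lip z hz
    have h1 := H.hτ1
    nlinarith [norm_nonneg (∇ R z)]

/-- `mol ρ R z` is close to `R z` -/
theorem mol_sub_le (H : HypL5 a L τ R) (K : Ker σ M0 M ρ) (hσ : 0 ≤ σ) {w : E}
    (hw : closedBall w σ ⊆ ball (0 : E) L) : |mol ρ R w - R w| ≤ 2 * σ := by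
  have hcd := tr_cd K.cd w
  have h0 : ∫ y, tr ρ w y = 1 := by
    unfold tr
    rw [integral_sub_right_eq_self ρ w]; exact K.int
  have hi1 : Integrable fun y => R y * tr ρ w y :=
    (H.cR.continuous.mul hcd.continuous).integrable_of_hasCompactSupport (K.hcs w).mul_left
  have hi2 : Integrable fun y => tr ρ w y :=
    hcd.continuous.integrable_of_hasCompactSupport (K.hcs w)
  have h1 : mol ρ R w - R w = ∫ y, (R y - R w) * tr ρ w y := by
    have h2 : ∀ y, (R y - R w) * tr ρ w y = R y * tr ρ w y - R w * tr ρ w y := fun y => by ring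
    simp only [h2]
    rw [integral_sub hi1 (hi2.const_mul _), integral_const_mul, h0, mul_one]; rfl
  rw [h1]
  refine (abs_integral_le_integral_abs).trans ?_
  have h3 : ∀ y, |(R y - R w) * tr ρ w y| ≤ (2 * σ) * tr ρ w y := by
    intro y
    have hn : 0 ≤ tr ρ w y := K.nonneg _
    by_cases hy : y ∈ closedBall w σ
    · rw [abs_mul, abs_of_nonneg hn]
      refine mul_le_mul_of_nonneg_right ?_ hn
      have h4 := lip2 H (hw (mem_closedBall_self hσ)) (hw hy)
      rw [mem_closedBall, dist_eq_norm] at hy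
      linarith
    · rw [tr_zero K.supp hy]; simp
  calc ∫ y, |(R y - R w) * tr ρ w y| ≤ ∫ y, (2 * σ) * tr ρ w y := by
        refine integral_mono ?_ (hi2.const_mul _) h3
        have : Integrable fun y => (R y - R w) * tr ρ w y :=
          ((H.cR.continuous.sub continuous_const).mul
            hcd.continuous).integrable_of_hasCompactSupport (K.hcs w).mul_left
        exact this.abs
    _ = 2 * σ := by rw [integral_const_mul, h0, mul_one]

theorem abs_beta_le (H : HypL5 a L τ R) (K : Ker σ M0 M ρ)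
    (hw : closedBall (0 : E) σ ⊆ ball (0 : E) L) : |mol ρ (fun x => fderiv ℝ R x a) 0| ≤ 2 := by
  have hcd := tr_cd K.cd (0 : E)
  have h0 : ∫ y, tr ρ (0 : E) y = 1 := by
    unfold tr
    rw [integral_sub_right_eq_self ρ (0 : E)]; exact K.int
  have hi2 : Integrable fun y => tr ρ (0 : E) y :=
    hcd.continuous.integrable_of_hasCompactSupport (K.hcs 0)
  unfold mol
  refine (abs_integral_le_integral_abs).trans ?_
  have h3 : ∀ y, |fderiv ℝ R y a * tr ρ (0 : E) y| ≤ 2 * tr ρ (0 : E) y := by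
    intro y
    have hn : 0 ≤ tr ρ (0 : E) y := K.nonneg _
    by_cases hy : y ∈ closedBall (0 : E) σ
    · rw [abs_mul, abs_of_nonneg hn]
      refine mul_le_mul_of_nonneg_right ?_ hn
      have h5 := H.lip y (hw hy)
      have h6 := abs_fderiv_le R y a
      rw [H.ha, mul_one] at h6
      have h1 := H.hτ1
      nlinarith [norm_nonneg (∇ R y)]
    · rw [tr_zero K.supp hy]; simp
  calc ∫ y, |fderiv ℝ R y a * tr ρ (0 : E) y| ≤ ∫ y, 2 * tr ρ (0 : E) y := by
        refine integral_mono ?_ (hi2.const_mul _) h3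
        have : Integrable fun y => fderiv ℝ R y a * tr ρ (0 : E) y :=
          ((continuous_fderiv_apply' H.cR a).mul
            hcd.continuous).integrable_of_hasCompactSupport (K.hcs 0).mul_left
        exact this.abs
    _ = 2 := by rw [integral_const_mul, h0, mul_one]

theorem cb_sub {w : E} {l : ℝ} (hw : ‖w‖ ≤ l) (hl : l + σ < L) :
    closedBall w σ ⊆ ball (0 : E) L := by
  intro y hy
  rw [mem_closedBall, dist_eq_norm] at hy
  rw [mem_ball_zero_iff]
  have h2 : ‖y‖ ≤ ‖y - w‖ + ‖w‖ := by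
    have := norm_add_le (y - w) w
    rwa [sub_add_cancel] at this
  linarith

/-- `R` is close to an affine function of `⟨a, z⟩` on `closedBall 0 l`, `l + σ < L` -/
theorem affine_close (H : HypL5 a L τ R) (K : Ker σ M0 M ρ) (hσ : 0 ≤ σ) {l : ℝ} (hl0 : 0 ≤ l)
    (hl : l + σ < L) {z : E} (hz : ‖z‖ ≤ l) :
    |R z - R 0 - mol ρ (fun x => fderiv ℝ R x a) 0 * ⟪a, z⟫_ℝ| ≤
      4 * σ + M0 * l * (∫ x in ball (0 : E) L, tg a R x) +
        l * (l * (τ * M0 + M * ∫ x in ball (0 : E) L, tg a R x)) := by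
  set I1 := ∫ x in ball (0 : E) L, tg a R x with hI1
  have hI1n : 0 ≤ I1 := tg_int_nonneg
  set b := ⟪a, z⟫_ℝ with hb
  set v := z - b • a with hv
  have hav : ⟪a, v⟫_ℝ = 0 := by
    rw [hv, inner_sub_right, inner_smul_right, real_inner_self_eq_norm_sq, H.ha, ← hb]; ring
  have hbl : |b| ≤ l := by
    refine (abs_real_inner_le_norm a z).trans ?_
    rw [H.ha, one_mul]; exact hz
  have hzeq : z = b • a + v := by rw [hv]; abel
  have hnz : ∀ t ∈ Icc (0 : ℝ) 1, ‖b • a + t • v‖ ≤ l := by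
    intro t ht
    refine le_trans ?_ hz
    have h1 : ‖b • a + t • v‖ ^ 2 ≤ ‖z‖ ^ 2 := by
      have h2 : ∀ s : ℝ, ‖b • a + s • v‖ ^ 2 = b ^ 2 + s ^ 2 * ‖v‖ ^ 2 := by
        intro s
        rw [@norm_add_sq_real, real_inner_smul_left, real_inner_smul_right, hav, norm_smul,
          norm_smul, H.ha, mul_one, mul_pow, Real.norm_eq_abs, Real.norm_eq_abs, sq_abs, sq_abs]
        ring
      have h3 := h2 1
      rw [one_smul, ← hzeq] at h3
      rw [h2 t, h3]
      have : t ^ 2 ≤ 1 := by nlinarith [ht.1, ht.2]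
      nlinarith [sq_nonneg ‖v‖]
    exact (sq_le_sq₀ (norm_nonneg _) (norm_nonneg _)).1 h1
  have hnv : ‖v‖ ≤ l := by
    refine le_trans ?_ hz
    have h1 : ‖v‖ ^ 2 ≤ ‖z‖ ^ 2 := by
      have h3 : ‖z‖ ^ 2 = b ^ 2 + ‖v‖ ^ 2 := by
        nth_rewrite 1 [hzeq]
        rw [@norm_add_sq_real, real_inner_smul_left, hav, norm_smul, H.ha, mul_one,
          Real.norm_eq_abs, sq_abs]
        ring
      rw [h3]; nlinarith [sq_nonneg b]
    exact (sq_le_sq₀ (norm_nonneg _) (norm_nonneg _)).1 h1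
  have e1 := mol_orth H K (w := b • a) hav fun t ht => cb_sub (hnz t ht) hl
  rw [← hzeq] at e1
  have e2 := mol_axis H K (b := b) (by linarith)
  have e3 := mol_sub_le H K hσ (w := z) (cb_sub hz hl)
  have e4 := mol_sub_le H K hσ (w := 0) (cb_sub (by rw [norm_zero]; exact hl0) hl)
  have h5 : 0 ≤ τ * M0 + M * I1 :=
    add_nonneg (mul_nonneg H.hτ.le K.hM0) (mul_nonneg K.hM hI1n)
  have e5 : M0 * ‖v‖ * I1 ≤ M0 * l * I1 :=
    mul_le_mul_of_nonneg_right (mul_le_mul_of_nonneg_left hnv K.hM0) hI1n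
  have e6 : |b| * (|b| * (τ * M0 + M * I1)) ≤ l * (l * (τ * M0 + M * I1)) :=
    mul_le_mul hbl (mul_le_mul_of_nonneg_right hbl h5) (mul_nonneg (abs_nonneg _) h5) hl0
  set β := mol ρ (fun x => fderiv ℝ R x a) 0 with hβ
  have h7 : R z - R 0 - β * b = (mol ρ R 0 - R 0) - (mol ρ R z - R z) +
      (mol ρ R z - mol ρ R (b • a)) + (mol ρ R (b • a) - mol ρ R 0 - b * β) := by ring
  rw [h7]
  have t1 := abs_add_le ((mol ρ R 0 - R 0) - (mol ρ R z - R z) +
      (mol ρ R z - mol ρ R (b • a))) (mol ρ R (b • a) - mol ρ R 0 - b * β)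
  have t2 := abs_add_le ((mol ρ R 0 - R 0) - (mol ρ R z - R z)) (mol ρ R z - mol ρ R (b • a))
  have t3 := abs_sub (mol ρ R 0 - R 0) (mol ρ R z - R z)
  linarith

end

end Crest.Agent.R246.L5x579
end

-- ▼ part R246/MSL5_579

/-!
# R246-F (helper579): Lemma L5 (`StL5`): the slope is close to `±1`, conclusion
-/

set_option autoImplicit false
set_option linter.unusedSectionVars false

namespace Crest.Agent.R246.L5x579

open MeasureTheory Metric Set InnerProductSpace Filter Topology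
open scoped RealInnerProductSpace Gradient
open Crest.Agent.R246.MS852

section
variable {E : Type*} [NormedAddCommGroup E] [InnerProductSpace ℝ E] [FiniteDimensional ℝ E]
  [MeasurableSpace E] [BorelSpace E]

variable {a : E} {L τ : ℝ} {R : E → ℝ}

/-- energy identity: the slope `β` satisfies `β² ≈ 1` -/
theorem slope_sq (H : HypL5 a L τ R) {ζ : E → ℝ} (hζ : ContDiff ℝ 1 ζ) {l : ℝ} (hl : l < L)
    (hs : tsupport ζ ⊆ closedBall 0 l) (h0 : ∀ x, 0 ≤ ζ x) (h1 : ∀ x, ζ x ≤ 1) {β κ : ℝ}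
    (hβ : |β| ≤ 2)
    (hc : ∀ x ∈ closedBall (0 : E) l, |R x - R 0 - β * ⟪a, x⟫_ℝ| ≤ κ) (hκ0 : 0 ≤ κ) :
    |1 - β ^ 2| * (∫ x, ζ x) ≤ τ + κ * (τ + 4 * ∫ x, ‖fderiv ℝ ζ x‖) := by
  have hcs := hcs_of_tsupport hs
  set w : E → ℝ := fun x => R x - R 0 - β * ⟪a, x⟫_ℝ with hw
  have hlin : ContDiff ℝ 1 fun x : E => ⟪a, x⟫_ℝ := contDiff_const.inner ℝ contDiff_id
  have hwc : ContDiff ℝ 1 w := (H.cR.sub contDiff_const).sub (contDiff_const.mul hlin)
  have hsub : closedBall (0 : E) l ⊆ ball 0 L := closedBall_subset_ball hl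
  have hz0 : ∀ x, x ∉ closedBall (0 : E) l → ζ x = 0 := fun x hx =>
    image_eq_zero_of_notMem_tsupport fun h => hx (hs h)
  have hdz0 : ∀ x, x ∉ closedBall (0 : E) l → fderiv ℝ ζ x = 0 := by
    intro x hx
    have h2 : ζ =ᶠ[𝓝 x] fun _ => 0 := by
      filter_upwards [isClosed_closedBall.isOpen_compl.mem_nhds hx] with z hz
      exact hz0 z hz
    rw [h2.fderiv_eq]; simp
  have hfw : ∀ x v, fderiv ℝ w x v = fderiv ℝ R x v - β * ⟪a, v⟫_ℝ := by
    intro x v
    have e1 : HasFDerivAt (fun x : E => ⟪a, x⟫_ℝ) (innerSL ℝ a) x := (innerSL ℝ a).hasFDerivAt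
    have e2 := ((H.cR.differentiable one_ne_zero x).hasFDerivAt.sub_const (R 0)).sub
      (e1.const_mul β)
    have e3 : HasFDerivAt w (fderiv ℝ R x - β • innerSL ℝ a) x := e2
    rw [e3.fderiv]; simp
  -- the test function
  have hφc : ContDiff ℝ 1 fun x => ζ x * w x := hζ.mul hwc
  have hφs : tsupport (fun x => ζ x * w x) ⊆ ball (0 : E) L :=
    ((closure_mono (Function.support_mul_subset_left ζ w)).trans hs).trans hsub
  have hfφ : ∀ x v, fderiv ℝ (fun x => ζ x * w x) x v = ζ x * fderiv ℝ w x v + w x * fderiv ℝ ζ x v := by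
    intro x v
    rw [fderiv_fun_mul (hζ.differentiable one_ne_zero x) (hwc.differentiable one_ne_zero x)]
    simp
  have hweak := H.weak (fun x => ζ x * w x) hφc hφs κ fun x => by
    by_cases hx : x ∈ closedBall (0 : E) l
    · rw [abs_mul, abs_of_nonneg (h0 x)]
      have := hc x hx
      exact (mul_le_mul (h1 x) this (abs_nonneg _) zero_le_one).trans (by rw [one_mul])
    · rw [hz0 x hx, zero_mul, abs_zero]; exact hκ0
  have hcg := continuous_grad H.cR
  have hcζ := hζ.continuous_fderiv one_ne_zero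
  -- integrability of continuous functions vanishing outside of `closedBall 0 l`
  have hint : ∀ f : E → ℝ, Continuous f → (∀ x, x ∉ closedBall (0 : E) l → f x = 0) →
      Integrable f := fun f hf hf0 =>
    hf.integrable_of_hasCompactSupport (HasCompactSupport.intro (isCompact_closedBall 0 l) hf0)
  have cA : Continuous fun x => ζ x * ‖∇ R x‖ ^ 2 := hζ.continuous.mul (hcg.norm.pow 2)
  have cB : Continuous fun x => ζ x * fderiv ℝ R x a :=
    hζ.continuous.mul (continuous_fderiv_apply' H.cR a)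
  have cC : Continuous fun x => w x * fderiv ℝ ζ x (∇ R x) :=
    hwc.continuous.mul (hcζ.clm_apply hcg)
  have cD : Continuous fun x => w x * fderiv ℝ ζ x a :=
    hwc.continuous.mul (continuous_fderiv_apply' hζ a)
  have iA := hint _ cA fun x hx => by rw [hz0 x hx, zero_mul]
  have iB := hint _ cB fun x hx => by rw [hz0 x hx, zero_mul]
  have iC := hint _ cC fun x hx => by rw [hdz0 x hx]; simp
  have iD := hint _ cD fun x hx => by rw [hdz0 x hx]; simp
  have iZ := hint _ hζ.continuous hz0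
  have iN := hint (fun x => ‖fderiv ℝ ζ x‖) hcζ.norm fun x hx => by rw [hdz0 x hx, norm_zero]
  -- first identity
  have id1 : ∫ x, fderiv ℝ (fun x => ζ x * w x) x (∇ R x) =
      (∫ x, ζ x * ‖∇ R x‖ ^ 2) - β * (∫ x, ζ x * fderiv ℝ R x a) +
        ∫ x, w x * fderiv ℝ ζ x (∇ R x) := by
    have iAB : Integrable (fun x => ζ x * ‖∇ R x‖ ^ 2 - β * (ζ x * fderiv ℝ R x a)) :=
      iA.sub (iB.const_mul β)
    rw [← integral_const_mul, ← integral_sub iA (iB.const_mul β), ← integral_add iAB iC]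
    refine integral_congr_ae (Eventually.of_forall fun x => ?_)
    show fderiv ℝ (fun x => ζ x * w x) x (∇ R x) =
      ζ x * ‖∇ R x‖ ^ 2 - β * (ζ x * fderiv ℝ R x a) + w x * fderiv ℝ ζ x (∇ R x)
    rw [hfφ, hfw, fderiv_grad_self, ← real_inner_comm, ← grad_eq]; ring
  -- second identity
  have id2 : ∫ x, ζ x * fderiv ℝ R x a = β * (∫ x, ζ x) - ∫ x, w x * fderiv ℝ ζ x a := by
    have e1 := ibp hwc hζ hcs a
    have e2 : ∫ x, fderiv ℝ w x a * ζ x = (∫ x, ζ x * fderiv ℝ R x a) - β * ∫ x, ζ x := by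
      rw [← integral_const_mul, ← integral_sub iB (iZ.const_mul β)]
      refine integral_congr_ae (Eventually.of_forall fun x => ?_)
      show fderiv ℝ w x a * ζ x = ζ x * fderiv ℝ R x a - β * ζ x
      rw [hfw, real_inner_self_eq_norm_sq, H.ha]; ring
    rw [e2] at e1; linarith
  -- estimates
  have bC : |∫ x, w x * fderiv ℝ ζ x (∇ R x)| ≤ (2 * κ) * ∫ x, ‖fderiv ℝ ζ x‖ := by
    rw [← integral_const_mul]
    refine abs_integral_le_integral_abs.trans (integral_mono iC.abs (iN.const_mul _) fun x => ?_)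
    show |w x * fderiv ℝ ζ x (∇ R x)| ≤ 2 * κ * ‖fderiv ℝ ζ x‖
    by_cases hx : x ∈ closedBall (0 : E) l
    · rw [abs_mul]
      have e1 := hc x hx
      have e2 : |fderiv ℝ ζ x (∇ R x)| ≤ ‖fderiv ℝ ζ x‖ * ‖∇ R x‖ := by
        rw [← Real.norm_eq_abs]; exact ContinuousLinearMap.le_opNorm _ _
      have e3 : ‖∇ R x‖ ≤ 2 := by
        have := H.lip x (hsub hx); have := H.hτ1
        nlinarith [norm_nonneg (∇ R x)]
      calc |w x| * |fderiv ℝ ζ x (∇ R x)| ≤ κ * (‖fderiv ℝ ζ x‖ * 2) :=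
            mul_le_mul e1 (e2.trans (mul_le_mul_of_nonneg_left e3 (norm_nonneg _)))
              (abs_nonneg _) hκ0
        _ = 2 * κ * ‖fderiv ℝ ζ x‖ := by ring
    · rw [hdz0 x hx]; simp
  have bD : |∫ x, w x * fderiv ℝ ζ x a| ≤ κ * ∫ x, ‖fderiv ℝ ζ x‖ := by
    rw [← integral_const_mul]
    refine abs_integral_le_integral_abs.trans (integral_mono iD.abs (iN.const_mul _) fun x => ?_)
    show |w x * fderiv ℝ ζ x a| ≤ κ * ‖fderiv ℝ ζ x‖
    by_cases hx : x ∈ closedBall (0 : E) l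
    · rw [abs_mul]
      have e1 := hc x hx
      have e2 : |fderiv ℝ ζ x a| ≤ ‖fderiv ℝ ζ x‖ * ‖a‖ := by
        rw [← Real.norm_eq_abs]; exact ContinuousLinearMap.le_opNorm _ _
      rw [H.ha, mul_one] at e2
      exact mul_le_mul e1 e2 (abs_nonneg _) hκ0
    · rw [hdz0 x hx]; simp
  have bU : |∫ x, ζ x * (1 - ‖∇ R x‖ ^ 2)| ≤ τ := by
    have e1 := abs_int_le (L := L) (C := 1) (f := fun x => ζ x * (1 - ‖∇ R x‖ ^ 2))
      (G := fun x => |1 - ‖∇ R x‖ ^ 2|)
      (hζ.continuous.mul (continuous_const.sub (hcg.norm.pow 2)))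
      (continuous_const.sub (hcg.norm.pow 2)).abs
      (fun x hx => by rw [hz0 x fun h => hx (hsub h), zero_mul])
      (fun x _ => by
        rw [abs_mul, abs_of_nonneg (h0 x)]
        exact mul_le_mul_of_nonneg_right (h1 x) (abs_nonneg _))
    rw [one_mul] at e1
    exact e1.trans H.unit
  have id3 : ∫ x, ζ x * (1 - ‖∇ R x‖ ^ 2) = (∫ x, ζ x) - ∫ x, ζ x * ‖∇ R x‖ ^ 2 := by
    rw [← integral_sub iZ iA]
    refine integral_congr_ae (Eventually.of_forall fun x => ?_)
    show ζ x * (1 - ‖∇ R x‖ ^ 2) = ζ x - ζ x * ‖∇ R x‖ ^ 2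
    ring
  have hZ : 0 ≤ ∫ x, ζ x := integral_nonneg h0
  have hN : 0 ≤ ∫ x, ‖fderiv ℝ ζ x‖ := integral_nonneg fun x => norm_nonneg _
  set Z0 := ∫ x, ζ x
  set Z1 := ∫ x, ‖fderiv ℝ ζ x‖
  set IA := ∫ x, ζ x * ‖∇ R x‖ ^ 2
  set IB := ∫ x, ζ x * fderiv ℝ R x a
  set IC := ∫ x, w x * fderiv ℝ ζ x (∇ R x)
  set ID := ∫ x, w x * fderiv ℝ ζ x a
  rw [id1] at hweak
  rw [id3] at bU
  have key : (1 - β ^ 2) * Z0 = (Z0 - IA) + (IA - β * IB + IC) - IC - β * ID := by
    rw [id2]; ring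
  have bβ : |β * ID| ≤ 2 * (κ * Z1) := by
    rw [abs_mul]
    exact mul_le_mul hβ bD (abs_nonneg _) (by norm_num)
  have e9 : |1 - β ^ 2| * Z0 = |(1 - β ^ 2) * Z0| := by rw [abs_mul, abs_of_nonneg hZ]
  rw [e9, key]
  have t1 := abs_sub ((Z0 - IA) + (IA - β * IB + IC) - IC) (β * ID)
  have t2 := abs_sub ((Z0 - IA) + (IA - β * IB + IC)) IC
  have t3 := abs_add_le (Z0 - IA) (IA - β * IB + IC)
  nlinarith [mul_nonneg hκ0 hN]

theorem exists_sign {β e : ℝ} (h : |1 - β ^ 2| ≤ e) :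
    ∃ s : ℝ, (s = 1 ∨ s = -1) ∧ |β - s| ≤ e := by
  rcases le_total 0 β with hb | hb
  · refine ⟨1, Or.inl rfl, le_trans ?_ h⟩
    have h1 : 1 - β ^ 2 = (1 - β) * (1 + β) := by ring
    rw [h1, abs_mul, abs_sub_comm]
    have h2 : 1 ≤ |1 + β| := by rw [abs_of_nonneg (by linarith)]; linarith
    nlinarith [abs_nonneg (1 - β)]
  · refine ⟨-1, Or.inr rfl, le_trans ?_ h⟩
    have h1 : 1 - β ^ 2 = (β - -1) * (1 - β) := by ring
    rw [h1, abs_mul]
    have h2 : 1 ≤ |1 - β| := by rw [abs_of_nonneg (by linarith)]; linarith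
    nlinarith [abs_nonneg (β - -1)]

variable (E) in
/-- LEAF 5: Lemma L5, with `τ ≤ 1` -/
theorem stL5' (L ω : ℝ) (hL : 4 ≤ L) (hω : 0 < ω) : ∃ τ > 0, τ ≤ 1 ∧
    ∀ (a : E) (R : E → ℝ), HypL5 a L τ R → ∃ s : ℝ, (s = 1 ∨ s = -1) ∧
      ∀ z ∈ ball (0 : E) (L / 2), |R z - R 0 - s * ⟪a, z⟫_ℝ| ≤ ω := by
  -- the fixed cut-off
  let f : ContDiffBump (0 : E) := ⟨L / 4, L / 2, by linarith, by linarith⟩
  have hζ : ContDiff ℝ 1 f := f.contDiff
  have hζs : tsupport f ⊆ closedBall (0 : E) (L / 2) := by rw [f.tsupport_eq]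
  have hζ0 : ∀ x, 0 ≤ f x := fun x => f.nonneg
  have hζ1 : ∀ x, f x ≤ 1 := fun x => f.le_one
  have hZ0 : 0 < ∫ x, f x := f.integral_pos
  set Z0 := ∫ x, f x with hZ0d
  set Z1 := ∫ x, ‖fderiv ℝ f x‖ with hZ1d
  have hZ1 : 0 ≤ Z1 := integral_nonneg fun x => norm_nonneg _
  -- the small parameters
  set κ : ℝ := ω / (2 * (1 + L / 2 * (1 + 4 * Z1) / Z0)) with hκ
  have hκd : 0 < 1 + L / 2 * (1 + 4 * Z1) / Z0 := by positivity
  have hκ0 : 0 < κ := by rw [hκ]; positivity
  have hκe : κ * (1 + L / 2 * (1 + 4 * Z1) / Z0) = ω / 2 := by rw [hκ]; field_simp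
  set σ : ℝ := min 1 (κ / 8) with hσ
  have hσ0 : 0 < σ := lt_min one_pos (by positivity)
  have hσ1 : σ ≤ 1 := min_le_left _ _
  have hσκ : σ ≤ κ / 8 := min_le_right _ _
  obtain ⟨M0, M, ρ, K⟩ := exists_ker (E := E) hσ0
  have hM0 := K.hM0
  have hM := K.hM
  set V : ℝ := volume.real (ball (0 : E) L) with hV
  have hV0 : 0 ≤ V := measureReal_nonneg
  set Cc : ℝ := M0 * (L / 2) * (V + 1) + L / 2 * (L / 2 * (M0 + M * (V + 1))) with hCc
  have hCc0 : 0 ≤ Cc := by rw [hCc]; positivity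
  set t : ℝ := min 1 (min (κ / (2 * (Cc + 1))) (ω * Z0 / L)) with ht
  have ht0 : 0 < t := lt_min one_pos (lt_min (by positivity) (by positivity))
  have ht1 : t ≤ 1 := min_le_left _ _
  have ht2 : t ≤ κ / (2 * (Cc + 1)) := (min_le_right _ _).trans (min_le_left _ _)
  have ht3 : t ≤ ω * Z0 / L := (min_le_right _ _).trans (min_le_right _ _)
  have htt : t ^ 2 ≤ t := by nlinarith
  refine ⟨t ^ 2, by positivity, by linarith, fun a R H => ?_⟩
  have hsq : Real.sqrt (t ^ 2) = t := Real.sqrt_sq ht0.le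
  have hI := int_tg_le H
  rw [hsq] at hI
  set I1 := ∫ x in ball (0 : E) L, tg a R x with hI1
  have hI0 : 0 ≤ I1 := tg_int_nonneg
  set β := mol ρ (fun x => fderiv ℝ R x a) 0 with hβ
  have hβ2 : |β| ≤ 2 := abs_beta_le H K (closedBall_subset_ball (by linarith))
  have haff : ∀ x ∈ closedBall (0 : E) (L / 2), |R x - R 0 - β * ⟪a, x⟫_ℝ| ≤ κ := by
    intro x hx
    rw [mem_closedBall_zero_iff] at hx
    have h1 := affine_close H K hσ0.le (l := L / 2) (by linarith) (by linarith) hx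
    refine h1.trans ?_
    have h2 : M0 * (L / 2) * I1 ≤ M0 * (L / 2) * (t * (V + 1)) :=
      mul_le_mul_of_nonneg_left hI (by positivity)
    have h3 : L / 2 * (L / 2 * (t ^ 2 * M0 + M * I1)) ≤
        L / 2 * (L / 2 * (t * M0 + M * (t * (V + 1)))) := by
      have h4 : t ^ 2 * M0 ≤ t * M0 := mul_le_mul_of_nonneg_right htt hM0
      have h5 : M * I1 ≤ M * (t * (V + 1)) := mul_le_mul_of_nonneg_left hI hM
      have h6 : (0 : ℝ) ≤ L / 2 := by linarith
      exact mul_le_mul_of_nonneg_left (mul_le_mul_of_nonneg_left (by linarith) h6) h6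
    have h4 : M0 * (L / 2) * (t * (V + 1)) + L / 2 * (L / 2 * (t * M0 + M * (t * (V + 1))))
        = t * Cc := by rw [hCc]; ring
    have h5 : t * Cc ≤ κ / 2 := by
      have h6 : t * (2 * (Cc + 1)) ≤ κ := by
        rwa [le_div_iff₀ (by positivity)] at ht2
      nlinarith
    linarith
  have hs := slope_sq H hζ (l := L / 2) (by linarith) hζs hζ0 hζ1 hβ2 haff hκ0.le
  have hsl : |1 - β ^ 2| ≤ (t + κ * (1 + 4 * Z1)) / Z0 := by
    rw [le_div_iff₀ hZ0]
    refine hs.trans ?_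
    have h6 : κ * (t ^ 2 + 4 * Z1) ≤ κ * (1 + 4 * Z1) :=
      mul_le_mul_of_nonneg_left (by nlinarith) hκ0.le
    linarith
  obtain ⟨s, hs1, hs2⟩ := exists_sign hsl
  refine ⟨s, hs1, fun z hz => ?_⟩
  rw [mem_ball_zero_iff] at hz
  have h1 := haff z (by rw [mem_closedBall_zero_iff]; exact hz.le)
  have h2 : |⟪a, z⟫_ℝ| ≤ L / 2 := by
    refine (abs_real_inner_le_norm a z).trans ?_
    rw [H.ha, one_mul]; exact hz.le
  have h3 : R z - R 0 - s * ⟪a, z⟫_ℝ = (R z - R 0 - β * ⟪a, z⟫_ℝ) + (β - s) * ⟪a, z⟫_ℝ := by ring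
  rw [h3]
  refine (abs_add_le _ _).trans ?_
  rw [abs_mul]
  have h4 : |β - s| * |⟪a, z⟫_ℝ| ≤ (t + κ * (1 + 4 * Z1)) / Z0 * (L / 2) :=
    mul_le_mul hs2 h2 (abs_nonneg _) (by positivity)
  have h5 : (t + κ * (1 + 4 * Z1)) / Z0 * (L / 2) = t * L / (2 * Z0) + κ * (L / 2 * (1 + 4 * Z1) / Z0) := by
    field_simp
  have h6 : t * L / (2 * Z0) ≤ ω / 2 := by
    rw [le_div_iff₀ (by linarith)] at ht3
    rw [div_le_div_iff₀ (by positivity) (by positivity)]
    nlinarith
  nlinarith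


end

end Crest.Agent.R246.L5x579
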