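import Crest.Agent.R246.MSBasic_852

-- ▼ part R246/MSStat_852
section

/-!
# R246-F (helper852): stationarity for vector fields
-/

set_option autoImplicit false
set_option linter.unusedSectionVars false

namespace Crest.Agent.R246.MS852

open MeasureTheory Metric Set InnerProductSpace Filter Topology
open scoped RealInnerProductSpace Gradient

variable {E : Type*} [NormedAddCommGroup E] [InnerProductSpace ℝ E] [FiniteDimensional ℝ E]
  [MeasurableSpace E] [BorelSpace E] {a : E} {ε η : ℝ} {h r : E → ℝ}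

theorem isCompact_tsupport_of_ball {F : Type*} [NormedAddCommGroup F] {X : E → F} {R : ℝ}
    (hs : tsupport X ⊆ ball (0 : E) R) : IsCompact (tsupport X) :=
  Metric.isCompact_of_isClosed_isBounded (isClosed_tsupport X) (isBounded_ball.subset hs)

theorem fderiv_zero_of_notMem {F : Type*} [NormedAddCommGroup F] [NormedSpace ℝ F] {X : E → F}
    {x : E} (hx : x ∉ tsupport X) : fderiv ℝ X x = 0 := by
  have h0 : X =ᶠ[𝓝 x] fun _ => 0 := by
    have : (tsupport X)ᶜ ∈ 𝓝 x := (isClosed_tsupport X).isOpen_compl.mem_nhds hx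
    filter_upwards [this] with y hy
    exact image_eq_zero_of_notMem_tsupport hy
  rw [h0.fderiv_eq]; simp

/-- a continuous function vanishing off a compact set is integrable -/
theorem integrable_of_zero_off {f : E → ℝ} (hf : Continuous f) {K : Set E} (hK : IsCompact K)
    (h0 : ∀ x, x ∉ K → f x = 0) : Integrable f :=
  hf.integrable_of_hasCompactSupport (HasCompactSupport.intro hK h0)

/-- stationarity for vector fields -/
theorem Hyp.stat_vec (H : Hyp a ε η h r) {ι : Type*} [Fintype ι] (b : OrthonormalBasis ι ℝ E)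
    {X : E → E} (hX : ContDiff ℝ 1 X) (hs : tsupport X ⊆ ball (0 : E) 2) :
    ∫ x, (q ε h r x * ∑ i, ⟪b i, fderiv ℝ X x (b i)⟫_ℝ
        - S4 ε r x / ε * ⟪∇ r x, fderiv ℝ X x (∇ r x)⟫_ℝ) =
      - ∫ x, S4 ε r x / (2 * ε) * fderiv ℝ h x (X x) := by
  have hK := isCompact_tsupport_of_ball hs
  have hXd : ∀ x, DifferentiableAt ℝ X x := fun x => hX.differentiable one_ne_zero x
  have hcX := hX.continuous_fderiv one_ne_zero
  have hfd : ∀ i x v, fderiv ℝ (fun x => ⟪b i, X x⟫_ℝ) x v = ⟪b i, fderiv ℝ X x v⟫_ℝ := by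
    intro i x v
    have h1 : HasFDerivAt (fun x => ⟪b i, X x⟫_ℝ)
        ((innerSL ℝ (b i)).comp (fderiv ℝ X x)) x := by
      have := (innerSL ℝ (b i)).hasFDerivAt.comp x (hXd x).hasFDerivAt
      simpa [Function.comp_def] using this
    rw [h1.fderiv]; simp
  have hsub : ∀ i, tsupport (fun x => ⟪b i, X x⟫_ℝ) ⊆ tsupport X := by
    intro i
    apply closure_mono
    intro x hx
    rw [Function.mem_support] at hx ⊢
    intro h0
    exact hx (by simp only [h0, inner_zero_right])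
  have key : ∀ i, ∫ x, (q ε h r x * ⟪b i, fderiv ℝ X x (b i)⟫_ℝ
        - S4 ε r x / ε * fderiv ℝ r x (b i) * ⟪b i, fderiv ℝ X x (∇ r x)⟫_ℝ) =
      - ∫ x, S4 ε r x / (2 * ε) * fderiv ℝ h x (b i) * ⟪b i, X x⟫_ℝ := by
    intro i
    have := H.stat (fun x => ⟪b i, X x⟫_ℝ) (b i) (contDiff_const.inner ℝ hX)
      ((hsub i).trans hs)
    simpa only [hfd] using this
  have hcq := H.contq
  have hcS := continuous_S4 (ε := ε) H.cr.continuous
  have hcg := continuous_grad H.cr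
  have int1 : ∀ i, Integrable (fun x => q ε h r x * ⟪b i, fderiv ℝ X x (b i)⟫_ℝ
        - S4 ε r x / ε * fderiv ℝ r x (b i) * ⟪b i, fderiv ℝ X x (∇ r x)⟫_ℝ) := by
    intro i
    apply integrable_of_zero_off _ hK
    · intro x hx
      simp [fderiv_zero_of_notMem hx]
    · refine (hcq.mul (continuous_const.inner (hcX.clm_apply continuous_const))).sub
        (((hcS.div_const _).mul (continuous_fderiv_apply' H.cr _)).mul
          (continuous_const.inner (hcX.clm_apply hcg)))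
  have int2 : ∀ i, Integrable
      (fun x => S4 ε r x / (2 * ε) * fderiv ℝ h x (b i) * ⟪b i, X x⟫_ℝ) := by
    intro i
    apply integrable_of_zero_off _ hK
    · intro x hx
      simp [image_eq_zero_of_notMem_tsupport hx]
    · exact ((hcS.div_const _).mul (continuous_fderiv_apply' H.ch _)).mul
        (continuous_const.inner hX.continuous)
  have hsum := Finset.sum_congr rfl (fun i (_ : i ∈ Finset.univ) => key i)
  rw [← integral_finsetSum _ (fun i _ => int1 i), Finset.sum_neg_distrib,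
    ← integral_finsetSum _ (fun i _ => int2 i)] at hsum
  have e1 : ∀ x, ∑ i, (q ε h r x * ⟪b i, fderiv ℝ X x (b i)⟫_ℝ
        - S4 ε r x / ε * fderiv ℝ r x (b i) * ⟪b i, fderiv ℝ X x (∇ r x)⟫_ℝ) =
      q ε h r x * ∑ i, ⟪b i, fderiv ℝ X x (b i)⟫_ℝ
        - S4 ε r x / ε * ⟪∇ r x, fderiv ℝ X x (∇ r x)⟫_ℝ := by
    intro x
    rw [Finset.sum_sub_distrib, ← Finset.mul_sum]
    congr 1
    simp_rw [mul_assoc]
    rw [← Finset.mul_sum, ← b.sum_inner_mul_inner (∇ r x) (fderiv ℝ X x (∇ r x))]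
    simp_rw [grad_eq]
  have e2 : ∀ x, ∑ i, S4 ε r x / (2 * ε) * fderiv ℝ h x (b i) * ⟪b i, X x⟫_ℝ =
      S4 ε r x / (2 * ε) * fderiv ℝ h x (X x) := by
    intro x
    simp_rw [mul_assoc]
    rw [← Finset.mul_sum, grad_eq h x (X x), ← b.sum_inner_mul_inner (∇ h x) (X x)]
    simp_rw [grad_eq]
  simp_rw [e1, e2] at hsum
  exact hsum

/-- trace of `v ↦ c ⟨u,v⟩ w + s v` -/
theorem sum_inner_field {ι : Type*} [Fintype ι] (b : OrthonormalBasis ι ℝ E) (u w : E) (c s : ℝ) :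
    ∑ i, ⟪b i, (c * ⟪u, b i⟫_ℝ) • w + s • b i⟫_ℝ = c * ⟪u, w⟫_ℝ + s * Fintype.card ι := by
  simp_rw [inner_add_right, inner_smul_right]
  rw [Finset.sum_add_distrib]
  congr 1
  · rw [← b.sum_inner_mul_inner u w, Finset.mul_sum]
    exact Finset.sum_congr rfl fun i _ => by ring
  · have : ∀ i, ⟪b i, b i⟫_ℝ = 1 := fun i => by
      rw [real_inner_self_eq_norm_sq, b.norm_eq_one]; norm_num
    simp only [this, mul_one, Finset.sum_const, Finset.card_univ, nsmul_eq_mul]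
    ring

end Crest.Agent.R246.MS852
end

-- ▼ part R246/MSMono_852
section

/-!
# R246-F (helper852): monotonicity formula and energy growth
-/

set_option autoImplicit false
set_option linter.unusedSectionVars false

namespace Crest.Agent.R246.MS852

open MeasureTheory Metric Set InnerProductSpace Filter Topology
open scoped RealInnerProductSpace Gradient

/-- derivative in `ρ` of `∫ G psi(f/ρ²)` -/
theorem hasDerivAt_psi_integral {α : Type*} [MeasurableSpace α] {μ : Measure α} {G f : α → ℝ}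
    (hG : Integrable G μ) (hf : Measurable f) (hf0 : ∀ x, 0 ≤ f x) {ρ : ℝ} (hρ : 0 < ρ) :
    HasDerivAt (fun s => ∫ x, G x * psi (f x / s ^ 2) ∂μ)
      (∫ x, G x * (dpsi (f x / ρ ^ 2) * (-2 * f x / ρ ^ 3)) ∂μ) ρ := by
  have hs : Ioi (ρ / 2) ∈ 𝓝 ρ := Ioi_mem_nhds (by linarith)
  have hpm : ∀ s : ℝ, Measurable fun x => psi (f x / s ^ 2) := fun s =>
    continuous_psi.measurable.comp (hf.div_const _)
  have key := hasDerivAt_integral_of_dominated_loc_of_deriv_le (μ := μ) (𝕜 := ℝ)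
    (F := fun s x => G x * psi (f x / s ^ 2))
    (F' := fun s x => G x * (dpsi (f x / s ^ 2) * (-2 * f x / s ^ 3)))
    (bound := fun x => ‖G x‖ * (2 / ρ)) (x₀ := ρ) hs
    (Eventually.of_forall fun s => hG.aestronglyMeasurable.mul (hpm s).aestronglyMeasurable)
    ?_ ?_ ?_ (hG.norm.mul_const _) ?_
  · exact key.2
  · refine Integrable.mono hG (hG.aestronglyMeasurable.mul (hpm ρ).aestronglyMeasurable) ?_
    refine Eventually.of_forall fun x => ?_
    rw [norm_mul]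
    have h1 : ‖psi (f x / ρ ^ 2)‖ ≤ 1 := by
      rw [Real.norm_eq_abs, abs_of_nonneg (psi_nonneg _)]
      exact psi_le_one (div_nonneg (hf0 x) (by positivity))
    calc ‖G x‖ * ‖psi (f x / ρ ^ 2)‖ ≤ ‖G x‖ * 1 := by gcongr
      _ = _ := mul_one _
  · refine hG.aestronglyMeasurable.mul (Measurable.aestronglyMeasurable ?_)
    exact (continuous_dpsi.measurable.comp (hf.div_const _)).mul
      ((hf.const_mul _).div_const _)
  · refine Eventually.of_forall fun x s hs' => ?_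
    have hs1 : ρ / 2 < s := hs'
    have hs0 : 0 < s := by linarith
    rw [norm_mul]
    apply mul_le_mul_of_nonneg_left _ (norm_nonneg _)
    have ht : 0 ≤ f x / s ^ 2 := div_nonneg (hf0 x) (by positivity)
    have e1 : dpsi (f x / s ^ 2) * (-2 * f x / s ^ 3)
        = -(f x / s ^ 2 * dpsi (f x / s ^ 2)) * (2 / s) := by
      field_simp
    rw [e1, Real.norm_eq_abs, abs_of_nonneg (mul_nonneg (mul_dpsi_nonneg ht) (by positivity))]
    have h2 : 2 / s ≤ 4 / ρ := by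
      rw [div_le_div_iff₀ hs0 hρ]; linarith
    calc _ ≤ 1 / 2 * (4 / ρ) := mul_le_mul (mul_dpsi_bound ht) h2 (by positivity) (by norm_num)
      _ = _ := by ring
  · refine Eventually.of_forall fun x s hs' => ?_
    have hs1 : ρ / 2 < s := hs'
    have hs0 : 0 < s := by linarith
    apply HasDerivAt.const_mul
    have h1 : HasDerivAt (fun s : ℝ => f x / s ^ 2) (-2 * f x / s ^ 3) s := by
      have h2 : HasDerivAt (fun s : ℝ => s ^ 2) (2 * s) s := by
        simpa using hasDerivAt_pow 2 s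
      have h3 := (hasDerivAt_const s (f x)).fun_div h2 (by positivity)
      refine h3.congr_deriv ?_
      field_simp
      ring
    exact (hasDerivAt_psi _).comp s h1

section
variable {E : Type*} [NormedAddCommGroup E] [InnerProductSpace ℝ E] [FiniteDimensional ℝ E]
  [MeasurableSpace E] [BorelSpace E] {a : E} {ε η : ℝ} {h r : E → ℝ}

theorem hasFDerivAt_normsq (p : E) (ρ : ℝ) (x : E) :
    HasFDerivAt (fun x => ‖x - p‖ ^ 2 / ρ ^ 2) ((2 / ρ ^ 2) • innerSL ℝ (x - p)) x := by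
  have h1 : HasFDerivAt (fun x : E => x - p) (ContinuousLinearMap.id ℝ E) x :=
    (hasFDerivAt_id x).sub_const p
  have h2 := h1.norm_sq
  have h3 := h2.mul_const (1 / ρ ^ 2)
  refine (h3.congr_fderiv ?_).congr_of_eventuallyEq (Eventually.of_forall fun y => ?_)
  · ext v
    simp
    ring
  · simp only [mul_one_div]

theorem hasFDerivAt_psin (p : E) (ρ : ℝ) (x : E) :
    HasFDerivAt (fun x => psi (‖x - p‖ ^ 2 / ρ ^ 2))
      (dpsi (‖x - p‖ ^ 2 / ρ ^ 2) • ((2 / ρ ^ 2) • innerSL ℝ (x - p))) x :=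
  (hasDerivAt_psi _).comp_hasFDerivAt x (hasFDerivAt_normsq p ρ x)

theorem contDiff_psin (p : E) (ρ : ℝ) : ContDiff ℝ 1 (fun x : E => psi (‖x - p‖ ^ 2 / ρ ^ 2)) :=
  contDiff_psi.comp (((contDiff_norm_sq ℝ).comp (contDiff_id.sub contDiff_const)).div_const _)

theorem psin_eq_zero {p x : E} {ρ : ℝ} (hρ : 0 < ρ) (hx : x ∉ ball p ρ) :
    psi (‖x - p‖ ^ 2 / ρ ^ 2) = 0 := by
  apply psi_of_one_le
  rw [one_le_div (by positivity)]
  rw [mem_ball, dist_eq_norm, not_lt] at hx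
  exact pow_le_pow_left₀ hρ.le hx 2

theorem dpsin_eq_zero {p x : E} {ρ : ℝ} (hρ : 0 < ρ) (hx : x ∉ ball p ρ) :
    dpsi (‖x - p‖ ^ 2 / ρ ^ 2) = 0 := by
  apply dpsi_of_one_le
  rw [one_le_div (by positivity)]
  rw [mem_ball, dist_eq_norm, not_lt] at hx
  exact pow_le_pow_left₀ hρ.le hx 2

theorem tsupport_psin_smul {p : E} {ρ : ℝ} (hρ : 0 < ρ) (V : E → E) :
    tsupport (fun x => psi (‖x - p‖ ^ 2 / ρ ^ 2) • V x) ⊆ closedBall p ρ := by
  apply closure_minimal _ isClosed_closedBall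
  intro x hx
  by_contra hx'
  apply hx
  have : x ∉ ball p ρ := fun h' => hx' (ball_subset_closedBall h')
  simp only [psin_eq_zero hρ this, zero_smul]

/-- the radial inequality `∫ q (-2 t ψ'(t)) ≥ (d - 2ηρ) ∫ q ψ(t)`, `t = |x-p|²/ρ²` -/
theorem Hyp.radial (H : Hyp a ε η h r) {d : ℕ} (hd : Module.finrank ℝ E = d + 1) {p : E} {ρ : ℝ}
    (hρ : 0 < ρ) (hp : closedBall p ρ ⊆ ball (0 : E) 2) :
    ((d : ℝ) - 2 * η * ρ) * J ε h r p ρ ≤
      ∫ x in ball (0 : E) 2, q ε h r x *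
        (-(2 * (‖x - p‖ ^ 2 / ρ ^ 2) * dpsi (‖x - p‖ ^ 2 / ρ ^ 2))) := by
  set b := stdOrthonormalBasis ℝ E with hb
  set X : E → E := fun x => psi (‖x - p‖ ^ 2 / ρ ^ 2) • (x - p) with hX
  have hsX : tsupport X ⊆ closedBall p ρ := tsupport_psin_smul hρ _
  have hcX : ContDiff ℝ 1 X := (contDiff_psin p ρ).smul (contDiff_id.sub contDiff_const)
  have hfd : ∀ x v, fderiv ℝ X x v = ((dpsi (‖x - p‖ ^ 2 / ρ ^ 2) * (2 / ρ ^ 2)) *
      ⟪x - p, v⟫_ℝ) • (x - p) + psi (‖x - p‖ ^ 2 / ρ ^ 2) • v := by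
    intro x v
    have h1 : HasFDerivAt (fun x : E => x - p) (ContinuousLinearMap.id ℝ E) x :=
      (hasFDerivAt_id x).sub_const p
    have h2 := (hasFDerivAt_psin p ρ x).fun_smul h1
    rw [hX, h2.fderiv]
    simp only [add_apply, FunLike.coe_smul, Pi.smul_apply, ContinuousLinearMap.smulRight_apply,
      innerSL_apply_apply, smul_eq_mul, ContinuousLinearMap.id_apply]
    rw [add_comm, mul_assoc]
  have hst := H.stat_vec b hcX (hsX.trans hp)
  have htr : ∀ x, ∑ i, ⟪b i, fderiv ℝ X x (b i)⟫_ℝ =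
      (dpsi (‖x - p‖ ^ 2 / ρ ^ 2) * (2 / ρ ^ 2)) * ‖x - p‖ ^ 2
        + psi (‖x - p‖ ^ 2 / ρ ^ 2) * (d + 1) := by
    intro x
    simp_rw [hfd]
    rw [sum_inner_field b (x - p) (x - p) _ _, real_inner_self_eq_norm_sq]
    simp [hd]
  have hin : ∀ x, ⟪∇ r x, fderiv ℝ X x (∇ r x)⟫_ℝ =
      dpsi (‖x - p‖ ^ 2 / ρ ^ 2) * (2 / ρ ^ 2) * ⟪x - p, ∇ r x⟫_ℝ ^ 2
        + psi (‖x - p‖ ^ 2 / ρ ^ 2) * ‖∇ r x‖ ^ 2 := by
    intro x
    rw [hfd, inner_add_right, inner_smul_right, inner_smul_right, real_inner_self_eq_norm_sq,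
      real_inner_comm (x - p) (∇ r x)]
    ring
  have hK := isCompact_tsupport_of_ball (hsX.trans hp)
  have hKc : IsCompact (closedBall p ρ) := isCompact_closedBall p ρ
  have hcq := H.contq
  have hcS := continuous_S4 (ε := ε) H.cr.continuous
  have hcg := continuous_grad H.cr
  have hct : Continuous fun x : E => ‖x - p‖ ^ 2 / ρ ^ 2 := by fun_prop
  have hcpsi : Continuous fun x : E => psi (‖x - p‖ ^ 2 / ρ ^ 2) := continuous_psi.comp hct
  have hcdpsi : Continuous fun x : E => dpsi (‖x - p‖ ^ 2 / ρ ^ 2) := continuous_dpsi.comp hct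
  have hoff : ∀ {x}, x ∉ closedBall p ρ → x ∉ ball p ρ := fun h1 h2 =>
    h1 (ball_subset_closedBall h2)
  -- the four integrands
  set A : E → ℝ := fun x => q ε h r x * ∑ i, ⟪b i, fderiv ℝ X x (b i)⟫_ℝ
        - S4 ε r x / ε * ⟪∇ r x, fderiv ℝ X x (∇ r x)⟫_ℝ with hA
  set B : E → ℝ := fun x => S4 ε r x / (2 * ε) * fderiv ℝ h x (X x) with hB
  have hAi : Integrable A := by
    apply integrable_of_zero_off _ hKc
    · intro x hx
      rw [hA]
      simp only [htr, hin, psin_eq_zero hρ (hoff hx), dpsin_eq_zero hρ (hoff hx)]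
      ring
    · rw [hA]
      simp only [htr, hin]
      fun_prop
  have hBi : Integrable B := by
    apply integrable_of_zero_off _ hKc
    · intro x hx
      simp only [hB, hX, psin_eq_zero hρ (hoff hx), zero_smul, map_zero, mul_zero]
    · have h1 := (H.ch.continuous_fderiv one_ne_zero).clm_apply hcX.continuous
      exact (hcS.div_const _).mul h1
  have hF1 : Integrable (fun x => q ε h r x *
        (-(2 * (‖x - p‖ ^ 2 / ρ ^ 2) * dpsi (‖x - p‖ ^ 2 / ρ ^ 2)))) := by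
    apply integrable_of_zero_off _ hKc
    · intro x hx
      rw [dpsin_eq_zero hρ (hoff hx)]; ring
    · fun_prop
  have hF2 : Integrable (fun x => q ε h r x * psi (‖x - p‖ ^ 2 / ρ ^ 2)) := by
    apply integrable_of_zero_off _ hKc
    · intro x hx
      rw [psin_eq_zero hρ (hoff hx)]; ring
    · fun_prop
  have hzero : ∫ x, (-A x - B x) = 0 := by
    have h1 : Integrable fun x => -A x := hAi.neg
    rw [integral_sub h1 hBi, integral_neg]
    have : ∫ x, A x = -∫ x, B x := hst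
    rw [this]; ring
  have hout : ∀ {x}, x ∉ ball (0 : E) 2 → x ∉ closedBall p ρ := fun h1 h2 => h1 (hp h2)
  have eJ : J ε h r p ρ = ∫ x, q ε h r x * psi (‖x - p‖ ^ 2 / ρ ^ 2) := by
    unfold J
    apply setIntegral_eq_integral_of_forall_compl_eq_zero
    intro x hx
    rw [psin_eq_zero hρ (hoff (hout hx))]; ring
  have eJ' : ∫ x in ball (0 : E) 2, q ε h r x *
        (-(2 * (‖x - p‖ ^ 2 / ρ ^ 2) * dpsi (‖x - p‖ ^ 2 / ρ ^ 2))) =
      ∫ x, q ε h r x * (-(2 * (‖x - p‖ ^ 2 / ρ ^ 2) * dpsi (‖x - p‖ ^ 2 / ρ ^ 2))) := by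
    apply setIntegral_eq_integral_of_forall_compl_eq_zero
    intro x hx
    rw [dpsin_eq_zero hρ (hoff (hout hx))]; ring
  rw [eJ, eJ', ← integral_const_mul, ← sub_nonneg, ← integral_sub hF1 (hF2.const_mul _), ← hzero]
  apply integral_mono (hAi.neg.sub hBi) (hF1.sub (hF2.const_mul _))
  intro x
  by_cases hx : x ∈ closedBall p ρ
  · have hx2 : x ∈ ball (0 : E) 2 := hp hx
    have hxn : ‖x - p‖ ≤ ρ := by rwa [mem_closedBall, dist_eq_norm] at hx
    have q0 := H.q_nonneg hx2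
    have p0 := psi_nonneg (‖x - p‖ ^ 2 / ρ ^ 2)
    have g1 := H.Sg_le_q hx2
    have s1 := H.S_le_q hx2
    have S0 : 0 ≤ S4 ε r x / ε := div_nonneg (S4_nonneg ε r x) H.hε.le
    have S0' : 0 ≤ S4 ε r x / (2 * ε) := div_nonneg (S4_nonneg ε r x) (by linarith [H.hε])
    have d0 := dpsi_nonpos (‖x - p‖ ^ 2 / ρ ^ 2)
    have hBx : -(2 * η * ρ * (q ε h r x * psi (‖x - p‖ ^ 2 / ρ ^ 2))) ≤ B x := by
      have e1 : B x = psi (‖x - p‖ ^ 2 / ρ ^ 2) * (S4 ε r x / (2 * ε) * fderiv ℝ h x (x - p)) := by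
        simp only [hB, hX, map_smul, smul_eq_mul]; ring
      have e2 : |fderiv ℝ h x (x - p)| ≤ η * ρ := by
        calc |fderiv ℝ h x (x - p)| ≤ ‖fderiv ℝ h x‖ * ‖x - p‖ := by
              rw [← Real.norm_eq_abs]; exact (fderiv ℝ h x).le_opNorm _
          _ ≤ η * ρ := mul_le_mul (H.dh x hx2) hxn (norm_nonneg _) H.hη0.le
      have e3 : |S4 ε r x / (2 * ε) * fderiv ℝ h x (x - p)| ≤ 2 * q ε h r x * (η * ρ) := by
        rw [abs_mul, abs_of_nonneg S0']
        exact mul_le_mul s1 e2 (abs_nonneg _) (by linarith)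
      have e4 := (abs_le.1 e3).1
      rw [e1]
      have e5 := mul_le_mul_of_nonneg_left e4 p0
      calc _ = psi (‖x - p‖ ^ 2 / ρ ^ 2) * -(2 * q ε h r x * (η * ρ)) := by ring
        _ ≤ _ := e5
    have hAx : A x = q ε h r x * ((dpsi (‖x - p‖ ^ 2 / ρ ^ 2) * (2 / ρ ^ 2)) * ‖x - p‖ ^ 2
        + psi (‖x - p‖ ^ 2 / ρ ^ 2) * (d + 1))
        - S4 ε r x / ε * (dpsi (‖x - p‖ ^ 2 / ρ ^ 2) * (2 / ρ ^ 2) * ⟪x - p, ∇ r x⟫_ℝ ^ 2
        + psi (‖x - p‖ ^ 2 / ρ ^ 2) * ‖∇ r x‖ ^ 2) := by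
      simp only [hA, htr, hin]
    have g2 : 0 ≤ psi (‖x - p‖ ^ 2 / ρ ^ 2) * (q ε h r x - S4 ε r x / ε * ‖∇ r x‖ ^ 2) :=
      mul_nonneg p0 (by linarith)
    have g3 : 0 ≤ S4 ε r x / ε *
        (-(dpsi (‖x - p‖ ^ 2 / ρ ^ 2)) * (2 / ρ ^ 2) * ⟪x - p, ∇ r x⟫_ℝ ^ 2) := by
      have : 0 ≤ -(dpsi (‖x - p‖ ^ 2 / ρ ^ 2)) := by linarith
      positivity
    show -A x - B x ≤ q ε h r x * (-(2 * (‖x - p‖ ^ 2 / ρ ^ 2) * dpsi (‖x - p‖ ^ 2 / ρ ^ 2)))
      - (↑d - 2 * η * ρ) * (q ε h r x * psi (‖x - p‖ ^ 2 / ρ ^ 2))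
    rw [hAx]
    have e6 : q ε h r x * ((dpsi (‖x - p‖ ^ 2 / ρ ^ 2) * (2 / ρ ^ 2)) * ‖x - p‖ ^ 2)
        = q ε h r x * (2 * (‖x - p‖ ^ 2 / ρ ^ 2) * dpsi (‖x - p‖ ^ 2 / ρ ^ 2)) := by
      ring
    nlinarith [e6, g2, g3, hBx]
  · have hx2 := hoff hx
    have hA0 : A x = 0 := by
      simp only [hA, htr, hin, psin_eq_zero hρ hx2, dpsin_eq_zero hρ hx2]; ring
    have hB0 : B x = 0 := by
      simp only [hB, hX, psin_eq_zero hρ hx2, zero_smul, map_zero, mul_zero]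
    show -A x - B x ≤ q ε h r x * (-(2 * (‖x - p‖ ^ 2 / ρ ^ 2) * dpsi (‖x - p‖ ^ 2 / ρ ^ 2)))
      - (↑d - 2 * η * ρ) * (q ε h r x * psi (‖x - p‖ ^ 2 / ρ ^ 2))
    rw [hA0, hB0, psin_eq_zero hρ hx2, dpsin_eq_zero hρ hx2]
    ring_nf
    exact le_rfl

/-! ### elementary facts on `En`, `J` -/



theorem Hyp.En_mono (H : Hyp a ε η h r) {A B : Set E} (hAB : A ⊆ B) (hB : B ⊆ ball (0 : E) 2)
    (hBm : MeasurableSet B) : En ε h r A ≤ En ε h r B :=
  setIntegral_mono_of_ball H.contq hAB hB hBm fun _ hx => H.q_nonneg (hB hx)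


theorem Hyp.J_nonneg (H : Hyp a ε η h r) (p : E) (ρ : ℝ) : 0 ≤ J ε h r p ρ :=
  setIntegral_nonneg measurableSet_ball fun _ hx => mul_nonneg (H.q_nonneg hx) (psi_nonneg _)

theorem Hyp.J_eq (H : Hyp a ε η h r) {p : E} {ρ : ℝ} (hρ : 0 < ρ)
    (hp : closedBall p ρ ⊆ ball (0 : E) 2) :
    J ε h r p ρ = ∫ x in closedBall p ρ, q ε h r x * psi (‖x - p‖ ^ 2 / ρ ^ 2) := by
  unfold J
  apply setIntegral_eq_of_subset_of_forall_sdiff_eq_zero measurableSet_ball hp
  intro x hx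
  rw [psin_eq_zero hρ (fun h' => hx.2 (ball_subset_closedBall h')), mul_zero]

theorem Hyp.J_le_En (H : Hyp a ε η h r) {p : E} {ρ : ℝ} (hρ : 0 < ρ)
    (hp : closedBall p ρ ⊆ ball (0 : E) 2) : J ε h r p ρ ≤ En ε h r (closedBall p ρ) := by
  rw [H.J_eq hρ hp]
  have hct : Continuous fun x : E => ‖x - p‖ ^ 2 / ρ ^ 2 := by fun_prop
  apply setIntegral_mono_on
  · exact integrableOn_closedBall (H.contq.mul (continuous_psi.comp hct)) p ρ
  · exact integrableOn_closedBall H.contq p ρ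
  · exact measurableSet_closedBall
  · intro x hx
    have := H.q_nonneg (hp hx)
    have h1 := psi_le_one (show 0 ≤ ‖x - p‖ ^ 2 / ρ ^ 2 by positivity)
    nlinarith

theorem Hyp.En_le_J (H : Hyp a ε η h r) {p : E} {ρ : ℝ} (hρ : 0 < ρ)
    (hp : closedBall p ρ ⊆ ball (0 : E) 2) :
    En ε h r (closedBall p ρ) ≤ 16 / 9 * J ε h r p (2 * ρ) := by
  have hct : Continuous fun x : E => ‖x - p‖ ^ 2 / (2 * ρ) ^ 2 := by fun_prop
  have hc : Continuous fun x : E => q ε h r x * psi (‖x - p‖ ^ 2 / (2 * ρ) ^ 2) :=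
    H.contq.mul (continuous_psi.comp hct)
  have h1 : ∫ x in closedBall p ρ, q ε h r x * psi (‖x - p‖ ^ 2 / (2 * ρ) ^ 2) ≤
      J ε h r p (2 * ρ) := by
    unfold J
    exact setIntegral_mono_of_ball hc hp le_rfl measurableSet_ball
      fun x hx => mul_nonneg (H.q_nonneg hx) (psi_nonneg _)
  refine le_trans ?_ (mul_le_mul_of_nonneg_left h1 (by norm_num))
  rw [← integral_const_mul]
  unfold En
  apply setIntegral_mono_on
  · exact integrableOn_closedBall H.contq p ρ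
  · exact (integrableOn_closedBall hc p ρ).const_mul _
  · exact measurableSet_closedBall
  · intro x hx
    have q0 := H.q_nonneg (hp hx)
    rw [mem_closedBall, dist_eq_norm] at hx
    have h2 : ‖x - p‖ ^ 2 / (2 * ρ) ^ 2 ≤ 1 / 4 := by
      rw [div_le_div_iff₀ (by positivity) (by norm_num)]
      nlinarith [norm_nonneg (x - p)]
    have h3 : psi (1 / 4) ≤ psi (‖x - p‖ ^ 2 / (2 * ρ) ^ 2) := psi_antitone h2
    have h4 : psi (1 / 4) = 9 / 16 := by rw [psi_of_le_one (by norm_num)]; norm_num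
    rw [h4] at h3
    nlinarith

theorem Hyp.hasDerivAt_J (H : Hyp a ε η h r) (p : E) {s : ℝ} (hs : 0 < s) :
    HasDerivAt (fun s => J ε h r p s) (∫ x in ball (0 : E) 2, q ε h r x *
      (dpsi (‖x - p‖ ^ 2 / s ^ 2) * (-2 * ‖x - p‖ ^ 2 / s ^ 3))) s := by
  unfold J
  exact hasDerivAt_psi_integral (integrableOn_ball H.contq 0 2)
    (f := fun x => ‖x - p‖ ^ 2) (by fun_prop) (fun x => by positivity) hs

/-- the weighted density with exponential correction is nondecreasing -/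
theorem Hyp.monotoneOn (H : Hyp a ε η h r) {d : ℕ} (hd : Module.finrank ℝ E = d + 1) {p : E}
    {ρ' : ℝ} (hp : closedBall p ρ' ⊆ ball (0 : E) 2) :
    MonotoneOn (fun s => Real.exp (2 * η * s) * J ε h r p s / s ^ d) (Ioc 0 ρ') := by
  have hder : ∀ s, 0 < s → HasDerivAt (fun s => Real.exp (2 * η * s) * J ε h r p s / s ^ d)
      (((Real.exp (2 * η * s) * (2 * η) * J ε h r p s + Real.exp (2 * η * s) *
        (∫ x in ball (0 : E) 2, q ε h r x *
      (dpsi (‖x - p‖ ^ 2 / s ^ 2) * (-2 * ‖x - p‖ ^ 2 / s ^ 3)))) * s ^ d -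
        Real.exp (2 * η * s) * J ε h r p s * (d * s ^ (d - 1))) / (s ^ d) ^ 2) s := by
    intro s hs
    have h1 : HasDerivAt (fun s => Real.exp (2 * η * s)) (Real.exp (2 * η * s) * (2 * η)) s := by
      have : HasDerivAt (fun s : ℝ => 2 * η * s) (2 * η) s := by
        simpa using (hasDerivAt_id s).const_mul (2 * η)
      exact this.exp
    have h2 := (h1.fun_mul (H.hasDerivAt_J p hs)).fun_div (hasDerivAt_pow d s) (by positivity)
    exact h2
  apply monotoneOn_of_deriv_nonneg (convex_Ioc 0 ρ')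
  · intro s hs
    exact (hder s hs.1).continuousAt.continuousWithinAt
  · intro s hs
    rw [interior_Ioc] at hs
    exact (hder s hs.1).differentiableAt.differentiableWithinAt
  · intro s hs
    rw [interior_Ioc] at hs
    rw [(hder s hs.1).deriv]
    apply div_nonneg _ (by positivity)
    have hs0 : 0 < s := hs.1
    have hps : closedBall p s ⊆ ball (0 : E) 2 := (closedBall_subset_closedBall hs.2.le).trans hp
    have hrad := H.radial hd hs0 hps
    have e1 : s * (∫ x in ball (0 : E) 2, q ε h r x *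
      (dpsi (‖x - p‖ ^ 2 / s ^ 2) * (-2 * ‖x - p‖ ^ 2 / s ^ 3))) =
      ∫ x in ball (0 : E) 2, q ε h r x *
        (-(2 * (‖x - p‖ ^ 2 / s ^ 2) * dpsi (‖x - p‖ ^ 2 / s ^ 2))) := by
      rw [← integral_const_mul]
      congr 1; ext x
      field_simp
    rw [← e1] at hrad
    set I := ∫ x in ball (0 : E) 2, q ε h r x *
      (dpsi (‖x - p‖ ^ 2 / s ^ 2) * (-2 * ‖x - p‖ ^ 2 / s ^ 3)) with hI
    set Jv := J ε h r p s with hJv
    have e2 : s * ((d : ℝ) * s ^ (d - 1)) = d * s ^ d := by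
      rcases Nat.eq_zero_or_pos d with h0 | h0
      · subst h0; simp
      · obtain ⟨k, rfl⟩ : ∃ k, d = k + 1 := ⟨d - 1, by omega⟩
        simp only [Nat.add_sub_cancel]; ring
    have e3 : s * ((Real.exp (2 * η * s) * (2 * η) * Jv + Real.exp (2 * η * s) * I) * s ^ d -
        Real.exp (2 * η * s) * Jv * (d * s ^ (d - 1))) =
        Real.exp (2 * η * s) * s ^ d * (s * I - (d - 2 * η * s) * Jv) := by
      have : s * (Real.exp (2 * η * s) * Jv * (d * s ^ (d - 1))) =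
          Real.exp (2 * η * s) * Jv * (d * s ^ d) := by rw [← e2]; ring
      rw [mul_sub, this]; ring
    have e4 : 0 ≤ s * ((Real.exp (2 * η * s) * (2 * η) * Jv + Real.exp (2 * η * s) * I) * s ^ d -
        Real.exp (2 * η * s) * Jv * (d * s ^ (d - 1))) := by
      rw [e3]
      apply mul_nonneg (by positivity)
      linarith
    exact nonneg_of_mul_nonneg_right e4 hs0

theorem radius_le {p : E} (ha : ‖a‖ = 1) {ρ : ℝ} (hρ : 0 < ρ)
    (hp : closedBall p ρ ⊆ ball (0 : E) 2) : ρ < 2 := by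
  have h1 : p + ρ • a ∈ ball (0 : E) 2 := hp (by
    rw [mem_closedBall, dist_eq_norm, add_sub_cancel_left, norm_smul, ha, mul_one,
      Real.norm_eq_abs, abs_of_pos hρ])
  have h2 : p - ρ • a ∈ ball (0 : E) 2 := hp (by
    rw [mem_closedBall, dist_eq_norm, sub_sub_cancel_left, norm_neg, norm_smul, ha, mul_one,
      Real.norm_eq_abs, abs_of_pos hρ])
  rw [mem_ball, dist_zero_right] at h1 h2
  have h3 : ‖(p + ρ • a) - (p - ρ • a)‖ ≤ ‖p + ρ • a‖ + ‖p - ρ • a‖ := norm_sub_le _ _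
  have h4 : (p + ρ • a) - (p - ρ • a) = (2 * ρ) • a := by module
  rw [h4, norm_smul, ha, mul_one, Real.norm_eq_abs, abs_of_pos (by linarith)] at h3
  linarith

/-- LEAF 1 -/
theorem stMono (E : Type*) [NormedAddCommGroup E] [InnerProductSpace ℝ E] [FiniteDimensional ℝ E]
    [MeasurableSpace E] [BorelSpace E] (d : ℕ) : StMono E d := by
  intro hd a ε η h r H p ρ ρ' hρ hρρ' hp
  have hρ' : 0 < ρ' := lt_of_lt_of_le hρ hρρ'
  have h2 := radius_le H.ha hρ' hp
  have hm := H.monotoneOn hd hp (show ρ ∈ Ioc 0 ρ' from ⟨hρ, hρρ'⟩)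
    (show ρ' ∈ Ioc 0 ρ' from ⟨hρ', le_rfl⟩) hρρ'
  simp only [mul_div_assoc] at hm
  set A := J ε h r p ρ / ρ ^ d with hA
  set B := J ε h r p ρ' / ρ' ^ d with hB
  have hA0 : 0 ≤ A := div_nonneg (H.J_nonneg p ρ) (by positivity)
  have hB0 : 0 ≤ B := div_nonneg (H.J_nonneg p ρ') (by positivity)
  have hη := H.hη0
  have hη1 := H.hη
  have h3 : A ≤ Real.exp (2 * η * ρ) * A := by
    have : 1 ≤ Real.exp (2 * η * ρ) := Real.one_le_exp (by positivity)
    nlinarith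
  have h4 : Real.exp (2 * η * ρ') ≤ 1 + 5 * η := by
    have h5 : Real.exp (2 * η * ρ') ≤ Real.exp (4 * η) := Real.exp_le_exp.2 (by nlinarith)
    have h6 : 1 - 4 * η ≤ Real.exp (-(4 * η)) := by
      have := Real.add_one_le_exp (-(4 * η)); linarith
    have h7 : Real.exp (4 * η) * Real.exp (-(4 * η)) = 1 := by
      rw [← Real.exp_add]; simp
    have h8 := Real.exp_pos (4 * η)
    have h9 : Real.exp (4 * η) * (1 - 4 * η) ≤ 1 := by
      calc _ ≤ Real.exp (4 * η) * Real.exp (-(4 * η)) := mul_le_mul_of_nonneg_left h6 h8.le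
        _ = 1 := h7
    have h10 : 1 ≤ (1 + 5 * η) * (1 - 4 * η) := by nlinarith
    have h11 : 0 < 1 - 4 * η := by linarith
    have h12 : Real.exp (4 * η) * (1 - 4 * η) ≤ (1 + 5 * η) * (1 - 4 * η) := h9.trans h10
    exact h5.trans (le_of_mul_le_mul_right h12 h11)
  calc A ≤ Real.exp (2 * η * ρ) * A := h3
    _ ≤ Real.exp (2 * η * ρ') * B := hm
    _ ≤ (1 + 5 * η) * B := mul_le_mul_of_nonneg_right h4 hB0

/-- LEAF 1b -/
theorem stGrowth (E : Type*) [NormedAddCommGroup E] [InnerProductSpace ℝ E]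
    [FiniteDimensional ℝ E] [MeasurableSpace E] [BorelSpace E] (d : ℕ) : StGrowth E d := by
  intro hd a ε η h r H M hM p hp ρ hρ hρ1
  have hpn : ‖p‖ < 4 / 5 := by simpa using hp
  have hsub : ∀ s : ℝ, s ≤ 1 / 10 → closedBall p s ⊆ ball (0 : E) (9 / 10) := by
    intro s hs x hx
    rw [mem_closedBall, dist_eq_norm] at hx
    rw [mem_ball, dist_zero_right]
    have : ‖x‖ ≤ ‖x - p‖ + ‖p‖ := by
      calc ‖x‖ = ‖(x - p) + p‖ := by rw [sub_add_cancel]
        _ ≤ _ := norm_add_le _ _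
    linarith
  have hb : ball (0 : E) (9 / 10) ⊆ ball 0 2 := ball_subset_ball (by norm_num)
  have h1 := H.En_le_J hρ ((hsub ρ (by linarith)).trans hb)
  have h2 := stMono E d hd a ε η h r H p (2 * ρ) (1 / 10) (by linarith) (by linarith)
    ((hsub _ le_rfl).trans hb)
  have h3 := H.J_le_En (p := p) (ρ := 1 / 10) (by norm_num) ((hsub _ le_rfl).trans hb)
  have h4 := H.En_mono (hsub (1 / 10) le_rfl) hb measurableSet_ball
  have h5 : J ε h r p (1 / 10) ≤ M := h3.trans (h4.trans hM)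
  have hJ0 := H.J_nonneg p (1 / 10)
  rw [div_le_iff₀ (by positivity)] at h2
  have hη := H.hη
  have hη0 := H.hη0
  have e1 : (1 + 5 * η) * (J ε h r p (1 / 10) / (1 / 10) ^ d) * (2 * ρ) ^ d =
      (1 + 5 * η) * J ε h r p (1 / 10) * (20 ^ d * ρ ^ d) := by
    have : (2 * ρ) ^ d / (1 / 10) ^ d = 20 ^ d * ρ ^ d := by
      rw [← div_pow, ← mul_pow]; congr 1; ring
    rw [← this]; ring
  rw [e1] at h2
  calc En ε h r (closedBall p ρ) ≤ 16 / 9 * J ε h r p (2 * ρ) := h1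
    _ ≤ 16 / 9 * ((1 + 5 * η) * J ε h r p (1 / 10) * (20 ^ d * ρ ^ d)) := by gcongr
    _ ≤ 16 / 9 * ((3 / 2) * M * (20 ^ d * ρ ^ d)) := by
        gcongr
        · linarith
    _ ≤ 3 * 20 ^ d * M * ρ ^ d := by
        have : 0 ≤ M * (20 ^ d * ρ ^ d) := mul_nonneg (hJ0.trans h5) (by positivity)
        nlinarith

/-- energy of `B_{0.9}` from `J 0 1` -/
theorem Hyp.En_ball_le (H : Hyp a ε η h r) :
    En ε h r (ball 0 (9 / 10)) ≤ 28 * J ε h r 0 1 := by
  have hct : Continuous fun x : E => ‖x - 0‖ ^ 2 / (1 : ℝ) ^ 2 := by fun_prop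
  have hc : Continuous fun x : E => q ε h r x * psi (‖x - 0‖ ^ 2 / 1 ^ 2) :=
    H.contq.mul (continuous_psi.comp hct)
  have hb : ball (0 : E) (9 / 10) ⊆ ball 0 2 := ball_subset_ball (by norm_num)
  have h1 : ∫ x in ball (0 : E) (9 / 10), q ε h r x * psi (‖x - 0‖ ^ 2 / 1 ^ 2) ≤
      J ε h r 0 1 := by
    unfold J
    exact setIntegral_mono_of_ball hc hb le_rfl measurableSet_ball
      fun x hx => mul_nonneg (H.q_nonneg hx) (psi_nonneg _)
  refine le_trans ?_ (mul_le_mul_of_nonneg_left h1 (by norm_num))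
  rw [← integral_const_mul]
  unfold En
  apply setIntegral_mono_on
  · exact integrableOn_ball H.contq _ _
  · exact (integrableOn_ball hc _ _).const_mul _
  · exact measurableSet_ball
  · intro x hx
    have q0 := H.q_nonneg (hb hx)
    rw [mem_ball, dist_zero_right] at hx
    have h2 : ‖x - 0‖ ^ 2 / 1 ^ 2 ≤ 81 / 100 := by
      rw [sub_zero, one_pow, div_one]
      nlinarith [norm_nonneg x]
    have h3 : psi (81 / 100) ≤ psi (‖x - 0‖ ^ 2 / 1 ^ 2) := psi_antitone h2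
    have h4 : psi (81 / 100) = 361 / 10000 := by rw [psi_of_le_one (by norm_num)]; norm_num
    rw [h4] at h3
    nlinarith

end

end Crest.Agent.R246.MS852
end

-- ▼ part R246/MSSliceInt_852
section

/-!
# R246-F (helper852): slicing estimates
-/

set_option autoImplicit false
set_option linter.unusedSectionVars false

namespace Crest.Agent.R246.MS852

open MeasureTheory Metric Set InnerProductSpace Filter Topology
open scoped RealInnerProductSpace Gradient ENNReal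

theorem integrable_psi_scaled (d : ℕ) {ρ : ℝ} (hρ : 0 < ρ) :
    Integrable fun y : EuclideanSpace ℝ (Fin d) => psi (‖y‖ ^ 2 / ρ ^ 2) := by
  have hct : Continuous fun x : EuclideanSpace ℝ (Fin d) => ‖x‖ ^ 2 / ρ ^ 2 := by fun_prop
  apply (continuous_psi.comp hct).integrable_of_hasCompactSupport
  refine HasCompactSupport.intro (isCompact_closedBall 0 ρ) ?_
  intro x hx
  rw [mem_closedBall, dist_zero_right, not_le] at hx
  apply psi_of_one_le
  rw [one_le_div (by positivity)]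
  exact pow_le_pow_left₀ hρ.le hx.le 2

theorem integral_psi_scaled (d : ℕ) {ρ : ℝ} (hρ : 0 < ρ) :
    ∫ y : EuclideanSpace ℝ (Fin d), psi (‖y‖ ^ 2 / ρ ^ 2) = ρ ^ d * cpsi d := by
  have h := Measure.integral_comp_smul (volume : Measure (EuclideanSpace ℝ (Fin d)))
    (fun y => psi (‖y‖ ^ 2)) ρ⁻¹
  have e : ∀ y : EuclideanSpace ℝ (Fin d), psi (‖ρ⁻¹ • y‖ ^ 2) = psi (‖y‖ ^ 2 / ρ ^ 2) := by
    intro y
    rw [norm_smul, Real.norm_eq_abs, abs_of_pos (inv_pos.2 hρ)]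
    congr 1; field_simp
  simp_rw [e] at h
  rw [h, finrank_euclideanSpace_fin, inv_pow, inv_inv, abs_of_pos (by positivity), smul_eq_mul]
  rfl

theorem cpsi_pos (d : ℕ) : 0 < cpsi d := by
  unfold cpsi
  have h1 := integrable_psi_scaled d one_pos
  simp only [one_pow, div_one] at h1
  have hct : Continuous fun x : EuclideanSpace ℝ (Fin d) => psi (‖x‖ ^ 2) :=
    continuous_psi.comp (by fun_prop)
  rw [integral_pos_iff_support_of_nonneg (fun y => psi_nonneg _) h1]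
  apply hct.isOpen_support.measure_pos (volume : Measure (EuclideanSpace ℝ (Fin d)))
  refine ⟨0, ?_⟩
  rw [Function.mem_support]
  rw [norm_zero, psi_of_le_one (by norm_num)]
  norm_num

section
variable {E : Type*} [NormedAddCommGroup E] [InnerProductSpace ℝ E] [FiniteDimensional ℝ E]
  [MeasurableSpace E] [BorelSpace E]

/-- integral over a set, sliced along vertical lines with uniformly bounded line integrals -/
theorem slice_le {d : ℕ} (hsl : StSlice E d) (hd : Module.finrank ℝ E = d + 1) {a : E}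
    (ha : ‖a‖ = 1) {Q : E → ℝ} (hQ : Continuous Q) {A : Set E} (hA : MeasurableSet A)
    (hQ0 : ∀ x ∈ A, 0 ≤ Q x) {ρ V : ℝ} (hρ : 0 < ρ) (hV0 : 0 ≤ V)
    (hV : ∀ y : E, ∫⁻ t : ℝ, A.indicator (fun x => ENNReal.ofReal (Q x)) (t • a + y) ≤
      ENNReal.ofReal V) :
    ∫ x in A, Q x * psi (‖x‖ ^ 2 / ρ ^ 2) ≤ V * (ρ ^ d * cpsi d) := by
  obtain ⟨ι, hι, hmp⟩ := hsl hd a ha
  have hct : Continuous fun x : E => ‖x‖ ^ 2 / ρ ^ 2 := by fun_prop
  have hcf : Continuous fun x : E => Q x * psi (‖x‖ ^ 2 / ρ ^ 2) :=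
    hQ.mul (continuous_psi.comp hct)
  rw [integral_eq_lintegral_of_nonneg_ae]
  · have hV1 : 0 ≤ V * (ρ ^ d * cpsi d) := by have := cpsi_pos d; positivity
    apply ENNReal.toReal_le_of_le_ofReal hV1
    rw [← lintegral_indicator hA]
    set F : E → ℝ≥0∞ := A.indicator (fun x => ENNReal.ofReal (Q x * psi (‖x‖ ^ 2 / ρ ^ 2)))
      with hF
    have hFm : Measurable F := (hcf.measurable.ennreal_ofReal).indicator hA
    have hmp' := hmp.measurable
    rw [← hmp.lintegral_comp hFm]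
    have hsym : ∫⁻ p : ℝ × EuclideanSpace ℝ (Fin d), F (p.1 • a + ι p.2) ∂(volume.prod volume) =
        ∫⁻ y : EuclideanSpace ℝ (Fin d), ∫⁻ t : ℝ, F (t • a + ι y) :=
      lintegral_prod_symm' (fun p : ℝ × EuclideanSpace ℝ (Fin d) => F (p.1 • a + ι p.2))
        (hFm.comp hmp')
    rw [hsym]
    have hin : ∀ y : EuclideanSpace ℝ (Fin d), ∫⁻ t : ℝ, F (t • a + ι y) ≤
        ENNReal.ofReal (V * psi (‖y‖ ^ 2 / ρ ^ 2)) := by
      intro y
      have h1 : ∀ t : ℝ, F (t • a + ι y) ≤ ENNReal.ofReal (psi (‖y‖ ^ 2 / ρ ^ 2)) *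
          A.indicator (fun x => ENNReal.ofReal (Q x)) (t • a + ι y) := by
        intro t
        by_cases hx : t • a + ι y ∈ A
        · rw [hF, indicator_of_mem hx, indicator_of_mem hx, ← ENNReal.ofReal_mul (psi_nonneg _)]
          apply ENNReal.ofReal_le_ofReal
          have h2 : ‖y‖ ^ 2 / ρ ^ 2 ≤ ‖t • a + ι y‖ ^ 2 / ρ ^ 2 := by
            apply div_le_div_of_nonneg_right _ (by positivity)
            rw [@norm_add_sq_real, real_inner_smul_left, hι, ι.norm_map]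
            nlinarith [sq_nonneg ‖t • a‖]
          have h3 := psi_antitone h2
          have h4 := hQ0 _ hx
          nlinarith
        · rw [hF, indicator_of_notMem hx]
          exact bot_le
      calc ∫⁻ t : ℝ, F (t • a + ι y) ≤ ∫⁻ t : ℝ, ENNReal.ofReal (psi (‖y‖ ^ 2 / ρ ^ 2)) *
          A.indicator (fun x => ENNReal.ofReal (Q x)) (t • a + ι y) := lintegral_mono h1
        _ = ENNReal.ofReal (psi (‖y‖ ^ 2 / ρ ^ 2)) *
            ∫⁻ t : ℝ, A.indicator (fun x => ENNReal.ofReal (Q x)) (t • a + ι y) :=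
            lintegral_const_mul' _ _ ENNReal.ofReal_ne_top
        _ ≤ ENNReal.ofReal (psi (‖y‖ ^ 2 / ρ ^ 2)) * ENNReal.ofReal V := by
            gcongr
            exact hV _
        _ = _ := by
            rw [← ENNReal.ofReal_mul (psi_nonneg _), mul_comm]
    calc ∫⁻ y : EuclideanSpace ℝ (Fin d), ∫⁻ t : ℝ, F (t • a + ι y)
        ≤ ∫⁻ y : EuclideanSpace ℝ (Fin d), ENNReal.ofReal (V * psi (‖y‖ ^ 2 / ρ ^ 2)) :=
          lintegral_mono hin
      _ = ENNReal.ofReal (∫ y : EuclideanSpace ℝ (Fin d), V * psi (‖y‖ ^ 2 / ρ ^ 2)) := by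
          rw [ofReal_integral_eq_lintegral_ofReal ((integrable_psi_scaled d hρ).const_mul V)]
          exact Eventually.of_forall fun y => mul_nonneg hV0 (psi_nonneg _)
      _ = ENNReal.ofReal (V * (ρ ^ d * cpsi d)) := by
          rw [integral_const_mul, integral_psi_scaled d hρ]
  · rw [EventuallyLE, ae_restrict_iff' hA]
    exact Eventually.of_forall fun x hx => mul_nonneg (hQ0 x hx) (psi_nonneg _)
  · exact hcf.aestronglyMeasurable

end

end Crest.Agent.R246.MS852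
end

-- ▼ part R246/MSMain_852

/-!
# R246-F (helper852): assembly of Lemma MS
-/

set_option autoImplicit false
set_option linter.unusedSectionVars false

namespace Crest.Agent.R246.MS852

open MeasureTheory Metric Set InnerProductSpace Filter Topology
open scoped RealInnerProductSpace Gradient ENNReal

section
variable {E : Type*} [NormedAddCommGroup E] [InnerProductSpace ℝ E] [FiniteDimensional ℝ E]
  [MeasurableSpace E] [BorelSpace E] {a : E} {ε η : ℝ} {h r : E → ℝ}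

theorem Growth.mono {d : ℕ} {G G' : ℝ} (hG : Growth ε h r d G) (h1 : G ≤ G') :
    Growth ε h r d G' := fun p hp ρ h0 hρ1 =>
  (hG p hp ρ h0 hρ1).trans (mul_le_mul_of_nonneg_right h1 (by positivity))

theorem Good.mono {d : ℕ} {lam lam' : ℝ} {x : E} (hG : Good a ε h r d lam x) (h1 : lam ≤ lam') :
    Good a ε h r d lam' x := ⟨hG.1, fun ρ h0 hρ1 =>
  (hG.2 ρ h0 hρ1).trans (mul_le_mul_of_nonneg_right h1 (by positivity))⟩

/-- comparison of centres at radius `1/2` -/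
theorem Hyp.center (H : Hyp a ε η h r) {x1 : E} {ρ1 : ℝ} (hρ1 : ρ1 ≤ 1 / 10)
    (hx : ‖x1‖ ≤ ρ1) : J ε h r x1 (1 / 2) ≤
      J ε h r 0 (1 / 2) + 11 * ρ1 * En ε h r (ball 0 (9 / 10)) := by
  have hρ0 : 0 ≤ ρ1 := (norm_nonneg _).trans hx
  have hb : ball (0 : E) (9 / 10) ⊆ ball 0 2 := ball_subset_ball (by norm_num)
  have hct : ∀ p : E, Continuous fun x : E => ‖x - p‖ ^ 2 / (1 / 2 : ℝ) ^ 2 := fun p => by fun_prop
  have hc : ∀ p : E, Continuous fun x : E => q ε h r x * psi (‖x - p‖ ^ 2 / (1 / 2) ^ 2) :=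
    fun p => H.contq.mul (continuous_psi.comp (hct p))
  have hJ : ∀ p : E, ‖p‖ ≤ 1 / 10 → J ε h r p (1 / 2) =
      ∫ x in ball (0 : E) (9 / 10), q ε h r x * psi (‖x - p‖ ^ 2 / (1 / 2) ^ 2) := by
    intro p hp
    unfold J
    apply setIntegral_eq_of_subset_of_forall_sdiff_eq_zero measurableSet_ball hb
    intro x hx
    have hx2 : x ∉ ball p (1 / 2) := by
      intro h'
      apply hx.2
      rw [mem_ball, dist_eq_norm] at h'
      rw [mem_ball, dist_zero_right]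
      have : ‖x‖ ≤ ‖x - p‖ + ‖p‖ := by
        calc ‖x‖ = ‖(x - p) + p‖ := by rw [sub_add_cancel]
          _ ≤ _ := norm_add_le _ _
      linarith
    rw [psin_eq_zero (by norm_num) hx2, mul_zero]
  rw [hJ x1 (hx.trans hρ1), hJ 0 (by rw [norm_zero]; norm_num)]
  unfold En
  rw [← integral_const_mul, ← integral_add (integrableOn_ball (hc 0) _ _)
    ((integrableOn_ball H.contq _ _).const_mul _)]
  apply setIntegral_mono_on (integrableOn_ball (hc x1) _ _)
    ((integrableOn_ball (hc 0) _ _).add ((integrableOn_ball H.contq _ _).const_mul _))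
    measurableSet_ball
  intro x hxb
  show q ε h r x * psi (‖x - x1‖ ^ 2 / (1 / 2) ^ 2) ≤
    q ε h r x * psi (‖x - 0‖ ^ 2 / (1 / 2) ^ 2) + 11 * ρ1 * q ε h r x
  have q0 := H.q_nonneg (hb hxb)
  have hxn : ‖x‖ < 9 / 10 := by simpa using hxb
  by_cases hbig : ‖x‖ ≤ 6 / 10
  · have h1 : psi (‖x - x1‖ ^ 2 / (1 / 2) ^ 2) - psi (‖x - 0‖ ^ 2 / (1 / 2) ^ 2) ≤ 11 * ρ1 := by
      have h2 := psi_sub_le (s := ‖x - x1‖ ^ 2 / (1 / 2 : ℝ) ^ 2)
        (t := ‖x - 0‖ ^ 2 / (1 / 2 : ℝ) ^ 2) (by positivity) (by positivity)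
      have h3 : |‖x - x1‖ ^ 2 / (1 / 2 : ℝ) ^ 2 - ‖x - 0‖ ^ 2 / (1 / 2 : ℝ) ^ 2| ≤
          11 / 2 * ρ1 := by
        have e : ‖x - x1‖ ^ 2 / (1 / 2 : ℝ) ^ 2 - ‖x - 0‖ ^ 2 / (1 / 2 : ℝ) ^ 2 =
            4 * (‖x1‖ ^ 2 - 2 * ⟪x, x1⟫_ℝ) := by
          rw [sub_zero, @norm_sub_sq_real]; ring
        rw [e, abs_le]
        have hi := abs_le.1 (abs_real_inner_le_norm x x1)
        have h5 : ‖x‖ * ‖x1‖ ≤ 6 / 10 * ρ1 := mul_le_mul hbig hx (norm_nonneg _) (by norm_num)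
        have h6 : ‖x1‖ ^ 2 ≤ 1 / 10 * ρ1 := by nlinarith [norm_nonneg x1]
        constructor
        · nlinarith [sq_nonneg ‖x1‖]
        · nlinarith
      linarith
    nlinarith
  · have hx2 : x ∉ ball x1 (1 / 2) := by
      intro h'
      rw [mem_ball, dist_eq_norm] at h'
      have : ‖x‖ ≤ ‖x - x1‖ + ‖x1‖ := by
        calc ‖x‖ = ‖(x - x1) + x1‖ := by rw [sub_add_cancel]
          _ ≤ _ := norm_add_le _ _
      linarith
    rw [psin_eq_zero (by norm_num) hx2, mul_zero]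
    have := psi_nonneg (‖x - 0‖ ^ 2 / (1 / 2) ^ 2)
    positivity

theorem closedBall_sub {p : E} {s R : ℝ} (h : ‖p‖ + s < R) : closedBall p s ⊆ ball (0 : E) R := by
  intro x hx
  rw [mem_closedBall, dist_eq_norm] at hx
  rw [mem_ball, dist_zero_right]
  have : ‖x‖ ≤ ‖x - p‖ + ‖p‖ := by
    calc ‖x‖ = ‖(x - p) + p‖ := by rw [sub_add_cancel]
      _ ≤ _ := norm_add_le _ _
  linarith

/-- height difference of two points with `|r| ≤ S ε` on a vertical line -/
theorem Hyp.height (H : Hyp a ε η h r) {x1 : E} {D S : ℝ} (hS : S * ε ≤ η)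
    (h1 : x1 ∈ ball (0 : E) 2) (h2 : x1 + D • a ∈ ball (0 : E) 2)
    (hr1 : |r x1 / ε| ≤ S) (hr2 : |r (x1 + D • a) / ε| ≤ S) : D ≤ 4 * η := by
  have e1 := abs_le.1 (H.flat _ h1)
  have e2 := abs_le.1 (H.flat _ h2)
  rw [inner_add_right, inner_smul_right, real_inner_self_eq_norm_sq, H.ha] at e2
  have hb : ∀ {t : ℝ}, |t / ε| ≤ S → |t| ≤ η := by
    intro t ht
    rw [abs_div, abs_of_pos H.hε, div_le_iff₀ H.hε] at ht
    linarith
  have e3 := abs_le.1 (hb hr1)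
  have e4 := abs_le.1 (hb hr2)
  nlinarith

end

theorem numeric {δ η c ω X K lam Cs G A B Jk : ℝ} (hδ0 : 0 < δ) (hδ1 : δ ≤ 1) (hη0 : 0 < η)
    (hη1 : η ≤ 1 / 100) (hc0 : 0 < c) (hω : ω = δ / 16) (c5 : 32 * η ≤ δ / 8) (hP : 0 ≤ X)
    (hP2 : X ≤ δ * c / 16)
    (c2 : Cs * G * (1 / K ^ 2) ≤ δ * c / 8)
    (c3 : Cs * G * (K ^ 2 * Real.sqrt lam) ≤ δ * c / 8)
    (c4 : Cs * G * (K ^ 2 * η) ≤ δ * c / 8)
    (f1 : (1 - ω) * c ≤ (1 + 5 * η) * A) (f2 : (1 - ω) * c ≤ (1 + 5 * η) * B)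
    (f3 : A + B ≤ Jk + Cs * G * (K ^ 2 * (Real.sqrt lam + η) + 1 / K ^ 2))
    (f4 : Jk ≤ (1 + 5 * η) * ((1 + 5 * η) * ((2 - δ) * c) + X)) : False := by
  have s1 : 2 * ((1 - ω) * c) ≤ (1 + 5 * η) * (Jk +
      Cs * G * (K ^ 2 * (Real.sqrt lam + η) + 1 / K ^ 2)) := by
    have := mul_le_mul_of_nonneg_left f3 (show 0 ≤ 1 + 5 * η by linarith)
    linarith
  have s3 : Cs * G * (K ^ 2 * (Real.sqrt lam + η) + 1 / K ^ 2) ≤ 3 * (δ * c / 8) := by
    have : Cs * G * (K ^ 2 * (Real.sqrt lam + η) + 1 / K ^ 2) =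
      Cs * G * (K ^ 2 * Real.sqrt lam) + Cs * G * (K ^ 2 * η) + Cs * G * (1 / K ^ 2) := by ring
    rw [this]; linarith
  have s4 : 2 * ((1 - ω) * c) ≤ (1 + 5 * η) * ((1 + 5 * η) * ((1 + 5 * η) * ((2 - δ) * c) + X) +
      3 * (δ * c / 8)) := by
    refine s1.trans (mul_le_mul_of_nonneg_left ?_ (by linarith))
    linarith
  have hη4 : η ≤ δ / 256 := by linarith
  have t1 : (1 + 5 * η) * (1 + 5 * η) ≤ 1 + 12 * η := by nlinarith
  have t2 : (1 + 5 * η) * ((1 + 5 * η) * (1 + 5 * η)) ≤ 1 + 18 * η := by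
    have := mul_le_mul_of_nonneg_left t1 (show 0 ≤ 1 + 5 * η by linarith)
    nlinarith
  have hδc : 0 < δ * c := by positivity
  have t3 : (1 + 5 * η) * ((1 + 5 * η) * ((1 + 5 * η) * ((2 - δ) * c) + X) + 3 * (δ * c / 8)) ≤
      (1 + 18 * η) * ((2 - δ) * c) + (1 + 12 * η) * (δ * c / 16) +
        (1 + 5 * η) * (3 * (δ * c / 8)) := by
    have e : (1 + 5 * η) * ((1 + 5 * η) * ((1 + 5 * η) * ((2 - δ) * c) + X) + 3 * (δ * c / 8)) =
      ((1 + 5 * η) * ((1 + 5 * η) * (1 + 5 * η))) * ((2 - δ) * c) +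
      ((1 + 5 * η) * (1 + 5 * η)) * X + (1 + 5 * η) * (3 * (δ * c / 8)) := by ring
    rw [e]
    have u1 : ((1 + 5 * η) * ((1 + 5 * η) * (1 + 5 * η))) * ((2 - δ) * c) ≤
        (1 + 18 * η) * ((2 - δ) * c) :=
      mul_le_mul_of_nonneg_right t2 (mul_nonneg (by linarith) hc0.le)
    have u2 : ((1 + 5 * η) * (1 + 5 * η)) * X ≤ (1 + 12 * η) * (δ * c / 16) :=
      mul_le_mul t1 hP2 hP (by linarith)
    linarith
  have t4 := s4.trans t3
  rw [hω] at t4
  have t5 : 2 * (1 - δ / 16) ≤ (1 + 18 * η) * (2 - δ) + (1 + 12 * η) * (δ / 16) +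
      (1 + 5 * η) * (3 * δ / 8) := by
    have : (2 * (1 - δ / 16)) * c ≤ ((1 + 18 * η) * (2 - δ) + (1 + 12 * η) * (δ / 16) +
      (1 + 5 * η) * (3 * δ / 8)) * c := by linarith
    exact le_of_mul_le_mul_right this hc0
  have hηδ : η * δ ≤ η := by nlinarith
  nlinarith [mul_pos hη0 hδ0]

theorem half_bound {d : ℕ} {η ρ1 M c δ J1 J2 J3 En' : ℝ} (hη0 : 0 < η) (hρ0 : 0 < ρ1)
    (hJ : J3 ≤ (2 - δ) * c) (f5 : J1 ≤ J2 + 11 * ρ1 * En')
    (f6 : J2 / (1 / 2) ^ d ≤ (1 + 5 * η) * J3) (f7 : En' ≤ M) :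
    J1 / (1 / 2) ^ d ≤ (1 + 5 * η) * ((2 - δ) * c) + 2 ^ d * (11 * ρ1 * M) := by
  have hpow : (0 : ℝ) < (1 / 2) ^ d := by positivity
  have g1 : J1 ≤ J2 + 11 * ρ1 * M := by
    refine f5.trans ?_
    have : 11 * ρ1 * En' ≤ 11 * ρ1 * M := mul_le_mul_of_nonneg_left f7 (by positivity)
    linarith
  have g2 : J1 / (1 / 2) ^ d ≤ J2 / (1 / 2) ^ d + 2 ^ d * (11 * ρ1 * M) := by
    have e : (11 * ρ1 * M) / (1 / 2) ^ d = 2 ^ d * (11 * ρ1 * M) := by
      rw [div_pow, one_pow]; field_simp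
    rw [← e, ← add_div]
    exact div_le_div_of_nonneg_right g1 hpow.le
  have g3 : (1 + 5 * η) * J3 ≤ (1 + 5 * η) * ((2 - δ) * c) :=
    mul_le_mul_of_nonneg_left hJ (by linarith)
  linarith

/-- step 6: two far good points on a vertical line are impossible -/
theorem no_two (E : Type*) [NormedAddCommGroup E] [InnerProductSpace ℝ E] [FiniteDimensional ℝ E]
    [MeasurableSpace E] [BorelSpace E] {d : ℕ} (hd : Module.finrank ℝ E = d + 1)
    {a : E} {ε η : ℝ} {h r : E → ℝ} (H : Hyp a ε η h r)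
    {c δ ω ρ1 M G K Cs lam S L2 : ℝ} (hcdef : c = 4 / 3 * cpsi d) (hδ0 : 0 < δ)
    (hω : ω = δ / 16) (hρ0 : 0 < ρ1) (hρ1 : ρ1 ≤ 1 / 10)
    (hM : M = 56 * c) (hJ : J ε h r 0 1 ≤ (2 - δ) * c)
    (hδ1 : δ ≤ 1)
    (c1 : 22 * 2 ^ d * ρ1 * M ≤ δ * c / 8)
    (hK : 1 ≤ K)
    (hlam : 0 < lam) (hlam1 : lam ≤ 1)
    (c2 : Cs * G * (1 / K ^ 2) ≤ δ * c / 8)
    (c3 : Cs * G * (K ^ 2 * Real.sqrt lam) ≤ δ * c / 8)
    (c4 : Cs * G * (K ^ 2 * η) ≤ δ * c / 8)
    (c5 : 32 * η ≤ δ / 8) (c6 : 12 * K * η ≤ 1 / 100)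
    (hS : S * ε ≤ η) (hL2 : 4 ≤ L2)
    (hslab : ∀ lam K D : ℝ, 0 < lam → lam ≤ 1 → 1 ≤ K → 0 < D →
      3 * K * D ≤ 1 / 100 →
      ∀ x1 : E, x1 ∈ ball (0 : E) (1 / 2) → Good a ε h r d lam x1 →
        Good a ε h r d lam (x1 + D • a) →
      J ε h r x1 (D / 4) / (D / 4) ^ d + J ε h r (x1 + D • a) (D / 4) / (D / 4) ^ d ≤
        J ε h r x1 (K * D) / (K * D) ^ d + Cs * G * (K ^ 2 * (Real.sqrt lam + η) + 1 / K ^ 2))
    (hlow : ∀ x0 : E, Good a ε h r d lam x0 → |r x0 / ε| ≤ S → L2 * ε ≤ 1 / 100 ∧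
      (1 - ω) * c * (L2 * ε) ^ d ≤ J ε h r x0 (L2 * ε))
    {x1 : E} {D : ℝ} (hx1 : x1 ∈ ball (0 : E) ρ1) (hx2 : x1 + D • a ∈ ball (0 : E) ρ1)
    (g1 : Good a ε h r d lam x1) (g2 : Good a ε h r d lam (x1 + D • a))
    (r1 : |r x1 / ε| ≤ S) (r2 : |r (x1 + D • a) / ε| ≤ S) (hD : 0 < D) :
    D < 4 * (L2 * ε) := by
  by_contra hcon
  push Not at hcon
  have hη0 := H.hη0
  have hη1 := H.hη
  have hε := H.hε
  have hc := cpsi_pos d
  have hc0 : 0 < c := by rw [hcdef]; positivity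
  have hn1 : ‖x1‖ < ρ1 := by simpa using hx1
  have hn2 : ‖x1 + D • a‖ < ρ1 := by simpa using hx2
  have hb2 : ball (0 : E) ρ1 ⊆ ball 0 2 := ball_subset_ball (by linarith)
  have hD4 : D ≤ 4 * η := H.height hS (hb2 hx1) (hb2 hx2) r1 r2
  have hK0 : 0 < K := lt_of_lt_of_le one_pos hK
  have hKD : 3 * K * D ≤ 1 / 100 := by
    calc 3 * K * D ≤ 3 * K * (4 * η) := mul_le_mul_of_nonneg_left hD4 (by linarith)
      _ = 12 * K * η := by ring
      _ ≤ _ := c6
  have hKD3 : 3 * (K * D) ≤ 1 / 100 := by rw [← mul_assoc]; exact hKD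
  have hKD0 : 0 < K * D := mul_pos hK0 hD
  have hKD1 : K * D ≤ 1 / 2 := by linarith
  have hDK : D ≤ K * D := le_mul_of_one_le_left hD.le hK
  have hD1 : D ≤ 1 / 100 := by linarith
  -- lower bounds at scale `D/4`
  have hlowD : ∀ x : E, ‖x‖ < ρ1 → Good a ε h r d lam x → |r x / ε| ≤ S →
      (1 - ω) * c ≤ (1 + 5 * η) * (J ε h r x (D / 4) / (D / 4) ^ d) := by
    intro x hx hg hr
    obtain ⟨l1, l2⟩ := hlow x hg hr
    have hLε : 0 < L2 * ε := mul_pos (by linarith) hε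
    have hm := stMono E d hd a ε η h r H x (L2 * ε) (D / 4) hLε (by linarith)
      (closedBall_sub (by linarith))
    refine le_trans ?_ hm
    rw [le_div_iff₀ (pow_pos hLε d)]
    exact l2
  have f1 := hlowD x1 hn1 g1 r1
  have f2 := hlowD (x1 + D • a) hn2 g2 r2
  have f3 := hslab lam K D hlam hlam1 hK hD hKD x1 (by
    rw [mem_ball, dist_zero_right]; linarith) g1 g2
  -- from `K D` to `1/2`
  have f4 := stMono E d hd a ε η h r H x1 (K * D) (1 / 2) hKD0 hKD1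
    (closedBall_sub (by linarith))
  have f5 := H.center hρ1 hn1.le
  have f6 := stMono E d hd a ε η h r H 0 (1 / 2) 1 (by norm_num) (by norm_num)
    (closedBall_sub (by rw [norm_zero]; norm_num))
  have f7 : En ε h r (ball 0 (9 / 10)) ≤ M := by
    have h1 := H.En_ball_le
    have h2 : 0 ≤ δ * c := mul_nonneg hδ0.le hc0.le
    have h3 : (2 - δ) * c = 2 * c - δ * c := by ring
    rw [hM]; linarith
  rw [one_pow, div_one] at f6
  have hJx1 : J ε h r x1 (1 / 2) / (1 / 2) ^ d ≤ (1 + 5 * η) * ((2 - δ) * c) +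
      2 ^ d * (11 * ρ1 * M) := half_bound hη0 hρ0 hJ f5 f6 f7
  have hM0 : 0 ≤ M := by rw [hM]; linarith
  have hP : 0 ≤ 2 ^ d * (11 * ρ1 * M) :=
    mul_nonneg (by positivity) (mul_nonneg (by linarith) hM0)
  have c1' : 2 ^ d * (11 * ρ1 * M) ≤ δ * c / 16 := by
    have : 22 * 2 ^ d * ρ1 * M = 2 * (2 ^ d * (11 * ρ1 * M)) := by ring
    linarith
  exact numeric hδ0 hδ1 hη0 hη1 hc0 hω c5 hP c1' c2 c3 c4 f1 f2 f3 (f4.trans
    (mul_le_mul_of_nonneg_left hJx1 (by linarith)))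

section
variable {E : Type*} [NormedAddCommGroup E] [InnerProductSpace ℝ E] [FiniteDimensional ℝ E]
  [MeasurableSpace E] [BorelSpace E] {a : E} {ε η : ℝ} {h r : E → ℝ}

/-- line integrals over the good set -/
theorem Hyp.line_bound (H : Hyp a ε η h r) {A : Set E} (hA1 : A ⊆ ball 0 1) {l V : ℝ}
    (hl0 : 0 ≤ l) (hl : l ≤ 1 / 2)
    (hno : ∀ (x : E) (D : ℝ), x ∈ A → x + D • a ∈ A → 0 < D → D < l)
    (hvert : ∀ x0 ∈ A, ∫ t in Icc (-l) l, q ε h r (x0 + t • a) ≤ V) (y : E) :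
    ∫⁻ t : ℝ, A.indicator (fun x => ENNReal.ofReal (q ε h r x)) (t • a + y) ≤
      ENNReal.ofReal V := by
  by_cases hex : ∃ t0 : ℝ, t0 • a + y ∈ A
  · obtain ⟨t0, ht0⟩ := hex
    set x0 := t0 • a + y with hx0
    have hx01 : ‖x0‖ < 1 := by simpa using hA1 ht0
    set g : ℝ → ℝ≥0∞ := (Icc (-l) l).indicator
      (fun s => ENNReal.ofReal (q ε h r (x0 + s • a))) with hg
    have h1 : ∀ t : ℝ, A.indicator (fun x => ENNReal.ofReal (q ε h r x)) (t • a + y) ≤
        g (t - t0) := by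
      intro t
      by_cases ht : t • a + y ∈ A
      · have e1 : t • a + y = x0 + (t - t0) • a := by rw [hx0]; module
        have hmem : t - t0 ∈ Icc (-l) l := by
          rcases lt_trichotomy t t0 with h' | h' | h'
          · have e2 : (t • a + y) + (t0 - t) • a = x0 := by rw [hx0]; module
            have := hno (t • a + y) (t0 - t) ht (by rw [e2]; exact ht0) (by linarith)
            constructor <;> linarith
          · subst h'
            rw [sub_self]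
            exact ⟨by linarith, hl0⟩
          · have := hno x0 (t - t0) ht0 (by rw [← e1]; exact ht) (by linarith)
            constructor <;> linarith
        rw [indicator_of_mem ht, hg, indicator_of_mem hmem, e1]
      · rw [indicator_of_notMem ht]; exact bot_le
    have hc : Continuous fun s : ℝ => q ε h r (x0 + s • a) := H.contq.comp (by fun_prop)
    calc _ ≤ ∫⁻ t : ℝ, g (t - t0) := lintegral_mono h1
      _ = ∫⁻ t : ℝ, g t := lintegral_sub_right_eq_self g t0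
      _ = ∫⁻ t in Icc (-l) l, ENNReal.ofReal (q ε h r (x0 + t • a)) :=
          lintegral_indicator measurableSet_Icc _
      _ = ENNReal.ofReal (∫ t in Icc (-l) l, q ε h r (x0 + t • a)) := by
          rw [ofReal_integral_eq_lintegral_ofReal]
          · exact hc.continuousOn.integrableOn_compact isCompact_Icc
          · rw [EventuallyLE, ae_restrict_iff' measurableSet_Icc]
            refine Eventually.of_forall fun s hs => H.q_nonneg ?_
            rw [mem_ball, dist_zero_right]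
            have h3 : ‖s • a‖ ≤ 1 / 2 := by
              rw [norm_smul, H.ha, mul_one, Real.norm_eq_abs, abs_le]
              constructor <;> linarith [hs.1, hs.2]
            have := norm_add_le x0 (s • a)
            linarith
      _ ≤ ENNReal.ofReal V := ENNReal.ofReal_le_ofReal (hvert x0 ht0)
  · push Not at hex
    have : ∀ t : ℝ, A.indicator (fun x => ENNReal.ofReal (q ε h r x)) (t • a + y) = 0 :=
      fun t => indicator_of_notMem (hex t) _
    simp only [this, lintegral_zero]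
    exact bot_le

end

end Crest.Agent.R246.MS852
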