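import Crest.Agent.R246.SM1_436
import Crest.Agent.R246.NcAlg_112
import Crest.Agent.R246.NcJet_112
import Mathlib.Analysis.InnerProductSpace.Trace

-- ▼ part R246/NcFoot_112
section

/-!
# Jets of the Gauss map and of the normalised foot map at points of `M'` (block I(B))
-/

set_option autoImplicit false
set_option linter.unusedSectionVars false
noncomputable section
open MeasureTheory Set Filter Topology
open scoped RealInnerProductSpace ContDiff

namespace Crest.Agent.R246.NcFoot112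

open Crest.Agent.R246.H990 Crest.Agent.R246.SM436 Crest.Agent.R246.NcJet112
  Crest.Agent.R246.NcAlg112

variable {E : Type*} [NormedAddCommGroup E] [InnerProductSpace ℝ E] [FiniteDimensional ℝ E]
variable {φ : E → ℝ} {b : ℝ}

/-- normalised foot point -/
def pp (φ : E → ℝ) (y : E) : E := (rr φ y)⁻¹ • ft φ y

/-- second derivative of `pp` at points of `M'` -/
def BB (φ : E → ℝ) (X v : E) : E :=
  (3 * ⟪X, v⟫ ^ 2 - ‖v‖ ^ 2 + ⟪gradient φ X, v⟫ ^ 2) • X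
    - (2 * ⟪X, v⟫) • (v - ⟪gradient φ X, v⟫ • gradient φ X)
    - (2 * ⟪gradient φ X, v⟫) • hs φ X v - ⟪hs φ X v, v⟫ • gradient φ X

lemma mem_ZZ {X : E} (h1 : ‖X‖ = 1) (h2 : φ X = 0) : X ∈ ZZ φ :=
  ⟨by intro h; simp [h] at h1, h2⟩

section tube

variable (hT : Tube φ b)
include hT

lemma norm_pp {y : E} (hy : y ∈ TT φ b) : ‖pp φ y‖ = 1 := by
  rw [pp, norm_smul, hT.norm_ft hy, norm_inv, Real.norm_eq_abs, abs_of_pos hy.1,
    inv_mul_cancel₀ hy.1.ne']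

lemma phi_pp {y : E} (hy : y ∈ TT φ b) : φ (pp φ y) = 0 := by
  rw [pp, hT.hom _ (inv_nonneg.2 hy.1.le), hT.phi_ft hy, mul_zero]

lemma gradient_pp {y : E} (hy : y ∈ TT φ b) : gradient φ (pp φ y) = gradient φ y := by
  rw [pp, gradient_smul_of_hom hT.hom _ (inv_pos.2 hy.1), hT.gradient_ft hy]

lemma pp_smul (y : E) {t : ℝ} (ht : 0 < t) : pp φ (t • y) = pp φ y := by
  rw [pp, pp, hT.rr_smul y ht.le, hT.ft_smul y ht, smul_smul, mul_inv]
  congr 1
  field_simp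

lemma pp_self {X : E} (h1 : ‖X‖ = 1) (h2 : φ X = 0) : pp φ X = X := by
  have : rr φ X = 1 := by rw [hT.rr_of_ZZ (mem_ZZ h1 h2), h1]
  rw [pp, this, ft, h2]; simp

lemma pp_normal {X : E} (h1 : ‖X‖ = 1) (h2 : φ X = 0) {s : ℝ} (hs : |s| < b) :
    X + s • gradient φ X ∈ TT φ b ∧ pp φ (X + s • gradient φ X) = X ∧
      gradient φ (X + s • gradient φ X) = gradient φ X := by
  obtain ⟨a1, a2, -, a4, a5⟩ := hT.seg (mem_ZZ h1 h2) (s := s) (by rwa [h1, mul_one])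
  refine ⟨a1, ?_, a2⟩
  rw [pp, a4, a5, h1]; simp

lemma contDiffAt_ft {y : E} (hy : y ∈ TT φ b) : ContDiffAt ℝ ∞ (ft φ) y := by
  have h := hT.good hy
  exact contDiffAt_id.sub (h.contDiffAt.smul h.contDiffAt_gradient)

lemma contDiffAt_rr {y : E} (hy : y ∈ TT φ b) : ContDiffAt ℝ ∞ (rr φ) y := by
  have h := hT.good hy
  have h1 : ContDiffAt ℝ ∞ (fun y : E => ‖y‖ ^ 2 - φ y ^ 2) y :=
    (contDiff_norm_sq ℝ).contDiffAt.sub (h.contDiffAt.pow 2)
  refine h1.sqrt ?_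
  rw [← hT.rr_sq]; exact pow_ne_zero _ hy.1.ne'

lemma contDiffAt_pp {y : E} (hy : y ∈ TT φ b) : ContDiffAt ℝ ∞ (pp φ) y :=
  ((contDiffAt_rr hT hy).inv hy.1.ne').smul (contDiffAt_ft hT hy)

lemma contDiffAt_hs {y : E} (hy : y ∈ TT φ b) : ContDiffAt ℝ ∞ (hs φ) y :=
  (hT.good hy).contDiffAt_gradient.fderiv_right (m := ∞) (by simp)

end tube

/-! ### jets -/

lemma J2cast {F : Type*} [NormedAddCommGroup F] [NormedSpace ℝ F] {u v : ℝ → F}
    {a b c a' b' c' : F} (h : J2 u a b c) (hv : v = u) (ha : a' = a) (hb : b' = b) (hc : c' = c) :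
    J2 v a' b' c' := by
  subst hv ha hb hc; exact h

section jets

lemma two_le_infty : (2 : WithTop ℕ∞) ≤ ∞ :=
  (WithTop.coe_le_coe.2 le_top : ((2 : ℕ∞) : WithTop ℕ∞) ≤ ((⊤ : ℕ∞) : WithTop ℕ∞))

/-- jets of the Gauss map -/
lemma jet_gradient {X : E} (h : Good φ X) (v : E) :
    J2 (fun t : ℝ => gradient φ (X + t • v)) (gradient φ X) (hs φ X v)
      (fderiv ℝ (hs φ) X v v) :=
  J2.of_contDiffAt (h.contDiffAt_gradient.of_le two_le_infty)

lemma line_tendsto (X v : E) : Tendsto (fun t : ℝ => X + t • v) (𝓝 0) (𝓝 X) := by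
  have : Continuous (fun t : ℝ => X + t • v) := by fun_prop
  simpa using this.tendsto 0

lemma hasDerivAt_line (X v : E) (t : ℝ) : HasDerivAt (fun t : ℝ => X + t • v) v t := by
  simpa using ((hasDerivAt_id t).smul_const v).const_add X

lemma jet_line (X v : E) : J2 (fun t : ℝ => X + t • v) X v 0 :=
  ⟨by simp, fun _ => v, Eventually.of_forall fun t => hasDerivAt_line X v t, rfl,
    hasDerivAt_const _ _⟩

/-- jets of `φ` -/
lemma jet_phi {X : E} (h : Good φ X) (v : E) :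
    J2 (fun t : ℝ => φ (X + t • v)) (φ X) ⟪gradient φ X, v⟫ ⟪hs φ X v, v⟫ := by
  refine ⟨by simp, fun t => ⟪gradient φ (X + t • v), v⟫, ?_, by simp, ?_⟩
  · have h1 : ∀ᶠ t in 𝓝 (0 : ℝ), Good φ (X + t • v) :=
      (line_tendsto X v).eventually ((isOpen_good φ).mem_nhds h)
    filter_upwards [h1] with t ht
    exact ht.hasFDerivAt.comp_hasDerivAt t (hasDerivAt_line X v t)
  · have h2 := (jet_gradient h v).hasDerivAt
    have h3 := h2.inner ℝ (hasDerivAt_const (0 : ℝ) v)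
    refine h3.congr_deriv ?_
    simp

variable (hT : Tube φ b)
include hT

/-- jets of the foot map at points of `M'` -/
lemma jet_ft {X : E} (h1 : ‖X‖ = 1) (h2 : φ X = 0) (v : E) :
    J2 (fun t : ℝ => ft φ (X + t • v)) X (v - ⟪gradient φ X, v⟫ • gradient φ X)
      (-(⟪hs φ X v, v⟫ • gradient φ X) - (2 * ⟪gradient φ X, v⟫) • hs φ X v) := by
  have hg := hT.good (hT.mem_TT_of_ZZ (mem_ZZ h1 h2))
  have e1 := (jet_line X v).sub ((jet_phi hg v).smul (jet_gradient hg v))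
  rw [h2] at e1
  exact J2cast e1 rfl (by simp) (by module) (by module)

lemma jet_rr {X : E} (h1 : ‖X‖ = 1) (h2 : φ X = 0) (v : E) :
    J2 (fun t : ℝ => rr φ (X + t • v)) 1 ⟪X, v⟫
      (‖v‖ ^ 2 - ⟪gradient φ X, v⟫ ^ 2 - ⟪X, v⟫ ^ 2) := by
  have hg := hT.good (hT.mem_TT_of_ZZ (mem_ZZ h1 h2))
  have e1 := (jet_line X v).inner (jet_line X v)
  have e2 := (jet_phi hg v).mul (jet_phi hg v)
  have e3 := (e1.sub e2)
  rw [h2] at e3
  have e4 := e3.sqrt (by rw [real_inner_self_eq_norm_sq, h1]; norm_num)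
  have e5 : (fun t : ℝ => rr φ (X + t • v))
      = fun t : ℝ => Real.sqrt (⟪X + t • v, X + t • v⟫ - φ (X + t • v) * φ (X + t • v)) := by
    funext t
    rw [rr, real_inner_self_eq_norm_sq]
    congr 1
    ring
  have e6 : Real.sqrt (⟪X, X⟫ - 0 * 0) = 1 := by
    rw [real_inner_self_eq_norm_sq, h1]; norm_num
  rw [e6] at e4
  refine J2cast e4 e5 rfl ?_ ?_
  · rw [real_inner_comm X v]; ring
  · rw [real_inner_comm X v, inner_zero_left, inner_zero_right, real_inner_self_eq_norm_sq]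
    ring

/-- jets of the normalised foot map at points of `M'` -/
lemma jet_pp {X : E} (h1 : ‖X‖ = 1) (h2 : φ X = 0) (v : E) :
    J2 (fun t : ℝ => pp φ (X + t • v)) X (Pf X (gradient φ X) v) (BB φ X v) := by
  have e1 := ((jet_rr hT h1 h2 v).inv one_ne_zero).smul (jet_ft hT h1 h2 v)
  refine J2cast e1 rfl (by simp) ?_ ?_
  · rw [Pf]; module
  · rw [BB]; module

/-! ### sums over orthonormal bases -/

variable {ι : Type*} [Fintype ι] (e : OrthonormalBasis ι ℝ E)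

lemma sum_BB {X : E} (h1 : ‖X‖ = 1) (h2 : φ X = 0)
    (hmin : LinearMap.trace ℝ E (hs φ X : E →ₗ[ℝ] E) = 0) {m : ℝ}
    (hm : (Fintype.card ι : ℝ) = m + 2) :
    ∑ i, BB φ X (e i) = -(m • X) := by
  have hg := hT.good (hT.mem_TT_of_ZZ (mem_ZZ h1 h2))
  set ν := gradient φ X with hν
  have hνn : ‖ν‖ = 1 := hg.norm_gradient
  have hXν : ⟪X, ν⟫ = 0 := by
    rw [real_inner_comm, hν, hg.euler hT.hom, h2]
  have s1 : ∑ i, (3 * ⟪X, e i⟫ ^ 2 - ‖e i‖ ^ 2 + ⟪ν, e i⟫ ^ 2) = 2 - m := by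
    have a1 : ∑ i, ⟪X, e i⟫ ^ 2 = 1 := by
      have := Pair.sum_inner e X X
      rw [real_inner_self_eq_norm_sq, h1] at this
      simpa [sq] using this
    have a2 : ∑ i, ⟪ν, e i⟫ ^ 2 = 1 := by
      have := Pair.sum_inner e ν ν
      rw [real_inner_self_eq_norm_sq, hνn] at this
      simpa [sq] using this
    have a3 : ∑ i, ‖e i‖ ^ 2 = m + 2 := by
      simp [e.norm_eq_one, hm]
    rw [Finset.sum_add_distrib, Finset.sum_sub_distrib, ← Finset.mul_sum, a1, a2, a3]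
    ring
  have s2 : ∑ i, (2 * ⟪X, e i⟫) • (e i - ⟪ν, e i⟫ • ν) = (2 : ℝ) • X := by
    have a1 : ∑ i, ⟪X, e i⟫ • e i = X := by
      have := e.sum_repr' X
      simpa only [real_inner_comm] using this
    have a2 : ∀ i, (2 * ⟪X, e i⟫) • (e i - ⟪ν, e i⟫ • ν)
        = (2 : ℝ) • (⟪X, e i⟫ • e i) - (2 * (⟪X, e i⟫ * ⟪ν, e i⟫)) • ν := by
      intro i; module
    rw [Finset.sum_congr rfl fun i _ => a2 i, Finset.sum_sub_distrib, ← Finset.smul_sum, a1,
      ← Finset.sum_smul, ← Finset.mul_sum, Pair.sum_inner, hXν]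
    simp
  have s3 : ∑ i, (2 * ⟪ν, e i⟫) • hs φ X (e i) = 0 := by
    have a1 : ∑ i, ⟪ν, e i⟫ • e i = ν := by
      have := e.sum_repr' ν
      simpa only [real_inner_comm] using this
    have a2 : ∀ i, (2 * ⟪ν, e i⟫) • hs φ X (e i) = (2 : ℝ) • hs φ X (⟪ν, e i⟫ • e i) := by
      intro i; rw [map_smul]; module
    rw [Finset.sum_congr rfl fun i _ => a2 i, ← Finset.smul_sum, ← map_sum, a1, hν,
      hg.hs_gradient, smul_zero]
  have s4 : ∑ i, ⟪hs φ X (e i), e i⟫ = 0 := by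
    rw [← hmin, LinearMap.trace_eq_sum_inner _ e]
    refine Finset.sum_congr rfl fun i _ => ?_
    rw [real_inner_comm]; rfl
  simp only [BB]
  rw [Finset.sum_sub_distrib, Finset.sum_sub_distrib, Finset.sum_sub_distrib, ← Finset.sum_smul,
    ← Finset.sum_smul, s1, s2, s3, s4]
  module

omit hT in
/-- symmetry of `D(hs)` in the two differentiation directions -/
lemma dhs_comm {X : E} (h : Good φ X) (u v : E) :
    fderiv ℝ (hs φ) X u v = fderiv ℝ (hs φ) X v u := by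
  have h2 : IsSymmSndFDerivAt ℝ (gradient φ) X :=
    h.contDiffAt_gradient.isSymmSndFDerivAt (by
      rw [minSmoothness_of_isRCLikeNormedField]; exact two_le_infty)
  exact h2 u v

omit hT in
lemma hasFDerivAt_hs {X : E} (h : Good φ X) : HasFDerivAt (hs φ) (fderiv ℝ (hs φ) X) X := by
  have h1 : ContDiffAt ℝ ∞ (hs φ) X := h.contDiffAt_gradient.fderiv_right (m := ∞) (by simp)
  exact (h1.differentiableAt (by simp)).hasFDerivAt

omit hT in
/-- `D(hs)` takes symmetric values -/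
lemma dhs_symm {X : E} (h : Good φ X) (u v w : E) :
    ⟪fderiv ℝ (hs φ) X u v, w⟫ = ⟪v, fderiv ℝ (hs φ) X u w⟫ := by
  have h0 := (hasFDerivAt_hs h).comp_hasDerivAt_of_eq (0 : ℝ) (hasDerivAt_line X u 0) (by simp)
  have h1 : HasDerivAt (fun t : ℝ => ⟪hs φ (X + t • u) v, w⟫) ⟪fderiv ℝ (hs φ) X u v, w⟫ 0 := by
    have := (h0.clm_apply (hasDerivAt_const (0 : ℝ) v)).inner ℝ (hasDerivAt_const (0 : ℝ) w)
    refine this.congr_deriv ?_
    simp
  have h2 : HasDerivAt (fun t : ℝ => ⟪v, hs φ (X + t • u) w⟫) ⟪v, fderiv ℝ (hs φ) X u w⟫ 0 := by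
    have := (hasDerivAt_const (0 : ℝ) v).inner ℝ (h0.clm_apply (hasDerivAt_const (0 : ℝ) w))
    refine this.congr_deriv ?_
    simp
  have h3 : (fun t : ℝ => ⟪hs φ (X + t • u) v, w⟫) =ᶠ[𝓝 0]
      fun t : ℝ => ⟪v, hs φ (X + t • u) w⟫ := by
    have h4 : ∀ᶠ t in 𝓝 (0 : ℝ), Good φ (X + t • u) :=
      (line_tendsto X u).eventually ((isOpen_good φ).mem_nhds h)
    filter_upwards [h4] with t ht
    exact ht.hs_symm v w
  exact h1.unique (h2.congr_of_eventuallyEq h3)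

/-- Laplacian of the Gauss map -/
lemma sum_dhs {X : E} (h1 : ‖X‖ = 1) (h2 : φ X = 0)
    (hmin : ∀ x, x ≠ 0 → φ x = 0 → LinearMap.trace ℝ E (hs φ x : E →ₗ[ℝ] E) = 0) :
    ∑ i, fderiv ℝ (hs φ) X (e i) (e i) = -((∑ i, ‖hs φ X (e i)‖ ^ 2) • gradient φ X) := by
  have hXT := hT.mem_TT_of_ZZ (mem_ZZ h1 h2)
  have hg := hT.good hXT
  apply ext_inner_right ℝ
  intro w
  rw [sum_inner]
  have e1 : ∑ i, ⟪fderiv ℝ (hs φ) X (e i) (e i), w⟫ = ∑ i, ⟪fderiv ℝ (hs φ) X w (e i), e i⟫ := by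
    refine Finset.sum_congr rfl fun i _ => ?_
    rw [dhs_symm hg, dhs_comm hg (e i) w, real_inner_comm]
  rw [e1]
  -- derivative of the trace
  have hl := hasDerivAt_line X w 0
  have h0 := (hasFDerivAt_hs hg).comp_hasDerivAt_of_eq (0 : ℝ) hl (by simp)
  have d1 : HasDerivAt (fun t : ℝ => ∑ i, ⟪hs φ (X + t • w) (e i), e i⟫)
      (∑ i, ⟪fderiv ℝ (hs φ) X w (e i), e i⟫) 0 := by
    have : ∀ i ∈ (Finset.univ : Finset ι), HasDerivAt
        (fun t : ℝ => ⟪hs φ (X + t • w) (e i), e i⟫) ⟪fderiv ℝ (hs φ) X w (e i), e i⟫ 0 := by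
      intro i _
      have := (h0.clm_apply (hasDerivAt_const (0 : ℝ) (e i))).inner ℝ
        (hasDerivAt_const (0 : ℝ) (e i))
      refine this.congr_deriv ?_
      simp
    exact HasDerivAt.fun_sum this
  -- the trace formula
  have hft : HasDerivAt (fun t : ℝ => ft φ (X + t • w)) (w - ⟪gradient φ X, w⟫ • gradient φ X) 0 :=
    (jet_ft hT h1 h2 w).hasDerivAt
  have hftX : ft φ X = X := by rw [ft, h2]; simp
  have h0' := (hasFDerivAt_hs hg).comp_hasDerivAt_of_eq (0 : ℝ) hft (by simp [hftX])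
  set S : ℝ → ℝ := fun t => ∑ i, ⟪hs φ (ft φ (X + t • w)) (hs φ (X + t • w) (e i)), e i⟫ with hS
  have dS : DifferentiableAt ℝ S 0 := by
    have : ∀ i ∈ (Finset.univ : Finset ι), DifferentiableAt ℝ
        (fun t : ℝ => ⟪hs φ (ft φ (X + t • w)) (hs φ (X + t • w) (e i)), e i⟫) 0 := by
      intro i _
      have := (h0'.clm_apply (h0.clm_apply (hasDerivAt_const (0 : ℝ) (e i)))).inner ℝ
        (hasDerivAt_const (0 : ℝ) (e i))
      exact this.differentiableAt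
    exact DifferentiableAt.fun_sum this
  have S0 : S 0 = ∑ i, ‖hs φ X (e i)‖ ^ 2 := by
    simp only [hS, zero_smul, add_zero, hftX]
    refine Finset.sum_congr rfl fun i _ => ?_
    rw [hg.hs_symm, real_inner_self_eq_norm_sq]
  have dphi : HasDerivAt (fun t : ℝ => φ (X + t • w)) ⟪gradient φ X, w⟫ 0 :=
    (jet_phi hg w).hasDerivAt
  have d2 := (dphi.mul dS.hasDerivAt).neg
  have h3 : (fun t : ℝ => ∑ i, ⟪hs φ (X + t • w) (e i), e i⟫) =ᶠ[𝓝 0]
      -((fun t : ℝ => φ (X + t • w)) * S) := by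
    have h4 : ∀ᶠ t in 𝓝 (0 : ℝ), X + t • w ∈ TT φ b :=
      (line_tendsto X w).eventually (hT.isOpen_TT.mem_nhds hXT)
    filter_upwards [h4] with t ht
    set y := X + t • w with hy
    have k1 : ∑ i, ⟪hs φ (ft φ y) (e i), e i⟫ = 0 := by
      rw [← hmin (ft φ y) (hT.ft_ne_zero ht) (hT.phi_ft ht), LinearMap.trace_eq_sum_inner _ e]
      refine Finset.sum_congr rfl fun i _ => ?_
      rw [real_inner_comm]; rfl
    have k2 : ∀ i, ⟪hs φ y (e i), e i⟫ = ⟪hs φ (ft φ y) (e i), e i⟫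
        - φ y * ⟪hs φ (ft φ y) (hs φ y (e i)), e i⟫ := by
      intro i
      have k3 : hs φ y (e i) = hs φ (ft φ y) (dft φ y (e i)) := (hT.hs_ft_dft ht (e i)).symm
      conv_lhs => rw [k3]
      rw [hT.dft_apply, map_sub, map_add, map_smul, map_smul, hT.hs_ft_gradient ht, smul_zero,
        add_zero, inner_sub_left, inner_smul_left]
      rfl
    rw [Finset.sum_congr rfl fun i _ => k2 i, Finset.sum_sub_distrib, k1, ← Finset.mul_sum]
    simp only [Pi.neg_apply, Pi.mul_apply, hS, ← hy]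
    ring
  have d3 := d1.unique (d2.congr_of_eventuallyEq h3)
  rw [d3, S0]
  simp only [zero_smul, add_zero, h2, zero_mul, inner_neg_left, inner_smul_left,
    RCLike.conj_to_real]
  ring

end jets

end Crest.Agent.R246.NcFoot112
end
end

-- ▼ part R246/NcBar_112
section

/-!
# The reflection-coupled barrier and its jets (block I(B))
-/

set_option autoImplicit false
set_option linter.unusedSectionVars false
noncomputable section
open MeasureTheory Set Filter Topology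
open scoped RealInnerProductSpace ContDiff

namespace Crest.Agent.R246.NcBar112

open Crest.Agent.R246.H990 Crest.Agent.R246.SM436 Crest.Agent.R246.NcJet112
  Crest.Agent.R246.NcAlg112 Crest.Agent.R246.NcFoot112

variable {E : Type*} [NormedAddCommGroup E] [InnerProductSpace ℝ E] [FiniteDimensional ℝ E]
variable {φ : E → ℝ} {b : ℝ}

/-- moving second point -/
def qf (φ : E → ℝ) (X Y x : E) : E := pp φ (Rf X Y x)

/-- numerator -/
def nn (φ : E → ℝ) (X Y x : E) : ℝ := ⟪gradient φ x, qf φ X Y x⟫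

/-- denominator -/
def dd (φ : E → ℝ) (X Y x : E) : ℝ := 1 - ⟪pp φ x, qf φ X Y x⟫

/-- the barrier -/
def ff (φ : E → ℝ) (lam : ℝ) (X Y x : E) : ℝ :=
  nn φ X Y x * (dd φ X Y x)⁻¹ + lam * Real.sqrt (2 * dd φ X Y x)

variable {X Y : E} {d n ε : ℝ}

section

variable (hT : Tube φ b) (hX : φ X = 0) (hY : φ Y = 0)
  (hp : Pair X Y (gradient φ X) (gradient φ Y) d n ε)
include hT hX hY hp

lemma jet_qf (v : E) :
    J2 (fun t : ℝ => qf φ X Y (X + t • v)) Y (Pf Y (gradient φ Y) (Rf X Y v))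
      (BB φ Y (Rf X Y v)) := by
  have h1 := jet_pp hT hp.nY hY (Rf X Y v)
  refine J2cast h1 ?_ rfl rfl rfl
  funext t
  rw [qf]
  congr 1
  rw [hp.Rf_eq, hp.Rf_eq v]
  have h2 := hp.Rf_X
  rw [hp.Rf_eq] at h2
  rw [← h2, inner_add_right, inner_smul_right]
  have h3 : ⟪X - (X - (1 / d * ⟪X - Y, X⟫) • (X - Y)), v⟫ = ⟪X - Y, v⟫ := by rw [h2]
  have h4 : X - (X - (1 / d * ⟪X - Y, X⟫) • (X - Y)) = X - Y := by rw [h2]
  rw [h4]
  module

lemma jet_nn (v : E) :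
    J2 (fun t : ℝ => nn φ X Y (X + t • v)) n
      (Pair.n' X Y (gradient φ X) (gradient φ Y) (hs φ X : E →ₗ[ℝ] E) v)
      (⟪fderiv ℝ (hs φ) X v v, Y⟫
        + 2 * ⟪(hs φ X : E →ₗ[ℝ] E) v, Pf Y (gradient φ Y) (Rf X Y v)⟫
        + ⟪gradient φ X, BB φ Y (Rf X Y v)⟫) := by
  have hg := hT.good (hT.mem_TT_of_ZZ (mem_ZZ hp.nX hX))
  have h1 := (jet_gradient hg v).inner (jet_qf hT hX hY hp v)
  exact J2cast h1 rfl hp.hn.symm rfl rfl

lemma jet_dd (v : E) :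
    J2 (fun t : ℝ => dd φ X Y (X + t • v)) d
      (Pair.d' X Y (gradient φ X) (gradient φ Y) v)
      (-(⟪BB φ X v, Y⟫ + 2 * ⟪Pf X (gradient φ X) v, Pf Y (gradient φ Y) (Rf X Y v)⟫
        + ⟪X, BB φ Y (Rf X Y v)⟫)) := by
  have h1 := (J2.const (1 : ℝ)).sub ((jet_pp hT hp.nX hX v).inner (jet_qf hT hX hY hp v))
  refine J2cast h1 rfl ?_ ?_ ?_
  · rw [hp.hd]; ring
  · rw [Pair.d']; ring
  · ring

/-- abbreviation: second derivative of the numerator along `v` -/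
def n2 (φ : E → ℝ) (X Y v : E) : ℝ := ⟪fderiv ℝ (hs φ) X v v, Y⟫
        + 2 * ⟪(hs φ X : E →ₗ[ℝ] E) v, Pf Y (gradient φ Y) (Rf X Y v)⟫
        + ⟪gradient φ X, BB φ Y (Rf X Y v)⟫

/-- abbreviation: second derivative of the denominator along `v` -/
def d2 (φ : E → ℝ) (X Y v : E) : ℝ :=
  -(⟪BB φ X v, Y⟫ + 2 * ⟪Pf X (gradient φ X) v, Pf Y (gradient φ Y) (Rf X Y v)⟫
        + ⟪X, BB φ Y (Rf X Y v)⟫)

/-- first derivative of the barrier -/
def f1 (φ : E → ℝ) (X Y : E) (d n ε : ℝ) (v : E) : ℝ :=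
  (Pair.n' X Y (gradient φ X) (gradient φ Y) (hs φ X : E →ₗ[ℝ] E) v
    - (n / d - ε) * Pair.d' X Y (gradient φ X) (gradient φ Y) v) / d

/-- second derivative of the barrier -/
def f2 (φ : E → ℝ) (X Y : E) (d n ε : ℝ) (v : E) : ℝ :=
  1 / d * (n2 φ X Y v - (n / d - ε) * d2 φ X Y v)
    - 2 / d ^ 2 * (Pair.n' X Y (gradient φ X) (gradient φ Y) (hs φ X : E →ₗ[ℝ] E) v
        * Pair.d' X Y (gradient φ X) (gradient φ Y) v)
    + 1 / d ^ 2 * (2 * (n / d) - ε / 2) * Pair.d' X Y (gradient φ X) (gradient φ Y) v ^ 2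

lemma jet_ff {lam : ℝ} (hε : ε = lam * Real.sqrt (2 * d) / 2) (v : E) :
    J2 (fun t : ℝ => ff φ lam X Y (X + t • v)) (n / d + 2 * ε) (f1 φ X Y d n ε v)
      (f2 φ X Y d n ε v) := by
  have hd := hp.dpos
  have h1 := jet_nn hT hX hY hp v
  have h2 := jet_dd hT hX hY hp v
  have h3 := h1.mul (h2.inv hd.ne')
  have h4 := ((J2.const (2 : ℝ)).mul h2).sqrt (by positivity)
  have h5 := (J2.const lam).mul h4
  have h6 := h3.add h5
  have hr : 0 < Real.sqrt (2 * d) := Real.sqrt_pos.2 (by positivity)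
  have hr2 : Real.sqrt (2 * d) ^ 2 = 2 * d := Real.sq_sqrt (by positivity)
  set r := Real.sqrt (2 * d) with hrdef
  have hd' : d = r ^ 2 / 2 := by rw [hr2]; ring
  refine J2cast h6 rfl ?_ ?_ ?_
  · rw [hε]; field_simp
  · rw [f1, hε, hd']
    field_simp
    ring
  · rw [f2, n2, d2, hε, hd']
    field_simp
    ring

lemma jet_log {lam : ℝ} (hε : ε = lam * Real.sqrt (2 * d) / 2) (hΦ : 0 < n / d + 2 * ε) (v : E) :
    J2 (fun t : ℝ => Real.log (ff φ lam X Y (X + t • v))) (Real.log (n / d + 2 * ε))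
      (f1 φ X Y d n ε v / (n / d + 2 * ε))
      (f2 φ X Y d n ε v / (n / d + 2 * ε) - (f1 φ X Y d n ε v / (n / d + 2 * ε)) ^ 2) :=
  (jet_ff hT hX hY hp hε v).log hΦ.ne'

variable {ι : Type*} [Fintype ι] (e : OrthonormalBasis ι ℝ E)

/-- **the sum of the second derivatives of the barrier** -/
theorem sum_log_ge {m : ℝ} (hm : (Fintype.card ι : ℝ) = m + 2)
    (hmin : ∀ x, x ≠ 0 → φ x = 0 → LinearMap.trace ℝ E (hs φ x : E →ₗ[ℝ] E) = 0)
    (hε : 0 ≤ ε) (hk : 2 * ε ≤ n / d) (hk0 : 0 < n) (hq : 1 / 2 ≤ Pair.q d n ε)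
    (hh : ∀ v, ‖hs φ X v‖ ≤ (n / d + 2 * ε) * ‖v‖) :
    (m - ∑ i, ‖hs φ X (e i)‖ ^ 2)
        - (4 * m * ε + 16 * ε ^ 2 * (n / d + 2 * ε) + 18 * ε ^ 2 / ((n / d + 2 * ε) * d))
          / (n / d + 2 * ε)
      ≤ ∑ i, (f2 φ X Y d n ε (e i) / (n / d + 2 * ε)
          - (f1 φ X Y d n ε (e i) / (n / d + 2 * ε)) ^ 2) := by
  classical
  have hd := hp.dpos
  have hXZ := mem_ZZ hp.nX hX
  have hYZ := mem_ZZ hp.nY hY
  have hg := hT.good (hT.mem_TT_of_ZZ hXZ)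
  have hΦ : 0 < n / d + 2 * ε := by positivity
  set A2 := ∑ i, ‖hs φ X (e i)‖ ^ 2 with hA2
  have hA0 : 0 ≤ A2 := Finset.sum_nonneg fun i _ => by positivity
  have htrX := hmin X hXZ.1 hX
  have htr : ∑ i, ⟪(hs φ X : E →ₗ[ℝ] E) (e i), e i⟫ = 0 := by
    rw [← htrX, LinearMap.trace_eq_sum_inner _ e]
    refine Finset.sum_congr rfl fun i _ => ?_
    rw [real_inner_comm]
  have hcore := hp.core (h := (hs φ X : E →ₗ[ℝ] E)) e hm hA0 (fun u v => hg.hs_symm u v)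
    (hg.hs_self hT.hom) hg.hs_gradient htr hε hk hk0 hq hh
  -- the reflected basis
  have hR : ∃ e' : OrthonormalBasis ι ℝ E, ∀ i, e' i = Rf X Y (e i) := by
    have hRn : ∀ u v : E, ⟪Rf X Y u, Rf X Y v⟫ = ⟪u, v⟫ := by
      intro u v
      rw [Rf_symm, hp.Rf_eq, hp.Rf_eq v]
      congr 1
      have : ⟪X - Y, X - Y⟫ = 2 * d := by rw [real_inner_self_eq_norm_sq, hp.rho2]
      rw [inner_sub_right, inner_smul_right, this]
      have hd' := hd.ne'
      have h7 : (1 / d * (⟪X - Y, v⟫ - 1 / d * ⟪X - Y, v⟫ * (2 * d))) = -(1 / d * ⟪X - Y, v⟫) := by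
        field_simp; ring
      rw [h7]
      module
    have ho : Orthonormal ℝ fun i => Rf X Y (e i) := by
      rw [orthonormal_iff_ite]
      intro i j
      rw [hRn]
      exact (orthonormal_iff_ite.1 e.orthonormal) i j
    have hcard : Fintype.card ι = Module.finrank ℝ E := by
      rw [Module.finrank_eq_card_basis e.toBasis]
    refine ⟨OrthonormalBasis.mk ho
      (ho.linearIndependent.span_eq_top_of_card_eq_finrank' hcard).ge, fun i => ?_⟩
    simp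
  obtain ⟨e', he'⟩ := hR
  have hYm := hmin Y hYZ.1 hY
  have sB1 : ∑ i, BB φ Y (Rf X Y (e i)) = -(m • Y) := by
    have := sum_BB hT e' hp.nY hY hYm hm
    simpa only [he'] using this
  have sB2 : ∑ i, BB φ X (e i) = -(m • X) := sum_BB hT e hp.nX hX htrX hm
  have sC : ∑ i, fderiv ℝ (hs φ) X (e i) (e i) = -(A2 • gradient φ X) :=
    sum_dhs hT e hp.nX hX hmin
  have sn : ∑ i, n2 φ X Y (e i) = -(A2 + m) * n
      + 2 * ∑ i, ⟪(hs φ X : E →ₗ[ℝ] E) (e i), Pf Y (gradient φ Y) (Rf X Y (e i))⟫ := by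
    simp only [n2]
    rw [Finset.sum_add_distrib, Finset.sum_add_distrib, ← sum_inner, ← inner_sum, sC, sB1,
      ← Finset.mul_sum, inner_neg_left, inner_smul_left, inner_neg_right, inner_smul_right, hp.hn]
    simp only [RCLike.conj_to_real]
    ring
  have sd : ∑ i, d2 φ X Y (e i) = 2 * m * (1 - d)
      - 2 * ∑ i, ⟪Pf X (gradient φ X) (e i), Pf Y (gradient φ Y) (Rf X Y (e i))⟫ := by
    simp only [d2]
    rw [Finset.sum_neg_distrib, Finset.sum_add_distrib, Finset.sum_add_distrib, ← sum_inner,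
      ← inner_sum, sB2, sB1, ← Finset.mul_sum, inner_neg_left, inner_smul_left, inner_neg_right,
      inner_smul_right, hp.hd]
    simp only [RCLike.conj_to_real]
    ring
  have sf2 : ∑ i, f2 φ X Y d n ε (e i) = (1 / d) * ((-(A2 + m) * n
        + 2 * ∑ i, ⟪(hs φ X : E →ₗ[ℝ] E) (e i), Pf Y (gradient φ Y) (Rf X Y (e i))⟫)
            - (n / d - ε) * (2 * m * (1 - d)
              - 2 * ∑ i, ⟪Pf X (gradient φ X) (e i), Pf Y (gradient φ Y) (Rf X Y (e i))⟫))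
        - (2 / d ^ 2) * (∑ i, Pair.n' X Y (gradient φ X) (gradient φ Y) (hs φ X : E →ₗ[ℝ] E) (e i)
            * Pair.d' X Y (gradient φ X) (gradient φ Y) (e i))
        + (1 / d ^ 2) * (2 * (n / d) - ε / 2) *
          (∑ i, Pair.d' X Y (gradient φ X) (gradient φ Y) (e i) ^ 2) := by
    rw [← sn, ← sd]
    simp only [f2]
    rw [Finset.sum_add_distrib, Finset.sum_sub_distrib, ← Finset.mul_sum, ← Finset.mul_sum,
      ← Finset.mul_sum, Finset.sum_sub_distrib, ← Finset.mul_sum]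
  have sf1 : ∑ i, ((Pair.n' X Y (gradient φ X) (gradient φ Y) (hs φ X : E →ₗ[ℝ] E) (e i)
      - (n / d - ε) * Pair.d' X Y (gradient φ X) (gradient φ Y) (e i)) / d) ^ 2
      = ∑ i, f1 φ X Y d n ε (e i) ^ 2 := rfl
  rw [← sf2, sf1] at hcore
  rw [Finset.sum_sub_distrib, ← Finset.sum_div]
  have s3 : ∑ i, (f1 φ X Y d n ε (e i) / (n / d + 2 * ε)) ^ 2
      = (∑ i, f1 φ X Y d n ε (e i) ^ 2) / (n / d + 2 * ε) / (n / d + 2 * ε) := by
    rw [div_div, ← sq, Finset.sum_div]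
    refine Finset.sum_congr rfl fun i _ => ?_
    rw [div_pow]
  rw [s3]
  have h9 := div_le_div_of_nonneg_right hcore hΦ.le
  have h10 : ((m - A2) * (n / d + 2 * ε)
        - (4 * m * ε + 16 * ε ^ 2 * (n / d + 2 * ε) + 18 * ε ^ 2 / ((n / d + 2 * ε) * d)))
        / (n / d + 2 * ε) = (m - A2)
        - (4 * m * ε + 16 * ε ^ 2 * (n / d + 2 * ε) + 18 * ε ^ 2 / ((n / d + 2 * ε) * d))
          / (n / d + 2 * ε) := by
    rw [sub_div, mul_div_assoc, div_self hΦ.ne', mul_one]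
  rw [h10, sub_div] at h9
  exact h9

end

/-! ### criticality -/

/-- the two-point function (one sign) -/
def Psi (φ : E → ℝ) (lam : ℝ) (x y : E) : ℝ :=
  ⟪gradient φ x, y⟫ * (1 - ⟪x, y⟫)⁻¹ + lam * Real.sqrt (2 * (1 - ⟪x, y⟫))

lemma one_sub_inner {x y : E} (hx : ‖x‖ = 1) (hy : ‖y‖ = 1) :
    2 * (1 - ⟪x, y⟫) = ‖x - y‖ ^ 2 := by
  rw [norm_sub_sq_real, hx, hy]; ring

lemma one_sub_inner_pos {x y : E} (hx : ‖x‖ = 1) (hy : ‖y‖ = 1) (hne : x ≠ y) :
    0 < 1 - ⟪x, y⟫ := by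
  have h1 := one_sub_inner hx hy
  have h2 : 0 < ‖x - y‖ ^ 2 := by
    have := norm_pos_iff.2 (sub_ne_zero.2 hne)
    positivity
  linarith

section crit

variable (hT : Tube φ b)
include hT

/-- first order condition at a maximising pair -/
lemma crit_of_max {lam : ℝ} (nX : ‖X‖ = 1) (hX : φ X = 0) (nY : ‖Y‖ = 1) (hY : φ Y = 0)
    (hne : X ≠ Y) (hmax : ∀ y, ‖y‖ = 1 → φ y = 0 → y ≠ X → Psi φ lam X y ≤ Psi φ lam X Y) :
    Pair X Y (gradient φ X) (gradient φ Y) (1 - ⟪X, Y⟫) ⟪gradient φ X, Y⟫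
      (lam * Real.sqrt (2 * (1 - ⟪X, Y⟫)) / 2) := by
  have hXT := hT.mem_TT_of_ZZ (mem_ZZ nX hX)
  have hYT := hT.mem_TT_of_ZZ (mem_ZZ nY hY)
  have hgX := hT.good hXT
  have hgY := hT.good hYT
  have hd := one_sub_inner_pos nX nY hne
  refine ⟨nX, nY, hgX.norm_gradient, hgY.norm_gradient, ?_, ?_, by ring, rfl, hd, ?_⟩
  · rw [real_inner_comm, hT.euler hXT, hX]
  · rw [real_inner_comm, hT.euler hYT, hY]
  set d := 1 - ⟪X, Y⟫ with hdd
  set n := ⟪gradient φ X, Y⟫ with hnn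
  apply ext_inner_right ℝ
  intro v
  rw [inner_zero_left, Pf_symm]
  have j1 := (J2.const (gradient φ X)).inner (jet_pp hT nY hY v)
  have j2 := (J2.const (1 : ℝ)).sub ((J2.const X).inner (jet_pp hT nY hY v))
  rw [← hdd] at j2
  rw [← hnn] at j1
  have j3 := j1.mul (j2.inv hd.ne')
  have j4 := ((J2.const (2 : ℝ)).mul j2).sqrt (by positivity)
  have j5 := j3.add ((J2.const lam).mul j4)
  have hr : 0 < Real.sqrt (2 * d) := Real.sqrt_pos.2 (by positivity)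
  have hr2 : Real.sqrt (2 * d) ^ 2 = 2 * d := Real.sq_sqrt (by positivity)
  have hlm : IsLocalMax (fun t : ℝ => ⟪gradient φ X, pp φ (Y + t • v)⟫
      * (1 - ⟪X, pp φ (Y + t • v)⟫)⁻¹ + lam * Real.sqrt (2 * (1 - ⟪X, pp φ (Y + t • v)⟫))) 0 := by
    have e1 : ∀ᶠ t in 𝓝 (0 : ℝ), Y + t • v ∈ TT φ b :=
      (line_tendsto Y v).eventually (hT.isOpen_TT.mem_nhds hYT)
    have e2 : ∀ᶠ t in 𝓝 (0 : ℝ), pp φ (Y + t • v) ≠ X := by
      have hc : ContinuousAt (fun t : ℝ => pp φ (Y + t • v)) 0 :=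
        (jet_pp hT nY hY v).hasDerivAt.continuousAt
      refine hc.eventually_ne ?_
      simp only [zero_smul, add_zero, pp_self hT nY hY]
      exact hne.symm
    filter_upwards [e1, e2] with t ht1 ht2
    have := hmax (pp φ (Y + t • v)) (norm_pp hT ht1) (phi_pp hT ht1) ht2
    simp only [zero_smul, add_zero, pp_self hT nY hY]
    exact this
  have key := (j5.localMax hlm).1
  rw [inner_add_left, inner_smul_left]
  simp only [RCLike.conj_to_real, inner_zero_left, zero_add, zero_sub, zero_mul, mul_zero] at key ⊢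
  set r := Real.sqrt (2 * d) with hrdef
  have hd' : d = r ^ 2 / 2 := by rw [hr2]; ring
  rw [hd'] at key ⊢
  field_simp at key ⊢
  linarith

end crit

end Crest.Agent.R246.NcBar112
end
end

-- ▼ part R246/NcLoc_112

/-!
# Local barriers for the noncollapsing quantity (block I(B))
-/

set_option autoImplicit false
set_option linter.unusedSectionVars false
noncomputable section
open MeasureTheory Set Filter Topology
open scoped RealInnerProductSpace ContDiff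

namespace Crest.Agent.R246.NcLoc112

open Crest.Agent.R246.H990 Crest.Agent.R246.SM436 Crest.Agent.R246.NcJet112
  Crest.Agent.R246.NcAlg112 Crest.Agent.R246.NcFoot112 Crest.Agent.R246.NcBar112

variable {E : Type*} [NormedAddCommGroup E] [InnerProductSpace ℝ E] [FiniteDimensional ℝ E]
variable {φ : E → ℝ} {b lam : ℝ}

/-- reflection as a function of all variables -/
def RF (p : E × E × E) : E := Rf p.2.1 p.2.2 p.1

lemma contDiffAt_RF {p : E × E × E} (hp : p.2.1 ≠ p.2.2) : ContDiffAt ℝ ∞ (RF (E := E)) p := by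
  have h1 : ContDiffAt ℝ ∞ (fun p : E × E × E => p.2.1 - p.2.2) p := by fun_prop
  have h2 : ContDiffAt ℝ ∞ (fun p : E × E × E => ‖p.2.1 - p.2.2‖ ^ 2) p := h1.norm_sq ℝ
  have h3 : ‖p.2.1 - p.2.2‖ ^ 2 ≠ 0 := by
    have := norm_pos_iff.2 (sub_ne_zero.2 hp)
    positivity
  have h4 : ContDiffAt ℝ ∞ (fun p : E × E × E => ⟪p.2.1 - p.2.2, p.1⟫) p :=
    h1.inner ℝ contDiffAt_fst
  have h5 : ContDiffAt ℝ ∞ (fun p : E × E × E => 2 / ‖p.2.1 - p.2.2‖ ^ 2 * ⟪p.2.1 - p.2.2, p.1⟫) p :=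
    (contDiffAt_const.div h2 h3).mul h4
  exact contDiffAt_fst.sub (h5.smul h1)

/-- the good triples -/
def Om (φ : E → ℝ) (b lam : ℝ) : Set (E × E × E) :=
  {p | p.1 ∈ TT φ b ∧ p.2.1 ≠ p.2.2 ∧ RF p ∈ TT φ b ∧ 0 < dd φ p.2.1 p.2.2 p.1 ∧
    0 < ff φ lam p.2.1 p.2.2 p.1}

/-- barrier as a function of all variables -/
def FF (φ : E → ℝ) (lam : ℝ) (p : E × E × E) : ℝ := Real.log (ff φ lam p.2.1 p.2.2 p.1)

variable (hT : Tube φ b)
include hT

lemma contDiffAt_qf {p : E × E × E} (h2 : p.2.1 ≠ p.2.2) (h3 : RF p ∈ TT φ b) :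
    ContDiffAt ℝ ∞ (fun p : E × E × E => qf φ p.2.1 p.2.2 p.1) p :=
  (contDiffAt_pp hT h3).comp p (contDiffAt_RF h2)

lemma contDiffAt_dd {p : E × E × E} (h1 : p.1 ∈ TT φ b) (h2 : p.2.1 ≠ p.2.2)
    (h3 : RF p ∈ TT φ b) :
    ContDiffAt ℝ ∞ (fun p : E × E × E => dd φ p.2.1 p.2.2 p.1) p := by
  have e1 : ContDiffAt ℝ ∞ (fun p : E × E × E => pp φ p.1) p :=
    (contDiffAt_pp hT h1).comp p contDiffAt_fst
  exact contDiffAt_const.sub (e1.inner ℝ (contDiffAt_qf hT h2 h3))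

lemma contDiffAt_ff {p : E × E × E} (h1 : p.1 ∈ TT φ b) (h2 : p.2.1 ≠ p.2.2)
    (h3 : RF p ∈ TT φ b) (h4 : 0 < dd φ p.2.1 p.2.2 p.1) :
    ContDiffAt ℝ ∞ (fun p : E × E × E => ff φ lam p.2.1 p.2.2 p.1) p := by
  have e1 : ContDiffAt ℝ ∞ (fun p : E × E × E => gradient φ p.1) p :=
    (hT.good h1).contDiffAt_gradient.comp p contDiffAt_fst
  have e2 : ContDiffAt ℝ ∞ (fun p : E × E × E => nn φ p.2.1 p.2.2 p.1) p :=
    e1.inner ℝ (contDiffAt_qf hT h2 h3)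
  have e3 := contDiffAt_dd hT h1 h2 h3
  have e4 : ContDiffAt ℝ ∞ (fun p : E × E × E => Real.sqrt (2 * dd φ p.2.1 p.2.2 p.1)) p :=
    (contDiffAt_const.mul e3).sqrt (by positivity)
  exact (e2.mul (e3.inv h4.ne')).add (contDiffAt_const.mul e4)

lemma contDiffAt_FF {p : E × E × E} (hp : p ∈ Om φ b lam) : ContDiffAt ℝ ∞ (FF φ lam) p :=
  (contDiffAt_ff hT hp.1 hp.2.1 hp.2.2.1 hp.2.2.2.1).log hp.2.2.2.2.ne'

lemma isOpen_Om : IsOpen (Om φ b lam) := by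
  rw [isOpen_iff_mem_nhds]
  rintro p ⟨h1, h2, h3, h4, h5⟩
  have c1 : ContinuousAt (RF (E := E)) p := (contDiffAt_RF h2).continuousAt
  have c2 := (contDiffAt_dd hT h1 h2 h3).continuousAt
  have c3 := (contDiffAt_ff (lam := lam) hT h1 h2 h3 h4).continuousAt
  have m1 : ∀ᶠ p' : E × E × E in 𝓝 p, p'.1 ∈ TT φ b :=
    continuousAt_fst.eventually_mem (hT.isOpen_TT.mem_nhds h1)
  have m2 : ∀ᶠ p' : E × E × E in 𝓝 p, p'.2.1 ≠ p'.2.2 := by
    have : IsOpen {p' : E × E × E | p'.2.1 ≠ p'.2.2} :=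
      isOpen_ne_fun (by fun_prop) (by fun_prop)
    exact this.mem_nhds h2
  have m3 : ∀ᶠ p' : E × E × E in 𝓝 p, RF p' ∈ TT φ b :=
    c1.eventually_mem (hT.isOpen_TT.mem_nhds h3)
  have m4 : ∀ᶠ p' : E × E × E in 𝓝 p, 0 < dd φ p'.2.1 p'.2.2 p'.1 :=
    c2.eventually_mem (isOpen_Ioi.mem_nhds h4)
  have m5 : ∀ᶠ p' : E × E × E in 𝓝 p, 0 < ff φ lam p'.2.1 p'.2.2 p'.1 :=
    c3.eventually_mem (isOpen_Ioi.mem_nhds h5)
  filter_upwards [m1, m2, m3, m4, m5] with p' a1 a2 a3 a4 a5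
  exact ⟨a1, a2, a3, a4, a5⟩

/-- the barrier is a value of the two-point function -/
lemma ff_eq_Psi {X Y x : E} (hx : x ∈ TT φ b) :
    ff φ lam X Y x = Psi φ lam (pp φ x) (qf φ X Y x) := by
  rw [ff, Psi, nn, dd, gradient_pp hT hx]

/-- in the good set the barrier is below any majorant of the two-point function -/
lemma ff_le {G : E → ℝ}
    (hG : ∀ x y, ‖x‖ = 1 → φ x = 0 → ‖y‖ = 1 → φ y = 0 → x ≠ y → Psi φ lam x y ≤ G x)
    {p : E × E × E} (hp : p ∈ Om φ b lam) : ff φ lam p.2.1 p.2.2 p.1 ≤ G (pp φ p.1) := by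
  obtain ⟨h1, h2, h3, h4, h5⟩ := hp
  rw [ff_eq_Psi hT h1]
  refine hG _ _ (norm_pp hT h1) (phi_pp hT h1) (norm_pp hT h3) (phi_pp hT h3) ?_
  intro h
  have h6 : dd φ p.2.1 p.2.2 p.1 = 0 := by
    have h7 : qf φ p.2.1 p.2.2 p.1 = pp φ p.1 := h.symm
    rw [dd, h7, real_inner_self_eq_norm_sq, norm_pp hT h1]; norm_num
  linarith

omit hT in
/-- tangential trace of a bilinear form -/
lemma tangential_sum {ι : Type*} [Fintype ι] (e : OrthonormalBasis ι ℝ E) (B : E →L[ℝ] E →L[ℝ] ℝ)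
    {X ν : E} (h1 : ‖X‖ = 1) (h2 : ‖ν‖ = 1) (h3 : ⟪X, ν⟫ = 0) :
    ∑ i, B (Pf X ν (e i)) (Pf X ν (e i)) = ∑ i, B (e i) (e i) - B X X - B ν ν := by
  have sX : ∀ x : E, ∑ i, ⟪x, e i⟫ • e i = x := by
    intro x
    have := e.sum_repr' x
    simpa only [real_inner_comm] using this
  have s1 : ∀ x : E, ∑ i, ⟪x, e i⟫ * B (e i) x = B x x := by
    intro x
    have : ∑ i, ⟪x, e i⟫ * B (e i) x = B (∑ i, ⟪x, e i⟫ • e i) x := by
      rw [map_sum, sum_apply]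
      exact Finset.sum_congr rfl fun i _ => by rw [map_smul]; rfl
    rw [this, sX]
  have s2 : ∀ x : E, ∑ i, ⟪x, e i⟫ * B x (e i) = B x x := by
    intro x
    have : ∑ i, ⟪x, e i⟫ * B x (e i) = B x (∑ i, ⟪x, e i⟫ • e i) := by
      rw [map_sum]
      exact Finset.sum_congr rfl fun i _ => by rw [map_smul]; rfl
    rw [this, sX]
  have h4 : ⟪ν, X⟫ = 0 := by rw [real_inner_comm]; exact h3
  have i1 : ∑ i, ⟪X, e i⟫ * ⟪X, e i⟫ = 1 := by
    rw [Pair.sum_inner, real_inner_self_eq_norm_sq, h1]; norm_num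
  have i2 : ∑ i, ⟪ν, e i⟫ * ⟪ν, e i⟫ = 1 := by
    rw [Pair.sum_inner, real_inner_self_eq_norm_sq, h2]; norm_num
  have i3 : ∑ i, ⟪X, e i⟫ * ⟪ν, e i⟫ = 0 := by rw [Pair.sum_inner, h3]
  have h5 : ∀ i, B (Pf X ν (e i)) (Pf X ν (e i)) = B (e i) (e i)
      - ⟪X, e i⟫ * B (e i) X - ⟪ν, e i⟫ * B (e i) ν - ⟪X, e i⟫ * B X (e i)
      - ⟪ν, e i⟫ * B ν (e i) + (⟪X, e i⟫ * ⟪X, e i⟫) * B X X
      + (⟪X, e i⟫ * ⟪ν, e i⟫) * (B X ν + B ν X) + (⟪ν, e i⟫ * ⟪ν, e i⟫) * B ν ν := by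
    intro i
    simp only [Pf, map_sub, map_smul, sub_apply, smul_apply, smul_eq_mul]
    ring
  rw [Finset.sum_congr rfl fun i _ => h5 i]
  simp only [Finset.sum_add_distrib, Finset.sum_sub_distrib, ← Finset.sum_mul, s1, s2, i1, i2, i3]
  ring

/-- **the differential inequality at a maximising pair.** -/
theorem lop_ge {ι : Type*} [Fintype ι] (e : OrthonormalBasis ι ℝ E) {m : ℝ}
    (hm : (Fintype.card ι : ℝ) = m + 2)
    (hmin : ∀ x, x ≠ 0 → φ x = 0 → LinearMap.trace ℝ E (hs φ x : E →ₗ[ℝ] E) = 0)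
    {G : E → ℝ}
    (hG : ∀ x y, ‖x‖ = 1 → φ x = 0 → ‖y‖ = 1 → φ y = 0 → x ≠ y → Psi φ lam x y ≤ G x)
    {X Y : E} (nX : ‖X‖ = 1) (hX : φ X = 0) (nY : ‖Y‖ = 1) (hY : φ Y = 0) (hne : X ≠ Y)
    (hXY : G X = Psi φ lam X Y) {d n ε : ℝ} (hd : d = 1 - ⟪X, Y⟫) (hn : n = ⟪gradient φ X, Y⟫)
    (hε : ε = lam * Real.sqrt (2 * d) / 2) (hlam : 0 ≤ lam)
    (hk : 2 * ε ≤ n / d) (hk0 : 0 < n) (hq : 1 / 2 ≤ Pair.q d n ε)
    (hh : ∀ v, ‖hs φ X v‖ ≤ (n / d + 2 * ε) * ‖v‖) :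
    (X, X, Y) ∈ Om φ b lam ∧ FF φ lam (X, X, Y) = Real.log (G X) ∧
    (m - ∑ i, ‖hs φ X (e i)‖ ^ 2)
        - (4 * m * ε + 16 * ε ^ 2 * (n / d + 2 * ε) + 18 * ε ^ 2 / ((n / d + 2 * ε) * d))
          / (n / d + 2 * ε)
      ≤ ∑ i, fderiv ℝ (fderiv ℝ (fun x => FF φ lam (x, X, Y))) X (Pf X (gradient φ X) (e i))
            (Pf X (gradient φ X) (e i))
          + fderiv ℝ (fun x => FF φ lam (x, X, Y)) X (-(m • X)) := by
  subst hd hn
  have hmax : ∀ y, ‖y‖ = 1 → φ y = 0 → y ≠ X → Psi φ lam X y ≤ Psi φ lam X Y := by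
    intro y h1 h2 h3
    rw [← hXY]
    exact hG X y nX hX h1 h2 h3.symm
  have hp := crit_of_max hT nX hX nY hY hne hmax
  rw [← hε] at hp
  have hdpos := hp.dpos
  have hε0 : 0 ≤ ε := by rw [hε]; positivity
  set d := 1 - ⟪X, Y⟫ with hdd
  set n := ⟪gradient φ X, Y⟫ with hnn
  have hΦ : 0 < n / d + 2 * ε := by positivity
  have hXZ := mem_ZZ nX hX
  have hXT := hT.mem_TT_of_ZZ hXZ
  have hYT := hT.mem_TT_of_ZZ (mem_ZZ nY hY)
  have hg := hT.good hXT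
  have hνn := hg.norm_gradient
  have hXν : ⟪X, gradient φ X⟫ = 0 := hp.Xν
  have hqX : qf φ X Y X = Y := by rw [qf, hp.Rf_X, pp_self hT nY hY]
  have hddX : dd φ X Y X = d := by rw [dd, hqX, pp_self hT nX hX]
  have hffX : ff φ lam X Y X = n / d + 2 * ε := by
    rw [ff, nn, hqX, hddX, hε, ← hnn]; ring
  have hOm : (X, X, Y) ∈ Om φ b lam :=
    ⟨hXT, hne, by show Rf X Y X ∈ _; rw [hp.Rf_X]; exact hYT, by
      show 0 < dd φ X Y X; rw [hddX]; exact hdpos, by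
      show 0 < ff φ lam X Y X; rw [hffX]; exact hΦ⟩
  have hGX : G X = n / d + 2 * ε := by
    rw [hXY, Psi, ← hnn, ← hdd, hε]; ring
  refine ⟨hOm, by rw [FF, hffX, hGX], ?_⟩
  set F : E → ℝ := fun x => FF φ lam (x, X, Y) with hF
  have hFc : ContDiffAt ℝ ∞ F X := by
    have c1 : ContDiffAt ℝ ∞ (FF φ lam) ((fun x : E => (x, X, Y)) X) := contDiffAt_FF hT hOm
    have c2 : ContDiffAt ℝ ∞ (fun x : E => (x, X, Y)) X := by fun_prop
    exact ContDiffAt.comp (g := FF φ lam) X c1 c2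
  have hF2 : ContDiffAt ℝ 2 F X := hFc.of_le two_le_infty
  have hjet : ∀ v, fderiv ℝ F X v = f1 φ X Y d n ε v / (n / d + 2 * ε) ∧
      fderiv ℝ (fderiv ℝ F) X v v = f2 φ X Y d n ε v / (n / d + 2 * ε)
        - (f1 φ X Y d n ε v / (n / d + 2 * ε)) ^ 2 := by
    intro v
    have h1 := J2.of_contDiffAt (v := v) hF2
    have h2 := jet_log hT hX hY hp hε hΦ v
    exact ⟨(h1.unique h2).2.1, (h1.unique h2).2.2⟩
  -- radial direction
  have hrad : fderiv ℝ F X X = 0 ∧ fderiv ℝ (fderiv ℝ F) X X X = 0 := by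
    have h1 := J2.of_contDiffAt (v := X) hF2
    have h2 : (fun t : ℝ => F (X + t • X)) =ᶠ[𝓝 0] fun _ => F X := by
      filter_upwards [lt_mem_nhds (show (-1 : ℝ) < 0 by norm_num)] with t ht
      have ht' : 0 < 1 + t := by linarith
      have e1 : X + t • X = (1 + t) • X := by module
      have e2 : Rf X Y ((1 + t) • X) = (1 + t) • Rf X Y X := by
        rw [Rf, Rf, inner_smul_right]; module
      rw [e1]
      simp only [hF, FF, ff, nn, dd, qf]
      rw [e2, pp_smul hT _ ht', pp_smul hT _ ht', gradient_smul_of_hom hT.hom _ ht']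
    have h3 := h1.unique ((J2.const (F X)).congr h2)
    exact ⟨h3.2.1, h3.2.2⟩
  -- normal direction
  have hnor : fderiv ℝ (fderiv ℝ F) X (gradient φ X) (gradient φ X) ≤ 0 := by
    have h1 := J2.of_contDiffAt (v := gradient φ X) hF2
    have hlm : IsLocalMax (fun t : ℝ => F (X + t • gradient φ X)) 0 := by
      have m1 : ∀ᶠ t in 𝓝 (0 : ℝ), (X + t • gradient φ X, X, Y) ∈ Om φ b lam := by
        have hc : Continuous (fun t : ℝ => (X + t • gradient φ X, X, Y)) := by fun_prop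
        have := hc.tendsto 0
        simp only [zero_smul, add_zero] at this
        exact this.eventually_mem ((isOpen_Om hT).mem_nhds hOm)
      have m2 : ∀ᶠ t in 𝓝 (0 : ℝ), |t| < b := by
        have : Tendsto (fun t : ℝ => |t|) (𝓝 0) (𝓝 |0|) := continuous_abs.tendsto 0
        rw [abs_zero] at this
        exact this.eventually (gt_mem_nhds hT.hb)
      filter_upwards [m1, m2] with t ht1 ht2
      have h4 := ff_le hT hG ht1
      simp only at h4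
      rw [(pp_normal hT nX hX ht2).2.1] at h4
      simp only [hF, zero_smul, add_zero, FF]
      rw [hffX, ← hGX]
      exact Real.log_le_log ht1.2.2.2.2 h4
    exact (h1.localMax hlm).2
  rw [tangential_sum e _ nX hνn hXν, hrad.2]
  have h5 : fderiv ℝ F X (-(m • X)) = 0 := by
    rw [map_neg, map_smul, hrad.1, smul_zero, neg_zero]
  rw [h5]
  have h6 := sum_log_ge hT hX hY hp e hm hmin hε0 hk hk0 hq hh
  have h7 : ∑ i, fderiv ℝ (fderiv ℝ F) X (e i) (e i)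
      = ∑ i, (f2 φ X Y d n ε (e i) / (n / d + 2 * ε)
          - (f1 φ X Y d n ε (e i) / (n / d + 2 * ε)) ^ 2) :=
    Finset.sum_congr rfl fun i _ => (hjet (e i)).2
  rw [h7]
  linarith

end Crest.Agent.R246.NcLoc112
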